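import Crest.Agent.R1.Mass

/-!
# R1 / MassDc: nearly dead children of odd sets (proof of `mass_dead`)
-/

set_option autoImplicit false

namespace Crest.Agent.R1

open Finset
open scoped Classical

variable {σ : ℕ → ℕ} {μ : ℕ → ℝ} {U : Finset ℕ} {j top : ℕ}

theorem mdc_block (h : BS σ μ U j top) {i : ℕ} (hi : j ≤ i) :
    ∑ b ∈ U.filter (fun b => σ b = i), μ b ≤ 2 / (i : ℝ) := by
  refine (h.block i hi).trans ?_
  have h1 : (1000 : ℝ) ≤ i := by exact_mod_cast h.big.trans hi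
  have h2 : (3 : ℝ) / (i : ℝ) ^ 2 ≤ 1 / i := by
    rw [div_le_div_iff₀ (by positivity) (by positivity)]
    nlinarith
  have h3 : (2 : ℝ) / i = 1 / i + 1 / i := by ring
  linarith

theorem mdc_size (h : BS σ μ U j top) (g : ℕ → ℝ) (hg : ∀ i, 0 ≤ g i) :
    ∑ q ∈ U, μ q * g (σ q) ≤ ∑ i ∈ Icc j top, 2 / (i : ℝ) * g i := by
  rw [← sum_fiberwise_of_maps_to (t := Icc j top) (g := σ) fun q hq => mem_Icc.2 (h.range q hq)]
  refine sum_le_sum fun i hi => ?_
  rw [sum_congr rfl (g := fun q => μ q * g i) fun q hq => by rw [(mem_filter.1 hq).2], ← sum_mul]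
  exact mul_le_mul_of_nonneg_right (mdc_block h (mem_Icc.1 hi).1) (hg i)

theorem mdc_geo {θ : ℝ} (hθ : 1 ≤ θ) (n : ℕ) :
    ∑ t ∈ range n, Real.exp (-(t : ℝ) / (2 * θ)) ≤ 3 * θ := by
  have h0 : 0 < θ := by linarith
  set x := Real.exp (-(1 / (2 * θ))) with hx
  have hx0 : 0 ≤ x := (Real.exp_pos _).le
  have hx1 : x * (1 / (2 * θ) + 1) ≤ 1 := by
    calc x * (1 / (2 * θ) + 1) ≤ x * Real.exp (1 / (2 * θ)) :=
          mul_le_mul_of_nonneg_left (Real.add_one_le_exp _) hx0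
      _ = 1 := by rw [hx, ← Real.exp_add]; simp
  have hx2 : x * (1 + 2 * θ) ≤ 2 * θ := by
    have := mul_le_mul_of_nonneg_right hx1 (show 0 ≤ 2 * θ by positivity)
    have e : x * (1 / (2 * θ) + 1) * (2 * θ) = x * (1 + 2 * θ) := by field_simp
    linarith
  have e : ∀ t : ℕ, Real.exp (-(t : ℝ) / (2 * θ)) = x ^ t := fun t => by
    rw [hx, ← Real.exp_nat_mul]; congr 1; ring
  simp only [e]
  have key : ∀ n : ℕ, ∑ t ∈ range n, x ^ t ≤ 1 + 2 * θ := fun n => by
    induction n with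
    | zero => simp; positivity
    | succ n ih =>
      rw [geom_sum_succ]
      nlinarith [mul_le_mul_of_nonneg_left ih hx0]
  linarith [key n]

theorem mdc_pt {θ a t : ℝ} (hθ : 1 ≤ θ) (ha : 0 ≤ a) (ht : 0 ≤ t) :
    Real.exp (-t / θ) ≤ Real.exp (-t / (2 * θ)) ∧
    (a + t + 1) * Real.exp (-t / θ) ≤ 4 * (a + θ) * Real.exp (-t / (2 * θ)) ∧
    (a + t) ^ 2 * Real.exp (-t / θ) ≤ 16 * (a + θ) ^ 2 * Real.exp (-t / (2 * θ)) := by
  have h0 : 0 < θ := by linarith
  set y := Real.exp (t / (4 * θ)) with hy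
  have hy1 : 1 ≤ y := Real.one_le_exp (by positivity)
  have e : Real.exp (-t / (2 * θ)) = y ^ 2 * Real.exp (-t / θ) := by
    rw [hy, ← Real.exp_nat_mul, ← Real.exp_add]; congr 1; push_cast; field_simp; ring
  have h1 : a + t + 1 ≤ 4 * (a + θ) * y := by
    have h2 : t / (4 * θ) + 1 ≤ y := Real.add_one_le_exp _
    have h3 : 4 * θ * (t / (4 * θ) + 1) = t + 4 * θ := by field_simp
    nlinarith [mul_le_mul_of_nonneg_left h2 (show 0 ≤ 4 * θ by positivity)]
  have hE := (Real.exp_pos (-t / θ)).le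
  rw [e]
  refine ⟨le_mul_of_one_le_left hE (one_le_pow₀ hy1), ?_, ?_⟩
  · rw [← mul_assoc]
    refine mul_le_mul_of_nonneg_right (h1.trans ?_) hE
    exact mul_le_mul_of_nonneg_left (by nlinarith) (by positivity)
  · rw [← mul_assoc]
    refine mul_le_mul_of_nonneg_right ?_ hE
    calc (a + t) ^ 2 ≤ (4 * (a + θ) * y) ^ 2 := pow_le_pow_left₀ (by positivity) (by linarith) 2
      _ = _ := by ring

theorem mdc_inv_sq {j : ℕ} (hj : 2 ≤ j) (n : ℕ) :
    ∑ i ∈ Icc j n, 1 / (i : ℝ) ^ 2 ≤ 2 / (j : ℝ) := by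
  have hj' : (2 : ℝ) ≤ j := by exact_mod_cast hj
  have key : ∀ n : ℕ, j - 1 ≤ n → ∑ i ∈ Icc j n, 1 / (i : ℝ) ^ 2 ≤ 1 / ((j : ℝ) - 1) - 1 / n := by
    intro n hn
    induction n, hn using Nat.le_induction with
    | base =>
      rw [Icc_eq_empty (by omega), sum_empty, Nat.cast_sub (by omega)]
      simp
    | succ n hn ih =>
      rw [sum_Icc_succ_top (by omega)]
      have h1 : (1 : ℝ) ≤ n := by exact_mod_cast (show 1 ≤ n by omega)
      have h2 : 1 / ((n : ℝ) + 1) ^ 2 ≤ 1 / n - 1 / (n + 1) := by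
        rw [div_sub_div _ _ (by positivity) (by positivity), div_le_div_iff₀ (by positivity)
          (by positivity)]
        nlinarith
      push_cast
      linarith
  by_cases hn : j - 1 ≤ n
  · refine (key n hn).trans ?_
    have h1 : 1 / ((j : ℝ) - 1) ≤ 2 / j := by
      rw [div_le_div_iff₀ (by linarith) (by linarith)]
      linarith
    have h2 : (0 : ℝ) ≤ 1 / n := by positivity
    linarith
  · rw [Icc_eq_empty (by omega), sum_empty]
    positivity

theorem mdc_inv {j : ℕ} (hj : 2 ≤ j) {n : ℕ} (hn : 1 ≤ n) :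
    ∑ i ∈ Icc j n, 1 / (i : ℝ) ≤ Real.log n := by
  induction n, hn using Nat.le_induction with
  | base => rw [Icc_eq_empty (by omega), sum_empty]; simp
  | succ n hn ih =>
    have h1 : (1 : ℝ) ≤ n := by exact_mod_cast hn
    have h2 : 1 / ((n : ℝ) + 1) ≤ Real.log (n + 1) - Real.log n := by
      have h3 := Real.log_le_sub_one_of_pos (show 0 < (n : ℝ) / (n + 1) by positivity)
      rw [Real.log_div (by positivity) (by positivity)] at h3
      have h4 : (n : ℝ) / (n + 1) - 1 = -(1 / (n + 1)) := by field_simp; ring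
      linarith
    have h5 : (0 : ℝ) ≤ 1 / ((n : ℝ) + 1) := by positivity
    by_cases hjn : j ≤ n + 1
    · rw [sum_Icc_succ_top hjn]
      push_cast
      linarith
    · rw [Icc_eq_empty (by omega), sum_empty]
      exact Real.log_natCast_nonneg _

/-- mass of the singletons with a given remaining level -/
noncomputable def mdcM1 (σ : ℕ → ℕ) (μ : ℕ → ℝ) (U : Finset ℕ) (R₀ R : ℤ) : ℝ :=
  ∑ p ∈ U.filter (fun p => R₀ - σ p = R), μ p

theorem mdc_wt_nonneg (h : BS σ μ U j top) (τ : Finset ℕ) : 0 ≤ wt μ τ :=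
  prod_nonneg fun p _ => h.nonneg p

theorem mdc_fiber (h : BS σ μ U j top) {R₀ : ℤ} (q : ℕ) (R : ℤ) (T : Finset (Finset ℕ))
    (hT : ∀ ν ∈ T, ν ∈ nodes σ R₀ 0 U ∧ Odd ν.card ∧ (∀ p ∈ ν, q < p) ∧ R₀ - tot σ ν = R) :
    ∑ ν ∈ T, wt μ ν ≤ mass σ μ R₀ 0 (U.filter fun p => σ q ≤ σ p)
      (fun τ => 2 ≤ τ.card ∧ Odd τ.card ∧ R₀ - tot σ τ = R) + mdcM1 σ μ U R₀ R := by
  rw [← sum_filter_add_sum_filter_not T (fun ν => 2 ≤ ν.card)]
  refine add_le_add (sum_le_sum_of_subset_of_nonneg (fun ν hν => ?_)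
    fun τ _ _ => mdc_wt_nonneg h τ) ?_
  · obtain ⟨h1, h2⟩ := mem_filter.1 hν
    obtain ⟨h3, h4, h5, h6⟩ := hT ν h1
    obtain ⟨h7, h8⟩ := mem_filter.1 h3
    simp only [mem_filter]
    refine ⟨mem_filter.2 ⟨mem_powerset.2 fun p hp => ?_, h8⟩, h2, h4, h6⟩
    exact mem_filter.2 ⟨mem_powerset.1 h7 hp, h.mono (h5 p hp).le⟩
  · have e : mdcM1 σ μ U R₀ R =
        ∑ ν ∈ (U.filter (fun p => R₀ - σ p = R)).image (fun p => ({p} : Finset ℕ)), wt μ ν := by
      rw [sum_image fun a _ b _ hab => singleton_injective hab]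
      simp only [wt, prod_singleton, mdcM1]
    rw [e]
    refine sum_le_sum_of_subset_of_nonneg (fun ν hν => ?_) fun τ _ _ => mdc_wt_nonneg h τ
    obtain ⟨h1, h2⟩ := mem_filter.1 hν
    obtain ⟨h3, h4, h5, h6⟩ := hT ν h1
    have h7 : ν.card = 1 := by
      obtain ⟨k, hk⟩ := h4
      omega
    obtain ⟨p, rfl⟩ := card_eq_one.1 h7
    refine mem_image.2 ⟨p, mem_filter.2 ⟨?_, by simpa [tot] using h6⟩, rfl⟩
    exact mem_powerset.1 (mem_filter.1 h3).1 (mem_singleton_self p)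

theorem mdc_single (h : BS σ μ U j top) {R₀ : ℤ} (lo : 2 * (top : ℤ) ≤ R₀) {a' : ℕ} {θ : ℝ}
    (hθ : 1 ≤ θ) (hs : (top : ℝ) ^ 4 * Real.exp (-((top : ℝ) / 2 - a') / θ) ≤ 1) {i : ℕ}
    (hi : i ∈ Icc j top) (t : ℕ) :
    2 / (i : ℝ) * (Real.exp (-(t : ℝ) / θ) * mdcM1 σ μ U R₀ (a' + t + i)) ≤
      16 / (top : ℝ) ^ 2 * (Real.exp (-(t : ℝ) / θ) * if top ≤ i + (a' + t) then 1 else 0) +
        1 / (top : ℝ) ^ 4 := by
  obtain ⟨hi1, hi2⟩ := mem_Icc.1 hi
  have hj := h.big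
  have htop : (0 : ℝ) < top := by exact_mod_cast (show 0 < top by omega)
  have hi0 : (1000 : ℝ) ≤ i := by exact_mod_cast hj.trans hi1
  have hE := Real.exp_pos (-(t : ℝ) / θ)
  have hite : (0 : ℝ) ≤ if top ≤ i + (a' + t) then 1 else 0 := by split_ifs <;> norm_num
  rcases (U.filter (fun p => R₀ - σ p = a' + t + i)).eq_empty_or_nonempty with he | ⟨p, hp⟩
  · rw [mdcM1, he, sum_empty, mul_zero, mul_zero]
    positivity
  obtain ⟨hp1, hp2⟩ := mem_filter.1 hp
  obtain ⟨hp3, hp4⟩ := h.range p hp1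
  have hp0 : (1000 : ℝ) ≤ σ p := by exact_mod_cast hj.trans hp3
  have hM : mdcM1 σ μ U R₀ (a' + t + i) ≤ 2 / (σ p : ℝ) := by
    refine le_trans (le_of_eq ?_) (mdc_block h hp3)
    refine sum_congr (filter_congr fun b _ => ?_) fun _ _ => rfl
    omega
  have hle : 2 / (i : ℝ) * (Real.exp (-(t : ℝ) / θ) * mdcM1 σ μ U R₀ (a' + t + i)) ≤
      4 / (i * σ p) * Real.exp (-(t : ℝ) / θ) := by
    calc _ ≤ 2 / (i : ℝ) * (Real.exp (-(t : ℝ) / θ) * (2 / (σ p : ℝ))) := by gcongr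
      _ = _ := by field_simp; ring
  refine hle.trans ?_
  by_cases hc : 2 * (a' + t) ≤ top
  · rw [if_pos (by omega), mul_one]
    have h1 : (top : ℝ) ≤ 2 * i := by exact_mod_cast (show top ≤ 2 * i by omega)
    have h2 : (top : ℝ) ≤ 2 * σ p := by exact_mod_cast (show top ≤ 2 * σ p by omega)
    have h3 : 4 / ((i : ℝ) * σ p) ≤ 16 / (top : ℝ) ^ 2 := by
      rw [div_le_div_iff₀ (by positivity) (by positivity)]
      nlinarith [mul_le_mul h1 h2 htop.le (by positivity)]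
    have h4 : (0 : ℝ) ≤ 1 / (top : ℝ) ^ 4 := by positivity
    linarith [mul_le_mul_of_nonneg_right h3 hE.le]
  · have h1 : (top : ℝ) ≤ 2 * (a' + t) := by exact_mod_cast (not_le.1 hc).le
    have h2 : Real.exp (-(t : ℝ) / θ) ≤ 1 / (top : ℝ) ^ 4 := by
      rw [le_div_iff₀ (by positivity), mul_comm]
      refine le_trans (mul_le_mul_of_nonneg_left (Real.exp_le_exp.2 ?_) (by positivity)) hs
      exact div_le_div_of_nonneg_right (by linarith) (by linarith)
    have h3 : 4 / ((i : ℝ) * σ p) ≤ 1 := by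
      rw [div_le_one (by positivity)]
      nlinarith
    have h4 : 0 ≤ 16 / (top : ℝ) ^ 2 * (Real.exp (-(t : ℝ) / θ) *
      if top ≤ i + (a' + t) then 1 else 0) := by positivity
    linarith [mul_le_mul_of_nonneg_right h3 hE.le]

theorem mdc_partB (h : BS σ μ U j top) {R₀ : ℤ} (lo : 2 * (top : ℤ) ≤ R₀) {a' : ℕ} {θ : ℝ}
    (hθ : 1 ≤ θ) (hs : (top : ℝ) ^ 4 * Real.exp (-((top : ℝ) / 2 - a') / θ) ≤ 1) :
    ∑ i ∈ Icc j top, ∑ t ∈ range (2 * i),
      2 / (i : ℝ) * (Real.exp (-(t : ℝ) / θ) * mdcM1 σ μ U R₀ (a' + t + i)) ≤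
      194 * θ * (a' + θ) / (top : ℝ) ^ 2 := by
  have hj := h.big
  have hjt := h.j_le
  have htop : (0 : ℝ) < top := by exact_mod_cast (show 0 < top by omega)
  have ha : (0 : ℝ) ≤ a' := Nat.cast_nonneg _
  have hM : ∀ R, 0 ≤ mdcM1 σ μ U R₀ R := fun R => sum_nonneg fun p _ => h.nonneg p
  have h1 : ∀ t : ℕ, ∑ i ∈ Icc j top, (if top ≤ i + (a' + t) then (1 : ℝ) else 0) ≤ a' + t + 1 := by
    intro t
    rw [sum_boole]
    have : ((Icc j top).filter fun i => top ≤ i + (a' + t)).card ≤ a' + t + 1 := by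
      refine (card_le_card (t := Icc (top - (a' + t)) top) fun i hi => ?_).trans ?_
      · simp only [mem_filter, mem_Icc] at hi ⊢
        omega
      · rw [Nat.card_Icc]
        omega
    exact_mod_cast this
  have h2 : ((Icc j top).card : ℝ) ≤ top := by
    rw [Nat.card_Icc]
    exact_mod_cast (show top + 1 - j ≤ top by omega)
  calc _ ≤ ∑ i ∈ Icc j top, ∑ t ∈ range (2 * top), (16 / (top : ℝ) ^ 2 *
        (Real.exp (-(t : ℝ) / θ) * if top ≤ i + (a' + t) then 1 else 0) + 1 / (top : ℝ) ^ 4) := by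
        refine sum_le_sum fun i hi => le_trans (sum_le_sum_of_subset_of_nonneg
          (range_subset_range.2 (Nat.mul_le_mul_left 2 (mem_Icc.1 hi).2)) fun t _ _ => ?_)
          (sum_le_sum fun t _ => mdc_single h lo hθ hs hi t)
        have := hM (a' + t + i)
        positivity
    _ = 16 / (top : ℝ) ^ 2 * ∑ t ∈ range (2 * top), Real.exp (-(t : ℝ) / θ) *
          ∑ i ∈ Icc j top, (if top ≤ i + (a' + t) then (1 : ℝ) else 0) +
        (Icc j top).card * (2 * top * (1 / (top : ℝ) ^ 4)) := by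
        simp only [sum_add_distrib, sum_const, card_range, nsmul_eq_mul, mul_sum]
        rw [sum_comm]
        push_cast
        rfl
    _ ≤ 16 / (top : ℝ) ^ 2 * (4 * (a' + θ) * (3 * θ)) + top * (2 * top * (1 / (top : ℝ) ^ 4)) := by
        refine add_le_add (mul_le_mul_of_nonneg_left ?_ (by positivity))
          (mul_le_mul_of_nonneg_right h2 (by positivity))
        refine le_trans (sum_le_sum fun t _ => ?_) (le_trans (le_of_eq (mul_sum _ _ _).symm)
          (mul_le_mul_of_nonneg_left (mdc_geo hθ (2 * top)) (by positivity)))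
        refine le_trans ?_ (mdc_pt hθ ha (Nat.cast_nonneg t)).2.1
        rw [mul_comm]
        exact mul_le_mul_of_nonneg_right (h1 t) (Real.exp_pos _).le
    _ = (192 * θ * (a' + θ) + 2) / (top : ℝ) ^ 2 := by field_simp; ring
    _ ≤ _ := by
        refine div_le_div_of_nonneg_right ?_ (by positivity)
        nlinarith

theorem mdc_partA {j top a' : ℕ} (hj : 1000 ≤ j) (hjt : j ≤ top) {θ : ℝ} (hθ : 1 ≤ θ) :
    ∑ i ∈ Icc j top, ∑ t ∈ range (2 * i), 2 / (i : ℝ) * (Real.exp (-(t : ℝ) / θ) *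
      (((a' : ℝ) + t) ^ 2 / i + ((a' : ℝ) + t + i) ^ 2 / (i : ℝ) ^ 2)) ≤
      192 * θ * ((a' + θ) ^ 2 / j + (1 + (a' : ℝ) / j) ^ 2 * Real.log top) := by
  have ha : (0 : ℝ) ≤ a' := Nat.cast_nonneg _
  have hj0 : (0 : ℝ) < j := by exact_mod_cast (show 0 < j by omega)
  have hl : 0 ≤ Real.log top := Real.log_natCast_nonneg _
  calc _ ≤ ∑ i ∈ Icc j top, (96 * θ * (a' + θ) ^ 2 * (1 / (i : ℝ) ^ 2) +
        54 * θ * (1 + (a' : ℝ) / j) ^ 2 * (1 / (i : ℝ))) := by
        refine sum_le_sum fun i hi => ?_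
        have hi1 : (j : ℝ) ≤ i := by exact_mod_cast (mem_Icc.1 hi).1
        have hi0 : (0 : ℝ) < i := by linarith
        calc _ ≤ ∑ t ∈ range (2 * i), 2 / (i : ℝ) * (16 * (a' + θ) ^ 2 / i +
              9 * (1 + (a' : ℝ) / j) ^ 2) * Real.exp (-(t : ℝ) / (2 * θ)) := by
              refine sum_le_sum fun t ht => ?_
              rw [mul_assoc]
              refine mul_le_mul_of_nonneg_left ?_ (by positivity)
              obtain ⟨p1, -, p3⟩ := mdc_pt hθ ha (Nat.cast_nonneg t)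
              have ht' : (t : ℝ) ≤ 2 * i := by exact_mod_cast (mem_range.1 ht).le
              have p4 : ((a' : ℝ) + t + i) ^ 2 / (i : ℝ) ^ 2 ≤ 9 * (1 + (a' : ℝ) / j) ^ 2 := by
                have p5 : ((a' : ℝ) + t + i) / i ≤ 3 * (1 + (a' : ℝ) / j) := by
                  have p6 : (a' : ℝ) / i ≤ a' / j := div_le_div_of_nonneg_left ha hj0 hi1
                  have p7 : ((a' : ℝ) + t + i) / i ≤ a' / i + 3 := by
                    rw [div_add' _ _ _ hi0.ne']
                    exact div_le_div_of_nonneg_right (by linarith) hi0.le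
                  have p8 : 0 ≤ (a' : ℝ) / j := by positivity
                  linarith
                rw [← div_pow]
                calc _ ≤ (3 * (1 + (a' : ℝ) / j)) ^ 2 := pow_le_pow_left₀ (by positivity) p5 2
                  _ = _ := by ring
              rw [mul_add, add_mul]
              refine add_le_add ?_ ?_
              · rw [← mul_div_assoc, mul_comm, div_mul_eq_mul_div]
                exact div_le_div_of_nonneg_right p3 hi0.le
              · rw [mul_comm]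
                exact mul_le_mul p4 p1 (Real.exp_pos _).le (by positivity)
          _ ≤ 2 / (i : ℝ) * (16 * (a' + θ) ^ 2 / i + 9 * (1 + (a' : ℝ) / j) ^ 2) * (3 * θ) := by
              rw [← mul_sum]
              exact mul_le_mul_of_nonneg_left (mdc_geo hθ _) (by positivity)
          _ = _ := by field_simp; ring
    _ ≤ 96 * θ * (a' + θ) ^ 2 * (2 / j) + 54 * θ * (1 + (a' : ℝ) / j) ^ 2 * Real.log top := by
        rw [sum_add_distrib, ← mul_sum, ← mul_sum]
        exact add_le_add (mul_le_mul_of_nonneg_left (mdc_inv_sq (by omega) _) (by positivity))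
          (mul_le_mul_of_nonneg_left (mdc_inv (by omega) (by omega)) (by positivity))
    _ ≤ _ := by
        have h1 : 0 ≤ θ * ((1 + (a' : ℝ) / j) ^ 2 * Real.log top) := by positivity
        have h2 : 96 * θ * (a' + θ) ^ 2 * (2 / j) = 192 * θ * ((a' + θ) ^ 2 / j) := by ring
        nlinarith

theorem mass_dead' : ∃ C : ℝ, 0 < C ∧ ∀ {σ : ℕ → ℕ} {μ : ℕ → ℝ} {U : Finset ℕ} {j top : ℕ} {R₀ : ℤ},
    BS σ μ U j top → 2 * (top : ℤ) ≤ R₀ → R₀ ≤ 4 * (top : ℤ) → ∀ (a' : ℕ) (θ : ℝ), 1 ≤ θ →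
      (top : ℝ) ^ 4 * Real.exp (-((top : ℝ) / 2 - a') / θ) ≤ 1 →
      ∑ ν ∈ (nodes σ R₀ 0 U).filter (fun ν => Odd ν.card),
        ∑ q ∈ U.filter (fun q => (∀ p ∈ ν, q < p) ∧ (a' : ℤ) ≤ R₀ - tot σ ν - σ q ∧
            R₀ - tot σ ν - σ q < a' + 2 * σ q),
          wt μ ν * μ q * Real.exp (-((R₀ - tot σ ν - σ q : ℤ) - (a' : ℝ)) / θ) ≤
        C * θ * ((a' + θ) ^ 2 / j + (1 + (a' : ℝ) / j) ^ 2 * Real.log top + (a' + θ)) / top ^ 2 := by
  obtain ⟨C₀, hC₀, hd⟩ := root_density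
  refine ⟨192 * C₀ + 194, by positivity, ?_⟩
  intro σ μ U j top R₀ h lo hi a' θ hθ hs
  have hM : ∀ R, 0 ≤ mdcM1 σ μ U R₀ R := fun R => sum_nonneg fun p _ => h.nonneg p
  set g : ℕ → ℝ := fun i => ∑ t ∈ range (2 * i), Real.exp (-(t : ℝ) / θ) *
    (C₀ * (((a' : ℝ) + t) ^ 2 / i + ((a' : ℝ) + t + i) ^ 2 / (i : ℝ) ^ 2) / top ^ 2 +
      mdcM1 σ μ U R₀ (a' + t + i)) with hg
  have hg0 : ∀ i, 0 ≤ g i := fun i => sum_nonneg fun t _ => by
    have := hM (a' + t + i)
    positivity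
  have h1 : ∀ q ∈ U, ∑ ν ∈ ((nodes σ R₀ 0 U).filter (fun ν => Odd ν.card)).filter
      (fun ν => (∀ p ∈ ν, q < p) ∧ (a' : ℤ) ≤ R₀ - tot σ ν - σ q ∧
        R₀ - tot σ ν - σ q < a' + 2 * σ q),
      wt μ ν * μ q * Real.exp (-((R₀ - tot σ ν - σ q : ℤ) - (a' : ℝ)) / θ) ≤ μ q * g (σ q) := by
    intro q hq
    obtain ⟨hq1, hq2⟩ := h.range q hq
    rw [← sum_fiberwise_of_maps_to (t := range (2 * σ q))
      (g := fun ν => (R₀ - tot σ ν - σ q - a').toNat) fun ν hν => by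
        have := (mem_filter.1 hν).2
        rw [mem_range]
        omega, hg, mul_sum]
    refine sum_le_sum fun t _ => ?_
    have hb : BS σ μ (U.filter fun p => σ q ≤ σ p) (σ q) top := h.subset (filter_subset _ _) hq1 hq2
      fun b hb => ⟨(mem_filter.1 hb).2, (h.range b (mem_filter.1 hb).1).2⟩
    have h2 := (hd hb lo hi (a' + t + σ q)).2
    push_cast at h2
    rw [add_sub_cancel_right] at h2
    rw [sum_congr rfl (g := fun ν => μ q * (Real.exp (-(t : ℝ) / θ) * wt μ ν)) fun ν hν => ?_,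
      ← mul_sum, ← mul_sum]
    · refine mul_le_mul_of_nonneg_left (mul_le_mul_of_nonneg_left
        ((mdc_fiber h q (a' + t + σ q) _ fun ν hν => ?_).trans (add_le_add h2 le_rfl))
        (Real.exp_pos _).le) (h.nonneg q)
      simp only [mem_filter] at hν
      refine ⟨hν.1.1.1, hν.1.1.2, hν.1.2.1, ?_⟩
      omega
    · simp only [mem_filter] at hν
      have h3 : R₀ - tot σ ν - σ q = a' + t := by omega
      rw [h3]
      push_cast
      rw [add_sub_cancel_left]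
      ring
  have hA := mdc_partA (a' := a') h.big h.j_le hθ
  have hB := mdc_partB h lo hθ hs
  have htop : (0 : ℝ) < top := by
    have := h.big
    have := h.j_le
    exact_mod_cast (show 0 < top by omega)
  calc _ = ∑ q ∈ U, ∑ ν ∈ ((nodes σ R₀ 0 U).filter (fun ν => Odd ν.card)).filter
        (fun ν => (∀ p ∈ ν, q < p) ∧ (a' : ℤ) ≤ R₀ - tot σ ν - σ q ∧
          R₀ - tot σ ν - σ q < a' + 2 * σ q),
        wt μ ν * μ q * Real.exp (-((R₀ - tot σ ν - σ q : ℤ) - (a' : ℝ)) / θ) := by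
        refine sum_comm' fun ν q => ?_
        simp only [mem_filter]
        tauto
    _ ≤ ∑ i ∈ Icc j top, 2 / (i : ℝ) * g i := (sum_le_sum h1).trans (mdc_size h g hg0)
    _ = C₀ / top ^ 2 * ∑ i ∈ Icc j top, ∑ t ∈ range (2 * i), 2 / (i : ℝ) *
          (Real.exp (-(t : ℝ) / θ) *
            (((a' : ℝ) + t) ^ 2 / i + ((a' : ℝ) + t + i) ^ 2 / (i : ℝ) ^ 2)) +
        ∑ i ∈ Icc j top, ∑ t ∈ range (2 * i),
          2 / (i : ℝ) * (Real.exp (-(t : ℝ) / θ) * mdcM1 σ μ U R₀ (a' + t + i)) := by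
        simp only [hg, mul_sum, ← sum_add_distrib]
        exact sum_congr rfl fun i _ => sum_congr rfl fun t _ => by ring
    _ ≤ C₀ / top ^ 2 * (192 * θ * ((a' + θ) ^ 2 / j + (1 + (a' : ℝ) / j) ^ 2 * Real.log top)) +
        194 * θ * (a' + θ) / (top : ℝ) ^ 2 :=
      add_le_add (mul_le_mul_of_nonneg_left hA (by positivity)) hB
    _ ≤ _ := by
        have hl : 0 ≤ Real.log top := Real.log_natCast_nonneg _
        have k1 : 0 ≤ (a' + θ) ^ 2 / j + (1 + (a' : ℝ) / j) ^ 2 * Real.log top := by positivity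
        have k2 : 0 ≤ (a' : ℝ) + θ := by positivity
        generalize (a' + θ) ^ 2 / j + (1 + (a' : ℝ) / j) ^ 2 * Real.log top = A at *
        generalize (a' : ℝ) + θ = B at *
        rw [div_mul_eq_mul_div, ← add_div]
        refine div_le_div_of_nonneg_right ?_ (by positivity)
        have k3 : 0 ≤ θ * A := by positivity
        have k4 : 0 ≤ C₀ * (θ * B) := by positivity
        nlinarith

end Crest.Agent.R1
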