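import Crest.Agent.R1.Mass
import Crest.Agent.R1.MassDc

/-!
# R1 / MassD: consequences of the mass bounds for the tree from the root
-/

set_option autoImplicit false

namespace Crest.Agent.R1

open Finset
open scoped Classical

/-- the standing assumptions for the tree from the root -/
structure Root (σ : ℕ → ℕ) (μ : ℕ → ℝ) (U : Finset ℕ) (j top : ℕ) (R₀ : ℤ) : Prop
    extends BS σ μ U j top where
  lo : 2 * (top : ℤ) ≤ R₀
  hi : R₀ ≤ 4 * (top : ℤ)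

section MassDa

variable {σ : ℕ → ℕ} {μ : ℕ → ℝ} {U : Finset ℕ} {j top : ℕ} {R₀ : ℤ}

theorem MassDa_mem {R : ℤ} {e : ℕ} {τ : Finset ℕ} :
    τ ∈ nodes σ R e U ↔ τ ⊆ U ∧ Alive σ R e τ := by
  simp [nodes]

theorem MassDa_mf {p : Finset ℕ → Prop} {inst : DecidablePred p} {s : Finset (Finset ℕ)}
    {τ : Finset ℕ} : τ ∈ @Finset.filter _ p inst s ↔ τ ∈ s ∧ p τ := Finset.mem_filter

theorem MassDa_sum_le {s t : Finset (Finset ℕ)} {f g : Finset ℕ → ℝ}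
    (hs : ∀ τ ∈ s, τ ∈ t ∧ f τ ≤ g τ) (hg : ∀ τ ∈ t, 0 ≤ g τ) : ∑ τ ∈ s, f τ ≤ ∑ τ ∈ t, g τ :=
  (Finset.sum_le_sum fun τ hτ => (hs τ hτ).2).trans
    (Finset.sum_le_sum_of_subset_of_nonneg (fun τ hτ => (hs τ hτ).1) fun τ hτ _ => hg τ hτ)

theorem MassDa_wt_nonneg (hμ : ∀ b, 0 ≤ μ b) (τ : Finset ℕ) : 0 ≤ wt μ τ :=
  Finset.prod_nonneg fun p _ => hμ p

theorem MassDa_mass_nonneg (hμ : ∀ b, 0 ≤ μ b) (R : ℤ) (e : ℕ) (U : Finset ℕ)
    (Φ : Finset ℕ → Prop) : 0 ≤ mass σ μ R e U Φ :=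
  Finset.sum_nonneg fun τ _ => MassDa_wt_nonneg hμ τ

theorem MassDa_mass_mono (hμ : ∀ b, 0 ≤ μ b) {R : ℤ} {e : ℕ} {Φ Ψ : Finset ℕ → Prop}
    (h : ∀ τ ∈ nodes σ R e U, Φ τ → Ψ τ) : mass σ μ R e U Φ ≤ mass σ μ R e U Ψ :=
  Finset.sum_le_sum_of_subset_of_nonneg
    (fun τ hτ => Finset.mem_filter.2 ⟨(Finset.mem_filter.1 hτ).1,
      h τ (Finset.mem_filter.1 hτ).1 (Finset.mem_filter.1 hτ).2⟩)
    fun τ _ _ => MassDa_wt_nonneg hμ τ

theorem MassDa_start (h : Root σ μ U j top R₀) : Start R₀ 0 top :=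
  ⟨fun _ => h.lo, by have := h.lo; omega⟩

theorem MassDa_rem (h : Root σ μ U j top R₀) {τ : Finset ℕ} (hτ : τ ∈ nodes σ R₀ 0 U) :
    (j : ℤ) ≤ R₀ - tot σ τ := by
  obtain ⟨h1, h2⟩ := MassDa_mem.1 hτ
  exact (Alive.start h.mono (MassDa_start h) (fun p hp => (h.range p (h1 hp)).2) h2 h.j_le
    fun p hp => (h.range p (h1 hp)).1).2

theorem MassDa_tot_nonneg (σ : ℕ → ℕ) (τ : Finset ℕ) : 0 ≤ tot σ τ :=
  Finset.sum_nonneg fun _ _ => Int.natCast_nonneg _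

theorem MassDa_small (h : Root σ μ U j top R₀) {τ : Finset ℕ} (hτ : τ ⊆ U) (hc : ¬ 2 ≤ τ.card) :
    (top : ℤ) ≤ R₀ - tot σ τ := by
  have h1 : tot σ τ ≤ τ.card • (top : ℤ) :=
    Finset.sum_le_card_nsmul _ _ _ fun p hp => Int.ofNat_le.2 (h.range p (hτ hp)).2
  have h2 : τ.card • (top : ℤ) ≤ 1 • (top : ℤ) :=
    nsmul_le_nsmul_left (Int.natCast_nonneg _) (by omega)
  have := h.lo
  simp only [one_smul] at h2
  omega

theorem MassDa_hi (h : Root σ μ U j top R₀) {i : ℕ} (hj : j ≤ i) (hi : i ≤ top) :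
    Root σ μ (U.filter fun p => i ≤ σ p) i top R₀ :=
  { h.toBS.subset (Finset.filter_subset _ _) hj hi (fun b hb =>
      ⟨(Finset.mem_filter.1 hb).2, (h.range b (Finset.mem_filter.1 hb).1).2⟩) with
    lo := h.lo, hi := h.hi }

/-- summation over the fibres of the remaining level -/
theorem MassDa_fiber (hμ : ∀ b, 0 ≤ μ b) {K : ℝ}
    (hK : ∀ R : ℤ, mass σ μ R₀ 0 U (fun τ => 2 ≤ τ.card ∧ R₀ - tot σ τ = R) ≤ K * R ^ 2)
    {Φ : Finset ℕ → Prop} {R₁ n : ℕ} {F : ℤ → ℝ} (hF : ∀ R, 0 ≤ F R)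
    (hΦ : ∀ τ ∈ nodes σ R₀ 0 U, Φ τ → 2 ≤ τ.card ∧ (R₁ : ℤ) ≤ R₀ - tot σ τ ∧
      R₀ - tot σ τ < R₁ + n) :
    ∑ τ ∈ (nodes σ R₀ 0 U).filter Φ, wt μ τ * F (R₀ - tot σ τ) ≤
      ∑ k ∈ range n, K * ((R₁ : ℝ) + k) ^ 2 * F (R₁ + k) := by
  rw [← Finset.sum_fiberwise_of_maps_to (g := fun τ => (R₀ - tot σ τ - R₁).toNat) (t := range n)
    (fun τ hτ => by
      have := hΦ τ (Finset.mem_filter.1 hτ).1 (Finset.mem_filter.1 hτ).2
      rw [Finset.mem_range]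
      omega)]
  refine Finset.sum_le_sum fun k _ => ?_
  have h1 := mul_le_mul_of_nonneg_right (hK (R₁ + k)) (hF (R₁ + k))
  push_cast at h1
  refine le_trans ?_ h1
  rw [mass, Finset.sum_mul]
  have hsub : ∀ τ ∈ ((nodes σ R₀ 0 U).filter Φ).filter
      (fun τ => (R₀ - tot σ τ - R₁).toNat = k), τ ∈ nodes σ R₀ 0 U ∧ 2 ≤ τ.card ∧
        R₀ - tot σ τ = R₁ + k := by
    intro τ hτ
    obtain ⟨h2, h3⟩ := Finset.mem_filter.1 hτ
    obtain ⟨h4, h5⟩ := Finset.mem_filter.1 h2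
    have := hΦ τ h4 h5
    exact ⟨h4, this.1, by omega⟩
  rw [Finset.sum_congr rfl fun τ hτ => by rw [(hsub τ hτ).2.2]]
  exact Finset.sum_le_sum_of_subset_of_nonneg (fun τ hτ => MassDa_mf.2 (hsub τ hτ))
    fun τ _ _ => mul_nonneg (MassDa_wt_nonneg hμ τ) (hF _)

theorem MassDa_geom {θ : ℝ} (hθ : 1 ≤ θ) (R₁ n : ℕ) :
    ∑ k ∈ range n, ((R₁ : ℝ) + k) ^ 2 * Real.exp (-(k : ℝ) / θ) ≤ 48 * ((R₁ + θ) ^ 2 * θ) := by
  have hθ0 : 0 < θ := by linarith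
  set q := Real.exp (-(1 / (2 * θ))) with hq
  have hq0 : 0 ≤ q := (Real.exp_pos _).le
  have hq1 : q * (1 + 1 / (2 * θ)) ≤ 1 := by
    rw [hq, Real.exp_neg, inv_mul_le_iff₀ (Real.exp_pos _), mul_one, add_comm]
    exact Real.add_one_le_exp _
  have hq2 : q < 1 := Real.exp_lt_one_iff.2 (neg_lt_zero.2 (by positivity))
  have hq3 : (1 - q)⁻¹ ≤ 3 * θ := by
    rw [inv_le_comm₀ (by linarith) (by positivity), inv_eq_one_div, div_le_iff₀ (by positivity)]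
    have h1 : q * (2 * θ + 1) ≤ 2 * θ := by
      have := mul_le_mul_of_nonneg_right hq1 (show 0 ≤ 2 * θ by positivity)
      rwa [mul_assoc, add_mul, one_mul, one_div_mul_cancel (by positivity)] at this
    nlinarith
  have h1 : ∀ k : ℕ, ((R₁ : ℝ) + k) ^ 2 * Real.exp (-(k : ℝ) / θ) ≤ 16 * (R₁ + θ) ^ 2 * q ^ k := by
    intro k
    have hk : (0 : ℝ) ≤ k := Nat.cast_nonneg k
    have hR : (0 : ℝ) ≤ R₁ := Nat.cast_nonneg R₁
    have h2 : (R₁ : ℝ) + k ≤ (R₁ + θ) * (4 * Real.exp (k / θ / 4)) := by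
      have h3 := Real.add_one_le_exp (k / θ / 4)
      have h4 : (0 : ℝ) ≤ k / θ := by positivity
      have h5 : θ * (k / θ) = k := by field_simp
      have h6 : (R₁ + θ) * (1 + k / θ) ≤ (R₁ + θ) * (4 * Real.exp (k / θ / 4)) :=
        mul_le_mul_of_nonneg_left (by linarith) (by linarith)
      nlinarith
    calc ((R₁ : ℝ) + k) ^ 2 * Real.exp (-(k : ℝ) / θ)
        ≤ ((R₁ + θ) * (4 * Real.exp (k / θ / 4))) ^ 2 * Real.exp (-(k : ℝ) / θ) := by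
          gcongr
      _ = 16 * (R₁ + θ) ^ 2 * (Real.exp (k / θ / 4) ^ 2 * Real.exp (-(k : ℝ) / θ)) := by ring
      _ = _ := by
          rw [hq, ← Real.exp_nat_mul, ← Real.exp_nat_mul, ← Real.exp_add]
          congr 2
          push_cast
          field_simp
          ring
  calc _ ≤ ∑ k ∈ range n, 16 * (R₁ + θ) ^ 2 * q ^ k := Finset.sum_le_sum fun k _ => h1 k
    _ ≤ 16 * (R₁ + θ) ^ 2 * (3 * θ) := by
        rw [← Finset.mul_sum]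
        refine mul_le_mul_of_nonneg_left (le_trans ?_ hq3) (by positivity)
        rw [← tsum_geometric_of_lt_one hq0 hq2]
        exact (summable_geometric_of_lt_one hq0 hq2).sum_le_tsum _ fun _ _ => pow_nonneg hq0 _
    _ = _ := by ring

theorem MassDa_cut (h : Root σ μ U j top R₀) (i : ℕ) :
    (∀ p ∈ U.filter fun p => i ≤ σ p, ∀ q ∈ U \ U.filter fun p => i ≤ σ p, q < p) ∧
      (∀ p ∈ U.filter fun p => i ≤ σ p, i ≤ σ p) ∧
      ∀ q ∈ U \ U.filter fun p => i ≤ σ p, σ q ≤ i := by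
  have h1 : ∀ q ∈ U \ U.filter fun p => i ≤ σ p, σ q < i := fun q hq => by
    obtain ⟨h2, h3⟩ := Finset.mem_sdiff.1 hq
    exact not_le.1 fun h4 => h3 (Finset.mem_filter.2 ⟨h2, h4⟩)
  exact ⟨fun p hp q hq => h.mono.reflect_lt ((h1 q hq).trans_le (Finset.mem_filter.1 hp).2),
    fun p hp => (Finset.mem_filter.1 hp).2, fun q hq => (h1 q hq).le⟩

theorem MassDa_inter {τ : Finset ℕ} (hτ : τ ⊆ U) (i : ℕ) :
    τ ∩ (U.filter fun p => i ≤ σ p) = τ.filter fun p => i ≤ σ p := by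
  ext p
  simp only [Finset.mem_inter, Finset.mem_filter]
  exact ⟨fun h => ⟨h.1, h.2.2⟩, fun h => ⟨h.1, hτ h.1, h.2⟩⟩

theorem MassDa_top {i R₁ : ℕ} (hi : 0 < i) (hR : 2 * R₁ ≤ top)
    (h : (top : ℝ) ^ 4 * Real.exp (-(top : ℝ) / (2 * i)) ≤ 1) :
    (top : ℝ) ^ 4 * Real.exp (-((top : ℝ) - R₁) / i) ≤ 1 := by
  refine le_trans (mul_le_mul_of_nonneg_left (Real.exp_le_exp.2 ?_) (by positivity)) h
  have h1 : (2 * R₁ : ℝ) ≤ top := by exact_mod_cast hR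
  have h2 : (0 : ℝ) < i := by exact_mod_cast hi
  rw [div_le_div_iff₀ h2 (by positivity)]
  nlinarith

theorem MassDa_shift (x : ℤ) (R₁ i : ℝ) :
    Real.exp (-(x : ℝ) / i) = Real.exp (-(R₁ / i)) * Real.exp (-(x - R₁) / i) := by
  rw [← Real.exp_add]
  congr 1
  ring

end MassDa

/-- cumulative mass (sets with at most one element have remaining level `≥ top`) -/
theorem mass_cum : ∃ C : ℝ, 0 < C ∧ ∀ {σ : ℕ → ℕ} {μ : ℕ → ℝ} {U : Finset ℕ} {j top : ℕ} {R₀ : ℤ},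
    Root σ μ U j top R₀ → ∀ r : ℕ, r < top →
      mass σ μ R₀ 0 U (fun τ => R₀ - tot σ τ ≤ r) ≤ C * r ^ 3 / (j * top ^ 2) := by
  obtain ⟨C, hC, h⟩ := root_density
  refine ⟨C, hC, fun {σ μ U j top R₀} hR r hr => ?_⟩
  have hj : (0 : ℝ) < j := by have := hR.big; exact_mod_cast (by omega : 0 < j)
  have ht : (0 : ℝ) < top := by exact_mod_cast (by omega : 0 < top)
  have h1 := MassDa_fiber (σ := σ) (U := U) (R₀ := R₀) hR.nonneg (K := C / (j * top ^ 2))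
    (fun R => ((h hR.toBS hR.lo hR.hi R).1).trans_eq (by ring))
    (Φ := fun τ => R₀ - tot σ τ ≤ r) (R₁ := 1) (n := r) (F := fun _ => 1) (fun _ => zero_le_one)
    (fun τ hτ h2 => by
      have h3 := MassDa_rem hR hτ
      have h4 := hR.big
      refine ⟨by_contra fun h5 => ?_, by omega, by omega⟩
      have := MassDa_small hR (MassDa_mem.1 hτ).1 h5
      omega)
  simp only [mul_one] at h1
  refine h1.trans ((Finset.sum_le_card_nsmul _ _ (C / (j * top ^ 2) * r ^ 2) fun k hk => ?_).trans_eq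
    ?_)
  · have : ((1 : ℕ) : ℝ) + k ≤ r := by
      have := Finset.mem_range.1 hk
      exact_mod_cast (by omega : 1 + k ≤ r)
    gcongr
  · rw [Finset.card_range, nsmul_eq_mul]
    ring

/-- exponentially weighted mass -/
theorem mass_exp : ∃ C : ℝ, 0 < C ∧ ∀ {σ : ℕ → ℕ} {μ : ℕ → ℝ} {U : Finset ℕ} {j top : ℕ} {R₀ : ℤ},
    Root σ μ U j top R₀ → ∀ (R₁ : ℕ) (θ : ℝ), 1 ≤ θ →
      (top : ℝ) ^ 4 * Real.exp (-((top : ℝ) - R₁) / θ) ≤ 1 →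
      ∑ τ ∈ (nodes σ R₀ 0 U).filter (fun τ => (R₁ : ℤ) ≤ R₀ - tot σ τ),
        wt μ τ * Real.exp (-((R₀ - tot σ τ : ℤ) - (R₁ : ℝ)) / θ) ≤
          C * (R₁ + θ) ^ 2 * θ / (j * top ^ 2) := by
  obtain ⟨C, hC, h⟩ := root_density
  refine ⟨48 * C + 2, by positivity, fun {σ μ U j top R₀} hR R₁ θ hθ htop => ?_⟩
  have hj : (0 : ℝ) < j := by have := hR.big; exact_mod_cast (by omega : 0 < j)
  have ht : (1 : ℝ) ≤ top := by
    have := hR.big; have := hR.j_le; exact_mod_cast (by omega : 1 ≤ top)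
  have hθ0 : 0 < θ := by linarith
  rw [← Finset.sum_filter_add_sum_filter_not _ (fun τ => 2 ≤ τ.card), Finset.filter_filter]
  have h1 := MassDa_fiber (σ := σ) (U := U) (R₀ := R₀) hR.nonneg (K := C / (j * top ^ 2))
    (fun R => ((h hR.toBS hR.lo hR.hi R).1).trans_eq (by ring))
    (Φ := fun τ => (R₁ : ℤ) ≤ R₀ - tot σ τ ∧ 2 ≤ τ.card) (R₁ := R₁) (n := R₀.toNat + 1)
    (F := fun R => Real.exp (-((R : ℝ) - R₁) / θ)) (fun _ => (Real.exp_pos _).le)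
    (fun τ hτ h2 => ⟨h2.2, h2.1, by have := MassDa_tot_nonneg σ τ; omega⟩)
  have h2 : ∑ k ∈ range (R₀.toNat + 1), C / (j * top ^ 2) * ((R₁ : ℝ) + k) ^ 2 *
      Real.exp (-((((R₁ : ℤ) + k : ℤ) : ℝ) - R₁) / θ) ≤
        C / (j * top ^ 2) * (48 * ((R₁ + θ) ^ 2 * θ)) := by
    refine le_trans (le_of_eq ?_)
      (mul_le_mul_of_nonneg_left (MassDa_geom hθ R₁ (R₀.toNat + 1)) (by positivity))
    rw [Finset.mul_sum]
    refine Finset.sum_congr rfl fun k _ => ?_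
    push_cast
    rw [add_sub_cancel_left, mul_assoc]
  have h3 : ∑ τ ∈ ((nodes σ R₀ 0 U).filter (fun τ => (R₁ : ℤ) ≤ R₀ - tot σ τ)).filter
      (fun τ => ¬ 2 ≤ τ.card), wt μ τ * Real.exp (-((R₀ - tot σ τ : ℤ) - (R₁ : ℝ)) / θ) ≤
        2 * top / j * Real.exp (-((top : ℝ) - R₁) / θ) := by
    refine le_trans ?_ (mul_le_mul_of_nonneg_right hR.toBS.total (Real.exp_pos _).le)
    rw [Finset.sum_mul]
    refine le_trans (Finset.sum_le_sum fun τ hτ => ?_) (Finset.sum_le_sum_of_subset_of_nonneg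
      (fun τ hτ => Finset.mem_powerset.2
        (MassDa_mem.1 (Finset.mem_filter.1 (Finset.mem_filter.1 hτ).1).1).1)
      fun τ _ _ => mul_nonneg (MassDa_wt_nonneg hR.nonneg τ) (Real.exp_pos _).le)
    refine mul_le_mul_of_nonneg_left (Real.exp_le_exp.2 ?_) (MassDa_wt_nonneg hR.nonneg τ)
    have h4 := MassDa_small hR
      (MassDa_mem.1 (Finset.mem_filter.1 (Finset.mem_filter.1 hτ).1).1).1 (Finset.mem_filter.1 hτ).2
    have h5 : (top : ℝ) ≤ ((R₀ - tot σ τ : ℤ) : ℝ) := by exact_mod_cast h4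
    exact div_le_div_of_nonneg_right (by linarith) hθ0.le
  have h6 : 2 * top / j * Real.exp (-((top : ℝ) - R₁) / θ) ≤
      2 * ((R₁ + θ) ^ 2 * θ) / (j * top ^ 2) := by
    have h7 : (1 : ℝ) ≤ (R₁ + θ) ^ 2 * θ :=
      one_le_mul_of_one_le_of_one_le (one_le_pow₀ (by linarith [Nat.cast_nonneg (α := ℝ) R₁])) hθ
    have h8 : (top : ℝ) ^ 3 * Real.exp (-((top : ℝ) - R₁) / θ) ≤ 1 :=
      le_trans (mul_le_mul_of_nonneg_right (pow_le_pow_right₀ ht (by norm_num))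
        (Real.exp_pos _).le) htop
    rw [le_div_iff₀ (by positivity)]
    calc _ = 2 * ((top : ℝ) ^ 3 * Real.exp (-((top : ℝ) - R₁) / θ)) := by field_simp
      _ ≤ _ := by linarith
  refine (add_le_add ((le_of_eq ?_).trans (h1.trans h2)) (h3.trans h6)).trans_eq (by ring)
  congr

/-- splitting at a threshold `P`: elements `≥ P` have size `≥ i`, elements `< P` have size `≤ i`
(`sum_nodes_union`, `Alive.start`, `cont_bound`) -/
theorem mass_split : ∃ C : ℝ, 0 < C ∧ ∀ {σ : ℕ → ℕ} {μ : ℕ → ℝ} {U : Finset ℕ} {j top : ℕ} {R₀ : ℤ},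
    Root σ μ U j top R₀ → ∀ (Uhi : Finset ℕ) (i r : ℕ) (Φ : Finset ℕ → Prop), Uhi ⊆ U →
      (∀ p ∈ Uhi, ∀ q ∈ U \ Uhi, q < p) → (∀ p ∈ Uhi, i ≤ σ p) → (∀ q ∈ U \ Uhi, σ q ≤ i) →
      j ≤ i → i ≤ top → 8 * r ≤ i →
      mass σ μ R₀ 0 U (fun τ => R₀ - tot σ τ ≤ r ∧ Φ (τ ∩ Uhi)) ≤
        C * r ^ 3 / (j * i ^ 2) * ∑ τ ∈ (nodes σ R₀ 0 Uhi).filter Φ,
          wt μ τ * Real.exp (-((R₀ - tot σ τ : ℤ) : ℝ) / i) := by
  obtain ⟨C, hC, h⟩ := cont_bound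
  refine ⟨C, hC, fun {σ μ U j top R₀} hR Uhi i r Φ hU hlt hhi hlo hji hit hr => ?_⟩
  have hBS : BS σ μ (U \ Uhi) j i := hR.toBS.subset Finset.sdiff_subset le_rfl hji
    fun b hb => ⟨(hR.range b (Finset.mem_sdiff.1 hb).1).1, hlo b hb⟩
  rw [mass, Finset.sum_filter]
  conv_lhs => arg 1; rw [← Finset.union_sdiff_of_subset hU]
  rw [sum_nodes_union hlt, Finset.sum_filter, Finset.mul_sum]
  refine Finset.sum_le_sum fun τ hτ => ?_
  obtain ⟨hτ1, hτ2⟩ := MassDa_mem.1 hτ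
  have hin : ∀ τ' ∈ nodes σ (R₀ - tot σ τ) (0 + τ.card) (U \ Uhi),
      (τ ∪ τ') ∩ Uhi = τ ∧ Disjoint τ τ' := by
    intro τ' hτ'
    have hd : Disjoint τ' Uhi :=
      Finset.disjoint_of_subset_left (MassDa_mem.1 hτ').1 Finset.sdiff_disjoint
    refine ⟨?_, (Finset.disjoint_of_subset_right hτ1 hd).symm⟩
    rw [Finset.union_inter_distrib_right, Finset.inter_eq_left.2 hτ1,
      Finset.disjoint_iff_inter_eq_empty.1 hd, Finset.union_empty]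
  by_cases hΦ : Φ τ
  · rw [if_pos hΦ]
    have hs := Alive.start hR.mono (MassDa_start hR) (fun p hp => (hR.range p (hU (hτ1 hp))).2)
      hτ2 hit fun p hp => hhi p (hτ1 hp)
    have h1 := mul_le_mul_of_nonneg_left (h hBS hs r hr) (MassDa_wt_nonneg hR.nonneg τ)
    refine le_trans (le_of_eq ?_) (h1.trans_eq (by ring))
    rw [mass, Finset.sum_filter, Finset.mul_sum]
    refine Finset.sum_congr rfl fun τ' hτ' => ?_
    obtain ⟨h2, h3⟩ := hin τ' hτ'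
    have h4 : R₀ - tot σ (τ ∪ τ') = R₀ - tot σ τ - tot σ τ' := by
      unfold tot
      rw [Finset.sum_union h3]
      ring
    have h5 : wt μ (τ ∪ τ') = wt μ τ * wt μ τ' := Finset.prod_union h3
    rw [h2, h4, h5]
    simp [hΦ]
  · rw [if_neg hΦ, mul_zero]
    refine (Finset.sum_eq_zero fun τ' hτ' => if_neg fun h2 => hΦ ?_).le
    rw [(hin τ' hτ').1] at h2
    exact h2.2

/-- no element with size in `[i, i₂)` -/
theorem mass_gap : ∃ C : ℝ, 0 < C ∧ ∀ {σ : ℕ → ℕ} {μ : ℕ → ℝ} {U : Finset ℕ} {j top : ℕ} {R₀ : ℤ},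
    Root σ μ U j top R₀ → ∀ (i i₂ r : ℕ), j ≤ i → 8 * r ≤ i → i ≤ i₂ → 2 * i₂ ≤ top →
      (top : ℝ) ^ 4 * Real.exp (-(top : ℝ) / (2 * i)) ≤ 1 →
      mass σ μ R₀ 0 U (fun τ => R₀ - tot σ τ ≤ r ∧ ∀ p ∈ τ, ¬ (i ≤ σ p ∧ σ p < i₂)) ≤
        C * ((i₂ : ℝ) / i) * Real.exp (-((i₂ : ℝ) / i)) * r ^ 3 / (j * top ^ 2) := by
  obtain ⟨C₁, hC₁, h₁⟩ := mass_split
  obtain ⟨C₂, hC₂, h₂⟩ := mass_exp
  refine ⟨4 * C₁ * C₂, by positivity, fun {σ μ U j top R₀} hR i i₂ r hji hr hi hi₂ htop => ?_⟩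
  have hbig := hR.big
  have hj : (0 : ℝ) < j := by exact_mod_cast (by omega : 0 < j)
  have hi0 : (1 : ℝ) ≤ i := by exact_mod_cast (by omega : 1 ≤ i)
  have hi1 : (i : ℝ) ≤ i₂ := by exact_mod_cast hi
  have ht : (0 : ℝ) < top := by exact_mod_cast (by omega : 0 < top)
  obtain ⟨c1, c2, c3⟩ := MassDa_cut hR i
  have h3 := h₁ hR _ i r (fun τ => ∀ p ∈ τ, ¬ (i ≤ σ p ∧ σ p < i₂)) (Finset.filter_subset _ _)
    c1 c2 c3 hji (by omega) hr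
  have hR₂ := MassDa_hi hR (i := i₂) (by omega) (by omega)
  have h4 := h₂ hR₂ i₂ i hi0 (MassDa_top (by omega) hi₂ htop)
  have h6 : C₂ * (i₂ + i) ^ 2 * i / (i₂ * top ^ 2) ≤ C₂ * (2 * i₂) ^ 2 * i / (i₂ * top ^ 2) := by
    have : (0 : ℝ) < i₂ := by linarith
    gcongr
    linarith
  have h5 := mul_le_mul_of_nonneg_left (h4.trans h6) (Real.exp_pos (-((i₂ : ℝ) / i))).le
  rw [Finset.mul_sum] at h5
  refine (MassDa_mass_mono hR.nonneg fun τ _ hτ => ?_).trans (h3.trans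
    ((mul_le_mul_of_nonneg_left ((MassDa_sum_le (fun τ hτ => ⟨?_, le_of_eq ?_⟩) fun τ _ =>
      mul_nonneg (Real.exp_pos _).le (mul_nonneg (MassDa_wt_nonneg hR.nonneg τ)
        (Real.exp_pos _).le)).trans h5) (by positivity)).trans_eq ?_))
  · exact ⟨hτ.1, fun p hp => hτ.2 p (Finset.mem_inter.1 hp).1⟩
  · obtain ⟨h6, h7⟩ := MassDa_mf.1 hτ
    obtain ⟨h8, h9⟩ := MassDa_mem.1 h6
    have h10 : τ ∈ nodes σ R₀ 0 (U.filter fun p => i₂ ≤ σ p) :=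
      MassDa_mem.2 ⟨fun p hp => Finset.mem_filter.2 ⟨(Finset.mem_filter.1 (h8 hp)).1,
        not_lt.1 fun h11 => h7 p hp ⟨(Finset.mem_filter.1 (h8 hp)).2, h11⟩⟩, h9⟩
    exact MassDa_mf.2 ⟨h10, MassDa_rem hR₂ h10⟩
  · rw [MassDa_shift _ (i₂ : ℝ)]
    ring
  · have : (0 : ℝ) < i₂ := by linarith
    have : (0 : ℝ) < i := by linarith
    field_simp
    ring

/-- the remaining level at the threshold `i` is large -/
theorem mass_thr : ∃ C : ℝ, 0 < C ∧ ∀ {σ : ℕ → ℕ} {μ : ℕ → ℝ} {U : Finset ℕ} {j top : ℕ} {R₀ : ℤ},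
    Root σ μ U j top R₀ → ∀ (i s r : ℕ), j ≤ i → 8 * r ≤ i → 1 ≤ s → 2 * (s * i) ≤ top →
      (top : ℝ) ^ 4 * Real.exp (-(top : ℝ) / (2 * i)) ≤ 1 →
      mass σ μ R₀ 0 U (fun τ => R₀ - tot σ τ ≤ r ∧
          ((s * i : ℕ) : ℤ) < R₀ - tot σ (τ.filter (fun p => i ≤ σ p))) ≤
        C * s ^ 2 * Real.exp (-(s : ℝ)) * r ^ 3 / (j * top ^ 2) := by
  obtain ⟨C₁, hC₁, h₁⟩ := mass_split
  obtain ⟨C₂, hC₂, h₂⟩ := mass_exp
  refine ⟨4 * C₁ * C₂, by positivity, fun {σ μ U j top R₀} hR i s r hji hr hs hsi htop => ?_⟩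
  have hbig := hR.big
  have hj : (0 : ℝ) < j := by exact_mod_cast (by omega : 0 < j)
  have hi0 : (1 : ℝ) ≤ i := by exact_mod_cast (by omega : 1 ≤ i)
  have hs0 : (1 : ℝ) ≤ s := by exact_mod_cast hs
  have hit : i ≤ top := by nlinarith
  have ht : (0 : ℝ) < top := by exact_mod_cast (by omega : 0 < top)
  obtain ⟨c1, c2, c3⟩ := MassDa_cut hR i
  have h3 := h₁ hR _ i r (fun τ => ((s * i : ℕ) : ℤ) < R₀ - tot σ τ) (Finset.filter_subset _ _)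
    c1 c2 c3 hji hit hr
  have hR₂ := MassDa_hi hR hji hit
  have h4 := h₂ hR₂ (s * i) i hi0 (MassDa_top (by omega) hsi htop)
  have hi' : (0 : ℝ) < i := by linarith
  have h6 : C₂ * (((s * i : ℕ) : ℝ) + i) ^ 2 * i / (i * top ^ 2) ≤
      C₂ * (2 * (s * i)) ^ 2 * i / (i * top ^ 2) := by
    push_cast
    gcongr
    nlinarith
  have h5 := mul_le_mul_of_nonneg_left (h4.trans h6) (Real.exp_pos (-(s : ℝ))).le
  rw [Finset.mul_sum] at h5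
  refine (MassDa_mass_mono hR.nonneg fun τ hτ' hτ => ?_).trans (h3.trans
    ((mul_le_mul_of_nonneg_left ((MassDa_sum_le (fun τ hτ => ⟨?_, le_of_eq ?_⟩) fun τ _ =>
      mul_nonneg (Real.exp_pos _).le (mul_nonneg (MassDa_wt_nonneg hR.nonneg τ)
        (Real.exp_pos _).le)).trans h5) (by positivity)).trans_eq ?_))
  · rw [MassDa_inter (MassDa_mem.1 hτ').1]
    exact hτ
  · exact MassDa_mf.2 ⟨(MassDa_mf.1 hτ).1, (MassDa_mf.1 hτ).2.le⟩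
  · rw [MassDa_shift _ ((s * i : ℕ) : ℝ), Nat.cast_mul, mul_div_cancel_right₀ _ hi'.ne']
    ring
  · field_simp
    ring

/-- transfer to the higher cut `i` -/
theorem mass_transfer : ∃ C : ℝ, 0 < C ∧ ∀ {σ : ℕ → ℕ} {μ : ℕ → ℝ} {U : Finset ℕ} {j top : ℕ}
    {R₀ : ℤ}, Root σ μ U j top R₀ → ∀ (i s r : ℕ), j ≤ i → 8 * r ≤ i → 1 ≤ s → 2 * (s * i) ≤ top →
      (top : ℝ) ^ 4 * Real.exp (-(top : ℝ) / (2 * i)) ≤ 1 →
      mass σ μ R₀ 0 U (fun τ => R₀ - tot σ τ ≤ r) ≤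
        C * r ^ 3 / (j * i ^ 2) * mass σ μ R₀ 0 (U.filter (fun p => i ≤ σ p))
          (fun τ => R₀ - tot σ τ ≤ ((s * i : ℕ) : ℤ)) +
        C * s ^ 2 * Real.exp (-(s : ℝ)) * r ^ 3 / (j * top ^ 2) := by
  obtain ⟨C₁, hC₁, h₁⟩ := mass_split
  obtain ⟨C₂, hC₂, h₂⟩ := mass_thr
  refine ⟨C₁ + C₂, by positivity, fun {σ μ U j top R₀} hR i s r hji hr hs hsi htop => ?_⟩
  have hbig := hR.big
  have hj : (0 : ℝ) < j := by exact_mod_cast (by omega : 0 < j)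
  have hi0 : (0 : ℝ) < i := by exact_mod_cast (by omega : 0 < i)
  have hit : i ≤ top := by nlinarith
  obtain ⟨c1, c2, c3⟩ := MassDa_cut hR i
  have h3 := h₁ hR _ i r (fun τ => R₀ - tot σ τ ≤ ((s * i : ℕ) : ℤ)) (Finset.filter_subset _ _)
    c1 c2 c3 hji hit hr
  have h4 := h₂ hR i s r hji hr hs hsi htop
  have hR₂ := MassDa_hi hR hji hit
  have h6 : mass σ μ R₀ 0 U (fun τ => R₀ - tot σ τ ≤ r) ≤
      mass σ μ R₀ 0 U (fun τ => R₀ - tot σ τ ≤ r ∧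
        R₀ - tot σ (τ ∩ U.filter fun p => i ≤ σ p) ≤ ((s * i : ℕ) : ℤ)) +
      mass σ μ R₀ 0 U (fun τ => R₀ - tot σ τ ≤ r ∧
          ((s * i : ℕ) : ℤ) < R₀ - tot σ (τ.filter (fun p => i ≤ σ p))) := by
    simp only [mass, Finset.sum_filter, ← Finset.sum_add_distrib]
    refine Finset.sum_le_sum fun τ hτ => ?_
    simp only [MassDa_inter (MassDa_mem.1 hτ).1]
    by_cases h7 : R₀ - tot σ τ ≤ r
    · rcases le_or_gt (R₀ - tot σ (τ.filter (fun p => i ≤ σ p))) ((s * i : ℕ) : ℤ) with h8 | h8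
      · simp only [h7, h8, h8.not_gt, true_and, if_true, if_false, add_zero, le_refl]
      · simp only [h7, h8, h8.not_ge, true_and, if_true, if_false, zero_add, le_refl]
    · simp only [h7, false_and, if_false, add_zero, le_refl]
  refine h6.trans (add_le_add (h3.trans (mul_le_mul ?_ (MassDa_sum_le (fun τ hτ => ⟨hτ, ?_⟩)
    fun τ _ => MassDa_wt_nonneg hR.nonneg τ) (Finset.sum_nonneg fun τ _ =>
      mul_nonneg (MassDa_wt_nonneg hR.nonneg τ) (Real.exp_pos _).le) (by positivity)))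
    (h4.trans ?_))
  · gcongr
    linarith
  · refine mul_le_of_le_one_right (MassDa_wt_nonneg hR.nonneg τ) ?_
    have h6 := MassDa_rem hR₂ (MassDa_mf.1 hτ).1
    have h7 : (0 : ℝ) ≤ ((R₀ - tot σ τ : ℤ) : ℝ) := by exact_mod_cast (by omega : 0 ≤ R₀ - tot σ τ)
    exact Real.exp_le_one_iff.2 (div_nonpos_of_nonpos_of_nonneg (by linarith) hi0.le)
  · gcongr
    linarith

theorem mk_wt_nonneg {μ : ℕ → ℝ} (h : ∀ b, 0 ≤ μ b) (τ : Finset ℕ) : 0 ≤ wt μ τ :=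
  prod_nonneg fun b _ => h b

theorem mk_wt_erase {μ : ℕ → ℝ} {τ : Finset ℕ} {q : ℕ} (h : q ∈ τ) :
    wt μ τ = μ q * wt μ (τ.erase q) := (mul_prod_erase τ μ h).symm

theorem mk_erase {S T : Finset (Finset ℕ)} (q : ℕ) {f f' : Finset ℕ → ℝ}
    (hS : ∀ τ ∈ S, q ∈ τ ∧ τ.erase q ∈ T ∧ f τ ≤ f' (τ.erase q)) (hT : ∀ τ ∈ T, 0 ≤ f' τ) :
    ∑ τ ∈ S, f τ ≤ ∑ τ ∈ T, f' τ := by
  refine (sum_le_sum fun τ hτ => (hS τ hτ).2.2).trans ?_
  rw [← sum_image (g := fun τ : Finset ℕ => τ.erase q) fun τ hτ τ' hτ' he => by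
    rw [← insert_erase (hS τ hτ).1, ← insert_erase (hS τ' hτ').1]
    exact congrArg _ he]
  refine sum_le_sum_of_subset_of_nonneg (fun τ hτ => ?_) fun τ hτ _ => hT τ hτ
  obtain ⟨τ', hτ', rfl⟩ := mem_image.1 hτ
  exact (hS τ' hτ').2.1

/-- removing the least element -/
theorem mk_peel {σ : ℕ → ℕ} {μ : ℕ → ℝ} {R : ℤ} {V : Finset ℕ} (hμ : ∀ b, 0 ≤ μ b) {q : ℕ}
    (hq : 0 < σ q) {S : Finset (Finset ℕ)} {Ψ : Finset ℕ → Prop} [DecidablePred Ψ]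
    (hS : ∀ τ ∈ S, τ ∈ nodes σ R 0 V ∧ q ∈ τ ∧ (∀ x ∈ τ, q ≤ x) ∧ Ψ (τ.erase q)) :
    ∑ τ ∈ S, wt μ τ * Real.exp (-((R - tot σ τ : ℤ) : ℝ) / σ q) ≤
      μ q * Real.exp 1 * ∑ τ ∈ (nodes σ R 0 V).filter Ψ,
        wt μ τ * Real.exp (-((R - tot σ τ : ℤ) : ℝ) / σ q) := by
  rw [mul_sum]
  refine mk_erase q (fun τ hτ => ?_) fun τ _ => by
    have := mk_wt_nonneg hμ τ
    have := hμ q
    positivity
  obtain ⟨h1, h2, h3, h4⟩ := hS τ hτ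
  obtain ⟨h5, h6⟩ := mem_filter.1 h1
  refine ⟨h2, mem_filter.2 ⟨mem_filter.2 ⟨mem_powerset.2 ((erase_subset _ _).trans
    (mem_powerset.1 h5)), ?_⟩, h4⟩, le_of_eq ?_⟩
  · rw [← insert_erase h2, alive_insert fun x hx =>
      lt_of_le_of_ne (h3 x (mem_erase.1 hx).2) (mem_erase.1 hx).1.symm] at h6
    exact h6.1
  · have h7 : tot σ τ = σ q + tot σ (τ.erase q) := (add_sum_erase τ (fun p => (σ p : ℤ)) h2).symm
    have h8 : (σ q : ℝ) ≠ 0 := by positivity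
    have h9 : -((R - tot σ τ : ℤ) : ℝ) / σ q = 1 + -((R - tot σ (τ.erase q) : ℤ) : ℝ) / σ q := by
      rw [h7]
      push_cast
      field_simp
      ring
    rw [h9, Real.exp_add, mk_wt_erase h2]
    ring

theorem mk_mass_eq {σ : ℕ → ℕ} {μ : ℕ → ℝ} {R : ℤ} {e : ℕ} {U : Finset ℕ} (Φ : Finset ℕ → Prop)
    [DecidablePred Φ] : mass σ μ R e U Φ = ∑ τ ∈ (nodes σ R e U).filter Φ, wt μ τ := by
  unfold mass
  congr

theorem mk_mass_mono {σ : ℕ → ℕ} {μ : ℕ → ℝ} {R : ℤ} {e : ℕ} {U : Finset ℕ} (hμ : ∀ b, 0 ≤ μ b)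
    {Φ Ψ : Finset ℕ → Prop} (h : ∀ τ ∈ nodes σ R e U, Φ τ → Ψ τ) :
    mass σ μ R e U Φ ≤ mass σ μ R e U Ψ :=
  sum_le_sum_of_subset_of_nonneg (fun τ hτ => mem_filter.2 ⟨(mem_filter.1 hτ).1,
    h τ (mem_filter.1 hτ).1 (mem_filter.1 hτ).2⟩) fun τ _ _ => mk_wt_nonneg hμ τ

theorem mk_union {σ : ℕ → ℕ} {μ : ℕ → ℝ} {R : ℤ} {e : ℕ} {U : Finset ℕ} (hμ : ∀ b, 0 ≤ μ b)
    {α : Type} (A : Finset α) {Φ : Finset ℕ → Prop} {Ψ : α → Finset ℕ → Prop}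
    (h : ∀ τ ∈ nodes σ R e U, Φ τ → ∃ a ∈ A, Ψ a τ) :
    mass σ μ R e U Φ ≤ ∑ a ∈ A, mass σ μ R e U (Ψ a) := by
  simp only [mass, sum_filter]
  rw [sum_comm]
  refine sum_le_sum fun τ hτ => ?_
  have h0 : ∀ a ∈ A, 0 ≤ if Ψ a τ then wt μ τ else 0 := fun a _ => by
    split_ifs
    exacts [mk_wt_nonneg hμ τ, le_rfl]
  split_ifs with hΦ
  · obtain ⟨a, ha, hΨ⟩ := h τ hτ hΦ
    refine le_trans ?_ (single_le_sum h0 ha)
    rw [if_pos hΨ]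
  · exact sum_nonneg h0

theorem mk_level {x : ℤ} {i : ℕ} {w : ℝ} (hx : 0 ≤ x) (hi : 0 < i) (hw : 0 ≤ w) (K : ℕ) :
    w * Real.exp (-(x : ℝ) / i) ≤ ∑ k ∈ range K, Real.exp (-(k : ℝ)) *
      (if x ≤ ((k + 1) * i : ℕ) then w else 0) + Real.exp (-(K : ℝ)) * w := by
  lift x to ℕ using hx
  have hi' : (0 : ℝ) < i := by exact_mod_cast hi
  have h0 : ∀ k ∈ range K, 0 ≤ Real.exp (-(k : ℝ)) *
      (if (x : ℤ) ≤ ((k + 1) * i : ℕ) then w else 0) := fun k _ => by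
    split_ifs <;> positivity
  have h1 : ∀ k : ℕ, k ≤ x / i → w * Real.exp (-((x : ℤ) : ℝ) / i) ≤ Real.exp (-(k : ℝ)) * w :=
    fun k hk => by
      rw [mul_comm, neg_div]
      gcongr
      rw [le_div_iff₀ hi']
      exact_mod_cast (Nat.le_div_iff_mul_le hi).1 hk
  rcases lt_or_ge (x / i) K with hK | hK
  · refine le_add_of_le_of_nonneg (le_trans ?_ (single_le_sum h0 (mem_range.2 hK))) (by positivity)
    rw [if_pos]
    · exact h1 _ le_rfl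
    · have := Nat.lt_mul_div_succ x hi
      rw [mul_comm] at this
      exact_mod_cast this.le
  · exact le_add_of_nonneg_of_le (sum_nonneg h0) (h1 K hK)

theorem mk_series : ∃ C : ℝ, 0 < C ∧ ∀ K : ℕ,
    ∑ k ∈ range K, ((k : ℝ) + 1) ^ 3 * Real.exp (-(k : ℝ)) ≤ C := by
  have hs : Summable fun k : ℕ => ((k : ℝ) + 1) ^ 3 * Real.exp (-(k : ℝ)) := by
    refine (((summable_nat_add_iff 1).2
      (Real.summable_pow_mul_exp_neg_nat_mul 3 one_pos)).mul_left (Real.exp 1)).congr fun k => ?_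
    rw [mul_left_comm, ← Real.exp_add]
    push_cast
    congr 2
    ring
  refine ⟨∑' k : ℕ, ((k : ℝ) + 1) ^ 3 * Real.exp (-(k : ℝ)) + 1, ?_, fun K => ?_⟩
  · exact add_pos_of_nonneg_of_pos (tsum_nonneg fun k => by positivity) one_pos
  · exact (hs.sum_le_tsum _ fun k _ => by positivity).trans (le_add_of_nonneg_right zero_le_one)

section mark

variable {σ : ℕ → ℕ} {μ : ℕ → ℝ} {U : Finset ℕ} {j top : ℕ} {R₀ : ℤ}

theorem Root.mk_pos (h : Root σ μ U j top R₀) : (0 : ℝ) < j := by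
  exact_mod_cast (by have := h.big; omega : 0 < j)

theorem Root.mk_hi (h : Root σ μ U j top R₀) {q : ℕ} (hq : q ∈ U) :
    Root σ μ (U.filter fun x => q ≤ x) (σ q) top R₀ :=
  ⟨h.toBS.subset (filter_subset _ _) (h.range q hq).1 (h.range q hq).2 fun b hb =>
    ⟨h.mono (mem_filter.1 hb).2, (h.range b (mem_filter.1 hb).1).2⟩, h.lo, h.hi⟩

theorem Root.mk_rem (h : Root σ μ U j top R₀) {τ : Finset ℕ} (hτ : τ ∈ nodes σ R₀ 0 U) :
    0 ≤ R₀ - tot σ τ := by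
  obtain ⟨h1, h2⟩ := mem_filter.1 hτ
  have h3 := h.j_le
  have h4 := h.lo
  exact le_trans (Int.natCast_nonneg j) (h2.rem_ge h.mono (top := top) ⟨fun _ => by omega, by omega⟩
    fun p hp => h.range p (mem_powerset.1 h1 hp))

end mark

/-- split at `q` and remove `q` -/
theorem mk_split : ∃ C : ℝ, 0 < C ∧ ∀ {σ : ℕ → ℕ} {μ : ℕ → ℝ} {U : Finset ℕ} {j top : ℕ} {R₀ : ℤ},
    Root σ μ U j top R₀ → ∀ (q r : ℕ) (Φ Ψ : Finset ℕ → Prop) [DecidablePred Ψ], q ∈ U → 8 * r ≤ σ q →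
      (∀ τ ⊆ U, Φ τ → q ∈ τ ∧ Ψ ((τ ∩ U.filter fun x => q ≤ x).erase q)) →
      mass σ μ R₀ 0 U (fun τ => R₀ - tot σ τ ≤ r ∧ Φ τ) ≤
        C * μ q * r ^ 3 / (j * (σ q : ℝ) ^ 2) *
          ∑ τ ∈ (nodes σ R₀ 0 (U.filter fun x => q ≤ x)).filter Ψ,
            wt μ τ * Real.exp (-((R₀ - tot σ τ : ℤ) : ℝ) / σ q) := by
  obtain ⟨C, hC, H⟩ := mass_split
  refine ⟨C * Real.exp 1, by positivity, fun {σ μ U j top R₀} h q r Φ Ψ _ hq hr hΦ => ?_⟩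
  have hj := h.mk_pos
  have h1 := H h (U.filter fun x => q ≤ x) (σ q) r (fun τ => q ∈ τ ∧ Ψ (τ.erase q))
    (filter_subset _ _) (fun p hp x hx => ?_) (fun p hp => h.mono (mem_filter.1 hp).2)
    (fun x hx => ?_) (h.range q hq).1 (h.range q hq).2 hr
  rotate_left
  · obtain ⟨h2, h3⟩ := mem_sdiff.1 hx
    have h4 : ¬ q ≤ x := fun h5 => h3 (mem_filter.2 ⟨h2, h5⟩)
    have := (mem_filter.1 hp).2
    omega
  · obtain ⟨h2, h3⟩ := mem_sdiff.1 hx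
    exact h.mono (le_of_not_ge fun h5 => h3 (mem_filter.2 ⟨h2, h5⟩))
  have h2 := mk_peel (σ := σ) (R := R₀) (V := U.filter fun x => q ≤ x) h.nonneg (q := q)
    (by have := (h.mk_hi hq).big; omega)
    (S := (nodes σ R₀ 0 (U.filter fun x => q ≤ x)).filter fun τ => q ∈ τ ∧ Ψ (τ.erase q)) (Ψ := Ψ)
    fun τ hτ => ⟨(mem_filter.1 hτ).1, (mem_filter.1 hτ).2.1, fun x hx => (mem_filter.1
      (mem_powerset.1 (mem_filter.1 (mem_filter.1 hτ).1).1 hx)).2, (mem_filter.1 hτ).2.2⟩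
  calc _ ≤ mass σ μ R₀ 0 U (fun τ => R₀ - tot σ τ ≤ r ∧ (q ∈ τ ∩ U.filter (fun x => q ≤ x) ∧
        Ψ ((τ ∩ U.filter fun x => q ≤ x).erase q))) := by
        refine mk_mass_mono h.nonneg fun τ h3 h4 => ?_
        have h6 := hΦ τ (mem_powerset.1 (mem_filter.1 h3).1) h4.2
        exact ⟨h4.1, mem_inter.2 ⟨h6.1, mem_filter.2 ⟨hq, le_rfl⟩⟩, h6.2⟩
    _ ≤ _ := h1
    _ ≤ C * r ^ 3 / (j * (σ q : ℝ) ^ 2) * (μ q * Real.exp 1 *
        ∑ τ ∈ (nodes σ R₀ 0 (U.filter fun x => q ≤ x)).filter Ψ,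
          wt μ τ * Real.exp (-((R₀ - tot σ τ : ℤ) : ℝ) / σ q)) := by
        gcongr
        refine le_trans (le_of_eq ?_) h2
        congr
    _ = _ := by ring

/-- the exponentially weighted mass above `q` -/
theorem mk_exp : ∃ C : ℝ, 0 < C ∧ ∀ {σ : ℕ → ℕ} {μ : ℕ → ℝ} {U : Finset ℕ} {j top : ℕ} {R₀ : ℤ},
    Root σ μ U j top R₀ → ∀ q ∈ U, (top : ℝ) ^ 4 * Real.exp (-(top : ℝ) / σ q) ≤ 1 →
      ∑ τ ∈ nodes σ R₀ 0 (U.filter fun x => q ≤ x),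
        wt μ τ * Real.exp (-((R₀ - tot σ τ : ℤ) : ℝ) / σ q) ≤ C * (σ q : ℝ) ^ 2 / top ^ 2 := by
  obtain ⟨C, hC, H⟩ := mass_exp
  refine ⟨C, hC, fun {σ μ U j top R₀} h q hq ht => ?_⟩
  have h' := h.mk_hi hq
  have hi := h'.mk_pos
  have h1 := H h' 0 (σ q) (by exact_mod_cast (by have := h'.big; omega : 1 ≤ σ q))
    (by simpa using ht)
  rw [filter_true_of_mem fun τ hτ => by exact_mod_cast h'.mk_rem hτ] at h1
  simp only [Nat.cast_zero, sub_zero, zero_add] at h1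
  refine h1.trans (le_of_eq ?_)
  field_simp

/-- one marked element: split at `p` -/
theorem mass_mark : ∃ C : ℝ, 0 < C ∧ ∀ {σ : ℕ → ℕ} {μ : ℕ → ℝ} {U : Finset ℕ} {j top : ℕ} {R₀ : ℤ},
    Root σ μ U j top R₀ → ∀ (p r : ℕ), p ∈ U → 8 * r ≤ σ p →
      (top : ℝ) ^ 4 * Real.exp (-(top : ℝ) / σ p) ≤ 1 →
      mass σ μ R₀ 0 U (fun τ => R₀ - tot σ τ ≤ r ∧ p ∈ τ) ≤ C * μ p * r ^ 3 / (j * top ^ 2) := by
  obtain ⟨C₁, hC₁, h₁⟩ := mk_split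
  obtain ⟨C₂, hC₂, h₂⟩ := mk_exp
  refine ⟨C₁ * C₂, by positivity, fun {σ μ U j top R₀} h p r hp hr ht => ?_⟩
  have hj := h.mk_pos
  have hi := (h.mk_hi hp).mk_pos
  have h3 := h₁ h p r (fun τ => p ∈ τ) (fun _ => True) hp hr
    (fun τ _ hτ => ⟨hτ, trivial⟩)
  rw [filter_true] at h3
  refine h3.trans ?_
  have h4 := h₂ h p hp ht
  have hμ := h.nonneg p
  calc _ ≤ C₁ * μ p * r ^ 3 / (j * (σ p : ℝ) ^ 2) * (C₂ * (σ p : ℝ) ^ 2 / top ^ 2) := by gcongr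
    _ = _ := by field_simp

/-- two marked elements of very different sizes: split at `q`, then use `mass_mark` on the levels
`(k+1) σ q`, `8 (k+1) σ q ≤ σ p` -/
theorem mass_mark2 : ∃ C : ℝ, 0 < C ∧ ∀ {σ : ℕ → ℕ} {μ : ℕ → ℝ} {U : Finset ℕ} {j top : ℕ} {R₀ : ℤ},
    Root σ μ U j top R₀ → ∀ (p q r : ℕ), p ∈ U → q ∈ U → 8 * r ≤ σ q → 16 * σ q ≤ σ p →
      (top : ℝ) ^ 4 * Real.exp (-(top : ℝ) / σ p) ≤ 1 →
      (top : ℝ) ^ 4 * Real.exp (-(σ p : ℝ) / (16 * σ q)) ≤ 1 →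
      mass σ μ R₀ 0 U (fun τ => R₀ - tot σ τ ≤ r ∧ p ∈ τ ∧ q ∈ τ) ≤
        C * μ p * μ q * r ^ 3 / (j * top ^ 2) := by
  obtain ⟨C₁, hC₁, h₁⟩ := mk_split
  obtain ⟨C₂, hC₂, h₂⟩ := mass_mark
  obtain ⟨C₃, hC₃, h₃⟩ := mk_series
  refine ⟨C₁ * (C₂ * C₃ + 2), by positivity, fun {σ μ U j top R₀} h p q r hp hq hr hpq ht ht' => ?_⟩
  have hj := h.mk_pos
  have h' := h.mk_hi hq
  have hi := h'.mk_pos
  have hi1 : (1 : ℝ) ≤ σ q := by exact_mod_cast (by have := h'.big; omega : 1 ≤ σ q)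
  have htop1 : (1 : ℝ) ≤ top := hi1.trans (by exact_mod_cast h'.j_le)
  have hq0 : 0 < σ q := by have := h'.big; omega
  have hlt : q < p := lt_of_not_ge fun hle => by have := h.mono hle; omega
  have hp' : p ∈ U.filter (fun x => q ≤ x) := mem_filter.2 ⟨hp, hlt.le⟩
  have hμp := h.nonneg p
  have hμq := h.nonneg q
  refine (h₁ h q r (fun τ => p ∈ τ ∧ q ∈ τ) (fun τ => p ∈ τ) hq hr fun τ hτ hh =>
    ⟨hh.2, mem_erase.2 ⟨hlt.ne', mem_inter.2 ⟨hh.1, hp'⟩⟩⟩).trans ?_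
  set V := U.filter (fun x => q ≤ x) with hV
  set K := σ p / (8 * σ q) with hK
  have hK1 : (σ p : ℝ) / (16 * σ q) ≤ K := by
    rw [div_le_iff₀ (by positivity)]
    have h5 : σ p < 8 * σ q * (K + 1) := Nat.lt_mul_div_succ _ (by omega)
    have h6 : 2 ≤ K := (Nat.le_div_iff_mul_le (by omega)).2 (by omega)
    have h7 : σ p ≤ K * (16 * σ q) := by nlinarith
    exact_mod_cast h7
  have hK2 : Real.exp (-(K : ℝ)) ≤ 1 / (top : ℝ) ^ 4 := by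
    rw [le_div_iff₀ (by positivity), mul_comm]
    refine le_trans ?_ ht'
    gcongr
    rw [neg_div]
    exact neg_le_neg hK1
  have key : ∑ τ ∈ (nodes σ R₀ 0 V).filter (fun τ => p ∈ τ),
      wt μ τ * Real.exp (-((R₀ - tot σ τ : ℤ) : ℝ) / σ q) ≤
      (C₂ * C₃ + 2) * μ p * (σ q : ℝ) ^ 2 / top ^ 2 := by
    calc _ ≤ ∑ τ ∈ (nodes σ R₀ 0 V).filter (fun τ => p ∈ τ),
          (∑ k ∈ range K, Real.exp (-(k : ℝ)) *
            (if R₀ - tot σ τ ≤ ((k + 1) * σ q : ℕ) then wt μ τ else 0) +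
            Real.exp (-(K : ℝ)) * wt μ τ) :=
          sum_le_sum fun τ hτ => mk_level (h'.mk_rem (mem_filter.1 hτ).1) hq0
            (mk_wt_nonneg h.nonneg τ) K
      _ = ∑ k ∈ range K, Real.exp (-(k : ℝ)) *
            mass σ μ R₀ 0 V (fun τ => R₀ - tot σ τ ≤ ((k + 1) * σ q : ℕ) ∧ p ∈ τ) +
            Real.exp (-(K : ℝ)) * ∑ τ ∈ (nodes σ R₀ 0 V).filter (fun τ => p ∈ τ), wt μ τ := by
          rw [sum_add_distrib, sum_comm, mul_sum]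
          congr 1
          refine sum_congr rfl fun k _ => ?_
          rw [← mul_sum, ← sum_filter, filter_filter, mk_mass_eq]
          congr 2
          exact filter_congr fun τ _ => and_comm
      _ ≤ ∑ k ∈ range K, Real.exp (-(k : ℝ)) *
            (C₂ * μ p * (((k + 1) * σ q : ℕ) : ℝ) ^ 3 / (σ q * top ^ 2)) +
            1 / (top : ℝ) ^ 4 * (μ p * (2 * top / σ q)) := by
          gcongr with k hk
          · refine h₂ h' p _ hp' ?_ ht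
            have h5 : K * (8 * σ q) ≤ σ p := Nat.div_mul_le_self _ _
            have h6 : k + 1 ≤ K := mem_range.1 hk
            nlinarith
          · exact sum_nonneg fun τ _ => mk_wt_nonneg h.nonneg τ
          · refine le_trans ?_ (mul_le_mul_of_nonneg_left h'.toBS.total hμp)
            rw [mul_sum]
            refine mk_erase p (fun τ hτ => ?_) fun τ _ => mul_nonneg hμp (mk_wt_nonneg h.nonneg τ)
            obtain ⟨h5, h6⟩ := mem_filter.1 hτ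
            refine ⟨h6, mem_powerset.2 ((erase_subset _ _).trans
              (mem_powerset.1 (mem_filter.1 h5).1)), (mk_wt_erase h6).le⟩
      _ = C₂ * μ p * (σ q : ℝ) ^ 2 / top ^ 2 * ∑ k ∈ range K, ((k : ℝ) + 1) ^ 3 * Real.exp (-(k : ℝ))
            + 2 * μ p / top ^ 2 * (1 / (top * σ q)) := by
          rw [mul_sum]
          congr 1
          · refine sum_congr rfl fun k _ => ?_
            push_cast
            field_simp
          · field_simp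
      _ ≤ C₂ * μ p * (σ q : ℝ) ^ 2 / top ^ 2 * C₃ + 2 * μ p / top ^ 2 * (σ q : ℝ) ^ 2 := by
          gcongr
          · exact h₃ K
          · refine le_trans ?_ (one_le_pow₀ hi1)
            rw [div_le_one (by positivity)]
            exact one_le_mul_of_one_le_of_one_le htop1 hi1
      _ = _ := by ring
  calc _ ≤ C₁ * μ q * r ^ 3 / (j * (σ q : ℝ) ^ 2) *
        ((C₂ * C₃ + 2) * μ p * (σ q : ℝ) ^ 2 / top ^ 2) := by gcongr
    _ = _ := by field_simp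

/-- two elements of the same size in `[i₁, i₂)`: choose them adjacent in `τ` and split below them -/
theorem mass_dbl : ∃ C : ℝ, 0 < C ∧ ∀ {σ : ℕ → ℕ} {μ : ℕ → ℝ} {U : Finset ℕ} {j top : ℕ} {R₀ : ℤ},
    Root σ μ U j top R₀ → ∀ (i₁ i₂ r : ℕ), j ≤ i₁ → 8 * r ≤ i₁ → i₁ ≤ i₂ →
      (top : ℝ) ^ 4 * Real.exp (-(top : ℝ) / i₂) ≤ 1 →
      mass σ μ R₀ 0 U (fun τ => R₀ - tot σ τ ≤ r ∧
          ∃ p ∈ τ, ∃ q ∈ τ, p ≠ q ∧ σ p = σ q ∧ i₁ ≤ σ p ∧ σ p < i₂) ≤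
        C * r ^ 3 / (j * top ^ 2 * i₁) := by
  obtain ⟨C₁, hC₁, h₁⟩ := mk_split
  obtain ⟨C₂, hC₂, h₂⟩ := mk_exp
  refine ⟨C₁ * Real.exp 1 * C₂ * 8, by positivity,
    fun {σ μ U j top R₀} h i₁ i₂ r hi₁ hr hi₂ ht => ?_⟩
  have hj := h.mk_pos
  have htop : (0 : ℝ) < top := hj.trans_le (by exact_mod_cast h.j_le)
  have hbig : 1000 ≤ i₁ := h.big.trans hi₁
  set A := (U ×ˢ U).filter
    (fun a : ℕ × ℕ => a.2 < a.1 ∧ σ a.1 = σ a.2 ∧ i₁ ≤ σ a.1 ∧ σ a.1 < i₂) with hA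
  have hpair : ∀ a ∈ A, mass σ μ R₀ 0 U (fun τ => R₀ - tot σ τ ≤ r ∧
      (a.1 ∈ τ ∧ a.2 ∈ τ ∧ ∀ x ∈ τ, a.2 < x → a.1 ≤ x)) ≤
      C₁ * Real.exp 1 * C₂ * r ^ 3 / (j * top ^ 2) * (μ a.1 * μ a.2) := by
    rintro ⟨p, q⟩ ha
    obtain ⟨h1, hlt, hs, h2, h3⟩ := mem_filter.1 ha
    obtain ⟨hp, hq⟩ := mem_product.1 h1
    simp only at hp hq hlt hs h2 h3 ⊢
    have h' := h.mk_hi hq
    have hi := h'.mk_pos
    have hp' : p ∈ U.filter (fun x => q ≤ x) := mem_filter.2 ⟨hp, hlt.le⟩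
    have hμp := h.nonneg p
    have hμq := h.nonneg q
    refine (h₁ h q r (fun τ => p ∈ τ ∧ q ∈ τ ∧ ∀ x ∈ τ, q < x → p ≤ x)
      (fun τ => p ∈ τ ∧ ∀ x ∈ τ, p ≤ x) hq (by omega) fun τ hτ hh =>
      ⟨hh.2.1, mem_erase.2 ⟨hlt.ne', mem_inter.2 ⟨hh.1, hp'⟩⟩, fun x hx => ?_⟩).trans ?_
    · obtain ⟨h4, h5⟩ := mem_erase.1 hx
      obtain ⟨h6, h7⟩ := mem_inter.1 h5
      exact hh.2.2 x h6 (lt_of_le_of_ne (mem_filter.1 h7).2 h4.symm)
    have h4 := mk_peel (σ := σ) (R := R₀) (V := U.filter (fun x => q ≤ x)) h.nonneg (q := p)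
      (by omega : 0 < σ p) (S := (nodes σ R₀ 0 (U.filter (fun x => q ≤ x))).filter
        (fun τ => p ∈ τ ∧ ∀ x ∈ τ, p ≤ x)) (Ψ := fun _ => True)
      fun τ hτ => ⟨(mem_filter.1 hτ).1, (mem_filter.1 hτ).2.1, (mem_filter.1 hτ).2.2, trivial⟩
    rw [filter_true, hs] at h4
    have h5 := h₂ h q hq (le_trans (by
      rw [neg_div, neg_div]
      gcongr
      omega) ht)
    calc _ ≤ C₁ * μ q * r ^ 3 / (j * (σ q : ℝ) ^ 2) *
          (μ p * Real.exp 1 * (C₂ * (σ q : ℝ) ^ 2 / top ^ 2)) := by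
          gcongr
          exact h4.trans (mul_le_mul_of_nonneg_left h5 (by positivity))
      _ = _ := by field_simp
  have hsum : ∑ a ∈ A, μ a.1 * μ a.2 ≤ 8 / i₁ := by
    rw [← sum_fiberwise_of_maps_to (t := Ioo (i₁ - 1) i₂) (g := fun a => σ a.1) (fun a ha => by
      have := (mem_filter.1 ha).2
      rw [mem_Ioo]
      omega)]
    calc _ ≤ ∑ i ∈ Ioo (i₁ - 1) i₂, 4 * ((i : ℝ) ^ 2)⁻¹ := by
          refine sum_le_sum fun i hi => ?_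
          have hi1 : i₁ ≤ i := by have := mem_Ioo.1 hi; omega
          have hi2 : (1000 : ℝ) ≤ i := by exact_mod_cast hbig.trans hi1
          have hb := h.block i (hi₁.trans hi1)
          have hb' : ∑ b ∈ U.filter (fun b => σ b = i), μ b ≤ 2 / i := by
            refine hb.trans ?_
            rw [div_add_div _ _ (by positivity) (by positivity), div_le_div_iff₀ (by positivity)
              (by positivity)]
            nlinarith [mul_pos (by linarith : (0 : ℝ) < i) (by linarith : (0 : ℝ) < i)]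
          have hb0 : 0 ≤ ∑ b ∈ U.filter (fun b => σ b = i), μ b := sum_nonneg fun b _ => h.nonneg b
          calc _ ≤ ∑ a ∈ U.filter (fun b => σ b = i) ×ˢ U.filter (fun b => σ b = i),
                μ a.1 * μ a.2 := by
                refine sum_le_sum_of_subset_of_nonneg (fun a ha => ?_)
                  fun a _ _ => mul_nonneg (h.nonneg _) (h.nonneg _)
                obtain ⟨h1, h2⟩ := mem_filter.1 ha
                obtain ⟨h3, h4⟩ := mem_filter.1 h1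
                obtain ⟨h5, h6⟩ := mem_product.1 h3
                exact mem_product.2 ⟨mem_filter.2 ⟨h5, h2⟩, mem_filter.2 ⟨h6, h4.2.1 ▸ h2⟩⟩
            _ = (∑ b ∈ U.filter (fun b => σ b = i), μ b) *
                ∑ b ∈ U.filter (fun b => σ b = i), μ b := by rw [sum_mul_sum, sum_product]
            _ ≤ (2 / i) * (2 / i) := by gcongr
            _ = _ := by field_simp; norm_num
      _ ≤ 4 * (2 / ((i₁ - 1 : ℕ) + 1)) := by
          rw [← mul_sum]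
          gcongr
          exact sum_Ioo_inv_sq_le _ _
      _ = _ := by
          rw [Nat.cast_sub (by omega)]
          push_cast
          ring
  refine (mk_union h.nonneg A (Ψ := fun a τ => R₀ - tot σ τ ≤ r ∧
    (a.1 ∈ τ ∧ a.2 ∈ τ ∧ ∀ x ∈ τ, a.2 < x → a.1 ≤ x)) fun τ hτ hh => ?_).trans ?_
  · have hU : τ ⊆ U := mem_powerset.1 (mem_filter.1 hτ).1
    have adj : ∀ p ∈ τ, ∀ q ∈ τ, q < p → σ p = σ q → i₁ ≤ σ p → σ p < i₂ →
        ∃ a ∈ A, R₀ - tot σ τ ≤ r ∧ (a.1 ∈ τ ∧ a.2 ∈ τ ∧ ∀ x ∈ τ, a.2 < x → a.1 ≤ x) := by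
      intro p hp q hq hlt hs h1 h2
      obtain ⟨p', hp', hmin⟩ := exists_min_image (τ.filter (fun x => q < x)) id
        ⟨p, mem_filter.2 ⟨hp, hlt⟩⟩
      obtain ⟨h3, h4⟩ := mem_filter.1 hp'
      have h5 : σ p' ≤ σ p := h.mono (hmin p (mem_filter.2 ⟨hp, hlt⟩))
      have h6 : σ q ≤ σ p' := h.mono h4.le
      refine ⟨(p', q), mem_filter.2 ⟨mem_product.2 ⟨hU h3, hU hq⟩, h4, ?_, ?_, ?_⟩, hh.1, h3, hq,
        fun x hx hqx => hmin x (mem_filter.2 ⟨hx, hqx⟩)⟩ <;> simp only <;> omega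
    obtain ⟨p, hp, q, hq, hne, hs, h1, h2⟩ := hh.2
    rcases lt_or_gt_of_ne hne with hlt | hlt
    · exact adj q hq p hp hlt hs.symm (hs ▸ h1) (hs ▸ h2)
    · exact adj p hp q hq hlt hs h1 h2
  · refine (sum_le_sum hpair).trans ?_
    rw [← mul_sum]
    have : (0 : ℝ) < i₁ := by exact_mod_cast (by omega : 0 < i₁)
    calc _ ≤ C₁ * Real.exp 1 * C₂ * r ^ 3 / (j * top ^ 2) * (8 / i₁) := by gcongr
      _ = _ := by field_simp

/-- nearly dead children of odd sets: with `R' = R₀ - tot ν - σ q`, use the second bound of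
`root_density` for `|ν| ≥ 3` and count pairs of sizes for `|ν| = 1` -/
theorem mass_dead : ∃ C : ℝ, 0 < C ∧ ∀ {σ : ℕ → ℕ} {μ : ℕ → ℝ} {U : Finset ℕ} {j top : ℕ} {R₀ : ℤ},
    Root σ μ U j top R₀ → ∀ (a' : ℕ) (θ : ℝ), 1 ≤ θ →
      (top : ℝ) ^ 4 * Real.exp (-((top : ℝ) / 2 - a') / θ) ≤ 1 →
      ∑ ν ∈ (nodes σ R₀ 0 U).filter (fun ν => Odd ν.card),
        ∑ q ∈ U.filter (fun q => (∀ p ∈ ν, q < p) ∧ (a' : ℤ) ≤ R₀ - tot σ ν - σ q ∧
            R₀ - tot σ ν - σ q < a' + 2 * σ q),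
          wt μ ν * μ q * Real.exp (-((R₀ - tot σ ν - σ q : ℤ) - (a' : ℝ)) / θ) ≤
        C * θ * ((a' + θ) ^ 2 / j + (1 + (a' : ℝ) / j) ^ 2 * Real.log top + (a' + θ)) / top ^ 2 := by
  obtain ⟨C, hC, h⟩ := mass_dead'
  exact ⟨C, hC, fun hR => h hR.toBS hR.lo hR.hi⟩

end Crest.Agent.R1
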