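import Crest.Agent.R1.Loc
import Crest.Agent.R1.MassD

/-!
# R1 / CDefs: regular nodes, families `τ = g ∪ x ∪ {u, t}`, centres
-/

set_option autoImplicit false

namespace Crest.Agent.R1

open Finset Filter
open scoped Classical

noncomputable section

/-- the constants of the first case -/
structure Cst where
  a : ℕ
  C₂ : ℕ
  K : ℕ
  s₁ : ℕ
  Kt : ℕ
  ρ : ℕ
  Kx : ℕ
  s₂ : ℕ

/-- lower end of the block of size `i`; the block lies in `R29.win (lo h i)` -/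
def lo (h i : ℕ) : ℕ := ⌈Real.exp (((i : ℝ) - 1) / h)⌉₊

/-- `1/p` on structured primes -/
def strw (X c b : ℤ) (p : ℕ) : ℝ := if Str X c b p then iv p else 0

/-- a family: `g`, the sizes of `u` and `t`, the total size and the parity of `x` -/
abbrev Fam : Type := Finset ℕ × ℕ × ℕ × ℕ × ℕ

/-- the node `g ∪ x ∪ {u, t}` -/
def nd4 (g x : Finset ℕ) (u t : ℕ) : Finset ℕ := insert u (insert t (g ∪ x))

namespace Cst

variable (c : Cst) (M : ℝ)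

def J : ℕ := un M c.K
def r : ℕ := c.s₁ * c.J M
def t1 : ℕ := un M c.Kt
def t2 : ℕ := c.ρ * c.t1 M
def ix : ℕ := un M c.Kx
def u1 (_c : Cst) (M : ℝ) : ℕ := ⌈hh M * LL M ^ (3 / 4 : ℝ)⌉₊
def u2 : ℕ := c.ρ * c.u1 M
def C₁ : ℕ := c.ρ * c.Kt + c.C₂ + 2
def R : ℤ := R0 M c.a
def U0 : Finset ℕ := Pr (hh M) (c.J M) (top M)

/-- `x` is a little smaller than a prime of size `i` -/
def Spl (i : ℕ) (x : Finset ℕ) : Prop :=
  (i : ℤ) - c.ix M - c.s₂ * c.ix M ≤ tot (sz (hh M)) x ∧ tot (sz (hh M)) x ≤ (i : ℤ) - c.ix M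

/-- a chosen such subset -/
def sp (i : ℕ) (m : Finset ℕ) : Finset ℕ :=
  if h : ∃ x, x ⊆ m ∧ c.Spl M i x then Classical.choose h else ∅

/-- regular nodes -/
def Reg (τ : Finset ℕ) : Prop :=
  c.R M - tot (sz (hh M)) τ ≤ c.r M ∧ τ.card ≤ hh M ∧
    (∃ t ∈ τ, c.t1 M ≤ sz (hh M) t ∧ sz (hh M) t < c.t2 M) ∧
    ∃ u ∈ τ, c.u1 M ≤ sz (hh M) u ∧ sz (hh M) u < c.u2 M ∧
      (∀ p ∈ τ, sz (hh M) p < c.u2 M → p ≤ u) ∧
      ∃ x, x ⊆ τ ∩ Pr (hh M) (c.ix M) (sz (hh M) u) ∧ c.Spl M (sz (hh M) u) x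

def fams : Finset Fam :=
  (c.U0 M).powerset ×ˢ Ico (c.u1 M) (c.u2 M) ×ˢ Ico (c.t1 M) (c.t2 M) ×ˢ range (c.u2 M) ×ˢ range 2

def FU (F : Fam) : Finset ℕ :=
  (Pr (hh M) F.2.1 (F.2.1 + 1)).filter (fun u => ∀ p ∈ F.1, sz (hh M) p < c.u2 M → p < u)

def FT (F : Fam) : Finset ℕ :=
  (Pr (hh M) F.2.2.1 (F.2.2.1 + 1)).filter (fun t => ∀ p ∈ F.1, sz (hh M) p < c.t2 M → p < t)

/-- the common remaining level of a family -/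
def Rf (F : Fam) : ℤ := c.R M - (tot (sz (hh M)) F.1 + F.2.2.2.1 + F.2.1 + F.2.2.1)

def FX (F : Fam) : Finset (Finset ℕ) :=
  (Pr (hh M) (c.ix M) F.2.1).powerset.filter (fun x => Disjoint x F.1 ∧ c.Spl M F.2.1 x ∧
    x = c.sp M F.2.1 ((F.1 ∪ x) ∩ Pr (hh M) (c.ix M) F.2.1) ∧
    tot (sz (hh M)) x = F.2.2.2.1 ∧ x.card % 2 = F.2.2.2.2 ∧ F.1.card + x.card + 2 ≤ hh M ∧
    c.Rf M F ≤ c.r M ∧
    ∃ u ∈ c.FU M F, ∃ t ∈ c.FT M F, Alive (sz (hh M)) (c.R M) 0 (nd4 F.1 x u t))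

/-- the common order of magnitude of `pd x` -/
def X0f (_c : Cst) (M : ℝ) (F : Fam) : ℕ := ⌈Real.exp ((F.2.2.2.1 : ℝ) / hh M - 1)⌉₊

/-- the remainder term of a node -/
def remN (X : ℤ) (τ : Finset ℕ) : ℝ :=
  remLoc M X (hh M) (i0 M) (c.J M) τ.card (c.R M - tot (sz (hh M)) τ) τ

/-- popular centres -/
def Cen (X : ℤ) : Finset (ℤ × ℤ) :=
  (Icc 1 ⌊LL M ^ c.C₂⌋ ×ˢ Icc (-⌊M * LL M ^ c.C₁⌋) ⌊M * LL M ^ c.C₁⌋).filter (fun z =>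
    IsCoprime z.1 z.2 ∧ ∃ i ∈ Ico (c.t1 M) (c.t2 M),
      (lo (hh M) i : ℝ) / LL M ^ c.C₂ ≤ ((R29.win (lo (hh M) i)).filter (Str X z.1 z.2)).card)

/-- the ranges are in the right order -/
structure Ord : Prop where
  h_ge : 2 ≤ hh M
  h_le : hh M ≤ i0 M
  i0_le : i0 M ≤ c.J M
  J_le : c.J M ≤ c.t1 M
  t2_le : c.t2 M ≤ c.ix M
  ix_le : c.ix M ≤ c.u1 M
  u2_le : c.u2 M ≤ top M
  t_le : c.t1 M ≤ c.t2 M
  u_le : c.u1 M ≤ c.u2 M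

end Cst

/-! ### definitions for the second case -/

def v1 (M : ℝ) : ℕ := ⌈hh M * LL M ^ (7 / 10 : ℝ)⌉₊
def v2 (M : ℝ) : ℕ := ⌈hh M * LL M ^ (8 / 10 : ℝ)⌉₊

/-- the loss of level that makes the sieve exact -/
def ap (M a : ℝ) : ℕ := (R0 M a - ⌊hh M * LL M⌋₊).toNat

/-- `μ` has almost full mass on the size `i` -/
def GoodB (h : ℕ) (μ : ℕ → ℝ) (δ : ℝ) (i : ℕ) : Prop :=
  (1 - δ) * ∑ p ∈ Pr h i (i + 1), iv p ≤ ∑ p ∈ Pr h i (i + 1), μ p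

/-- nodes with their largest prime of good middle size `i` removed -/
def Tset (M a : ℝ) (J s : ℕ) (μ : ℕ → ℝ) (δ : ℝ) (i : ℕ) : Finset (Finset ℕ) :=
  (Pr (hh M) J (top M)).powerset.filter (fun τ =>
    (∀ p ∈ τ, sz (hh M) p ≠ i ∧
      ¬ (i < sz (hh M) p ∧ sz (hh M) p < v2 M ∧ GoodB (hh M) μ δ (sz (hh M) p))) ∧
    τ.card < hh M ∧ R0 M a - tot (sz (hh M)) τ - i ≤ ((s * J : ℕ) : ℤ) ∧
    ∀ u ∈ Pr (hh M) i (i + 1), Alive (sz (hh M)) (R0 M a) 0 (insert u τ))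

end

end Crest.Agent.R1
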