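import Crest.Agent.R1.Defs

/-!
# R1 / ModelA: the extremal sequence `(1 + λ(N)) (⌊x/N⌋ mod 2)` in arithmetic progressions `0 mod d`
-/

set_option autoImplicit false

namespace Crest.Agent.R1

open Finset Filter ArithmeticFunction
open scoped Classical

theorem mA_alt {a : ℕ → ℝ} (ha : Antitone a) (h0 : ∀ k, 0 ≤ a k) (n K : ℕ) :
    0 ≤ ∑ i ∈ range n, (-1) ^ i * a (K + i) ∧ ∑ i ∈ range n, (-1) ^ i * a (K + i) ≤ a K := by
  induction n generalizing K with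
  | zero => simpa using h0 K
  | succ n ih =>
    have h1 : ∑ i ∈ range (n + 1), (-1 : ℝ) ^ i * a (K + i) =
        a K - ∑ i ∈ range n, (-1) ^ i * a (K + 1 + i) := by
      rw [sum_range_succ', sub_eq_neg_add, ← sum_neg_distrib]
      simp only [pow_zero, add_zero, one_mul, add_left_inj]
      exact sum_congr rfl fun i _ => by rw [pow_succ, add_assoc K, add_comm 1 i]; ring
    have h2 := ih (K + 1)
    have h3 := ha (Nat.le_succ K)
    rw [h1]
    constructor <;> linarith [h2.1, h2.2]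

theorem mA_alt' {a : ℕ → ℝ} (ha : Antitone a) (h0 : ∀ k, 0 ≤ a k) {n K : ℕ} (h : K ≤ n) :
    |∑ i ∈ range n, (-1) ^ i * a i - ∑ i ∈ range K, (-1) ^ i * a i| ≤ a K := by
  obtain ⟨n, rfl⟩ := Nat.exists_eq_add_of_le h
  have h1 : ∑ i ∈ range n, (-1 : ℝ) ^ (K + i) * a (K + i) =
      (-1) ^ K * ∑ i ∈ range n, (-1) ^ i * a (K + i) := by
    rw [mul_sum]
    exact sum_congr rfl fun i _ => by rw [pow_add, mul_assoc]
  rw [sum_range_add, add_sub_cancel_left, h1, abs_mul, abs_neg_one_pow, one_mul,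
    abs_of_nonneg (mA_alt ha h0 n K).1]
  exact (mA_alt ha h0 n K).2

theorem mA_kappa : ∃ κ : ℝ, 1 / 2 ≤ κ ∧ κ ≤ 1 ∧
    ∀ K : ℕ, |κ - ∑ i ∈ range K, (-1) ^ i * (1 / ((i : ℝ) + 1))| ≤ 1 / ((K : ℝ) + 1) := by
  have ha : Antitone fun i : ℕ => 1 / ((i : ℝ) + 1) := fun i j h =>
    one_div_le_one_div_of_le (by positivity) (by exact_mod_cast Nat.succ_le_succ h)
  obtain ⟨κ, hκ⟩ := ha.tendsto_alternating_series_of_tendsto_zero
    tendsto_one_div_add_atTop_nhds_zero_nat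
  refine ⟨κ, ?_, ?_, fun K => ?_⟩
  · have := ha.alternating_series_le_tendsto hκ 1
    norm_num [sum_range_succ] at this
    exact this
  · simpa using ha.tendsto_le_alternating_series hκ 0
  · refine le_of_tendsto (hκ.sub_const _).abs ?_
    filter_upwards [eventually_ge_atTop K] with n hn
    exact mA_alt' ha (fun k => by positivity) hn

theorem mA_mod (y : ℕ) : ∑ m ∈ Icc 1 y, ((y / m % 2 : ℕ) : ℝ) =
    ∑ k ∈ range y, (-1) ^ k * ((y / (k + 1) : ℕ) : ℝ) := by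
  have h1 : ∀ m ∈ Icc 1 y, ((y / m % 2 : ℕ) : ℝ) =
      ∑ k ∈ range y, if (k + 1) * m ≤ y then (-1 : ℝ) ^ k else 0 := by
    intro m hm
    have hm1 : 0 < m := (mem_Icc.1 hm).1
    have : (range y).filter (fun k => (k + 1) * m ≤ y) = range (y / m) := by
      ext k
      have := Nat.div_le_self y m
      rw [mem_filter, mem_range, mem_range, ← Nat.le_div_iff_mul_le hm1]
      omega
    rw [← sum_filter, this, neg_one_geom_sum]
    rcases Nat.even_or_odd (y / m) with h | h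
    · rw [if_pos h, Nat.even_iff.1 h, Nat.cast_zero]
    · rw [if_neg (Nat.not_even_iff_odd.2 h), Nat.odd_iff.1 h, Nat.cast_one]
  rw [sum_congr rfl h1, sum_comm]
  refine sum_congr rfl fun k _ => ?_
  have : (Icc 1 y).filter (fun m => (k + 1) * m ≤ y) = Icc 1 (y / (k + 1)) := by
    ext m
    have := Nat.div_le_self y (k + 1)
    rw [mem_filter, mem_Icc, mem_Icc, mul_comm, ← Nat.le_div_iff_mul_le (Nat.succ_pos k)]
    simp only [Nat.succ_eq_add_one]
    omega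
  rw [← sum_filter, this, sum_const, Nat.card_Icc, nsmul_eq_mul, mul_comm]
  simp

theorem mA_S1 {κ : ℝ}
    (hκ : ∀ K : ℕ, |κ - ∑ i ∈ range K, (-1) ^ i * (1 / ((i : ℝ) + 1))| ≤ 1 / ((K : ℝ) + 1))
    (x d : ℕ) (hd : 0 < d) :
    |∑ m ∈ Icc 1 (x / d), ((x / d / m % 2 : ℕ) : ℝ) - κ * x / d| ≤ 3 * Real.sqrt (x / d) := by
  have hY : (0 : ℝ) ≤ x / d := by positivity
  have hfl : ∀ k : ℕ, ((x / d / (k + 1) : ℕ) : ℝ) ≤ x / d * (1 / ((k : ℝ) + 1)) ∧
      (x : ℝ) / d * (1 / ((k : ℝ) + 1)) ≤ ((x / d / (k + 1) : ℕ) : ℝ) + 1 := fun k => by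
    have e : (x : ℝ) / d * (1 / ((k : ℝ) + 1)) = x / ((d * (k + 1) : ℕ) : ℝ) := by
      push_cast
      field_simp
    rw [Nat.div_div_eq_div_mul, e, ← Nat.floor_div_eq_div (K := ℝ)]
    exact ⟨Nat.floor_le (by positivity), (Nat.lt_floor_add_one _).le⟩
  have hK1 : ((x / d).sqrt : ℝ) ≤ Real.sqrt (x / d) :=
    Real.nat_sqrt_le_real_sqrt.trans (Real.sqrt_le_sqrt Nat.cast_div_le)
  have hK2 : Real.sqrt (x / d) ≤ ((x / d).sqrt : ℝ) + 1 := by
    rw [Real.sqrt_le_iff]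
    refine ⟨by positivity, ?_⟩
    have h1 : x / d + 1 ≤ ((x / d).sqrt + 1) ^ 2 := Nat.lt_succ_sqrt' (x / d)
    have h2 : (x : ℝ) / d ≤ ((x / d : ℕ) : ℝ) + 1 := by
      rw [← Nat.floor_div_eq_div (K := ℝ)]
      exact (Nat.lt_floor_add_one _).le
    exact h2.trans (by exact_mod_cast h1)
  have h1 := mA_alt' (a := fun k => ((x / d / (k + 1) : ℕ) : ℝ))
    (fun i j h => Nat.cast_le.2 (Nat.div_le_div_left (Nat.succ_le_succ h) (Nat.succ_pos i)))
    (fun k => by positivity) (Nat.sqrt_le_self (x / d))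
  have h2 := hκ (x / d).sqrt
  rw [mA_mod, mul_div_assoc]
  generalize (x / d).sqrt = K at *
  generalize (x : ℝ) / d = Y at *
  have h3 : |∑ i ∈ range K, (-1 : ℝ) ^ i * ((x / d / (i + 1) : ℕ) : ℝ) -
      Y * ∑ i ∈ range K, (-1) ^ i * (1 / ((i : ℝ) + 1))| ≤ K := by
    rw [mul_sum, ← sum_sub_distrib]
    refine (abs_sum_le_sum_abs _ _).trans ((sum_le_card_nsmul _ _ 1 fun i _ => ?_).trans (by simp))
    rw [mul_left_comm, ← mul_sub, abs_mul, abs_neg_one_pow, one_mul, abs_le]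
    constructor <;> linarith [(hfl i).1, (hfl i).2]
  have h4 : Y * (1 / ((K : ℝ) + 1)) ≤ Real.sqrt Y := by
    rw [mul_one_div, div_le_iff₀ (by positivity)]
    nlinarith [Real.mul_self_sqrt hY, Real.sqrt_nonneg Y]
  have h5 : |κ * Y - Y * ∑ i ∈ range K, (-1) ^ i * (1 / ((i : ℝ) + 1))| ≤ Real.sqrt Y := by
    rw [mul_comm κ, ← mul_sub, abs_mul, abs_of_nonneg hY]
    exact (mul_le_mul_of_nonneg_left h2 hY).trans h4
  have h6 := (hfl K).1
  rw [abs_le] at h1 h3 h5 ⊢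
  constructor <;> linarith [h1.1, h1.2, h3.1, h3.2, h5.1, h5.2]

theorem mA_conv (n : ℕ) : 0 ≤ (liouville * (zeta : ArithmeticFunction ℤ)) n ∧
    (liouville * (zeta : ArithmeticFunction ℤ)) n ≤ if IsSquare n then 1 else 0 := by
  have hm : IsMultiplicative (liouville * (zeta : ArithmeticFunction ℤ)) :=
    isMultiplicative_liouville.mul isMultiplicative_zeta.natCast
  induction n using Nat.recOnPosPrimePosCoprime with
  | prime_pow p k hp hk =>
    have e : (liouville * (zeta : ArithmeticFunction ℤ)) (p ^ k) = if Even (k + 1) then 0 else 1 := by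
      rw [coe_mul_zeta_apply, Nat.sum_divisors_prime_pow hp, ← neg_one_geom_sum]
      exact sum_congr rfl fun i _ => by
        rw [liouville_apply (pow_ne_zero _ hp.ne_zero), cardFactors_apply_prime_pow hp]
    rw [e]
    by_cases h : Even (k + 1)
    · rw [if_pos h]
      exact ⟨le_rfl, by split_ifs <;> norm_num⟩
    · rw [if_neg h, if_pos (Even.isSquare_pow (by simpa [Nat.even_add_one] using h) p)]
      exact ⟨zero_le_one, le_rfl⟩
  | zero => simp
  | one => rw [hm.map_one, if_pos IsSquare.one]; exact ⟨zero_le_one, le_rfl⟩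
  | coprime a b _ _ hab iha ihb =>
    rw [hm.map_mul_of_coprime hab]
    refine ⟨mul_nonneg iha.1 ihb.1, ?_⟩
    by_cases ha : IsSquare a
    · by_cases hb : IsSquare b
      · rw [if_pos ha] at iha
        rw [if_pos hb] at ihb
        rw [if_pos (ha.mul hb)]
        exact mul_le_one₀ iha.2 ihb.1 ihb.2
      · rw [if_neg hb] at ihb
        rw [le_antisymm ihb.2 ihb.1, mul_zero]
        split_ifs <;> norm_num
    · rw [if_neg ha] at iha
      rw [le_antisymm iha.2 iha.1, zero_mul]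
      split_ifs <;> norm_num

theorem mA_T (y z : ℕ) (hz : z ≤ y) :
    0 ≤ ∑ m ∈ Icc 1 y, (-1 : ℝ) ^ cardFactors m * ((z / m : ℕ) : ℝ) ∧
      ∑ m ∈ Icc 1 y, (-1 : ℝ) ^ cardFactors m * ((z / m : ℕ) : ℝ) ≤ Real.sqrt y := by
  have e : ∑ m ∈ Icc 1 y, (-1 : ℝ) ^ cardFactors m * ((z / m : ℕ) : ℝ) =
      ((∑ n ∈ Ioc 0 z, (liouville * (zeta : ArithmeticFunction ℤ)) n : ℤ) : ℝ) := by
    rw [sum_Ioc_mul_zeta_eq_sum, Int.cast_sum]
    symm
    refine sum_subset_zero_on_sdiff (fun m hm => ?_) (fun m hm => ?_) fun m hm => ?_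
    · rw [mem_Ioc] at hm
      rw [mem_Icc]
      omega
    · rw [Finset.mem_sdiff, mem_Icc, mem_Ioc] at hm
      rw [Nat.div_eq_of_lt (by omega), Nat.cast_zero, mul_zero]
    · rw [liouville_apply (mem_Ioc.1 hm).1.ne', Int.cast_mul, Int.cast_natCast]
      simp
  rw [e]
  refine ⟨by exact_mod_cast sum_nonneg fun n _ => (mA_conv n).1, ?_⟩
  have h1 : ((Ioc 0 z).filter IsSquare).card ≤ y.sqrt := by
    refine (card_le_card (t := (Ioc 0 y.sqrt).image fun r => r * r) fun n hn => ?_).trans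
      (card_image_le.trans (by simp))
    obtain ⟨hn, r, rfl⟩ := mem_filter.1 hn
    rw [mem_Ioc] at hn
    exact mem_image.2 ⟨r, mem_Ioc.2 ⟨Nat.pos_of_mul_pos_left hn.1, Nat.le_sqrt.2 (hn.2.trans hz)⟩, rfl⟩
  have h2 : ∑ n ∈ Ioc 0 z, (liouville * (zeta : ArithmeticFunction ℤ)) n ≤ (y.sqrt : ℤ) := by
    refine (sum_le_sum fun n _ => (mA_conv n).2).trans ?_
    rw [sum_boole]
    exact_mod_cast h1
  exact le_trans (by exact_mod_cast h2) Real.nat_sqrt_le_real_sqrt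

theorem mA_S2 (y : ℕ) :
    |∑ m ∈ Icc 1 y, (-1 : ℝ) ^ cardFactors m * ((y / m % 2 : ℕ) : ℝ)| ≤ 2 * Real.sqrt y := by
  have h1 := mA_T y y le_rfl
  have h2 := mA_T y (y / 2) (Nat.div_le_self _ _)
  have e : ∑ m ∈ Icc 1 y, (-1 : ℝ) ^ cardFactors m * ((y / m % 2 : ℕ) : ℝ) =
      ∑ m ∈ Icc 1 y, (-1 : ℝ) ^ cardFactors m * ((y / m : ℕ) : ℝ) -
        2 * ∑ m ∈ Icc 1 y, (-1 : ℝ) ^ cardFactors m * ((y / 2 / m : ℕ) : ℝ) := by
    rw [mul_sum, ← sum_sub_distrib]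
    refine sum_congr rfl fun m _ => ?_
    have h3 : ((y / m : ℕ) : ℝ) = 2 * ((y / 2 / m : ℕ) : ℝ) + ((y / m % 2 : ℕ) : ℝ) := by
      rw [Nat.div_div_eq_div_mul, mul_comm 2 m, ← Nat.div_div_eq_div_mul]
      exact_mod_cast (Nat.div_add_mod (y / m) 2).symm
    rw [h3]
    ring
  rw [e, abs_le]
  constructor <;> linarith [h1.1, h1.2, h2.1, h2.2]

theorem mA_dvd : ∃ κ : ℝ, 1 / 2 ≤ κ ∧ κ ≤ 1 ∧ ∀ x d : ℕ, 0 < d →
    |∑ N ∈ (Icc 1 x).filter (fun N => d ∣ N), (1 + (-1 : ℝ) ^ cardFactors N) * ((x / N % 2 : ℕ) : ℝ) -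
      κ * x / d| ≤ 10 * Real.sqrt (x / d) := by
  obtain ⟨κ, h1, h2, hκ⟩ := mA_kappa
  refine ⟨κ, h1, h2, fun x d hd => ?_⟩
  have e1 : (Icc 1 x).filter (fun N => d ∣ N) = (Icc 1 (x / d)).image fun m => d * m := by
    ext N
    simp only [mem_filter, mem_Icc, mem_image]
    constructor
    · rintro ⟨⟨a, b⟩, m, rfl⟩
      exact ⟨m, ⟨Nat.pos_of_mul_pos_left a, (Nat.le_div_iff_mul_le hd).2 (mul_comm d m ▸ b)⟩, rfl⟩
    · rintro ⟨m, ⟨a, b⟩, rfl⟩
      exact ⟨⟨Nat.mul_pos hd a, mul_comm m d ▸ (Nat.le_div_iff_mul_le hd).1 b⟩, dvd_mul_right _ _⟩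
  have e2 : ∑ m ∈ Icc 1 (x / d), (1 + (-1 : ℝ) ^ cardFactors (d * m)) * ((x / (d * m) % 2 : ℕ) : ℝ) =
      ∑ m ∈ Icc 1 (x / d), ((x / d / m % 2 : ℕ) : ℝ) + (-1) ^ cardFactors d *
        ∑ m ∈ Icc 1 (x / d), (-1 : ℝ) ^ cardFactors m * ((x / d / m % 2 : ℕ) : ℝ) := by
    rw [mul_sum, ← sum_add_distrib]
    refine sum_congr rfl fun m hm => ?_
    rw [cardFactors_mul hd.ne' (by have := (mem_Icc.1 hm).1; omega), Nat.div_div_eq_div_mul, pow_add]
    ring
  have h3 := mA_S1 hκ x d hd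
  have h4 := (mA_S2 (x / d)).trans
    (mul_le_mul_of_nonneg_left (Real.sqrt_le_sqrt Nat.cast_div_le) zero_le_two)
  rw [e1, sum_image fun a _ b _ h => Nat.eq_of_mul_eq_mul_left hd h, e2, add_sub_right_comm]
  refine (abs_add_le _ _).trans ?_
  rw [abs_mul, abs_neg_one_pow, one_mul]
  linarith [Real.sqrt_nonneg ((x : ℝ) / d)]

theorem mA_le_two (x N : ℕ) : 0 ≤ (1 + (-1 : ℝ) ^ cardFactors N) * ((x / N % 2 : ℕ) : ℝ) ∧
    (1 + (-1 : ℝ) ^ cardFactors N) * ((x / N % 2 : ℕ) : ℝ) ≤ 2 := by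
  rcases neg_one_pow_eq_or ℝ (cardFactors N) with h | h <;>
    rcases Nat.mod_two_eq_zero_or_one (x / N) with h' | h' <;> rw [h, h'] <;> norm_num

theorem mA_pd_dvd {P ω : Finset ℕ} (hP : ∀ p ∈ P, p.Prime) {N : ℕ}
    (h : ω ⊆ P.filter fun p => p ∣ N) : pd ω ∣ N :=
  Finset.prod_primes_dvd N (fun p hp => (hP p (mem_filter.1 (h hp)).1).prime)
    fun _ hp => (mem_filter.1 (h hp)).2

theorem mA_card_pd {ω : Finset ℕ} (hω : ∀ p ∈ ω, p.Prime) : pd ω ≠ 0 ∧ cardFactors (pd ω) = ω.card := by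
  induction ω using Finset.induction_on with
  | empty => simp [pd]
  | insert p ω hp ih =>
    have h1 := ih fun q hq => hω q (mem_insert_of_mem hq)
    have h2 := hω p (mem_insert_self _ _)
    have e : pd (insert p ω) = p * pd ω := prod_insert hp
    rw [e, cardFactors_mul h2.ne_zero h1.1, h1.2, cardFactors_apply_prime h2, card_insert_of_notMem hp]
    exact ⟨mul_ne_zero h2.ne_zero h1.1, add_comm _ _⟩

theorem mA_leaf (x : ℕ) {P ω : Finset ℕ} (hP : ∀ p ∈ P, p.Prime) (hω : ω ⊆ P) {q : ℕ}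
    (hlow : ∀ l : ℕ, l.Prime → l < q → l ∈ P) (hev : Even ω.card) (hx : x < pd ω * q ^ 2) :
    ∑ N ∈ Icc 1 x, (1 + (-1 : ℝ) ^ cardFactors N) * ((x / N % 2 : ℕ) : ℝ) *
      (if ω ⊆ P.filter (fun p => p ∣ N) ∧ ∀ l ∈ P.filter (fun p => p ∣ N), q ≤ l then 1 else 0) ≤
      if pd ω ≤ x then 2 else 0 := by
  refine (sum_le_sum (g := fun N => if N = pd ω then 2 else 0) fun N hN => ?_).trans ?_
  · rw [mem_Icc] at hN
    have h2 := mA_le_two x N
    split_ifs with h1 h3 h3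
    · simpa using h2.2
    · obtain ⟨m, rfl⟩ := mA_pd_dvd hP h1.1
      have hq : ∀ l, l.Prime → l ∣ m → q ≤ l := fun l hl hm => by
        by_contra hlt
        exact hlt (h1.2 l (mem_filter.2 ⟨hlow l hl (not_le.1 hlt), hm.mul_left _⟩))
      have hc := mA_card_pd fun p hp => hP p (hω hp)
      have hm0 : m ≠ 0 := by
        rintro rfl
        omega
      have hm1 : m ≠ 1 := by
        rintro rfl
        exact h3 (mul_one _)
      have hp : m.Prime := by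
        by_contra hnp
        have h4 := Nat.minFac_sq_le_self (Nat.pos_of_ne_zero hm0) hnp
        have h5 := Nat.pow_le_pow_left (hq _ (Nat.minFac_prime hm1) (Nat.minFac_dvd m)) 2
        have h6 := Nat.mul_le_mul_left (pd ω) (h5.trans h4)
        omega
      rw [cardFactors_mul hc.1 hm0, hc.2, cardFactors_apply_prime hp, pow_succ, hev.neg_one_pow]
      simp
    · simp
    · simp
  · rw [sum_ite_eq']
    by_cases h : pd ω ≤ x
    · rw [if_pos h]
      split_ifs <;> norm_num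
    · rw [if_neg h, if_neg fun h' => h (mem_Icc.1 h').2]

theorem mA_triv (x : ℕ) {P ω : Finset ℕ} (hP : ∀ p ∈ P, p.Prime) :
    ∑ N ∈ Icc 1 x, (1 + (-1 : ℝ) ^ cardFactors N) * ((x / N % 2 : ℕ) : ℝ) *
      ind ω ∅ (P.filter fun p => p ∣ N) ≤ 2 * x * wt iv ω := by
  refine (sum_le_sum (g := fun N => 2 * if pd ω ∣ N then 1 else 0) fun N _ => ?_).trans ?_
  · have h2 := mA_le_two x N
    unfold ind
    split_ifs with h1 h3 h3
    · simpa using h2.2
    · exact absurd (mA_pd_dvd hP h1.1) h3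
    · simp
    · simp
  · have e1 : Icc 1 x = Ioc 0 x := by
      ext N
      simp only [mem_Icc, mem_Ioc]
      omega
    have e2 : wt iv ω = 1 / (pd ω : ℝ) := by simp [wt, iv, pd]
    rw [← mul_sum, sum_boole, e1, Nat.Ioc_filter_dvd_card_eq_div, e2, mul_assoc, mul_one_div]
    exact mul_le_mul_of_nonneg_left Nat.cast_div_le zero_le_two

end Crest.Agent.R1
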