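import Crest.Agent.R1.Ew

/-!
# R1 / ModelB: survivors and the fundamental lemma for a general non-negative sequence
-/

set_option autoImplicit false

namespace Crest.Agent.R1

open Finset
open scoped Classical

theorem ModelB_sqrt (n : ℕ) : ∑ m ∈ Icc 1 n, 1 / Real.sqrt m ≤ 2 * Real.sqrt n := by
  induction n with
  | zero => simp
  | succ n ih =>
    rw [sum_Icc_succ_top (Nat.le_add_left 1 n)]
    have h1 : 0 < Real.sqrt ((n + 1 : ℕ) : ℝ) := Real.sqrt_pos.2 (by positivity)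
    have h2 := Real.mul_self_sqrt (show (0 : ℝ) ≤ ((n + 1 : ℕ) : ℝ) by positivity)
    have h3 := Real.mul_self_sqrt (show (0 : ℝ) ≤ (n : ℝ) by positivity)
    have h4 : 1 / Real.sqrt ((n + 1 : ℕ) : ℝ) ≤ 2 * Real.sqrt ((n + 1 : ℕ) : ℝ) - 2 * Real.sqrt n := by
      rw [div_le_iff₀ h1]
      push_cast at h2 ⊢
      nlinarith [sq_nonneg (Real.sqrt ((n : ℝ) + 1) - Real.sqrt n)]
    linarith

theorem ModelB_rem {V : Finset ℕ} (hV : ∀ p ∈ V, p.Prime) {D : ℝ} (hD : 0 ≤ D) {lam : Finset ℕ → ℝ}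
    (h1 : ∀ T, |lam T| ≤ 1) (h2 : ∀ T, lam T ≠ 0 → (pd T : ℝ) ≤ D) :
    ∑ T ∈ V.powerset, |lam T| * (1 / Real.sqrt (pd T)) ≤ 2 * Real.sqrt D := by
  have hp : ∀ T ∈ V.powerset.filter (fun T => lam T ≠ 0), ∀ p ∈ T, p.Prime := fun T hT p hp =>
    hV p (mem_powerset.1 (mem_filter.1 hT).1 hp)
  calc ∑ T ∈ V.powerset, |lam T| * (1 / Real.sqrt (pd T))
      = ∑ T ∈ V.powerset.filter (fun T => lam T ≠ 0), |lam T| * (1 / Real.sqrt (pd T)) := by
        refine (sum_filter_of_ne ?_).symm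
        intro T _ h h0
        exact h (by rw [h0, abs_zero, zero_mul])
    _ ≤ ∑ T ∈ V.powerset.filter (fun T => lam T ≠ 0), 1 / Real.sqrt (pd T) :=
        sum_le_sum fun T _ => mul_le_of_le_one_left (by positivity) (h1 T)
    _ = ∑ m ∈ (V.powerset.filter (fun T => lam T ≠ 0)).image pd, 1 / Real.sqrt m := by
        rw [sum_image]
        intro T hT T' hT' h
        rw [← primeFactors_pd (hp T hT), h, primeFactors_pd (hp T' hT')]
    _ ≤ ∑ m ∈ Icc 1 ⌊D⌋₊, 1 / Real.sqrt m := by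
        refine sum_le_sum_of_subset_of_nonneg (fun m hm => ?_) fun m _ _ => by positivity
        obtain ⟨T, hT, rfl⟩ := mem_image.1 hm
        exact mem_Icc.2 ⟨pd_pos (hp T hT), Nat.le_floor (h2 T (mem_filter.1 hT).2)⟩
    _ ≤ 2 * Real.sqrt D := (ModelB_sqrt _).trans
        (mul_le_mul_of_nonneg_left (Real.sqrt_le_sqrt (Nat.floor_le hD)) zero_le_two)

theorem ModelB_ind (a : ℕ → ℝ) (x : ℕ) {P T : Finset ℕ} (hP : ∀ p ∈ P, p.Prime) (hT : T ⊆ P) :
    ∑ N ∈ Icc 1 x, a N * ind T ∅ (P.filter fun p => p ∣ N) =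
      ∑ N ∈ (Icc 1 x).filter (fun N => pd T ∣ N), a N := by
  rw [sum_filter]
  refine sum_congr rfl fun N _ => ?_
  have h : T ⊆ P.filter (fun p => p ∣ N) ↔ pd T ∣ N := by
    rw [← Int.natCast_dvd_natCast, pd_dvd_iff fun p hp => hP p (hT hp)]
    simp only [Int.natCast_dvd_natCast]
    exact ⟨fun h p hp => (mem_filter.1 (h hp)).2, fun h p hp => mem_filter.2 ⟨hT hp, h p hp⟩⟩
  simp [ind, h]

theorem ModelB_FL (a : ℕ → ℝ) (ha : ∀ N, 0 ≤ a N) (x : ℕ) {κ : ℝ} (hκ0 : 0 ≤ κ) (hκ : ∀ d : ℕ, 0 < d →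
      |∑ N ∈ (Icc 1 x).filter (fun N => d ∣ N), a N - κ * x / d| ≤ 10 * Real.sqrt (x / d))
    {P τ V : Finset ℕ} (hP : ∀ p ∈ P, p.Prime) (hτ : τ ⊆ P) (hV : V ⊆ P) (hd : Disjoint τ V)
    {y D : ℝ} (hy : 2 ≤ y) (hVy : ∀ p ∈ V, (p : ℝ) ≤ y) (hD : y ^ (1 / 4 : ℝ) ≤ D) :
    |∑ N ∈ Icc 1 x, a N * ind τ V (P.filter fun p => p ∣ N) - κ * x * wt iv τ * ∏ p ∈ V, (1 - iv p)| ≤
      Cfl * Real.exp (-(Real.log D / Real.log y) / Cfl) * (κ * x * wt iv τ * ∏ p ∈ V, (1 - iv p)) +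
        20 * Real.sqrt (x * D / pd τ) := by
  have hVp : ∀ p ∈ V, p.Prime ∧ (p : ℝ) ≤ y := fun p hp => ⟨hP p (hV hp), hVy p hp⟩
  have hg : ∀ p ∈ V, 0 ≤ iv p ∧ iv p ≤ 1 / 2 ∧ iv p ≤ 2 / p := fun p hp => by
    have h2 : (2 : ℝ) ≤ p := by exact_mod_cast (hVp p hp).1.two_le
    unfold iv
    exact ⟨by positivity, by gcongr, by gcongr; norm_num⟩
  have hw : 0 ≤ κ * x * wt iv τ := by rw [wt_iv]; positivity
  have hD0 : 0 ≤ D := (Real.rpow_nonneg (by linarith) _).trans hD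
  have hτ0 : 0 < pd τ := pd_pos fun p hp => hP p (hτ hp)
  have key : ∀ e : ℕ, (-1 : ℝ) ^ e * (κ * x * wt iv τ * ∑ T ∈ V.powerset, flw e V y D T * wt iv T) -
      20 * Real.sqrt (x * D / pd τ) ≤
      (-1 : ℝ) ^ e * ∑ N ∈ Icc 1 x, a N * ind τ V (P.filter fun p => p ∣ N) := by
    intro e
    obtain ⟨hsw, -⟩ := flw_spec e hy hVp hD
    set lam := flw e V y D
    have h1 : (-1 : ℝ) ^ e * ∑ T ∈ V.powerset, lam T *
        ∑ N ∈ (Icc 1 x).filter (fun N => pd τ * pd T ∣ N), a N ≤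
        (-1 : ℝ) ^ e * ∑ N ∈ Icc 1 x, a N * ind τ V (P.filter fun p => p ∣ N) := by
      have e1 : ∑ T ∈ V.powerset, lam T * ∑ N ∈ (Icc 1 x).filter (fun N => pd τ * pd T ∣ N), a N =
          ∑ N ∈ Icc 1 x, a N * ∑ T ∈ V.powerset, lam T * ind (τ ∪ T) ∅ (P.filter fun p => p ∣ N) := by
        simp only [mul_sum (s := V.powerset)]
        rw [sum_comm]
        refine sum_congr rfl fun T hT => ?_
        have hTV := mem_powerset.1 hT
        have e2 : pd (τ ∪ T) = pd τ * pd T := prod_union (hd.mono_right hTV)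
        rw [← e2, ← ModelB_ind a x hP (union_subset hτ (hTV.trans hV)), mul_sum]
        exact sum_congr rfl fun N _ => by ring
      rw [e1, mul_sum, mul_sum]
      refine sum_le_sum fun N _ => ?_
      rw [mul_left_comm, mul_left_comm _ (a N)]
      refine mul_le_mul_of_nonneg_left ?_ (ha N)
      generalize P.filter (fun p => p ∣ N) = S
      rw [ew_sum_ind]
      have h2 := hsw.ineq (S ∩ V) inter_subset_right
      unfold ind
      by_cases h3 : τ ⊆ S
      · simpa only [h3, if_true, true_and, one_mul, disjoint_iff_inter_eq_empty] using h2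
      · simp [h3]
    have h2 : |∑ T ∈ V.powerset, lam T * ∑ N ∈ (Icc 1 x).filter (fun N => pd τ * pd T ∣ N), a N -
        κ * x * wt iv τ * ∑ T ∈ V.powerset, lam T * wt iv T| ≤ 20 * Real.sqrt (x * D / pd τ) := by
      have e1 := mul_le_mul_of_nonneg_left (ModelB_rem (fun p hp => (hVp p hp).1) hD0 hsw.abs_le
        fun T hT => (hsw.supp T hT).2) (show 0 ≤ 10 * Real.sqrt (x / pd τ) by positivity)
      have e2 : 10 * Real.sqrt (x / pd τ) * (2 * Real.sqrt D) = 20 * Real.sqrt (x * D / pd τ) := by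
        rw [mul_div_right_comm, Real.sqrt_mul' _ hD0]
        ring
      rw [e2, mul_sum] at e1
      rw [mul_sum, ← sum_sub_distrib]
      refine (abs_sum_le_sum_abs _ _).trans (le_trans (sum_le_sum fun T hT => ?_) e1)
      have hT0 : 0 < pd T := pd_pos fun p hp => (hVp p (mem_powerset.1 hT hp)).1
      have e3 := hκ _ (Nat.mul_pos hτ0 hT0)
      have e4 : κ * x * wt iv τ * (lam T * wt iv T) = lam T * (κ * x / (pd τ * pd T : ℕ)) := by
        rw [wt_iv, wt_iv]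
        push_cast
        ring
      have e5 : Real.sqrt (x / (pd τ * pd T : ℕ)) = Real.sqrt (x / pd τ) * (1 / Real.sqrt (pd T)) := by
        rw [Nat.cast_mul, ← div_div, Real.sqrt_div' _ (Nat.cast_nonneg _), mul_one_div]
      rw [e4, ← mul_sub, abs_mul, mul_left_comm, mul_assoc, ← e5]
      exact mul_le_mul_of_nonneg_left e3 (abs_nonneg _)
    refine le_trans ?_ h1
    have h3 := abs_le.1 h2
    rcases neg_one_pow_eq_or ℝ e with h4 | h4 <;> rw [h4] <;> linarith [h3.1, h3.2]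
  have k0 := key 0
  have k1 := key 1
  have q0 := abs_le.1 ((flw_spec 0 hy hVp hD).2 iv hg)
  have q1 := abs_le.1 ((flw_spec 1 hy hVp hD).2 iv hg)
  rw [pow_zero, one_mul, one_mul] at k0
  rw [pow_one, neg_one_mul, neg_one_mul] at k1
  have a0 := mul_le_mul_of_nonneg_left q0.1 hw
  have a1 := mul_le_mul_of_nonneg_left q1.2 hw
  rw [abs_le]
  constructor <;> nlinarith

/-- dyadic intervals -/
theorem ModelB_dyadic : ∃ y₀ : ℝ, 3 ≤ y₀ ∧ ∀ y L : ℝ, y₀ ≤ y → Real.log (2 * y) ≤ L →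
    y / (2 * L) ≤ (((Ioc ⌊y⌋₊ ⌊2 * y⌋₊).filter Nat.Prime).card : ℝ) := by
  obtain ⟨y₀, h⟩ := primes_short
  refine ⟨max 3 y₀, le_max_left _ _, fun y L hy hL => ?_⟩
  have h3 : 3 ≤ y := (le_max_left _ _).trans hy
  have h1 : 1 ≤ Real.log y := by
    rw [Real.le_log_iff_exp_le (by linarith)]
    linarith [Real.exp_one_lt_d9]
  have h2 := h y 1 ((le_max_right _ _).trans hy)
    ((div_le_one (by positivity)).2 (one_le_pow₀ h1)) le_rfl
  have h4 : 0 < Real.log (2 * y) := Real.log_pos (by linarith)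
  rw [one_mul, show y * (1 + 1) = 2 * y by ring] at h2
  exact (div_le_div_of_nonneg_left (by linarith) (by linarith) (by linarith)).trans h2

theorem ModelB_recip : ∃ y₀ : ℝ, ∀ z L : ℝ, y₀ ≤ z → ∀ K : ℕ, Real.log (2 ^ K * z) ≤ L →
    K / (4 * L) ≤ ∑ p ∈ (Ioc ⌊z⌋₊ ⌊2 ^ K * z⌋₊).filter Nat.Prime, 1 / (p : ℝ) := by
  obtain ⟨y₀, h3, h⟩ := ModelB_dyadic
  refine ⟨y₀, fun z L hz K => ?_⟩
  induction K with
  | zero => intro _; simp
  | succ K ih =>
    intro hL
    have h1 : z ≤ 2 ^ K * z := le_mul_of_one_le_left (by linarith) (one_le_pow₀ one_le_two)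
    have e : (2 : ℝ) ^ (K + 1) * z = 2 * (2 ^ K * z) := by ring
    rw [e] at hL ⊢
    set y := 2 ^ K * z
    have h2 : y ≤ 2 * y := by linarith
    have h4 := ih ((Real.log_le_log (by linarith) h2).trans hL)
    have h5 := h y L (hz.trans h1) hL
    have hL0 : 0 < L := (Real.log_pos (by linarith)).trans_le hL
    have h6 := card_nsmul_le_sum ((Ioc ⌊y⌋₊ ⌊2 * y⌋₊).filter Nat.Prime) (fun p => 1 / (p : ℝ))
      (1 / (2 * y)) fun p hp => one_div_le_one_div_of_le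
        (by exact_mod_cast (mem_filter.1 hp).2.pos)
        ((Nat.le_floor_iff (by linarith)).1 (mem_Ioc.1 (mem_filter.1 hp).1).2)
    rw [nsmul_eq_mul] at h6
    have h7 := mul_le_mul_of_nonneg_right h5 (show 0 ≤ 1 / (2 * y) by
      have : 0 < y := by linarith
      positivity)
    have h8 : y / (2 * L) * (1 / (2 * y)) = 1 / (4 * L) := by
      have : y ≠ 0 := by linarith
      field_simp
      ring
    rw [← Ioc_union_Ioc_eq_Ioc (Nat.floor_le_floor h1) (Nat.floor_le_floor h2), filter_union,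
      sum_union (disjoint_filter_filter (Ioc_disjoint_Ioc_of_le le_rfl)), Nat.cast_succ, add_div]
    linarith

theorem ModelB_surv : ∃ c z₀ : ℝ, 0 < c ∧ ∀ (z : ℝ) (x : ℕ), z₀ ≤ z → (x : ℝ) ≤ z ^ 3 →
    ∀ a : ℕ → ℝ, (∀ N, 0 ≤ a N) →
    (∀ p q : ℕ, p.Prime → q.Prime → x < 2 * (p * q) → p * q ≤ x → 2 ≤ a (p * q)) →
    c * x * (Real.log (x / z ^ 2) - 4) / Real.log z ^ 2 ≤
      ∑ N ∈ (Icc 1 x).filter (fun N => ∀ p : ℕ, p.Prime → p ∣ N → z ≤ p), a N := by
  obtain ⟨y₀, h3, hA⟩ := ModelB_dyadic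
  obtain ⟨y₁, hB⟩ := ModelB_recip
  refine ⟨1 / 144, max y₀ y₁, by norm_num, fun z x hz hx a ha h2 => ?_⟩
  have hz0 : y₀ ≤ z := (le_max_left _ _).trans hz
  have hl : 0 < Real.log z := Real.log_pos (by linarith)
  set t := Real.log (x / z ^ 2) with ht
  rcases le_or_gt t 4 with h4 | h4
  · exact le_trans (div_nonpos_of_nonpos_of_nonneg
      (mul_nonpos_of_nonneg_of_nonpos (by positivity) (by linarith)) (sq_nonneg _))
      (sum_nonneg fun N _ => ha N)
  have hzp : 0 < z := by linarith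
  have hx0 : (0 : ℝ) < x := by
    refine (Nat.cast_nonneg x).lt_of_ne fun h => ?_
    rw [← h, zero_div, Real.log_zero] at ht
    linarith
  set K := ⌊t / 2 - 1⌋₊ with hK
  have hK1 : (K : ℝ) ≤ t / 2 - 1 := Nat.floor_le (by linarith)
  have hK2 : t / 2 - 1 < K + 1 := Nat.lt_floor_add_one _
  set w := 2 ^ K * z with hw
  have hzw : z ≤ w := le_mul_of_one_le_left hzp.le (one_le_pow₀ one_le_two)
  have hwx : 4 * w ^ 2 ≤ x := by
    have e1 : (2 : ℝ) ^ (2 * K + 2) ≤ Real.exp 1 ^ (2 * K + 2) :=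
      pow_le_pow_left₀ zero_le_two (by linarith [Real.add_one_le_exp 1]) _
    have e2 : Real.exp 1 ^ (2 * K + 2) ≤ x / z ^ 2 := by
      rw [Real.exp_one_pow, ← Real.le_log_iff_exp_le (by positivity)]
      push_cast
      linarith
    have e3 := (le_div_iff₀ (by positivity)).1 (e1.trans e2)
    refine le_trans (le_of_eq ?_) e3
    rw [hw]
    ring
  have hlx : Real.log x ≤ 3 * Real.log z := by
    have := Real.log_le_log hx0 hx
    rwa [Real.log_pow, Nat.cast_ofNat] at this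
  have h5 := hB z (3 * Real.log z) ((le_max_right _ _).trans hz) K
    ((Real.log_le_log (by linarith) (by nlinarith)).trans hlx)
  rw [← hw] at h5
  set A := (Ioc ⌊z⌋₊ ⌊w⌋₊).filter Nat.Prime with hAdef
  set B := fun p : ℕ => (Ioc ⌊(x : ℝ) / (2 * p)⌋₊ ⌊2 * ((x : ℝ) / (2 * p))⌋₊).filter Nat.Prime with hBdef
  have hmA : ∀ p ∈ A, p.Prime ∧ z < p ∧ (p : ℝ) ≤ w ∧ 2 * w ≤ x / (2 * p) := by
    intro p hp
    obtain ⟨e1, e2⟩ := mem_filter.1 hp
    have e3 : (p : ℝ) ≤ w := (Nat.le_floor_iff (by linarith)).1 (mem_Ioc.1 e1).2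
    have e4 : z < p := (Nat.floor_lt hzp.le).1 (mem_Ioc.1 e1).1
    refine ⟨e2, e4, e3, ?_⟩
    rw [le_div_iff₀ (by linarith)]
    nlinarith
  have hmB : ∀ p ∈ A, ∀ q ∈ B p, q.Prime ∧ w < q ∧ x < 2 * (p * q) ∧ p * q ≤ x := by
    intro p hp q hq
    obtain ⟨-, e0, -, e5⟩ := hmA p hp
    obtain ⟨e1, e2⟩ := mem_filter.1 hq
    have hp0 : (0 : ℝ) < p := by linarith
    have e3 : (x : ℝ) / (2 * p) < q := (Nat.floor_lt (by positivity)).1 (mem_Ioc.1 e1).1
    have e4 : (q : ℝ) ≤ 2 * ((x : ℝ) / (2 * p)) := (Nat.le_floor_iff (by positivity)).1 (mem_Ioc.1 e1).2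
    refine ⟨e2, by linarith, ?_, ?_⟩
    · rw [div_lt_iff₀ (by positivity)] at e3
      exact_mod_cast (show (x : ℝ) < 2 * (p * q) by linarith)
    · rw [← mul_div_assoc, le_div_iff₀ (by positivity)] at e4
      exact_mod_cast (show (p : ℝ) * q ≤ x by linarith)
  calc 1 / 144 * x * (t - 4) / Real.log z ^ 2
      = x / (6 * Real.log z) * (((t - 4) / 2) / (4 * (3 * Real.log z))) := by
        field_simp
        ring
    _ ≤ x / (6 * Real.log z) * ∑ p ∈ A, 1 / (p : ℝ) :=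
        mul_le_mul_of_nonneg_left
          ((div_le_div_of_nonneg_right (by linarith) (by positivity)).trans h5) (by positivity)
    _ ≤ ∑ p ∈ A, ∑ q ∈ B p, a (p * q) := by
        rw [mul_sum]
        refine sum_le_sum fun p hp => ?_
        obtain ⟨e1, e2, e3, e4⟩ := hmA p hp
        have hp1 : (1 : ℝ) ≤ p := by linarith
        have e5 := hA (x / (2 * p)) (3 * Real.log z) (by linarith) ((Real.log_le_log (by positivity) (by
          rw [← mul_div_assoc, div_le_iff₀ (by positivity)]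
          nlinarith)).trans hlx)
        have e6 := card_nsmul_le_sum (B p) (fun q => a (p * q)) 2 fun q hq =>
          h2 p q e1 (hmB p hp q hq).1 (hmB p hp q hq).2.2.1 (hmB p hp q hq).2.2.2
        rw [nsmul_eq_mul] at e6
        have e7 : x / (6 * Real.log z) * (1 / (p : ℝ)) = x / (2 * p) / (2 * (3 * Real.log z)) * 2 := by
          field_simp
          ring
        rw [e7]
        exact (mul_le_mul_of_nonneg_right e5 zero_le_two).trans e6
    _ = ∑ N ∈ (A.sigma B).image (fun s => s.1 * s.2), a N := by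
        rw [sum_image, sum_sigma]
        rintro ⟨p, q⟩ hs ⟨p', q'⟩ hs' h
        obtain ⟨hp, hq⟩ := mem_sigma.1 (mem_coe.1 hs)
        obtain ⟨hp', hq'⟩ := mem_sigma.1 (mem_coe.1 hs')
        have e0 : p * q = p' * q' := h
        have e1 := (hmA p hp).1
        have e2 : p = p' := by
          rcases (Nat.Prime.dvd_mul e1).1 (e0 ▸ dvd_mul_right p q) with e3 | e3
          · exact (Nat.prime_dvd_prime_iff_eq e1 (hmA p' hp').1).1 e3
          · have e4 := (Nat.prime_dvd_prime_iff_eq e1 (hmB p' hp' q' hq').1).1 e3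
            have e5 : w < (q' : ℝ) := (hmB p' hp' q' hq').2.1
            have e6 : (p : ℝ) ≤ w := (hmA p hp).2.2.1
            rw [e4] at e6
            linarith
        subst e2
        obtain rfl := Nat.eq_of_mul_eq_mul_left e1.pos e0
        rfl
    _ ≤ _ := by
        refine sum_le_sum_of_subset_of_nonneg (fun N hN => ?_) fun N _ _ => ha N
        obtain ⟨⟨p, q⟩, hs, rfl⟩ := mem_image.1 hN
        obtain ⟨hp, hq⟩ := mem_sigma.1 hs
        obtain ⟨e1, e2, -, -⟩ := hmA p hp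
        obtain ⟨e3, e4, -, e5⟩ := hmB p hp q hq
        refine mem_filter.2 ⟨mem_Icc.2 ⟨Nat.mul_pos e1.pos e3.pos, e5⟩, fun r hr hd => ?_⟩
        rcases (Nat.Prime.dvd_mul hr).1 hd with e6 | e6
        · rw [(Nat.prime_dvd_prime_iff_eq hr e1).1 e6]
          exact e2.le
        · rw [(Nat.prime_dvd_prime_iff_eq hr e3).1 e6]
          linarith

end Crest.Agent.R1
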