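import Crest.Agent.R1.Loc
import Crest.Agent.R1.MassD

/-!
# R1 / ModelC: assembly of the main term (proof of `main_lower` for an abstract model functional)
-/

set_option autoImplicit false

namespace Crest.Agent.R1

open Finset Filter
open scoped Classical

/-- the properties of the model functional that are used -/
structure MlFun (κ : ℝ) (x : ℕ) (P : Finset ℕ) (E : (Finset ℕ → ℝ) → ℝ) : Prop where
  add : ∀ Φ Ψ, E (fun S => Φ S + Ψ S) = E Φ + E Ψ
  mul : ∀ (c : ℝ) Φ, E (fun S => c * Φ S) = c * E Φ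
  mono : ∀ Φ Ψ, (∀ S ⊆ P, Φ S ≤ Ψ S) → E Φ ≤ E Ψ
  fl : ∀ {τ V : Finset ℕ}, τ ⊆ P → V ⊆ P → Disjoint τ V → ∀ {y D : ℝ}, 2 ≤ y →
    (∀ p ∈ V, (p : ℝ) ≤ y) → y ^ (1 / 4 : ℝ) ≤ D →
    |E (ind τ V) - κ * x * wt iv τ * ∏ p ∈ V, (1 - iv p)| ≤
      Cfl * Real.exp (-(Real.log D / Real.log y) / Cfl) * (κ * x * wt iv τ * ∏ p ∈ V, (1 - iv p)) +
        20 * Real.sqrt (x * D / pd τ)
  leaf : ∀ {ω : Finset ℕ}, ω ⊆ P → ∀ {q : ℕ}, q ∈ ω → (∀ l : ℕ, l.Prime → l < q → l ∈ P) →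
    Even ω.card → x < pd ω * q ^ 2 →
    E (fun S => if ω ⊆ S ∧ ∀ l ∈ S, q ≤ l then 1 else 0) ≤ if pd ω ≤ x then 2 else 0
  triv : ∀ {ω : Finset ℕ}, ω ⊆ P → E (ind ω ∅) ≤ 2 * x * wt iv ω

variable {κ : ℝ} {x : ℕ} {P : Finset ℕ} {E : (Finset ℕ → ℝ) → ℝ}

theorem MlFun.zero (H : MlFun κ x P E) : E (fun _ => 0) = 0 := by
  simpa using H.mul 0 (fun _ => 0)

theorem MlFun.sum (H : MlFun κ x P E) {ι : Type} (s : Finset ι) (Φ : ι → Finset ℕ → ℝ) :
    E (fun S => ∑ k ∈ s, Φ k S) = ∑ k ∈ s, E (Φ k) := by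
  induction s using Finset.induction_on with
  | empty => simpa using H.zero
  | insert k s hk ih => simp only [sum_insert hk, H.add, ih]

theorem MlFun.nonneg (H : MlFun κ x P E) {Φ : Finset ℕ → ℝ} (h : ∀ S, 0 ≤ Φ S) : 0 ≤ E Φ :=
  H.zero ▸ H.mono _ _ fun S _ => h S

theorem mlc_iv_nonneg (p : ℕ) : 0 ≤ iv p := by unfold iv; positivity

theorem mlc_wt_nonneg (τ : Finset ℕ) : 0 ≤ wt iv τ := prod_nonneg fun p _ => mlc_iv_nonneg p

theorem mlc_union_le {U₁ U₂ : Finset ℕ} (hd : Disjoint U₁ U₂) {A Ω : Finset (Finset ℕ)}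
    {B : Finset ℕ → Finset (Finset ℕ)} (hA : ∀ τ ∈ A, τ ⊆ U₁)
    (hB : ∀ τ ∈ A, ∀ τ' ∈ B τ, τ' ⊆ U₂ ∧ τ ∪ τ' ∈ Ω) {G : Finset ℕ → ℝ} (hG : ∀ ω, 0 ≤ G ω) :
    ∑ τ ∈ A, ∑ τ' ∈ B τ, G (τ ∪ τ') ≤ ∑ ω ∈ Ω, G ω := by
  rw [sum_sigma', ← sum_image (g := fun z : Σ _ : Finset ℕ, Finset ℕ => z.1 ∪ z.2)]
  · refine sum_le_sum_of_subset_of_nonneg (fun ω hω => ?_) fun ω _ _ => hG ω
    obtain ⟨z, hz, rfl⟩ := mem_image.1 hω
    exact (hB _ (mem_sigma.1 hz).1 _ (mem_sigma.1 hz).2).2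
  · rintro ⟨a, b⟩ hz ⟨a', b'⟩ hz' he
    rw [mem_coe, mem_sigma] at hz hz'
    have h1 := hA _ hz.1
    have h2 := hA _ hz'.1
    have h3 := (hB _ hz.1 _ hz.2).1
    have h4 := (hB _ hz'.1 _ hz'.2).1
    have h5 : ∀ p, p ∈ a ∨ p ∈ b ↔ p ∈ a' ∨ p ∈ b' := fun p => by
      rw [← mem_union, ← mem_union]
      exact Finset.ext_iff.1 he p
    have h6 : ∀ p, p ∈ U₁ → p ∉ U₂ := fun p hp => disjoint_left.1 hd hp
    have e1 : a = a' := by
      ext p
      have := h5 p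
      have := h6 p
      have := @h1 p
      have := @h2 p
      have := @h3 p
      have := @h4 p
      tauto
    have e2 : b = b' := by
      ext p
      have := h5 p
      have := h6 p
      have := @h1 p
      have := @h2 p
      have := @h3 p
      have := @h4 p
      tauto
    rw [e1, e2]

theorem mlc_Pr_sub {h i j i' j' : ℕ} (hh : 0 < h) (hi : i' ≤ i) (hj : j ≤ j') :
    Pr h i j ⊆ Pr h i' j' := fun p hp => by
  rw [mem_Pr hh] at hp ⊢
  exact ⟨hp.1, by omega, by omega⟩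

theorem mlc_Pr_disj {h i j j' k : ℕ} (hh : 0 < h) (hj : j ≤ j') : Disjoint (Pr h j' k) (Pr h i j) :=
  disjoint_left.2 fun _ hp hq => lt_irrefl _ (Pr_lt hh hj hp hq)

/-- generalised leaves -/
def MlGood (σ : ℕ → ℕ) (R₀ : ℤ) (a' : ℕ) (U ω : Finset ℕ) : Prop :=
  ∃ q ∈ ω, (∀ p ∈ ω.erase q, q < p) ∧ ω.erase q ∈ nodes σ R₀ 0 U ∧ Even ω.card ∧
    R₀ - tot σ ω - a' < 2 * σ q

variable {h i J t a' : ℕ} {R₀ : ℤ}

theorem mlc_node (H : MlFun κ x (Pr h 0 t) E) (hκ : 0 ≤ κ) (hh : 0 < h) (hi : h ≤ i) (hit : i ≤ t)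
    (hx : Real.exp (((R₀ : ℝ) - a') / h - 3) ≤ x) {ω : Finset ℕ} (hω : ω ⊆ Pr h i t)
    (hR : (i : ℤ) ≤ R₀ - tot (sz h) ω - a') (e : ℕ) :
    (-1) ^ e * E (ind ω (Pr h 0 i)) ≤
      κ * x * ((-1) ^ e * wt iv ω * v0 h i e (R₀ - tot (sz h) ω - a')) +
        2 * Cfl * (κ * x * Vs h i) *
          (wt iv ω * Real.exp (-((R₀ - tot (sz h) ω : ℤ) - (a' : ℝ)) / (2 * Cfl * i))) +
        20 * Real.exp (2 - i / (4 * h)) * x * wt iv ω := by
  have h0 : (0 : ℝ) < h := by exact_mod_cast hh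
  have hi' : (h : ℝ) ≤ i := by exact_mod_cast hi
  have hi0 : (0 : ℝ) < i := by linarith
  have hC := one_le_Cfl
  have hpr : ∀ p ∈ ω, p.Prime := fun p hp => ((mem_Pr hh).1 (hω hp)).1
  obtain ⟨R, hRdef⟩ : ∃ R : ℤ, R = R₀ - tot (sz h) ω - a' := ⟨_, rfl⟩
  have hRr : (R : ℝ) = R₀ - tot (sz h) ω - a' := by rw [hRdef]; push_cast; ring
  rw [← hRdef] at hR ⊢
  have hR' : (i : ℝ) ≤ R := by exact_mod_cast hR
  have h1 := H.fl (hω.trans (mlc_Pr_sub hh (Nat.zero_le _) le_rfl)) (mlc_Pr_sub hh le_rfl hit)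
    ((mlc_Pr_disj hh le_rfl).mono_left hω) (y := Real.exp ((i : ℝ) / h))
    (D := Real.exp ((R : ℝ) / (2 * h)))
    (by
      have := Real.add_one_le_exp ((i : ℝ) / h)
      have := (one_le_div h0).2 hi'
      linarith)
    (fun p hp => by
      obtain ⟨a1, -, a3⟩ := (mem_Pr hh).1 hp
      rw [← Real.log_le_iff_le_exp (by exact_mod_cast a1.pos)]
      refine (log_lt_sz hh p).le.trans (div_le_div_of_nonneg_right ?_ h0.le)
      exact_mod_cast a3.le)
    (by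
      rw [← Real.exp_mul]
      refine Real.exp_le_exp.2 ?_
      rw [div_mul_div_comm, div_le_div_iff₀ (by positivity) (by positivity)]
      nlinarith)
  have h2 := (fl0_spec (e := e) hh hi hR).2
  have e1 : -(Real.log (Real.exp ((R : ℝ) / (2 * h))) / Real.log (Real.exp ((i : ℝ) / h))) / Cfl =
      -(R : ℝ) / (2 * Cfl * i) := by
    rw [Real.log_exp, Real.log_exp]; field_simp
  have e2 : -((R : ℝ) / (2 * i)) / Cfl = -(R : ℝ) / (2 * Cfl * i) := by field_simp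
  have e3 : ((R₀ - tot (sz h) ω : ℤ) : ℝ) - a' = R := by rw [hRr]; push_cast; ring
  rw [e1, ← Vs] at h1
  rw [e2] at h2
  rw [e3]
  have hw := mlc_wt_nonneg ω
  have hx0 : (0 : ℝ) < x := (Real.exp_pos _).trans_le hx
  have hpd : (0 : ℝ) < pd ω := by exact_mod_cast pd_pos hpr
  have h3 : Real.sqrt (x * Real.exp ((R : ℝ) / (2 * h)) / pd ω) ≤
      Real.exp (2 - i / (4 * h)) * x * wt iv ω := by
    rw [Real.sqrt_le_left (by positivity), wt_iv, mul_pow, mul_pow, ← Real.exp_nat_mul]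
    have h4 : Real.exp ((R : ℝ) / (2 * h)) * pd ω ≤
        Real.exp (((2 : ℕ) : ℝ) * (2 - i / (4 * h))) * x := by
      refine le_trans (mul_le_mul_of_nonneg_left (pd_le_exp hh hpr) (Real.exp_pos _).le)
        (le_trans ?_ (mul_le_mul_of_nonneg_left hx (Real.exp_pos _).le))
      rw [← Real.exp_add, ← Real.exp_add]
      refine Real.exp_le_exp.2 ?_
      have h5 : ((R₀ : ℝ) - a') / h = R / h + tot (sz h) ω / h := by rw [hRr]; ring
      have h6 : (i : ℝ) / h ≤ R / h := div_le_div_of_nonneg_right hR' h0.le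
      have h7 : (R : ℝ) / (2 * h) = R / h / 2 := by field_simp
      have h8 : (i : ℝ) / (4 * h) = i / h / 4 := by field_simp
      push_cast
      linarith
    rw [div_le_iff₀ hpd]
    calc (x : ℝ) * Real.exp ((R : ℝ) / (2 * h))
        = x * (Real.exp ((R : ℝ) / (2 * h)) * pd ω) / pd ω := by field_simp
      _ ≤ x * (Real.exp (((2 : ℕ) : ℝ) * (2 - i / (4 * h))) * x) / pd ω := by gcongr
      _ = _ := by field_simp
  have h5 := mul_le_mul_of_nonneg_left h2 (show 0 ≤ κ * x * wt iv ω by positivity)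
  rw [← abs_of_nonneg (show 0 ≤ κ * x * wt iv ω by positivity), ← abs_mul,
    abs_of_nonneg (show 0 ≤ κ * x * wt iv ω by positivity)] at h5
  have h6 := abs_le.1 h1
  have h7 := abs_le.1 h5
  rcases neg_one_pow_eq_or ℝ e with he | he <;> rw [he] <;> nlinarith [h6.1, h6.2, h7.1, h7.2]

theorem mlc_leafsum (H : MlFun κ x (Pr h 0 t) E) (hh : 2 ≤ h)
    (hx : Real.exp (((R₀ : ℝ) - a') / h - 3) ≤ x) (hx' : x ≤ Real.exp (((R₀ : ℝ) - a') / h - 2)) :
    ∑ ω ∈ (Pr h i t).powerset.filter (MlGood (sz h) R₀ a' (Pr h i t)), E (lind ω (Pr h 0 t)) ≤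
      2 * Real.exp 3 * x * ∑ ν ∈ (nodes (sz h) R₀ 0 (Pr h i t)).filter (fun ν => Odd ν.card),
        ∑ q ∈ (Pr h i t).filter (fun q => (∀ p ∈ ν, q < p) ∧
            (a' : ℤ) ≤ R₀ - tot (sz h) ν - sz h q ∧ R₀ - tot (sz h) ν - sz h q < a' + 2 * sz h q),
          wt iv ν * iv q * Real.exp (-((R₀ - tot (sz h) ν - sz h q : ℤ) - (a' : ℝ)) / h) +
      2 * x * ∑ τ ∈ (Pr h i t).powerset.filter (fun τ => h < τ.card), wt iv τ := by
  have hh0 : 0 < h := by omega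
  have h0 : (2 : ℝ) ≤ h := by exact_mod_cast hh
  have hUP : Pr h i t ⊆ Pr h 0 t := mlc_Pr_sub hh0 (Nat.zero_le _) le_rfl
  have hx0 : (0 : ℝ) ≤ x := Nat.cast_nonneg _
  have htot : ∀ (ν : Finset ℕ) (q : ℕ), q ∉ ν → tot (sz h) (insert q ν) = sz h q + tot (sz h) ν :=
    fun ν q hq => sum_insert hq
  rw [← sum_filter_add_sum_filter_not _ (fun ω => ω.card ≤ h)]
  refine add_le_add ?_ ?_
  · set g : Finset ℕ → ℝ := fun ω => 2 * Real.exp 3 * x *
      (wt iv ω * Real.exp (-((R₀ - tot (sz h) ω : ℤ) - (a' : ℝ)) / h)) with hg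
    have hg0 : ∀ ω, 0 ≤ g ω := fun ω => by
      have := mlc_wt_nonneg ω
      positivity
    calc _ ≤ ∑ ω ∈ ((Pr h i t).powerset.filter (MlGood (sz h) R₀ a' (Pr h i t))).filter
          (fun ω => ω.card ≤ h), if pd ω ≤ x then g ω else 0 := by
          refine sum_le_sum fun ω hω => ?_
          simp only [mem_filter, mem_powerset] at hω
          obtain ⟨⟨h1, q, hq, h2, h3, h4, h5⟩, h6⟩ := hω
          have hpr : ∀ p ∈ ω, p.Prime := fun p hp => ((mem_Pr hh0).1 (h1 hp)).1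
          have hq' := (mem_Pr hh0).1 (h1 hq)
          have hpd : (0 : ℝ) < pd ω := by exact_mod_cast pd_pos hpr
          refine le_trans (H.mono _ _ fun S hS => ?_) ((H.leaf (h1.trans hUP) hq
            (fun l hl hlq => (mem_Pr hh0).2 ⟨hl, Nat.zero_le _, (sz_mono h hlq.le).trans_lt hq'.2.2⟩)
            h4 ?_).trans ?_)
          · unfold lind
            split_ifs with c1 c2
            · exact le_rfl
            · refine absurd ⟨c1.1, fun l hl => ?_⟩ c2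
              obtain ⟨p, hp, hpl⟩ := c1.2 l (mem_inter.2 ⟨hl, hS hl⟩)
              rcases eq_or_ne p q with rfl | hne
              · exact hpl
              · exact (h2 p (mem_erase.2 ⟨hne, hp⟩)).le.trans hpl
            · exact zero_le_one
            · exact le_rfl
          · have k1 := exp_le_pd hh0 hpr
            have k2 : Real.exp (((sz h q : ℝ) - 1) / h) ≤ q := by
              rw [← Real.le_log_iff_exp_le (by exact_mod_cast hq'.1.pos)]
              exact sz_le_log hh0 q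
            have k3 : (R₀ : ℝ) - tot (sz h) ω - a' + 1 ≤ 2 * sz h q := by
              exact_mod_cast (show R₀ - tot (sz h) ω - a' + 1 ≤ 2 * sz h q by omega)
            have k4 : (ω.card : ℝ) ≤ h := by exact_mod_cast h6
            have k5 : (x : ℝ) < pd ω * (q : ℝ) ^ 2 := by
              refine hx'.trans_lt (lt_of_lt_of_le ?_ (mul_le_mul k1
                (pow_le_pow_left₀ (Real.exp_pos _).le k2 2) (by positivity) hpd.le))
              rw [← Real.exp_nat_mul, ← Real.exp_add]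
              refine Real.exp_lt_exp.2 ?_
              rw [div_sub' (by positivity), ← mul_div_assoc, ← add_div,
                div_lt_div_iff_of_pos_right (by positivity)]
              push_cast
              linarith
            exact_mod_cast k5
          · split_ifs
            · have k1 : 1 ≤ Real.exp 3 * x *
                  (wt iv ω * Real.exp (-((R₀ - tot (sz h) ω : ℤ) - (a' : ℝ)) / h)) := by
                rw [wt_iv, ← mul_assoc, mul_one_div, div_mul_eq_mul_div, one_le_div hpd]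
                refine (pd_le_exp hh0 hpr).trans (le_trans (le_of_eq ?_)
                  (mul_le_mul_of_nonneg_right (mul_le_mul_of_nonneg_left hx (Real.exp_pos 3).le)
                    (Real.exp_pos _).le))
                rw [← Real.exp_add, ← Real.exp_add]
                congr 1
                push_cast
                ring
              simp only [hg]
              linarith
            · exact le_rfl
      _ ≤ ∑ ω ∈ (((nodes (sz h) R₀ 0 (Pr h i t)).filter (fun ν => Odd ν.card)).sigma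
          fun ν => (Pr h i t).filter (fun q => (∀ p ∈ ν, q < p) ∧
            (a' : ℤ) ≤ R₀ - tot (sz h) ν - sz h q ∧
              R₀ - tot (sz h) ν - sz h q < a' + 2 * sz h q)).image
            (fun z : Σ _ : Finset ℕ, ℕ => insert z.2 z.1), g ω := by
          rw [← sum_filter]
          refine sum_le_sum_of_subset_of_nonneg (fun ω hω => ?_) fun ω _ _ => hg0 ω
          simp only [mem_filter, mem_powerset] at hω
          obtain ⟨⟨⟨h1, q, hq, h2, h3, h4, h5⟩, h6⟩, h7⟩ := hω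
          have hpr : ∀ p ∈ ω, p.Prime := fun p hp => ((mem_Pr hh0).1 (h1 hp)).1
          have k1 := htot (ω.erase q) q (notMem_erase q ω)
          rw [insert_erase hq] at k1
          have k2 : (a' : ℤ) ≤ R₀ - tot (sz h) ω := by
            have k3 := Real.exp_le_exp.1 ((exp_le_pd hh0 hpr).trans
              ((Nat.cast_le.2 h7).trans hx'))
            rw [div_sub' (by positivity), div_le_div_iff_of_pos_right (by positivity)] at k3
            have k4 : (ω.card : ℝ) ≤ h := by exact_mod_cast h6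
            have k5 : (a' : ℝ) ≤ R₀ - tot (sz h) ω := by linarith
            exact_mod_cast k5
          refine mem_image.2 ⟨⟨ω.erase q, q⟩, mem_sigma.2 ⟨mem_filter.2 ⟨h3, ?_⟩,
            mem_filter.2 ⟨h1 hq, h2, ?_, ?_⟩⟩, insert_erase hq⟩
          · have := card_erase_add_one hq
            rw [Nat.odd_iff]
            rw [Nat.even_iff] at h4
            dsimp only
            omega
          · dsimp only
            omega
          · dsimp only
            omega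
      _ ≤ _ := by
          refine (sum_image_le_of_nonneg fun ω _ => hg0 ω).trans (le_of_eq ?_)
          rw [sum_sigma, mul_sum]
          refine sum_congr rfl fun ν _ => ?_
          rw [mul_sum]
          refine sum_congr rfl fun q hq => ?_
          have hqν : q ∉ ν := fun hc => lt_irrefl _ ((mem_filter.1 hq).2.1 q hc)
          simp only [hg, htot ν q hqν, wt, prod_insert hqν]
          rw [show R₀ - (sz h q + tot (sz h) ν) = R₀ - tot (sz h) ν - sz h q by ring]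
          ring
  · rw [mul_sum]
    refine le_trans (sum_le_sum fun ω hω => ?_) (sum_le_sum_of_subset_of_nonneg
      (s := ((Pr h i t).powerset.filter (MlGood (sz h) R₀ a' (Pr h i t))).filter
        fun ω => ¬ ω.card ≤ h) (fun ω hω => ?_) fun ω _ _ => ?_)
    · simp only [mem_filter, mem_powerset] at hω
      refine le_trans (H.mono _ _ fun S _ => ?_) (H.triv (hω.1.1.trans hUP))
      unfold lind ind
      split_ifs with c1 c2
      · exact le_rfl
      · exact absurd ⟨c1.1, disjoint_empty_right S⟩ c2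
      · exact zero_le_one
      · exact le_rfl
    · simp only [mem_filter, mem_powerset] at hω ⊢
      exact ⟨hω.1.1, by omega⟩
    · have := mlc_wt_nonneg ω
      positivity

theorem mlc_lind_nonneg (τ V S : Finset ℕ) : 0 ≤ lind τ V S := by
  unfold lind; split_ifs <;> norm_num

theorem mlc_core (H : MlFun κ x (Pr h 0 t) E) (hκ : 0 ≤ κ) (hh : 2 ≤ h) (hi : h ≤ i)
    (ha : a' + i ≤ J) (hJ : J ≤ t) (hR : 2 * (t : ℤ) ≤ R₀)
    (hx : Real.exp (((R₀ : ℝ) - a') / h - 3) ≤ x) :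
    E (ind ∅ (Pr h 0 t)) ≤
      κ * x * ∑ τ ∈ nodes (sz h) R₀ 0 (Pr h J t),
        (-1) ^ τ.card * wt iv τ * Vloc h i J τ.card (R₀ - tot (sz h) τ - a') +
      2 * Cfl * (κ * x * Vs h i) *
        ∑ τ ∈ (nodes (sz h) R₀ 0 (Pr h i t)).filter (fun τ => (a' : ℤ) ≤ R₀ - tot (sz h) τ),
          wt iv τ * Real.exp (-((R₀ - tot (sz h) τ : ℤ) - (a' : ℝ)) / (2 * Cfl * i)) +
      20 * Real.exp (2 - i / (4 * h)) * x * ∑ τ ∈ (Pr h i t).powerset, wt iv τ +
      2 * ∑ ω ∈ (Pr h i t).powerset.filter (MlGood (sz h) R₀ a' (Pr h i t)),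
        E (lind ω (Pr h 0 t)) := by
  have hh0 : 0 < h := by omega
  have hiJ : i ≤ J := by omega
  have u1 : Pr h J t ∪ Pr h 0 J = Pr h 0 t := Pr_union hh0 (Nat.zero_le _) hJ
  have u2 : Pr h i J ∪ Pr h 0 i = Pr h 0 J := Pr_union hh0 (Nat.zero_le _) hiJ
  have s1 : Pr h J t ⊆ Pr h i t := mlc_Pr_sub hh0 hiJ le_rfl
  have s2 : Pr h i J ⊆ Pr h i t := mlc_Pr_sub hh0 le_rfl hJ
  have hd : Disjoint (Pr h J t) (Pr h i J) := mlc_Pr_disj hh0 le_rfl
  have hsub : ∀ {R e U τ}, τ ∈ nodes (sz h) R e U → τ ⊆ U := fun hτ =>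
    mem_powerset.1 (mem_filter.1 hτ).1
  have hal : ∀ {R e U τ}, τ ∈ nodes (sz h) R e U → Alive (sz h) R e τ := fun hτ =>
    (mem_filter.1 hτ).2
  have hun : ∀ τ ∈ nodes (sz h) R₀ 0 (Pr h J t),
      ∀ τ' ∈ nodes (sz h) (R₀ - tot (sz h) τ - a') τ.card (Pr h i J),
      τ ∪ τ' ∈ nodes (sz h) R₀ 0 (Pr h i t) := fun τ hτ τ' hτ' => by
    refine mem_filter.2 ⟨mem_powerset.2 (union_subset ((hsub hτ).trans s1) ((hsub hτ').trans s2)),
      (alive_union fun p hp q hq => Pr_lt hh0 le_rfl (hsub hτ hp) (hsub hτ' hq)).2 ⟨hal hτ, ?_⟩⟩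
    rw [zero_add]
    exact (hal hτ').mono (by omega)
  have hid : ind ∅ (Pr h 0 t) = fun S => ∑ τ ∈ nodes (sz h) R₀ 0 (Pr h J t),
      (∑ τ' ∈ nodes (sz h) (R₀ - tot (sz h) τ - a') τ.card (Pr h i J),
        (-1 : ℝ) ^ (τ.card + τ'.card) * ind (τ ∪ τ') (Pr h 0 i) S +
      ∑ τ' ∈ leaves (sz h) (R₀ - tot (sz h) τ - a') τ.card (Pr h i J),
        ind τ ∅ S * lind τ' (Pr h 0 J) S) +
      ∑ τ ∈ leaves (sz h) R₀ 0 (Pr h J t), ind ∅ ∅ S * lind τ (Pr h 0 t) S := by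
    funext S
    have k1 := buchstab' (σ := sz h) R₀ 0 (τ₀ := ∅) (U := Pr h J t) (V := Pr h 0 J)
      (fun p hp q hq => Pr_lt hh0 le_rfl hp hq) S
    rw [u1, pow_zero, one_mul] at k1
    rw [k1]
    congr 1
    refine sum_congr rfl fun τ _ => ?_
    have k2 := buchstab' (σ := sz h) (R₀ - tot (sz h) τ - a') τ.card (τ₀ := τ) (U := Pr h i J)
      (V := Pr h 0 i) (fun p hp q hq => Pr_lt hh0 le_rfl hp hq) S
    rw [u2] at k2
    rw [zero_add, empty_union, k2]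
  rw [hid, H.add, H.sum, H.sum]
  simp only [H.add, H.sum, H.mul, sum_add_distrib]
  have hL0 : ∀ ω, 0 ≤ E (lind ω (Pr h 0 t)) := fun ω => H.nonneg (mlc_lind_nonneg _ _)
  have L1 : ∑ τ ∈ leaves (sz h) R₀ 0 (Pr h J t), E (fun S => ind ∅ ∅ S * lind τ (Pr h 0 t) S) ≤
      ∑ ω ∈ (Pr h i t).powerset.filter (MlGood (sz h) R₀ a' (Pr h i t)), E (lind ω (Pr h 0 t)) := by
    have e : ∀ τ, (fun S => ind ∅ ∅ S * lind τ (Pr h 0 t) S) = lind τ (Pr h 0 t) := fun τ => by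
      funext S
      simp [ind]
    simp only [e]
    refine sum_le_sum_of_subset_of_nonneg (fun ω hω => ?_) fun ω _ _ => hL0 ω
    obtain ⟨q, hq, h2, h3, h4, h5⟩ := leaves_spec hω
    refine mem_filter.2 ⟨mem_powerset.2 ((mem_powerset.1 (mem_filter.1 hω).1).trans s1), q, hq, h2,
      mem_filter.2 ⟨mem_powerset.2 ((hsub h3).trans s1), hal h3⟩, by simpa using h4, by omega⟩
  have L2 : ∑ τ ∈ nodes (sz h) R₀ 0 (Pr h J t),
      ∑ τ' ∈ leaves (sz h) (R₀ - tot (sz h) τ - a') τ.card (Pr h i J),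
        E (fun S => ind τ ∅ S * lind τ' (Pr h 0 J) S) ≤
      ∑ ω ∈ (Pr h i t).powerset.filter (MlGood (sz h) R₀ a' (Pr h i t)), E (lind ω (Pr h 0 t)) := by
    refine le_trans (sum_le_sum fun τ hτ => sum_le_sum fun τ' hτ' => H.mono _ _ fun S _ => ?_)
      (mlc_union_le hd (fun τ hτ => hsub hτ) (fun τ hτ τ' hτ' => ?_) hL0)
    · obtain ⟨q, hq, -⟩ := leaves_spec hτ'
      have hs' : τ' ⊆ Pr h i J := mem_powerset.1 (mem_filter.1 hτ').1
      unfold ind lind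
      split_ifs with c1 c2 c3
      · simp
      · refine absurd ⟨union_subset c1.1 c2.1, fun l hl => ?_⟩ c3
        obtain ⟨l1, l2⟩ := mem_inter.1 hl
        rw [← u1, mem_union] at l2
        rcases l2 with l2 | l2
        · exact ⟨q, mem_union_right _ hq, (Pr_lt hh0 le_rfl l2 (hs' hq)).le⟩
        · obtain ⟨p, hp, hpl⟩ := c2.2 l (mem_inter.2 ⟨l1, l2⟩)
          exact ⟨p, mem_union_right _ hp, hpl⟩
      all_goals simp
    · obtain ⟨q, hq, h2, h3, h4, h5⟩ := leaves_spec hτ'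
      have hs' : τ' ⊆ Pr h i J := mem_powerset.1 (mem_filter.1 hτ').1
      have hdj : Disjoint τ τ' := hd.mono (hsub hτ) hs'
      have he : (τ ∪ τ').erase q = τ ∪ τ'.erase q := by
        rw [erase_union_distrib, erase_eq_of_notMem (disjoint_right.1 hdj hq)]
      refine ⟨hs', mem_filter.2 ⟨mem_powerset.2 (union_subset ((hsub hτ).trans s1) (hs'.trans s2)),
        q, mem_union_right _ hq, ?_, ?_, ?_, ?_⟩⟩
      · rw [he]
        intro p hp
        rcases mem_union.1 hp with hp | hp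
        · exact Pr_lt hh0 le_rfl (hsub hτ hp) (hs' hq)
        · exact h2 p hp
      · rw [he]
        exact hun τ hτ _ h3
      · rwa [card_union_of_disjoint hdj]
      · have : tot (sz h) (τ ∪ τ') = tot (sz h) τ + tot (sz h) τ' := sum_union hdj
        omega
  have hrem : ∀ τ ∈ nodes (sz h) R₀ 0 (Pr h J t),
      ∀ τ' ∈ nodes (sz h) (R₀ - tot (sz h) τ - a') τ.card (Pr h i J),
      (i : ℤ) ≤ R₀ - tot (sz h) (τ ∪ τ') - a' := fun τ hτ τ' hτ' => by
    have k1 := (locOk_node hh0 hi ha hJ hR hτ).1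
    have k2 := (hal hτ').rem_ge (sz_mono h) (top := J) (j := i) ⟨k1.ev, k1.od⟩ fun p hp => by
      have := (mem_Pr hh0).1 (hsub hτ' hp)
      omega
    have : tot (sz h) (τ ∪ τ') = tot (sz h) τ + tot (sz h) τ' :=
      sum_union (hd.mono (hsub hτ) (hsub hτ'))
    omega
  have hV : 0 ≤ Vs h i := prod_nonneg fun p hp => by
    have h2 : (2 : ℝ) ≤ p := by exact_mod_cast ((mem_Pr hh0).1 hp).1.two_le
    have h3 : iv p ≤ 1 := by
      unfold iv
      rw [div_le_one (by linarith)]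
      linarith
    linarith
  have hC := one_le_Cfl
  have N1 := mlc_union_le hd (A := nodes (sz h) R₀ 0 (Pr h J t))
    (Ω := (nodes (sz h) R₀ 0 (Pr h i t)).filter (fun τ => (a' : ℤ) ≤ R₀ - tot (sz h) τ))
    (B := fun τ => nodes (sz h) (R₀ - tot (sz h) τ - a') τ.card (Pr h i J)) (fun τ hτ => hsub hτ)
    (fun τ hτ τ' hτ' => ⟨hsub hτ', mem_filter.2 ⟨hun τ hτ τ' hτ', by
      have := hrem τ hτ τ' hτ'
      omega⟩⟩)
    (G := fun τ => wt iv τ * Real.exp (-((R₀ - tot (sz h) τ : ℤ) - (a' : ℝ)) / (2 * Cfl * i)))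
    fun ω => mul_nonneg (mlc_wt_nonneg ω) (Real.exp_pos _).le
  have N2 := mlc_union_le hd (A := nodes (sz h) R₀ 0 (Pr h J t)) (Ω := (Pr h i t).powerset)
    (B := fun τ => nodes (sz h) (R₀ - tot (sz h) τ - a') τ.card (Pr h i J)) (fun τ hτ => hsub hτ)
    (fun τ hτ τ' hτ' => ⟨hsub hτ', (mem_filter.1 (hun τ hτ τ' hτ')).1⟩) (G := wt iv) mlc_wt_nonneg
  have N3 : ∑ τ ∈ nodes (sz h) R₀ 0 (Pr h J t),
      ∑ τ' ∈ nodes (sz h) (R₀ - tot (sz h) τ - a') τ.card (Pr h i J),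
        (-1 : ℝ) ^ (τ.card + τ'.card) * E (ind (τ ∪ τ') (Pr h 0 i)) ≤
      κ * x * ∑ τ ∈ nodes (sz h) R₀ 0 (Pr h J t),
        (-1) ^ τ.card * wt iv τ * Vloc h i J τ.card (R₀ - tot (sz h) τ - a') +
      2 * Cfl * (κ * x * Vs h i) * ∑ τ ∈ nodes (sz h) R₀ 0 (Pr h J t),
        ∑ τ' ∈ nodes (sz h) (R₀ - tot (sz h) τ - a') τ.card (Pr h i J), wt iv (τ ∪ τ') *
          Real.exp (-((R₀ - tot (sz h) (τ ∪ τ') : ℤ) - (a' : ℝ)) / (2 * Cfl * i)) +
      20 * Real.exp (2 - i / (4 * h)) * x * ∑ τ ∈ nodes (sz h) R₀ 0 (Pr h J t),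
        ∑ τ' ∈ nodes (sz h) (R₀ - tot (sz h) τ - a') τ.card (Pr h i J), wt iv (τ ∪ τ') := by
    simp only [mul_sum, ← sum_add_distrib]
    refine sum_le_sum fun τ hτ => ?_
    rw [(locOk_node hh0 hi ha hJ hR hτ).1.Vloc_eq]
    simp only [mul_sum, ← sum_add_distrib]
    refine sum_le_sum fun τ' hτ' => ?_
    have hdj : Disjoint τ τ' := hd.mono (hsub hτ) (hsub hτ')
    refine (mlc_node H hκ hh0 hi (hiJ.trans hJ) hx (hsub (hun τ hτ τ' hτ')) (hrem τ hτ τ' hτ')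
      (τ.card + τ'.card)).trans (le_of_eq ?_)
    have e1 : R₀ - tot (sz h) (τ ∪ τ') - a' = R₀ - tot (sz h) τ - a' - tot (sz h) τ' := by
      have : tot (sz h) (τ ∪ τ') = tot (sz h) τ + tot (sz h) τ' := sum_union hdj
      omega
    have e2 : wt iv (τ ∪ τ') = wt iv τ * wt iv τ' := prod_union hdj
    rw [e1, pow_add]
    congr 2
    rw [e2]
    ring
  have N4 := mul_le_mul_of_nonneg_left N1 (show 0 ≤ 2 * Cfl * (κ * x * Vs h i) by positivity)
  have N5 := mul_le_mul_of_nonneg_left N2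
    (show 0 ≤ 20 * Real.exp (2 - i / (4 * h)) * x by positivity)
  linarith

/-! ### numerics -/

theorem mlc_numA {h l L t i a κ θ c : ℝ} (hc : 1 ≤ c) (hl : 1 ≤ l) (hh : 1 ≤ h) (hL : 0 < L)
    (hκ : 0 ≤ κ) (ht : h * L / 2 ≤ t) (hi : 20 * h * l ≤ i) (hi' : i ≤ 21 * h * l) (ha0 : 0 ≤ a)
    (ha : a ≤ κ * h * l) (hθ : θ = 2 * c * i) :
    3 * h / i * ((a + θ) ^ 2 * θ / (i * t ^ 2)) ≤ 42336 * c ^ 3 * ((1 + κ) ^ 2 * l / L ^ 2) := by
  have hhl : 1 ≤ h * l := one_le_mul_of_one_le_of_one_le hh hl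
  have hi0 : 0 < i := by nlinarith
  have ht0 : 0 < t := lt_of_lt_of_le (by positivity) ht
  have h1 : h / i ≤ 1 / l := by
    rw [div_le_div_iff₀ hi0 (by positivity)]
    nlinarith
  have h2 : a + θ ≤ 42 * c * (1 + κ) * (h * l) := by
    have k1 : θ ≤ 42 * c * (h * l) := by
      rw [hθ]
      nlinarith
    have k2 : κ * (h * l) * 1 ≤ κ * (h * l) * (42 * c) :=
      mul_le_mul_of_nonneg_left (by linarith) (by positivity)
    nlinarith
  have hθ0 : 0 ≤ θ := by rw [hθ]; positivity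
  calc 3 * h / i * ((a + θ) ^ 2 * θ / (i * t ^ 2))
      = 6 * c * (h / i) * (a + θ) ^ 2 / t ^ 2 := by rw [hθ]; field_simp; ring
    _ ≤ 6 * c * (1 / l) * (42 * c * (1 + κ) * (h * l)) ^ 2 / (h * L / 2) ^ 2 := by gcongr
    _ = _ := by field_simp; ring

theorem mlc_numC {h l L t i a κ g : ℝ} (hl : 1 ≤ l) (hh : 1 ≤ h) (hL : 0 < L)
    (hκ : 0 ≤ κ) (ht : h * L / 2 ≤ t) (hi : 20 * h * l ≤ i) (ha0 : 0 ≤ a)
    (ha : a ≤ κ * h * l) (hg0 : 0 ≤ g) (hg : g ≤ 2 * l) :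
    h * ((a + h) ^ 2 / i + (1 + a / i) ^ 2 * g + (a + h)) / t ^ 2 ≤
      16 * ((1 + κ) ^ 2 * l / L ^ 2) := by
  have hhl : 1 ≤ h * l := one_le_mul_of_one_le_of_one_le hh hl
  have hi0 : 0 < i := by nlinarith
  have h1 : a + h ≤ (1 + κ) * (h * l) := by nlinarith
  have h2 : (a + h) ^ 2 / i ≤ (1 + κ) ^ 2 * (h * l) := by
    rw [div_le_iff₀ hi0]
    calc (a + h) ^ 2 ≤ ((1 + κ) * (h * l)) ^ 2 := by gcongr
      _ = (1 + κ) ^ 2 * (h * l) * (h * l) := by ring
      _ ≤ _ := mul_le_mul_of_nonneg_left (by linarith) (by positivity)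
  have h3 : a / i ≤ κ := by
    rw [div_le_iff₀ hi0]
    exact ha.trans (by rw [mul_assoc]; exact mul_le_mul_of_nonneg_left (by linarith) hκ)
  have h4 : (1 + a / i) ^ 2 * g ≤ (1 + κ) ^ 2 * (2 * (h * l)) := by
    have : g ≤ 2 * (h * l) := by nlinarith
    gcongr
  have h5 : (1 + κ) * (h * l) ≤ (1 + κ) ^ 2 * (h * l) :=
    mul_le_mul_of_nonneg_right (by nlinarith) (by positivity)
  calc _ ≤ h * (4 * ((1 + κ) ^ 2 * (h * l))) / (h * L / 2) ^ 2 := by
        gcongr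
        linarith
    _ = _ := by field_simp; ring

theorem mlc_numS {h L t c D u x : ℝ} (hh : 0 < h) (hL : 0 < L) (hc : 0 < c) (hx : 0 ≤ x)
    (ht : h * L / 2 ≤ t) (ht' : t ≤ h * L) {S : ℝ} (hS0 : 0 ≤ S) (hu : D / h - 7 ≤ u)
    (hS : c * x * u / (t / h) ^ 2 ≤ S) :
    x * (c * max D 0 / (h * L ^ 2) - 28 * c * (1 / L ^ 2)) ≤ S := by
  have h1 : L / 2 ≤ t / h := by rw [le_div_iff₀ hh]; linarith
  have h2 : t / h ≤ L := by rw [div_le_iff₀ hh]; linarith
  have h3 : 0 < t / h := lt_of_lt_of_le (by positivity) h1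
  rcases le_total D 0 with hD | hD
  · rw [max_eq_right hD]
    have : 0 ≤ x * (28 * c * (1 / L ^ 2)) := by positivity
    simp only [mul_zero, zero_div, zero_sub, mul_neg]
    linarith
  · rw [max_eq_left hD]
    refine le_trans ?_ hS
    have k1 : D / h / L ^ 2 ≤ D / h / (t / h) ^ 2 := by gcongr
    have k2 : 7 / (t / h) ^ 2 ≤ 7 / (L / 2) ^ 2 := by gcongr
    have k3 : (D / h - 7) / (t / h) ^ 2 ≤ u / (t / h) ^ 2 := by gcongr
    rw [sub_div] at k3
    calc x * (c * D / (h * L ^ 2) - 28 * c * (1 / L ^ 2))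
        = c * x * (D / h / L ^ 2 - 7 / (L / 2) ^ 2) := by field_simp; ring
      _ ≤ c * x * (u / (t / h) ^ 2) := mul_le_mul_of_nonneg_left (by linarith) (by positivity)
      _ = _ := by ring

theorem mlc_ev (K : ℝ) : ∀ᶠ M : ℝ in atTop, K * ll M ^ 2 ≤ LL M ∧ Real.exp (ll M) = LL M := by
  filter_upwards [ev_basic (6 * K), ev_basic 1] with M h1 h2
  have e : Real.exp (ll M) = LL M := Real.exp_log (by linarith [h2.2.1] : 0 < LL M)
  refine ⟨?_, e⟩
  have h3 := Real.pow_div_factorial_le_exp (ll M) (by linarith [h2.1]) 3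
  rw [e] at h3
  have h4 : ((Nat.factorial 3 : ℕ) : ℝ) = 6 := by norm_num [Nat.factorial]
  rw [h4] at h3
  nlinarith [mul_le_mul_of_nonneg_right h1.1 (sq_nonneg (ll M))]

theorem main_lower' {κ₀ c z₀ : ℝ} (hκ1 : 1 / 2 ≤ κ₀) (hκ2 : κ₀ ≤ 1) (hc : 0 < c)
    {Em : ℕ → Finset ℕ → (Finset ℕ → ℝ) → ℝ}
    (H : ∀ x P, (∀ p ∈ P, p.Prime) → MlFun κ₀ x P (Em x P))
    (hsurv : ∀ (z : ℝ) (x : ℕ) (P : Finset ℕ), z₀ ≤ z → (x : ℝ) ≤ z ^ 3 → (∀ p ∈ P, (p : ℝ) < z) →
      (∀ p ∈ P, p.Prime) →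
      c * x * (Real.log (x / z ^ 2) - 4) / Real.log z ^ 2 ≤ Em x P (ind ∅ P)) :
    ∃ C : ℝ, 0 < C ∧ ∀ a κ : ℝ, 0 ≤ a → 0 ≤ κ → ∀ᶠ M : ℝ in atTop,
    ∀ J a' : ℕ, (a' : ℝ) ≤ κ * hh M * ll M → a' + i0 M ≤ J → J ≤ top M →
      c * max ((un M a : ℝ) - a') 0 / (hh M * LL M ^ 2) - C * (1 + κ) ^ 2 * ll M / LL M ^ 2 ≤
        Main M a J a' := by
  obtain ⟨C₁, hC₁, hexp⟩ := mass_exp
  obtain ⟨C₂, hC₂, hdead⟩ := mass_dead
  have hC := one_le_Cfl
  obtain ⟨B, hB⟩ : ∃ B, B = 28 * c + 2 * Cfl * C₁ * (42336 * Cfl ^ 3) + 40 * Real.exp 2 +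
    64 * Real.exp 3 * C₂ + 32 := ⟨_, rfl⟩
  have hB0 : 0 < B := by rw [hB]; positivity
  refine ⟨2 * B, by positivity, fun a κ ha hκ => ?_⟩
  filter_upwards [ev_basic (10 + 2 * |z₀|), ev_top, ev_BS,
    mlc_ev (4 * κ + 672 * Cfl + 2 * a + 40)] with M b1 b2 b3 b4 J a' ha' hJ1 hJ2
  obtain ⟨hl, hL, -, hh0, hh1, -⟩ := b1
  obtain ⟨ht1, ht2, ht3⟩ := b2
  obtain ⟨hK, hE⟩ := b4
  have hz := abs_nonneg z₀
  have hl1 : 10 ≤ ll M := by linarith
  have hL1 : 10 ≤ LL M := by linarith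
  obtain ⟨hi1, hi2⟩ := un_spec (M := M) (κ := 20) (by norm_num) (by linarith)
  obtain ⟨-, hu2⟩ := un_spec (M := M) ha (by linarith)
  have hu1 : un M 1 ≤ i0 M := Nat.ceil_mono (by
    have : (0 : ℝ) ≤ hh M * ll M := by positivity
    linarith)
  change _ ≤ (i0 M : ℝ) at hi1
  change (i0 M : ℝ) ≤ _ at hi2
  have hR0 : R0 M a = 2 * (top M : ℤ) + un M a := rfl
  unfold Main
  generalize R0 M a = R₀ at *
  generalize un M a = u at *
  generalize un M 1 = u1 at *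
  generalize i0 M = i at *
  generalize top M = t at *
  generalize hh M = h at *
  generalize ll M = l at *
  generalize LL M = L at *
  have h100 : (100 : ℝ) ≤ h := by linarith
  have hhl : (h : ℝ) * 10 ≤ h * l := by gcongr
  have hi3 : (i : ℝ) ≤ 21 * h * l := by linarith
  have hll : l ≤ l ^ 2 := le_self_pow₀ (by linarith) two_ne_zero
  have hR : (R₀ : ℝ) = 2 * t + u := by rw [hR0]; push_cast; ring
  have ha0 : (0 : ℝ) ≤ a' := Nat.cast_nonneg _
  have hu0 : (0 : ℝ) ≤ u := Nat.cast_nonneg _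
  have hat : (a' : ℝ) ≤ t := by exact_mod_cast (show a' ≤ t by omega)
  have hK' : ∀ k : ℝ, k ≤ 4 * κ + 672 * Cfl + 2 * a + 40 → h * (k * l ^ 2) ≤ h * L := fun k hk =>
    mul_le_mul_of_nonneg_left ((mul_le_mul_of_nonneg_right hk (sq_nonneg l)).trans hK) (by linarith)
  have hl2 : ∀ k : ℝ, 0 ≤ k → h * (k * l) ≤ h * (k * l ^ 2) := fun k hk => by gcongr
  have hut : (u : ℝ) ≤ t := by
    have k1 := hK' (2 * a + 2) (by linarith)
    have k2 := hl2 (2 * a + 2) (by linarith)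
    linarith
  have hut' : u ≤ t := by exact_mod_cast hut
  have h3i : 3 * h ≤ i := by exact_mod_cast (show (3 : ℝ) * h ≤ i by linarith)
  have hit : i ≤ t := by omega
  have hi0 : (1 : ℝ) ≤ i := by exact_mod_cast (show 1 ≤ i by omega)
  have ht0 : (0 : ℝ) < t := by exact_mod_cast (show 0 < t by omega)
  have hth : L / 2 ≤ (t : ℝ) / h := by rw [le_div_iff₀ (by linarith)]; linarith
  have hroot : Root (sz h) iv (Pr h i t) i t R₀ := by
    refine ⟨b3 iv _ i t hu1 hit (mlc_Pr_sub hh0 le_rfl (Nat.le_succ t)) mlc_iv_nonneg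
      fun k _ => sum_le_sum_of_subset_of_nonneg (fun p hp => ?_) fun p _ _ => mlc_iv_nonneg p,
      by omega, by omega⟩
    obtain ⟨p1, p2⟩ := mem_filter.1 hp
    exact (mem_Pr hh0).2 ⟨((mem_Pr hh0).1 p1).1, p2.ge, by omega⟩
  have ht4 : ∀ y : ℝ, 8 * l ≤ y → (t : ℝ) ^ 4 * Real.exp (-y) ≤ 1 := fun y hy => by
    have k1 : (t : ℝ) ^ 4 ≤ Real.exp y := by
      calc (t : ℝ) ^ 4 ≤ (L ^ 2) ^ 4 := by gcongr
        _ = Real.exp (((8 : ℕ) : ℝ) * l) := by rw [Real.exp_nat_mul, hE]; ring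
        _ ≤ _ := Real.exp_le_exp.2 (by push_cast; linarith)
    calc _ ≤ Real.exp y * Real.exp (-y) := by gcongr
      _ = 1 := by rw [← Real.exp_add]; simp
  have A := hexp hroot a' (2 * Cfl * i) (one_le_mul_of_one_le_of_one_le (by linarith) hi0) (by
    rw [neg_div]
    refine ht4 _ ?_
    rw [le_div_iff₀ (by positivity)]
    have k1 := hK' (2 * κ + 672 * Cfl) (by linarith)
    have k2 := hl2 (2 * κ) (by linarith)
    have k3 : 8 * l * (2 * Cfl * i) ≤ 8 * l * (2 * Cfl * (21 * h * l)) := by gcongr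
    linarith)
  have Cc := hdead hroot a' h (by linarith) (by
    rw [neg_div]
    refine ht4 _ ?_
    rw [le_div_iff₀ (by positivity)]
    have k1 := hK' (4 * κ + 32) (by linarith)
    have k2 := hl2 (4 * κ + 32) (by linarith)
    linarith)
  have W := hroot.toBS.total
  have Wd := hroot.toBS.depth h
  obtain ⟨hV0, hV⟩ := Vs_le hh0 h3i
  obtain ⟨x, hxd⟩ : ∃ x : ℕ, x = ⌊Real.exp (((R₀ : ℝ) - a') / h - 2)⌋₊ := ⟨_, rfl⟩
  have hx' : (x : ℝ) ≤ Real.exp (((R₀ : ℝ) - a') / h - 2) := hxd ▸ Nat.floor_le (Real.exp_pos _).le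
  have hRt : (t : ℝ) / h ≤ ((R₀ : ℝ) - a') / h :=
    div_le_div_of_nonneg_right (by linarith) (by linarith)
  have hx : Real.exp (((R₀ : ℝ) - a') / h - 3) ≤ x := by
    have k1 : Real.exp (((R₀ : ℝ) - a') / h - 2) < x + 1 := hxd ▸ Nat.lt_floor_add_one _
    have k2 : Real.exp (((R₀ : ℝ) - a') / h - 2) =
        Real.exp (((R₀ : ℝ) - a') / h - 3) * Real.exp 1 := by
      rw [← Real.exp_add]; congr 1; ring
    have k3 := Real.add_one_le_exp 1
    have k4 : 1 ≤ Real.exp (((R₀ : ℝ) - a') / h - 3) := Real.one_le_exp (by linarith)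
    linarith [mul_le_mul_of_nonneg_left k3 (zero_le_one.trans k4)]
  have hx0 : (0 : ℝ) < x := (Real.exp_pos _).trans_le hx
  have hP : ∀ p ∈ Pr h 0 t, p.Prime := fun p hp => ((mem_Pr hh0).1 hp).1
  have h2h : 2 ≤ h := by exact_mod_cast (show (2 : ℝ) ≤ h by linarith)
  have core := mlc_core (H x _ hP) (by linarith) h2h (by omega) hJ1 hJ2 hroot.lo hx
  have leaf := mlc_leafsum (i := i) (H x _ hP) h2h hx hx'
  have S := mlc_numS (D := (u : ℝ) - a') (by linarith) (by linarith) hc hx0.le ht1 ht2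
    ((H x _ hP).nonneg (Φ := ind ∅ (Pr h 0 t)) fun S => by unfold ind; split_ifs <;> norm_num)
    (u := Real.log (x / Real.exp ((t : ℝ) / h) ^ 2) - 4) (by
      rw [Real.log_div hx0.ne' (by positivity), Real.log_pow, Real.log_exp]
      have k1 := (Real.le_log_iff_exp_le hx0).2 hx
      have k2 : ((R₀ : ℝ) - a') / h = 2 * (t / h) + (u - a') / h := by rw [hR]; ring
      push_cast
      linarith) (by
      have k1 := hsurv (Real.exp ((t : ℝ) / h)) x (Pr h 0 t)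
        (by linarith [Real.add_one_le_exp ((t : ℝ) / h), le_abs_self z₀])
        (by
          refine hx'.trans ?_
          rw [← Real.exp_nat_mul]
          refine Real.exp_le_exp.2 ?_
          have k2 : ((R₀ : ℝ) - a') / h ≤ 3 * t / h :=
            div_le_div_of_nonneg_right (by linarith) (by linarith)
          push_cast
          rw [← mul_div_assoc]
          linarith)
        (fun p hp => by
          obtain ⟨a1, -, a3⟩ := (mem_Pr hh0).1 hp
          rw [← Real.log_lt_iff_lt_exp (by exact_mod_cast a1.pos)]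
          refine (log_lt_sz hh0 p).trans_le (div_le_div_of_nonneg_right ?_ (by linarith))
          exact_mod_cast a3.le) hP
      rwa [Real.log_exp] at k1)
  have nA := mlc_numA hC (by linarith) (by linarith) (by linarith) hκ ht1 hi1 hi3 ha0 ha' rfl
  have nC := mlc_numC (g := Real.log t) (by linarith) (by linarith) (by linarith) hκ ht1 hi1 ha0 ha'
    (Real.log_natCast_nonneg t) (by
      rw [Real.log_le_iff_le_exp ht0, show 2 * l = ((2 : ℕ) : ℝ) * l by norm_num, Real.exp_nat_mul,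
        hE]
      exact ht3)
  obtain ⟨Q, hQ⟩ : ∃ Q, Q = (1 + κ) ^ 2 * l / L ^ 2 := ⟨_, rfl⟩
  have hQ1 : 1 / L ^ 2 ≤ Q := by
    rw [hQ]
    refine div_le_div_of_nonneg_right ?_ (by positivity)
    exact one_le_mul_of_one_le_of_one_le (one_le_pow₀ (by linarith)) (by linarith)
  have hti : 2 * (t : ℝ) / i ≤ 2 * L ^ 2 := (div_le_self (by positivity) hi0).trans (by linarith)
  have nB : Real.exp (2 - i / (4 * h)) * (2 * (t : ℝ) / i) ≤ 2 * Real.exp 2 * Q := by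
    have k1 : Real.exp (2 - i / (4 * h)) ≤ Real.exp 2 / L ^ 4 := by
      rw [← hE, ← Real.exp_nat_mul, ← Real.exp_sub]
      refine Real.exp_le_exp.2 ?_
      have : 4 * l ≤ i / (4 * h) := by
        rw [le_div_iff₀ (by positivity)]
        linarith
      push_cast
      linarith
    calc _ ≤ Real.exp 2 / L ^ 4 * (2 * L ^ 2) := by gcongr
      _ = 2 * Real.exp 2 * (1 / L ^ 2) := by field_simp
      _ ≤ _ := by gcongr
  have nD : (2 * (t : ℝ) / i) ^ 3 / 3 ^ h ≤ 8 * Q := by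
    have k1 : L ^ 8 ≤ 3 ^ h := by
      calc L ^ 8 = Real.exp (((8 : ℕ) : ℝ) * l) := by rw [Real.exp_nat_mul, hE]
        _ ≤ Real.exp ((h : ℝ) * 1) := Real.exp_le_exp.2 (by push_cast; linarith)
        _ = Real.exp 1 ^ h := Real.exp_nat_mul _ _
        _ ≤ 3 ^ h := pow_le_pow_left₀ (Real.exp_pos _).le (by linarith [Real.exp_one_lt_d9]) h
    calc _ ≤ (2 * L ^ 2) ^ 3 / L ^ 8 := by gcongr
      _ = 8 * (1 / L ^ 2) := by field_simp; ring
      _ ≤ _ := by gcongr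
  rw [← hQ] at nA nC
  rw [show 2 * B * (1 + κ) ^ 2 * l / L ^ 2 = 2 * B * Q by rw [hQ]; ring]
  have hA0 : 0 ≤ c * max ((u : ℝ) - a') 0 / (h * L ^ 2) := by positivity
  have hQ0 : 0 ≤ Q := le_trans (by positivity) hQ1
  have eA : 2 * Cfl * (κ₀ * x * Vs h i) *
      ∑ τ ∈ (nodes (sz h) R₀ 0 (Pr h i t)).filter (fun τ => (a' : ℤ) ≤ R₀ - tot (sz h) τ),
        wt iv τ * Real.exp (-((R₀ - tot (sz h) τ : ℤ) - (a' : ℝ)) / (2 * Cfl * i)) ≤
      x * (2 * Cfl * C₁ * (42336 * Cfl ^ 3) * Q) := by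
    calc _ ≤ 2 * Cfl * (1 * x * (3 * h / i)) *
          (C₁ * (a' + 2 * Cfl * i) ^ 2 * (2 * Cfl * i) / (i * t ^ 2)) := by
          refine mul_le_mul (by gcongr) A (sum_nonneg fun τ _ =>
            mul_nonneg (mlc_wt_nonneg τ) (Real.exp_pos _).le) (by positivity)
      _ = x * (2 * Cfl * C₁ * (3 * h / i *
          ((a' + 2 * Cfl * i) ^ 2 * (2 * Cfl * i) / (i * t ^ 2)))) := by ring
      _ ≤ x * (2 * Cfl * C₁ * (42336 * Cfl ^ 3 * Q)) := by gcongr
      _ = _ := by ring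
  have eB : 20 * Real.exp (2 - i / (4 * h)) * x * ∑ τ ∈ (Pr h i t).powerset, wt iv τ ≤
      x * (40 * Real.exp 2 * Q) := by
    calc _ ≤ 20 * Real.exp (2 - i / (4 * h)) * x * (2 * t / i) := by gcongr
      _ = 20 * x * (Real.exp (2 - i / (4 * h)) * (2 * t / i)) := by ring
      _ ≤ 20 * x * (2 * Real.exp 2 * Q) := by gcongr
      _ = _ := by ring
  have eC := mul_le_mul_of_nonneg_left (Cc.trans (le_trans (le_of_eq (by ring))
    (mul_le_mul_of_nonneg_left nC hC₂.le))) (show 0 ≤ 2 * Real.exp 3 * x by positivity)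
  have eD := mul_le_mul_of_nonneg_left (Wd.trans nD) (show 0 ≤ 2 * (x : ℝ) by positivity)
  have eS : x * (28 * c * (1 / L ^ 2)) ≤ x * (28 * c * Q) := by gcongr
  generalize ∑ τ ∈ nodes (sz h) R₀ 0 (Pr h J t),
    (-1 : ℝ) ^ τ.card * wt iv τ * Vloc h i J τ.card (R₀ - tot (sz h) τ - a') = m at core ⊢
  generalize c * max ((u : ℝ) - a') 0 / (h * L ^ 2) = A₀ at S hA0 ⊢
  have f1 : x * (A₀ - B * Q) ≤ x * (κ₀ * m) := by
    rw [hB]
    linarith
  have f2 := le_of_mul_le_mul_left f1 hx0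
  have f3 : 0 ≤ B * Q := by positivity
  refine le_of_mul_le_mul_left (a := κ₀) (le_trans ?_ f2) (by linarith)
  linarith [mul_le_mul_of_nonneg_right hκ2 hA0, mul_le_mul_of_nonneg_right hκ1 f3]

end Crest.Agent.R1
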