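import Crest.Agent.R1.Loc
import Crest.Agent.R1.MassD
import Crest.Agent.R1.ModelC
import Crest.Agent.R1.ModelA
import Crest.Agent.R1.ModelB

/-!
# R1 / Model: the main term, evaluated on the extremal sequence `(1 + λ(N)) (⌊x/N⌋ mod 2)`
-/

set_option autoImplicit false

namespace Crest.Agent.R1

open Finset Filter
open scoped Classical

noncomputable section

/-- Liouville's function -/
def lio (N : ℕ) : ℝ := (-1) ^ ArithmeticFunction.cardFactors N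

/-- the model weights -/
def aM (x N : ℕ) : ℝ := (1 + lio N) * ((x / N % 2 : ℕ) : ℝ)

/-- the model functional -/
def Em (x : ℕ) (P : Finset ℕ) (Φ : Finset ℕ → ℝ) : ℝ :=
  ∑ N ∈ Icc 1 x, aM x N * Φ (P.filter (fun p => p ∣ N))

end

/-- `y/m % 2 = y/m - 2 (y/2/m)`; `∑_m λ(m) ⌊y/m⌋ = ⌊√y⌋`; `∑_m (⌊y/m⌋ % 2) = ∑_k (-1)^{k+1} ⌊y/k⌋`
is an alternating sum of decreasing terms (cut at `k ≤ √y`); `κ = ∑ (-1)^{k+1}/k` -/
theorem model_dvd : ∃ κ : ℝ, 1 / 2 ≤ κ ∧ κ ≤ 1 ∧ ∀ x d : ℕ, 0 < d →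
    |∑ N ∈ (Icc 1 x).filter (fun N => d ∣ N), aM x N - κ * x / d| ≤ 10 * Real.sqrt (x / d) := by
  exact mA_dvd

theorem ModelB_aM_nonneg (x N : ℕ) : 0 ≤ aM x N := by
  refine mul_nonneg ?_ (Nat.cast_nonneg _)
  unfold lio
  rcases neg_one_pow_eq_or ℝ (ArithmeticFunction.cardFactors N) with h | h <;> rw [h] <;> norm_num

/-- products `p q ∈ (x/2, x]` with `z ≤ p ≤ √x/2` (`primes_short` with `η = 1` on dyadic pieces) -/
theorem model_surv : ∃ c z₀ : ℝ, 0 < c ∧ ∀ (z : ℝ) (x : ℕ), z₀ ≤ z → (x : ℝ) ≤ z ^ 3 →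
    c * x * (Real.log (x / z ^ 2) - 4) / Real.log z ^ 2 ≤
      ∑ N ∈ (Icc 1 x).filter (fun N => ∀ p : ℕ, p.Prime → p ∣ N → z ≤ p), aM x N := by
  obtain ⟨c, z₀, hc, h⟩ := ModelB_surv
  refine ⟨c, z₀, hc, fun z x hz hx => h z x hz hx _ (ModelB_aM_nonneg x) fun p q hp hq h1 h2 => ?_⟩
  have h3 : x / (p * q) = 1 := Nat.div_eq_of_lt_le (by omega) (by omega)
  rw [aM, lio, h3, ArithmeticFunction.cardFactors_mul hp.ne_zero hq.ne_zero,
    ArithmeticFunction.cardFactors_apply_prime hp, ArithmeticFunction.cardFactors_apply_prime hq]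
  norm_num

/-- the fundamental lemma in the model -/
theorem model_FL {κ : ℝ} (hκ0 : 0 ≤ κ) (hκ : ∀ x d : ℕ, 0 < d →
      |∑ N ∈ (Icc 1 x).filter (fun N => d ∣ N), aM x N - κ * x / d| ≤ 10 * Real.sqrt (x / d))
    (x : ℕ) {P τ V : Finset ℕ} (hP : ∀ p ∈ P, p.Prime) (hτ : τ ⊆ P) (hV : V ⊆ P) (hd : Disjoint τ V)
    {y D : ℝ} (hy : 2 ≤ y) (hVy : ∀ p ∈ V, (p : ℝ) ≤ y) (hD : y ^ (1 / 4 : ℝ) ≤ D) :
    |Em x P (ind τ V) - κ * x * wt iv τ * ∏ p ∈ V, (1 - iv p)| ≤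
      Cfl * Real.exp (-(Real.log D / Real.log y) / Cfl) * (κ * x * wt iv τ * ∏ p ∈ V, (1 - iv p)) +
        20 * Real.sqrt (x * D / pd τ) :=
  ModelB_FL _ (ModelB_aM_nonneg x) x hκ0 (hκ x) hP hτ hV hd hy hVy hD

/-- a dead leaf only contains `N = pd ω`: the cofactor is `< q²`, has an even number of prime
factors, all `≥ q` -/
theorem model_leaf (x : ℕ) {P ω : Finset ℕ} (hP : ∀ p ∈ P, p.Prime) (hω : ω ⊆ P) {q : ℕ} (hq : q ∈ ω)
    (hlow : ∀ l : ℕ, l.Prime → l < q → l ∈ P) (hev : Even ω.card) (hx : x < pd ω * q ^ 2) :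
    Em x P (fun S => if ω ⊆ S ∧ ∀ l ∈ S, q ≤ l then 1 else 0) ≤ if pd ω ≤ x then 2 else 0 := by
  exact mA_leaf x hP hω hlow hev hx

theorem model_triv (x : ℕ) {P ω : Finset ℕ} (hP : ∀ p ∈ P, p.Prime) (hω : ω ⊆ P) :
    Em x P (ind ω ∅) ≤ 2 * x * wt iv ω := by
  exact mA_triv x hP

/-- **The main term.**  Take `x = ⌊exp ((R0 - a')/h - 2)⌋`, `P = Pr h 0 top`, and apply `Em x P` to
`buchstab'` at the root (cut `J`) and then at every node (cut `i0`, level lowered by `a'`).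
* left side: `model_surv` with `z = exp (top/h)`;
* node `τ ∪ τ'` with remaining level `R₂ = R0 - a' - tot ≥ i0` (`Alive.rem_ge`): `model_FL` with
  `D = exp (R₂/2h)` and `fl0_spec`; `τ ∪ τ'` is alive for `R0` (`Alive.mono`, `sum_nodes_union`), so the
  errors are bounded by `mass_exp` (`R₁ = a'`, `θ = 2 Cfl i0`), `Vs_le`, `BS.total`;
* leaves `ω = insert q ν`: `model_leaf` and `mass_dead` (`θ = h`) if `|ω| ≤ h`, `model_triv` and
  `BS.depth` otherwise. -/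
theorem main_lower : ∃ c C : ℝ, 0 < c ∧ 0 < C ∧ ∀ a κ : ℝ, 0 ≤ a → 0 ≤ κ → ∀ᶠ M : ℝ in atTop,
    ∀ J a' : ℕ, (a' : ℝ) ≤ κ * hh M * ll M → a' + i0 M ≤ J → J ≤ top M →
      c * max ((un M a : ℝ) - a') 0 / (hh M * LL M ^ 2) - C * (1 + κ) ^ 2 * ll M / LL M ^ 2 ≤
        Main M a J a' := by
  obtain ⟨κ₀, k1, k2, k3⟩ := model_dvd
  obtain ⟨c, z₀, hc, hs⟩ := model_surv
  have ha : ∀ x N, 0 ≤ aM x N := fun x N => mul_nonneg (by
    unfold lio
    rcases neg_one_pow_eq_or ℝ (ArithmeticFunction.cardFactors N) with h | h <;> rw [h] <;> norm_num)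
    (Nat.cast_nonneg _)
  obtain ⟨C, hC, h⟩ := main_lower' (z₀ := z₀) k1 k2 hc (Em := Em)
    (fun x P hP => ⟨fun Φ Ψ => by simp only [Em, mul_add, sum_add_distrib],
      fun c Φ => by simp only [Em, mul_sum, mul_left_comm],
      fun Φ Ψ h => sum_le_sum fun N _ =>
        mul_le_mul_of_nonneg_left (h _ (filter_subset _ _)) (ha x N),
      fun hτ hV hd _ _ hy hVy hD => model_FL (by linarith) k3 x hP hτ hV hd hy hVy hD,
      fun hω _ hq hlow hev hx => model_leaf x hP hω hq hlow hev hx,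
      fun hω => model_triv x hP hω⟩)
    (fun z x P h1 h2 h3 h4 => (hs z x h1 h2).trans (by
      rw [sum_filter]
      refine sum_le_sum fun N _ => ?_
      split_ifs with hN
      · rw [ind, if_pos, mul_one]
        refine ⟨empty_subset _, disjoint_left.2 fun p hp hp' => ?_⟩
        exact absurd (hN p (h4 p hp') (mem_filter.1 hp).2) (not_le.2 (h3 p hp'))
      · exact mul_nonneg (ha x N) (by unfold ind; split_ifs <;> norm_num)))
  exact ⟨c, C, hc, hC, h⟩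

end Crest.Agent.R1
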