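import Crest.Agent.R1.FamB
import Crest.Agent.R1.Model

/-!
# R1 / CaseIA: the sieve inequality with all losses named (`surv_lower`)
-/

set_option autoImplicit false

namespace Crest.Agent.R1

open Finset Filter
open scoped Classical

theorem caseIA_fam {ι : Type*} {D W : Finset ι} (hW : W ⊆ D) {f r g : ι → ℝ} {s b : ℝ}
    (hs : |s| ≤ 1) (h1 : ∀ w ∈ W, s * r w ≤ f w) (h2 : ∀ w ∈ D, w ∉ W → -g w ≤ f w)
    (hg : ∀ w ∈ D, 0 ≤ g w) (hb : |∑ w ∈ W, r w| ≤ b) :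
    -b - ∑ w ∈ D, g w ≤ ∑ w ∈ D, f w := by
  rw [← sum_sdiff hW (f := f)]
  have e1 : s * ∑ w ∈ W, r w ≤ ∑ w ∈ W, f w := by
    rw [mul_sum]
    exact sum_le_sum h1
  have e2 : |s * ∑ w ∈ W, r w| ≤ b := by
    rw [abs_mul]
    exact (mul_le_of_le_one_left (abs_nonneg _) hs).trans hb
  have e3 : -∑ w ∈ D \ W, g w ≤ ∑ w ∈ D \ W, f w := by
    rw [← sum_neg_distrib]
    exact sum_le_sum fun w hw => h2 w (mem_sdiff.1 hw).1 (mem_sdiff.1 hw).2
  have e4 : ∑ w ∈ D \ W, g w ≤ ∑ w ∈ D, g w :=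
    sum_le_sum_of_subset_of_nonneg sdiff_subset fun w hw _ => hg w hw
  linarith [(abs_le.1 e2).1]

theorem caseIA_wt_nonneg (τ : Finset ℕ) : 0 ≤ wt iv τ := by
  rw [wt_iv]
  positivity

theorem caseIA_Vs_nonneg {h : ℕ} (hh : 0 < h) (j : ℕ) : 0 ≤ Vs h j := by
  refine prod_nonneg fun p hp => ?_
  have h1 : (1 : ℝ) ≤ p := by exact_mod_cast ((mem_Pr hh).1 hp).1.one_le
  have h2 : iv p ≤ 1 := (div_le_one (by linarith)).2 h1
  linarith

theorem caseIA_surv_lower {c : Cst} {M : ℝ} (h : c.Ord M) (hM : 2 ≤ M) (X : ℤ)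
    (hlev : Real.exp ((c.R M : ℝ) / hh M) ≤ M * Real.exp ((c.J M : ℝ) / (2 * hh M)))
    {β : ℝ} (hW : ∀ F ∈ c.fams M, ∃ W ⊆ c.FX M F ×ˢ c.FU M F ×ˢ c.FT M F,
      (∀ w ∈ c.FX M F ×ˢ c.FU M F ×ˢ c.FT M F, w ∉ W →
        ∃ z ∈ c.Cen M X, ∀ p ∈ nd4 F.1 w.1 w.2.1 w.2.2, Str X z.1 z.2 p) ∧
      |∑ w ∈ W, c.remN M X (nd4 F.1 w.1 w.2.1 w.2.2)| ≤ M * wt iv F.1 * β) :
    M * Main M c.a (c.J M) 0 - Cfl * M * Vs (hh M) (c.J M) *
      (∑ τ ∈ (nodes (sz (hh M)) (c.R M) 0 (c.U0 M)).filter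
          (fun τ => (c.r M : ℤ) ≤ c.R M - tot (sz (hh M)) τ),
          wt iv τ * Real.exp (-(((c.R M - tot (sz (hh M)) τ : ℤ) : ℝ) / (2 * c.J M)) / Cfl) +
        mass (sz (hh M)) iv (c.R M) 0 (c.U0 M)
          (fun τ => c.R M - tot (sz (hh M)) τ ≤ c.r M ∧ ¬ c.Reg M τ) +
        mass (sz (hh M)) iv (c.R M) 0 (c.U0 M)
          (fun τ => c.Reg M τ ∧ ∃ z ∈ c.Cen M X, ∀ p ∈ τ, Str X z.1 z.2 p)) -
      M * β * ∑ F ∈ c.fams M, wt iv F.1 ≤ Surv M X := by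
  have hh0 : 0 < hh M := by have := h.h_ge; omega
  have hhR : (0 : ℝ) < hh M := Nat.cast_pos.2 hh0
  have hJ : c.J M ≤ top M :=
    h.J_le.trans (h.t_le.trans (h.t2_le.trans (h.ix_le.trans (h.u_le.trans h.u2_le))))
  have hR : 2 * (top M : ℤ) ≤ c.R M := by
    unfold Cst.R R0
    omega
  have hC := one_le_Cfl
  have hV := caseIA_Vs_nonneg hh0 (c.J M)
  set N := nodes (sz (hh M)) (c.R M) 0 (c.U0 M) with hN
  set A : Finset ℕ → ℝ := fun τ => (-1 : ℝ) ^ τ.card *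
    Ew M X (Pr (hh M) 0 (top M)) (ind τ (Pr (hh M) 0 (c.J M))) with hA
  set m : Finset ℕ → ℝ := fun τ => (-1 : ℝ) ^ τ.card * (M * wt iv τ *
    Vloc (hh M) (i0 M) (c.J M) τ.card (c.R M - tot (sz (hh M)) τ)) with hm
  set e : Finset ℕ → ℝ := fun τ =>
    Real.exp (-(((c.R M - tot (sz (hh M)) τ : ℤ) : ℝ) / (2 * c.J M)) / Cfl) with he
  set B := Cfl * M * Vs (hh M) (c.J M) with hB
  have hB0 : 0 ≤ B := by positivity
  have hs : ∑ τ ∈ N, A τ ≤ Surv M X := surv_ge hM hh0 X (c.R M) hJ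
  have hmain : M * Main M c.a (c.J M) 0 = ∑ τ ∈ N, m τ := by
    unfold Main
    rw [mul_sum]
    refine sum_congr rfl fun τ _ => ?_
    simp only [hm, Cst.R, Nat.cast_zero, sub_zero]
    ring
  have hok : ∀ τ ∈ N, τ ⊆ Pr (hh M) (c.J M) (top M) ∧
      LocOk (hh M) (i0 M) (c.J M) τ.card (c.R M - tot (sz (hh M)) τ) ∧
      (c.J M : ℤ) ≤ c.R M - tot (sz (hh M)) τ := by
    intro τ hτ
    obtain ⟨h1, h2⟩ := locOk_node (a' := 0) hh0 h.h_le (by have := h.i0_le; omega) hJ hR hτ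
    refine ⟨mem_powerset.1 (mem_filter.1 hτ).1, ?_, h2.2⟩
    simpa only [Nat.cast_zero, sub_zero] using h1
  have he1 : ∀ τ ∈ N, e τ ≤ 1 := by
    intro τ hτ
    have h1 : (c.J M : ℝ) ≤ ((c.R M - tot (sz (hh M)) τ : ℤ) : ℝ) := by
      exact_mod_cast (hok τ hτ).2.2
    have h2 : (0 : ℝ) ≤ c.J M := Nat.cast_nonneg _
    refine Real.exp_le_one_iff.2 (div_nonpos_of_nonpos_of_nonneg (neg_nonpos.2 ?_) (by linarith))
    exact div_nonneg (by linarith) (by linarith)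
  have htriv : ∀ τ ∈ N, -(B * (wt iv τ * e τ)) ≤ A τ - m τ := by
    intro τ hτ
    obtain ⟨h1, h2, h3⟩ := hok τ hτ
    have h4 : (c.J M : ℝ) ≤ ((c.R M - tot (sz (hh M)) τ : ℤ) : ℝ) := by exact_mod_cast h3
    have h5 := h2.node_triv hM X hJ h1 h4 (by
      have h6 := pd_le_exp hh0 (τ := τ) fun p hp => ((mem_Pr hh0).1 (h1 hp)).1
      refine (mul_le_mul_of_nonneg_right h6 (Real.exp_pos _).le).trans ?_
      refine le_of_mul_le_mul_right (le_trans ?_ hlev) (Real.exp_pos _)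
      rw [← Real.exp_add, ← Real.exp_add, Real.exp_le_exp]
      push_cast at h4 ⊢
      rw [← sub_nonneg]
      have : (c.R M : ℝ) / hh M - ((tot (sz (hh M)) τ : ℝ) / hh M +
          ((c.R M : ℝ) - tot (sz (hh M)) τ) / (2 * hh M) + (c.J M : ℝ) / (2 * hh M)) =
          ((c.R M : ℝ) - tot (sz (hh M)) τ - c.J M) / (2 * hh M) := by
        field_simp
        ring
      rw [this]
      exact div_nonneg (by linarith) (by linarith))
    simp only [hA, hm, he, hB]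
    linarith
  have hext : ∀ τ ∈ N, (-1 : ℝ) ^ τ.card * c.remN M X τ ≤ A τ - m τ := by
    intro τ hτ
    obtain ⟨h1, h2, -⟩ := hok τ hτ
    have h5 := h2.node_ext hM X hJ h1
    have h6 : 0 ≤ Ew M X (Pr (hh M) 0 (top M)) (deadLoc (hh M) (i0 M) (c.J M) τ.card
      (c.R M - tot (sz (hh M)) τ) τ) := Ew_nonneg fun S _ => deadLoc_nonneg τ S
    simp only [hA, hm, Cst.remN]
    linarith
  -- irregular nodes
  have hirr : ∑ τ ∈ N.filter (fun τ => ¬ c.Reg M τ), wt iv τ * e τ ≤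
      ∑ τ ∈ N.filter (fun τ => (c.r M : ℤ) ≤ c.R M - tot (sz (hh M)) τ), wt iv τ * e τ +
        mass (sz (hh M)) iv (c.R M) 0 (c.U0 M)
          (fun τ => c.R M - tot (sz (hh M)) τ ≤ c.r M ∧ ¬ c.Reg M τ) := by
    unfold mass
    rw [← hN, sum_filter, sum_filter, sum_filter, ← sum_add_distrib]
    refine sum_le_sum fun τ hτ => ?_
    have h1 := caseIA_wt_nonneg τ
    have h2 : 0 ≤ wt iv τ * e τ := mul_nonneg h1 (Real.exp_pos _).le
    have h3 : wt iv τ * e τ ≤ wt iv τ := mul_le_of_le_one_right h1 (he1 τ hτ)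
    by_cases h4 : c.Reg M τ
    · rw [if_neg (not_not.2 h4)]
      split_ifs <;> linarith
    · rw [if_pos h4]
      by_cases h5 : (c.r M : ℤ) ≤ c.R M - tot (sz (hh M)) τ
      · rw [if_pos h5]
        split_ifs <;> linarith
      · rw [if_neg h5, if_pos ⟨(not_le.1 h5).le, h4⟩]
        linarith
  have hirr2 : -(B * ∑ τ ∈ N.filter (fun τ => ¬ c.Reg M τ), wt iv τ * e τ) ≤
      ∑ τ ∈ N.filter (fun τ => ¬ c.Reg M τ), (A τ - m τ) := by
    rw [mul_sum, ← sum_neg_distrib]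
    exact sum_le_sum fun τ hτ => htriv τ (mem_filter.1 hτ).1
  -- regular nodes
  set g : Finset ℕ → ℝ := fun τ =>
    B * if ∃ z ∈ c.Cen M X, ∀ p ∈ τ, Str X z.1 z.2 p then wt iv τ else 0 with hg
  have hg0 : ∀ τ, 0 ≤ g τ := fun τ => mul_nonneg hB0 (by
    split_ifs
    · exact caseIA_wt_nonneg τ
    · exact le_rfl)
  have hgs : ∑ τ ∈ N.filter (c.Reg M), g τ = B * mass (sz (hh M)) iv (c.R M) 0 (c.U0 M)
      (fun τ => c.Reg M τ ∧ ∃ z ∈ c.Cen M X, ∀ p ∈ τ, Str X z.1 z.2 p) := by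
    unfold mass
    rw [← hN, mul_sum, sum_filter, sum_filter]
    refine sum_congr rfl fun τ _ => ?_
    simp only [hg]
    by_cases h1 : c.Reg M τ <;> by_cases h2 : ∃ z ∈ c.Cen M X, ∀ p ∈ τ, Str X z.1 z.2 p <;>
      simp only [h1, h2, if_true, if_false, and_self, and_true, and_false, mul_zero]
  have hreg : -(M * β * ∑ F ∈ c.fams M, wt iv F.1) - ∑ τ ∈ N.filter (c.Reg M), g τ ≤
      ∑ τ ∈ N.filter (c.Reg M), (A τ - m τ) := by
    rw [hN, h.fam_sum, h.fam_sum, mul_sum, ← sum_neg_distrib, ← sum_sub_distrib]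
    refine sum_le_sum fun F hF => ?_
    obtain ⟨W, hW1, hW2, hW3⟩ := hW F hF
    have hmem : ∀ w ∈ c.FX M F ×ˢ c.FU M F ×ˢ c.FT M F, nd4 F.1 w.1 w.2.1 w.2.2 ∈ N ∧
        (-1 : ℝ) ^ (nd4 F.1 w.1 w.2.1 w.2.2).card = (-1) ^ (F.1.card + F.2.2.2.2) := by
      intro w hw
      obtain ⟨hx, hut⟩ := mem_product.1 hw
      obtain ⟨hu, ht⟩ := mem_product.1 hut
      obtain ⟨h1, -, -, h2, -⟩ := h.fam_mem hF hx hu ht
      refine ⟨h1, ?_⟩
      have h3 : w.1.card % 2 = F.2.2.2.2 := (mem_filter.1 hx).2.2.2.2.2.1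
      rw [neg_one_pow_eq_pow_mod_two, neg_one_pow_eq_pow_mod_two (F.1.card + F.2.2.2.2), h2]
      congr 1
      omega
    refine le_trans (le_of_eq ?_) (caseIA_fam hW1 (s := (-1) ^ (F.1.card + F.2.2.2.2))
      (f := fun w => A (nd4 F.1 w.1 w.2.1 w.2.2) - m (nd4 F.1 w.1 w.2.1 w.2.2))
      (g := fun w => g (nd4 F.1 w.1 w.2.1 w.2.2)) (by simp) (fun w hw => ?_) (fun w hw hw' => ?_)
      (fun w _ => hg0 _) hW3)
    · ring
    · obtain ⟨h1, h2⟩ := hmem w (hW1 hw)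
      rw [← h2]
      exact hext _ h1
    · obtain ⟨h1, -⟩ := hmem w hw
      refine le_trans (neg_le_neg ?_) (htriv _ h1)
      simp only [hg, if_pos (hW2 w hw hw')]
      exact mul_le_mul_of_nonneg_left
        (mul_le_of_le_one_right (caseIA_wt_nonneg _) (he1 _ h1)) hB0
  have hsplit := sum_filter_add_sum_filter_not N (c.Reg M) fun τ => A τ - m τ
  rw [sum_sub_distrib (s := N)] at hsplit
  have hfin := mul_le_mul_of_nonneg_left hirr hB0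
  rw [hmain]
  rw [hgs] at hreg
  linarith

end Crest.Agent.R1
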