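import Crest.Agent.R1.FamB
import Crest.Agent.R1.Model
import Crest.Agent.R1.CaseIA

/-!
# R1 / CaseI: many survivors, or a rational centre
-/

set_option autoImplicit false

namespace Crest.Agent.R1

open Finset Filter
open scoped Classical

/-- the sieve inequality with all losses named: `surv_ge`; `node_triv` (`R' = ` remaining level) for
the nodes with remaining level `> r`, for the irregular nodes and for the triples outside `W`;
`node_ext` on `W` (the sign `(-1)^{|τ|}` is constant on a family); `fam_sum` -/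
theorem Cst.Ord.surv_lower {c : Cst} {M : ℝ} (h : c.Ord M) (hM : 2 ≤ M) (X : ℤ)
    (hlev : Real.exp ((c.R M : ℝ) / hh M) ≤ M * Real.exp ((c.J M : ℝ) / (2 * hh M)))
    {β : ℝ} (hW : ∀ F ∈ c.fams M, ∃ W ⊆ c.FX M F ×ˢ c.FU M F ×ˢ c.FT M F,
      (∀ w ∈ c.FX M F ×ˢ c.FU M F ×ˢ c.FT M F, w ∉ W →
        ∃ z ∈ c.Cen M X, ∀ p ∈ nd4 F.1 w.1 w.2.1 w.2.2, Str X z.1 z.2 p) ∧
      |∑ w ∈ W, c.remN M X (nd4 F.1 w.1 w.2.1 w.2.2)| ≤ M * wt iv F.1 * β) :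
    M * Main M c.a (c.J M) 0 - Cfl * M * Vs (hh M) (c.J M) *
      (∑ τ ∈ (nodes (sz (hh M)) (c.R M) 0 (c.U0 M)).filter
          (fun τ => (c.r M : ℤ) ≤ c.R M - tot (sz (hh M)) τ),
          wt iv τ * Real.exp (-(((c.R M - tot (sz (hh M)) τ : ℤ) : ℝ) / (2 * c.J M)) / Cfl) +
        mass (sz (hh M)) iv (c.R M) 0 (c.U0 M)
          (fun τ => c.R M - tot (sz (hh M)) τ ≤ c.r M ∧ ¬ c.Reg M τ) +
        mass (sz (hh M)) iv (c.R M) 0 (c.U0 M)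
          (fun τ => c.Reg M τ ∧ ∃ z ∈ c.Cen M X, ∀ p ∈ τ, Str X z.1 z.2 p)) -
      M * β * ∑ F ∈ c.fams M, wt iv F.1 ≤ Surv M X :=
  caseIA_surv_lower h hM X hlev hW

theorem CaseIb_small {A B δ : ℝ} (hA : 0 < A) (hB : 0 < B) (hδ : 0 < δ) :
    ∃ s : ℕ, 1 ≤ s ∧ A * ((s : ℝ) + B) ^ 2 * Real.exp (-((s : ℝ) / B)) ≤ δ := by
  obtain ⟨s, hs⟩ := exists_nat_ge (1 + B + 24 * A * B ^ 3 / δ)
  have h0 : 0 ≤ 24 * A * B ^ 3 / δ := by positivity
  have h1 : (1 : ℝ) ≤ s := by linarith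
  have h2 : 24 * A * B ^ 3 ≤ s * δ := by rw [← div_le_iff₀ hδ]; linarith
  refine ⟨s, by exact_mod_cast h1, ?_⟩
  have h3 := Real.pow_div_factorial_le_exp ((s : ℝ) / B) (by positivity) 3
  have h4 : ((Nat.factorial 3 : ℕ) : ℝ) = 6 := by norm_num [Nat.factorial]
  rw [h4] at h3
  rw [Real.exp_neg, ← div_eq_mul_inv, div_le_iff₀ (Real.exp_pos _)]
  calc A * ((s : ℝ) + B) ^ 2 ≤ A * (2 * s) ^ 2 := by gcongr; linarith
    _ = (24 * A * B ^ 3) * (s ^ 2 / B ^ 3 / 6) := by field_simp; ring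
    _ ≤ (s * δ) * (s ^ 2 / B ^ 3 / 6) := by gcongr
    _ = δ * (((s : ℝ) / B) ^ 3 / 6) := by field_simp
    _ ≤ _ := by gcongr

theorem CaseIb_fams {c : Cst} {M : ℝ} (h : c.Ord M)
    (hB : BS (sz (hh M)) iv (c.U0 M) (c.J M) (top M)) :
    ∑ F ∈ c.fams M, wt iv F.1 ≤ 4 * (top M : ℝ) ^ 4 := by
  have h1 := hB.total
  have hJ : (1 : ℝ) ≤ c.J M := by have := hB.big; exact_mod_cast (by omega : 1 ≤ c.J M)
  have h2 : 2 * (top M : ℝ) / c.J M ≤ 2 * top M := div_le_self (by positivity) hJ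
  have h3 : ((Ico (c.u1 M) (c.u2 M) ×ˢ Ico (c.t1 M) (c.t2 M) ×ˢ range (c.u2 M) ×ˢ range 2).card : ℝ) ≤
      top M * (top M * (top M * 2)) := by
    have := h.u2_le
    have := h.t2_le
    have := h.ix_le
    have := h.u_le
    simp only [card_product, Nat.card_Ico, card_range]
    exact_mod_cast Nat.mul_le_mul (by omega) (Nat.mul_le_mul (by omega) (by omega))
  unfold Cst.fams
  rw [sum_product]
  simp only [sum_const, nsmul_eq_mul]
  rw [← mul_sum]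
  calc _ ≤ (top M * (top M * (top M * 2)) : ℝ) * (2 * top M) :=
        mul_le_mul h3 (h1.trans h2) (sum_nonneg fun τ _ => prod_nonneg fun p _ => hB.nonneg p)
          (by positivity)
    _ = _ := by ring

theorem CaseIb_fin {M Mn V E₁ E₂ E₃ S β y x F ε : ℝ} (hM : 0 ≤ M) (hy : 0 ≤ y) (hF : 0 ≤ F)
    (hV : 0 ≤ V) (h1 : 10 * y ≤ Mn) (h2 : F * V * x * ε ≤ y) (e1 : E₁ ≤ ε * x)
    (e2 : E₂ ≤ 2 * ε * x) (e3 : E₃ ≤ ε * x) (h3 : β * S ≤ y) :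
    M * y ≤ M * Mn - F * M * V * (E₁ + E₂ + E₃) - M * β * S := by
  have k1 : F * V * (E₁ + E₂ + E₃) ≤ F * V * (4 * (ε * x)) :=
    mul_le_mul_of_nonneg_left (by linarith) (by positivity)
  have k2 : y ≤ Mn - F * V * (E₁ + E₂ + E₃) - β * S := by nlinarith
  calc M * y ≤ M * (Mn - F * V * (E₁ + E₂ + E₃) - β * S) := by gcongr
    _ = _ := by ring

/-- Order of constants: `a` with `c₀ a - C₀ ≥ 10` (`main_lower`, `κ = 0`); `C₂, K` (`fam_bound`,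
`K ≥ 2a + 30`); note `Vs h J · J²/top² ≤ 13 K ℓ/L²`; `s₁` from `mass_exp` (`R₁ = r`, `θ = 2 Cfl J`);
`Kt`; `ρ, s₂` from `exc_mass`; `Kx`; `ε = 1/(13 K Cfl)` in `one_centre`. -/
theorem caseI : ∃ (a K s₁ C₁ : ℕ) (ε : ℝ), 1 ≤ K ∧ 1 ≤ s₁ ∧ 0 < ε ∧ ∀ᶠ M : ℝ in atTop, ∀ X : ℤ,
    M * ll M / LL M ^ 2 ≤ Surv M X ∨
    ∃ c b : ℤ, IsCoprime c b ∧ 1 ≤ c ∧ (c : ℝ) ≤ LL M ^ C₁ ∧ |(b : ℝ)| ≤ M * LL M ^ C₁ ∧
      ε * (un M K : ℝ) ^ 2 / (top M : ℝ) ^ 2 ≤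
        mass (sz (hh M)) (strw X c b) (R0 M a) 0 (Pr (hh M) (un M K) (top M))
          (fun τ => R0 M a - tot (sz (hh M)) τ ≤ ((s₁ * un M K : ℕ) : ℤ)) := by
  obtain ⟨c₀, C₀, hc₀, hC₀, hmain⟩ := main_lower
  obtain ⟨a, ha⟩ := exists_nat_ge ((10 + C₀) / c₀)
  rw [div_le_iff₀ hc₀] at ha
  obtain ⟨C₂, K₀, hfam⟩ := fam_bound a
  obtain ⟨K, hK⟩ : ∃ K : ℕ, K = K₀ + 2 * a + 30 := ⟨_, rfl⟩
  have hF := one_le_Cfl
  have hK1 : (1 : ℝ) ≤ K := by exact_mod_cast (by omega : 1 ≤ K)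
  have hKa : 2 * (a : ℝ) + 30 ≤ K := by exact_mod_cast (by omega : 2 * a + 30 ≤ K)
  obtain ⟨ε, hε⟩ : ∃ ε : ℝ, ε = 1 / (13 * K * Cfl) := ⟨_, rfl⟩
  have hε0 : 0 < ε := by rw [hε]; positivity
  obtain ⟨C₁, hC₁, hexp⟩ := mass_exp
  obtain ⟨s₁, hs₁, hs⟩ := CaseIb_small (A := C₁ * (2 * Cfl)) (B := 2 * Cfl) (by positivity)
    (by positivity) hε0
  have hs₁' : (1 : ℝ) ≤ s₁ := by exact_mod_cast hs₁
  obtain ⟨Kt, hKt⟩ : ∃ Kt : ℕ, Kt = 8 * (s₁ * K) + 2 * C₂ + 10 := ⟨_, rfl⟩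
  have hsK : K ≤ s₁ * K := Nat.le_mul_of_pos_left _ hs₁
  obtain ⟨C₃, hC₃, hexc⟩ := exc_mass
  obtain ⟨ρ, hρ, hρ'⟩ := CaseIb_small (A := C₃ * (s₁ : ℝ) ^ 3) (B := 1) (by positivity) one_pos hε0
  obtain ⟨Kx₀, hfam⟩ := hfam K s₁ Kt ρ (by omega) hs₁ hρ (by omega)
  obtain ⟨c, hc⟩ : ∃ c : Cst, c = ⟨a, C₂, K, s₁, Kt, ρ, Kx₀ + ρ * Kt + 1, ρ⟩ := ⟨_, rfl⟩
  have c1 : c.a = a := by rw [hc]
  have c2 : c.C₂ = C₂ := by rw [hc]
  have c3 : c.K = K := by rw [hc]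
  have c4 : c.s₁ = s₁ := by rw [hc]
  have c5 : c.Kt = Kt := by rw [hc]
  have c6 : c.ρ = ρ := by rw [hc]
  have c7 : c.Kx = Kx₀ + ρ * Kt + 1 := by rw [hc]
  have c8 : c.s₂ = ρ := by rw [hc]
  have g1 : 20 ≤ c.K := by omega
  have g2 : 8 * c.s₁ * c.K + 2 * c.C₂ + 8 ≤ c.Kt := by rw [c2, c3, c4, c5, mul_assoc]; omega
  have g3 : c.ρ * c.Kt + 1 ≤ c.Kx := by rw [c5, c6, c7]; omega
  obtain ⟨ε₂, hε₂, hone⟩ := c.one_centre g1 g2 (by omega) (by omega) ε hε0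
  refine ⟨a, K, s₁, c.C₁, ε₂, by omega, hs₁, hε₂, ?_⟩
  filter_upwards [hone, hexc c g1 (by omega) (by omega) (by omega) (by omega) g3,
    hfam c c1 c2 c3 c4 c5 c6 (by omega), c.ev_ord g1 (by omega) (by omega) g3,
    hmain a 0 (Nat.cast_nonneg _) le_rfl, ev_R0 (a : ℝ) (Nat.cast_nonneg _), ev_BS, ev_top,
    ev_basic (12 + C₃ * (s₁ : ℝ) ^ 3 / ε), mlc_ev (2 * (s₁ + 16 * Cfl) * (K + 1)), mlc_ev 242]
    with M m1 m2 m3 m4 m5 ⟨_, m6, m7, _⟩ m8 ⟨t1, t2, t3⟩ ⟨b1, b2, b3, b4, b5, b6⟩ ⟨n1, n2⟩ ⟨n3, _⟩ X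
  have hq : 0 ≤ C₃ * (s₁ : ℝ) ^ 3 / ε := by positivity
  have hl : 12 ≤ ll M := by linarith
  have hL : 12 ≤ LL M := by linarith
  have hh1 : (120 : ℝ) ≤ hh M := by linarith
  have hJ : c.J M = un M K := by unfold Cst.J; rw [c3]
  have hR : c.R M = R0 M a := by unfold Cst.R; rw [c1]
  have hr : c.r M = s₁ * un M K := by unfold Cst.r; rw [c4, hJ]
  have hU : c.U0 M = Pr (hh M) (un M K) (top M) := by unfold Cst.U0; rw [hJ]
  by_cases hcase : ε * (c.J M : ℝ) ^ 2 / (top M : ℝ) ^ 2 ≤ mass (sz (hh M)) iv (c.R M) 0 (c.U0 M)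
      (fun τ => c.Reg M τ ∧ ∃ z ∈ c.Cen M X, ∀ p ∈ τ, Str X z.1 z.2 p)
  · right
    obtain ⟨z, hz, hm⟩ := m1 X hcase
    obtain ⟨z1, z2, -⟩ := mem_filter.1 hz
    obtain ⟨z3, z4⟩ := mem_product.1 z1
    rw [mem_Icc] at z3 z4
    refine ⟨z.1, z.2, z2, z3.1, ?_, ?_, ?_⟩
    · refine (Int.le_floor.1 z3.2).trans (pow_le_pow_right₀ (by linarith) ?_)
      unfold Cst.C₁
      omega
    · rw [← Int.cast_abs]
      exact Int.le_floor.1 (abs_le.2 z4)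
    · rwa [hJ, hR, hr, hU] at hm
  left
  obtain ⟨j1, j2⟩ := un_spec (M := M) (κ := K) (by linarith) (by linarith)
  rw [← hJ] at j1 j2
  have hhl : (1 : ℝ) ≤ hh M * ll M := one_le_mul_of_one_le_of_one_le (by linarith) (by linarith)
  have j3 : (c.J M : ℝ) ≤ (K + 1) * (hh M * ll M) := by linarith
  have j4 : (hh M : ℝ) * ll M ≤ c.J M := by
    refine le_trans ?_ j1
    rw [mul_assoc]
    exact le_mul_of_one_le_left (by linarith) hK1
  have j0 : (1 : ℝ) ≤ c.J M := hhl.trans j4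
  have hJt : c.J M ≤ top M := by
    have := m4.J_le; have := m4.t_le; have := m4.t2_le; have := m4.ix_le; have := m4.u_le
    have := m4.u2_le; omega
  have ht0 : (0 : ℝ) < top M := lt_of_lt_of_le (by positivity) t1
  have hroot : Root (sz (hh M)) iv (c.U0 M) (c.J M) (top M) (c.R M) := by
    refine ⟨m8 iv _ _ _ (Nat.ceil_le.2 (by linarith)) hJt (mlc_Pr_sub b4 le_rfl (Nat.le_succ _))
      mlc_iv_nonneg fun k _ => sum_le_sum_of_subset_of_nonneg (fun p hp => ?_)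
        fun p _ _ => mlc_iv_nonneg p, ?_, hR ▸ m7⟩
    · obtain ⟨p1, p2⟩ := mem_filter.1 hp
      exact (mem_Pr b4).2 ⟨((mem_Pr b4).1 p1).1, p2.ge, by omega⟩
    · unfold Cst.R R0
      omega
  have hlev : Real.exp ((c.R M : ℝ) / hh M) ≤ M * Real.exp ((c.J M : ℝ) / (2 * hh M)) := by
    rw [hR]
    refine m6.trans (mul_le_mul_of_nonneg_left ?_ (by linarith))
    rw [Real.rpow_def_of_pos (by linarith)]
    refine Real.exp_le_exp.2 ?_
    change ll M * _ ≤ _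
    rw [le_div_iff₀ (by linarith)]
    refine le_trans ?_ j1
    have : (2 * (a : ℝ) + 26) * (hh M * ll M) ≤ K * (hh M * ll M) := by gcongr; linarith
    linarith
  have key := m4.surv_lower (by linarith) X hlev (β := 1 / LL M ^ 9) (by
    simpa only [mul_one_div] using m3 X)
  rw [mul_div_assoc]
  refine le_trans (CaseIb_fin (ε := ε) (x := (c.J M : ℝ) ^ 2 / (top M : ℝ) ^ 2) (by linarith)
    (by positivity) (by linarith) ?_ ?_ ?_ ?_ ?_ ?_ ?_) key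
  · exact (Vs_le b4 (by exact_mod_cast (show (3 : ℝ) * hh M ≤ c.J M by nlinarith))).1
  · have k1 := m5 (c.J M) 0 (by simp) (by simpa using m4.i0_le) hJt
    obtain ⟨k2, -⟩ := un_spec (M := M) (κ := a) (Nat.cast_nonneg _) (by linarith)
    rw [c1]
    refine le_trans ?_ k1
    rw [Nat.cast_zero, sub_zero, max_eq_left (Nat.cast_nonneg _)]
    have k3 : c₀ * (a * hh M * ll M) / (hh M * LL M ^ 2) ≤ c₀ * un M a / (hh M * LL M ^ 2) := by
      gcongr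
    have k4 : c₀ * (a * hh M * ll M) / (hh M * LL M ^ 2) = a * c₀ * (ll M / LL M ^ 2) := by
      field_simp
    have k5 : (10 + C₀) * (ll M / LL M ^ 2) ≤ a * c₀ * (ll M / LL M ^ 2) := by gcongr
    have k6 : C₀ * (1 + 0) ^ 2 * ll M / LL M ^ 2 = C₀ * (ll M / LL M ^ 2) := by ring
    linarith
  · have k1 := (Vs_le b4 (by exact_mod_cast (show (3 : ℝ) * hh M ≤ c.J M by nlinarith))).2
    have k2 : (c.J M : ℝ) ≤ 13 / 12 * K * (hh M * ll M) := by nlinarith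
    calc Cfl * Vs (hh M) (c.J M) * ((c.J M : ℝ) ^ 2 / (top M : ℝ) ^ 2) * ε
        ≤ Cfl * (3 * hh M / c.J M) * ((c.J M : ℝ) ^ 2 / (hh M * LL M / 2) ^ 2) * ε := by gcongr
      _ = Cfl * (12 * c.J M / (hh M * LL M ^ 2)) * ε := by field_simp; ring
      _ ≤ Cfl * (12 * (13 / 12 * K * (hh M * ll M)) / (hh M * LL M ^ 2)) * ε := by gcongr
      _ = _ := by rw [hε]; field_simp
  · have k1 := hexp hroot (c.r M) (2 * Cfl * c.J M)
      (one_le_mul_of_one_le_of_one_le (by linarith) j0) (by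
        have k2 : 8 * ll M ≤ ((top M : ℝ) - c.r M) / (2 * Cfl * c.J M) := by
          rw [le_div_iff₀ (by positivity), Cst.r, c4]
          push_cast
          have k3 : (s₁ : ℝ) * c.J M ≤ s₁ * (ll M * c.J M) := by
            gcongr
            exact le_mul_of_one_le_left (by linarith) (by linarith)
          have k4 : (s₁ + 16 * Cfl) * (ll M * c.J M) ≤
              (s₁ + 16 * Cfl) * (ll M * ((K + 1) * (hh M * ll M))) := by gcongr
          have k5 : hh M * (2 * (s₁ + 16 * Cfl) * (K + 1) * ll M ^ 2) ≤ hh M * LL M := by gcongr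
          nlinarith
        have k3 : (top M : ℝ) ^ 4 ≤ Real.exp (((top M : ℝ) - c.r M) / (2 * Cfl * c.J M)) := by
          calc (top M : ℝ) ^ 4 ≤ (LL M ^ 2) ^ 4 := by gcongr
            _ = Real.exp (((8 : ℕ) : ℝ) * ll M) := by rw [Real.exp_nat_mul, n2]; ring
            _ ≤ _ := Real.exp_le_exp.2 (by push_cast; linarith)
        rw [neg_div]
        calc _ ≤ Real.exp (((top M : ℝ) - c.r M) / (2 * Cfl * c.J M)) *
              Real.exp (-(((top M : ℝ) - c.r M) / (2 * Cfl * c.J M))) := by gcongr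
          _ = 1 := by rw [← Real.exp_add]; simp)
    have k2 : (c.r M : ℝ) = s₁ * c.J M := by rw [Cst.r, c4]; push_cast; ring
    calc _ = Real.exp (-((s₁ : ℝ) / (2 * Cfl))) *
          ∑ τ ∈ (nodes (sz (hh M)) (c.R M) 0 (c.U0 M)).filter
            (fun τ => (c.r M : ℤ) ≤ c.R M - tot (sz (hh M)) τ), wt iv τ *
              Real.exp (-((c.R M - tot (sz (hh M)) τ : ℤ) - (c.r M : ℝ)) / (2 * Cfl * c.J M)) := by
          rw [mul_sum]
          refine sum_congr rfl fun τ _ => ?_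
          rw [mul_left_comm, ← Real.exp_add, k2]
          congr 2
          field_simp
          ring
      _ ≤ Real.exp (-((s₁ : ℝ) / (2 * Cfl))) *
          (C₁ * (c.r M + 2 * Cfl * c.J M) ^ 2 * (2 * Cfl * c.J M) / (c.J M * top M ^ 2)) := by
          gcongr
      _ = C₁ * (2 * Cfl) * ((s₁ : ℝ) + 2 * Cfl) ^ 2 * Real.exp (-((s₁ : ℝ) / (2 * Cfl))) *
          ((c.J M : ℝ) ^ 2 / (top M : ℝ) ^ 2) := by
          rw [k2]
          field_simp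
      _ ≤ _ := by gcongr
  · refine m2.trans ?_
    rw [c4, c6, c8, mul_div_assoc]
    refine mul_le_mul_of_nonneg_right ?_ (by positivity)
    rw [div_one] at hρ'
    have k1 : C₃ * (s₁ : ℝ) ^ 3 * (1 / ll M) ≤ ε := by
      rw [mul_one_div, div_le_iff₀ (by linarith), mul_comm ε, ← div_le_iff₀ hε0]
      linarith
    have k2 : (ρ : ℝ) * Real.exp (-(ρ : ℝ)) + (ρ : ℝ) ^ 2 * Real.exp (-(ρ : ℝ)) ≤
        ((ρ : ℝ) + 1) ^ 2 * Real.exp (-(ρ : ℝ)) := by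
      rw [← add_mul]
      gcongr
      have : (0 : ℝ) ≤ ρ := Nat.cast_nonneg _
      nlinarith
    have k3 := mul_le_mul_of_nonneg_left k2 (by positivity : 0 ≤ C₃ * (s₁ : ℝ) ^ 3)
    rw [mul_add (C₃ * (s₁ : ℝ) ^ 3)]
    linarith
  · rw [← mul_div_assoc]
    exact (not_le.1 hcase).le
  · have k1 := CaseIb_fams m4 hroot.toBS
    have k2 : (hh M : ℝ) ^ 2 ≤ LL M / 2 := by
      have : (hh M : ℝ) ^ 2 ≤ (11 * ll M) ^ 2 := by gcongr
      linarith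
    have k3 : (top M : ℝ) ^ 2 ≤ LL M / 2 * LL M ^ 2 := by
      calc (top M : ℝ) ^ 2 ≤ (hh M * LL M) ^ 2 := by gcongr
        _ = (hh M : ℝ) ^ 2 * LL M ^ 2 := by ring
        _ ≤ _ := by gcongr
    calc _ ≤ 1 / LL M ^ 9 * (4 * ((top M : ℝ) ^ 2) ^ 2) := by
          rw [← pow_mul]
          gcongr
      _ ≤ 1 / LL M ^ 9 * (4 * (LL M / 2 * LL M ^ 2) ^ 2) := by gcongr
      _ = 1 / LL M / LL M ^ 2 := by field_simp; ring
      _ ≤ _ := by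
          gcongr
          rw [div_le_iff₀ (by linarith)]
          nlinarith

end Crest.Agent.R1
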