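import Crest.Agent.R1.FamA

/-!
# R1 / MassII: structured mass at a higher cut, with a good middle prime
-/

set_option autoImplicit false

namespace Crest.Agent.R1

open Finset Filter
open scoped Classical

theorem mII_or {σ : ℕ → ℕ} {μ : ℕ → ℝ} {R : ℤ} {e : ℕ} {U : Finset ℕ} (hμ : ∀ b, 0 ≤ μ b)
    {Φ : Finset ℕ → Prop} (A B : Finset ℕ → Prop) (h : ∀ τ ∈ nodes σ R e U, Φ τ → A τ ∨ B τ) :
    mass σ μ R e U Φ ≤ mass σ μ R e U A + mass σ μ R e U B := by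
  simp only [mass, sum_filter, ← sum_add_distrib]
  refine sum_le_sum fun τ hτ => ?_
  have h0 := mk_wt_nonneg hμ τ
  have h1 := h τ hτ
  split_ifs <;> first | linarith | tauto

theorem mII_bad {σ : ℕ → ℕ} {μ μ' : ℕ → ℝ} (hμ' : ∀ b, 0 ≤ μ' b) {B : ℕ → Prop} {θ : ℝ} (h0 : 0 ≤ θ)
    (h1 : θ ≤ 1) (h : ∀ p, μ p = (if B (σ p) then θ else 1) * μ' p) {v ρ J₀ : ℕ} (hρ : 1 ≤ ρ)
    {τ : Finset ℕ} (hτ : ∀ k < J₀, ∃ p ∈ τ, ρ ^ k * v ≤ σ p ∧ σ p < ρ ^ (k + 1) * v ∧ B (σ p)) :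
    wt μ τ ≤ θ ^ J₀ * wt μ' τ := by
  choose! f hf using hτ
  have key : ∀ k < J₀, ∀ k' < J₀, f k = f k' → ¬ k < k' := fun k hk k' hk' e hlt => by
    have a1 := (hf k hk).2.2.1
    have a2 := (hf k' hk').2.1
    have a3 := Nat.mul_le_mul_right v (Nat.pow_le_pow_right hρ (Nat.succ_le_of_lt hlt))
    rw [e] at a1
    exact absurd (a1.trans_le (a3.trans a2)) (lt_irrefl _)
  have h2 : J₀ ≤ (τ.filter fun p => B (σ p)).card := by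
    rw [← card_range J₀]
    refine card_le_card_of_injOn f (fun k hk => ?_) fun k hk k' hk' e => ?_
    · have := hf k (mem_range.1 hk)
      exact mem_filter.2 ⟨this.1, this.2.2.2⟩
    · have a1 := key k (mem_range.1 hk) k' (mem_range.1 hk') e
      have a2 := key k' (mem_range.1 hk') k (mem_range.1 hk) e.symm
      omega
  have h3 : wt μ τ = θ ^ (τ.filter fun p => B (σ p)).card * wt μ' τ := by
    simp only [wt, h, prod_mul_distrib]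
    rw [← prod_filter, prod_const]
  rw [h3]
  exact mul_le_mul_of_nonneg_right (pow_le_pow_of_le_one h0 h1 h2) (mk_wt_nonneg hμ' τ)

theorem mII_exp {t i w : ℝ} (ht : 0 ≤ t) (hi : 0 < i) (hw : i ≤ w) (h : t ^ 4 * Real.exp (-t / w) ≤ 1) :
    t ^ 4 * Real.exp (-t / i) ≤ 1 := by
  refine le_trans (mul_le_mul_of_nonneg_left (Real.exp_le_exp.2 ?_) (by positivity)) h
  rw [neg_div, neg_div, neg_le_neg_iff]
  exact div_le_div_of_nonneg_left ht hi hw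

theorem mII_core : ∃ C : ℝ, 0 < C ∧ ∀ {σ : ℕ → ℕ} {μ μ' : ℕ → ℝ} {U : Finset ℕ} {j top : ℕ} {R₀ : ℤ}
    (G : ℕ → Prop) (n r v w ρ J₀ : ℕ) (θ : ℝ), Root σ μ U j top R₀ → Root σ μ' U j top R₀ →
    0 ≤ θ → θ ≤ 1 → (∀ p, μ p = (if v ≤ σ p ∧ σ p < w ∧ ¬ G (σ p) then θ else 1) * μ' p) →
    j ≤ v → 8 * r ≤ v → 1 ≤ ρ → ρ ^ J₀ * v ≤ w → 2 * w ≤ top →
    (top : ℝ) ^ 4 * Real.exp (-(top : ℝ) / (2 * w)) ≤ 1 →
    mass σ μ R₀ 0 U (fun τ => R₀ - tot σ τ ≤ r) ≤ (2 * top / j) ^ 3 / 3 ^ n +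
      C * (1 / v + J₀ * (ρ * Real.exp (-(ρ : ℝ))) + θ ^ J₀) * (r ^ 3 / (j * top ^ 2)) +
      mass σ μ R₀ 0 U (fun τ => R₀ - tot σ τ ≤ r ∧ τ.card ≤ n ∧
        (∀ p ∈ τ, ∀ q ∈ τ, σ p = σ q → v ≤ σ p → σ p < w → p = q) ∧
        ∃ p ∈ τ, v ≤ σ p ∧ σ p < w ∧ G (σ p)) := by
  obtain ⟨C₁, hC₁, h₁⟩ := mass_dbl
  obtain ⟨C₂, hC₂, h₂⟩ := mass_gap
  obtain ⟨C₃, hC₃, h₃⟩ := mass_cum
  refine ⟨C₁ + C₂ + C₃, by positivity, ?_⟩
  intro σ μ μ' U j top R₀ G n r v w ρ J₀ θ H H' h0 h1 hμ hjv hrv hρ hw hwt hexp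
  have hj := H.big
  have hpw : ∀ k ≤ J₀, v ≤ ρ ^ k * v ∧ ρ ^ k * v ≤ w := fun k hk =>
    ⟨Nat.le_mul_of_pos_left _ (by positivity),
      (Nat.mul_le_mul_right v (Nat.pow_le_pow_right hρ hk)).trans hw⟩
  have hvw : v ≤ w := by simpa using (hpw 0 (Nat.zero_le _)).2
  have hv0 : (0 : ℝ) < v := by exact_mod_cast (by omega : 0 < v)
  have hw0 : (0 : ℝ) < w := by exact_mod_cast (by omega : 0 < w)
  have hQ : (0 : ℝ) ≤ r ^ 3 / (j * top ^ 2) := by positivity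
  have a1 : mass σ μ R₀ 0 U (fun τ => n < τ.card) ≤ (2 * top / j) ^ 3 / 3 ^ n := by
    rw [mk_mass_eq]
    exact (sum_le_sum_of_subset_of_nonneg (filter_subset_filter _ (filter_subset _ _))
      fun τ _ _ => mk_wt_nonneg H.nonneg τ).trans (H.toBS.depth n)
  have a2 := h₁ H v w r hjv hrv hvw (mII_exp (by positivity) hw0 (by linarith) hexp)
  have a3 : mass σ μ R₀ 0 U (fun τ => R₀ - tot σ τ ≤ r ∧
      ∃ k < J₀, ∀ p ∈ τ, ¬ (ρ ^ k * v ≤ σ p ∧ σ p < ρ ^ (k + 1) * v)) ≤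
      C₂ * (J₀ * (ρ * Real.exp (-(ρ : ℝ)))) * (r ^ 3 / (j * top ^ 2)) := by
    refine (mk_union H.nonneg (range J₀) (Ψ := fun k τ => R₀ - tot σ τ ≤ r ∧
      ∀ p ∈ τ, ¬ (ρ ^ k * v ≤ σ p ∧ σ p < ρ ^ (k + 1) * v))
      fun τ _ ⟨b, k, hk, b'⟩ => ⟨k, mem_range.2 hk, b, b'⟩).trans ?_
    refine (sum_le_card_nsmul _ _ (C₂ * (ρ * Real.exp (-(ρ : ℝ))) * (r ^ 3 / (j * top ^ 2)))
      fun k hk => ?_).trans (le_of_eq (by rw [card_range, nsmul_eq_mul]; ring))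
    have b1 := hpw k (mem_range.1 hk).le
    have b2 := hpw (k + 1) (mem_range.1 hk)
    have b3 : (0 : ℝ) < (ρ ^ k * v : ℕ) := by exact_mod_cast (by omega : 0 < ρ ^ k * v)
    have b4 : ((ρ ^ k * v : ℕ) : ℝ) ≤ w := by exact_mod_cast b1.2
    have b5 : ((ρ ^ (k + 1) * v : ℕ) : ℝ) / (ρ ^ k * v : ℕ) = ρ := by
      rw [div_eq_iff b3.ne']
      push_cast
      ring
    have b6 := h₂ H (ρ ^ k * v) (ρ ^ (k + 1) * v) r (by omega) (by omega)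
      (Nat.mul_le_mul_right v (Nat.pow_le_pow_right hρ k.le_succ)) (by omega)
      (mII_exp (by positivity) (by positivity) (by linarith) hexp)
    rw [b5] at b6
    exact b6.trans (le_of_eq (by ring))
  have a4 : mass σ μ R₀ 0 U (fun τ => R₀ - tot σ τ ≤ r ∧ ∀ k < J₀, ∃ p ∈ τ, ρ ^ k * v ≤ σ p ∧
      σ p < ρ ^ (k + 1) * v ∧ (v ≤ σ p ∧ σ p < w ∧ ¬ G (σ p))) ≤
      C₃ * θ ^ J₀ * (r ^ 3 / (j * top ^ 2)) := by
    have b1 := mul_le_mul_of_nonneg_left (h₃ H' r (by omega)) (pow_nonneg h0 J₀)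
    refine le_trans ?_ (b1.trans (le_of_eq (by ring)))
    rw [mk_mass_eq, mk_mass_eq, mul_sum]
    refine (sum_le_sum fun τ hτ => mII_bad (B := fun i => v ≤ i ∧ i < w ∧ ¬ G i) H'.nonneg h0 h1
      (fun p => by convert hμ p) hρ (mem_filter.1 hτ).2.2).trans ?_
    exact sum_le_sum_of_subset_of_nonneg
      (fun τ hτ => mem_filter.2 ⟨(mem_filter.1 hτ).1, (mem_filter.1 hτ).2.1⟩)
      fun τ _ _ => mul_nonneg (pow_nonneg h0 _) (mk_wt_nonneg H'.nonneg τ)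
  have s1 := mII_or (R := R₀) (e := 0) (U := U) (σ := σ) H.nonneg
    (Φ := fun τ => R₀ - tot σ τ ≤ r) (fun τ => n < τ.card) (fun τ => R₀ - tot σ τ ≤ r ∧ τ.card ≤ n)
    fun τ _ b => (lt_or_ge n τ.card).imp id fun b' => ⟨b, b'⟩
  have s2 := mII_or (R := R₀) (e := 0) (U := U) (σ := σ) H.nonneg
    (Φ := fun τ => R₀ - tot σ τ ≤ r ∧ τ.card ≤ n) (fun τ => R₀ - tot σ τ ≤ r ∧
      ∃ p ∈ τ, ∃ q ∈ τ, p ≠ q ∧ σ p = σ q ∧ v ≤ σ p ∧ σ p < w)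
    (fun τ => R₀ - tot σ τ ≤ r ∧ τ.card ≤ n ∧
      ∀ p ∈ τ, ∀ q ∈ τ, σ p = σ q → v ≤ σ p → σ p < w → p = q) fun τ _ b => by
      by_cases c : ∀ p ∈ τ, ∀ q ∈ τ, σ p = σ q → v ≤ σ p → σ p < w → p = q
      · exact Or.inr ⟨b.1, b.2, c⟩
      · push Not at c
        obtain ⟨p, hp, q, hq, c1, c2, c3, c4⟩ := c
        exact Or.inl ⟨b.1, p, hp, q, hq, c4, c1, c2, c3⟩
  have s3 := mII_or (R := R₀) (e := 0) (U := U) (σ := σ) H.nonneg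
    (Φ := fun τ => R₀ - tot σ τ ≤ r ∧ τ.card ≤ n ∧
      ∀ p ∈ τ, ∀ q ∈ τ, σ p = σ q → v ≤ σ p → σ p < w → p = q)
    (fun τ => R₀ - tot σ τ ≤ r ∧ ¬ ∃ p ∈ τ, v ≤ σ p ∧ σ p < w ∧ G (σ p))
    (fun τ => R₀ - tot σ τ ≤ r ∧ τ.card ≤ n ∧
      (∀ p ∈ τ, ∀ q ∈ τ, σ p = σ q → v ≤ σ p → σ p < w → p = q) ∧
      ∃ p ∈ τ, v ≤ σ p ∧ σ p < w ∧ G (σ p)) fun τ _ b =>
      (em _).symm.imp (fun c => ⟨b.1, c⟩) fun c => ⟨b.1, b.2.1, b.2.2, c⟩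
  have s4 := mII_or (R := R₀) (e := 0) (U := U) (σ := σ) H.nonneg
    (Φ := fun τ => R₀ - tot σ τ ≤ r ∧ ¬ ∃ p ∈ τ, v ≤ σ p ∧ σ p < w ∧ G (σ p))
    (fun τ => R₀ - tot σ τ ≤ r ∧ ∃ k < J₀, ∀ p ∈ τ, ¬ (ρ ^ k * v ≤ σ p ∧ σ p < ρ ^ (k + 1) * v))
    (fun τ => R₀ - tot σ τ ≤ r ∧ ∀ k < J₀, ∃ p ∈ τ, ρ ^ k * v ≤ σ p ∧
      σ p < ρ ^ (k + 1) * v ∧ (v ≤ σ p ∧ σ p < w ∧ ¬ G (σ p))) fun τ _ b => by
      by_cases c : ∃ k < J₀, ∀ p ∈ τ, ¬ (ρ ^ k * v ≤ σ p ∧ σ p < ρ ^ (k + 1) * v)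
      · exact Or.inl ⟨b.1, c⟩
      · refine Or.inr ⟨b.1, fun k hk => ?_⟩
        push Not at c
        obtain ⟨p, hp, c1, c2⟩ := c k hk
        have b1 := (hpw k hk.le).1.trans c1
        have b2 := c2.trans_le (hpw (k + 1) hk).2
        exact ⟨p, hp, c1, c2, b1, b2, fun g => b.2 ⟨p, hp, b1, b2, g⟩⟩
  have e1 : C₁ * (r : ℝ) ^ 3 / (j * top ^ 2 * v) = C₁ * (1 / v) * (r ^ 3 / (j * top ^ 2)) := by
    ring
  rw [e1] at a2
  have p1 : (0 : ℝ) ≤ 1 / v := by positivity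
  have p2 : (0 : ℝ) ≤ J₀ * (ρ * Real.exp (-(ρ : ℝ))) := by positivity
  have p3 := pow_nonneg h0 J₀
  have p4 : (C₁ * (1 / v) + C₂ * (J₀ * (ρ * Real.exp (-(ρ : ℝ)))) + C₃ * θ ^ J₀) ≤
      (C₁ + C₂ + C₃) * (1 / v + J₀ * (ρ * Real.exp (-(ρ : ℝ))) + θ ^ J₀) := by
    generalize (1 / v : ℝ) = x at *
    generalize J₀ * (ρ * Real.exp (-(ρ : ℝ))) = y at *
    generalize θ ^ J₀ = z at *
    have : 0 ≤ C₁ * (y + z) + C₂ * (x + z) + C₃ * (x + y) := by positivity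
    linarith
  have p5 := mul_le_mul_of_nonneg_right p4 hQ
  linarith

theorem mII_mem {M a δ : ℝ} {J s i : ℕ} {μ : ℕ → ℝ} {τ : Finset ℕ} : τ ∈ Tset M a J s μ δ i ↔
    τ ⊆ Pr (hh M) J (top M) ∧ (∀ p ∈ τ, sz (hh M) p ≠ i ∧
      ¬ (i < sz (hh M) p ∧ sz (hh M) p < v2 M ∧ GoodB (hh M) μ δ (sz (hh M) p))) ∧
    τ.card < hh M ∧ R0 M a - tot (sz (hh M)) τ - i ≤ ((s * J : ℕ) : ℤ) ∧
    ∀ u ∈ Pr (hh M) i (i + 1), Alive (sz (hh M)) (R0 M a) 0 (insert u τ) := by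
  simp only [Tset, mem_filter, mem_powerset]

theorem mII_main {M a δ : ℝ} {J s : ℕ} {μ : ℕ → ℝ} (hh0 : 0 < hh M) (hμ : ∀ p, 0 ≤ μ p ∧ μ p ≤ iv p) :
    mass (sz (hh M)) μ (R0 M a) 0 (Pr (hh M) J (top M)) (fun τ =>
      R0 M a - tot (sz (hh M)) τ ≤ ((s * J : ℕ) : ℤ) ∧ τ.card ≤ hh M ∧
      (∀ p ∈ τ, ∀ q ∈ τ, sz (hh M) p = sz (hh M) q → v1 M ≤ sz (hh M) p → sz (hh M) p < v2 M → p = q) ∧
      ∃ p ∈ τ, v1 M ≤ sz (hh M) p ∧ sz (hh M) p < v2 M ∧ GoodB (hh M) μ δ (sz (hh M) p)) ≤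
    ∑ i ∈ (Ico (v1 M) (v2 M)).filter (GoodB (hh M) μ δ),
      ∑ τ ∈ Tset M a J s μ δ i, wt μ τ * ∑ p ∈ Pr (hh M) i (i + 1), iv p := by
  have h0 : ∀ p, 0 ≤ μ p := fun p => (hμ p).1
  rw [mk_mass_eq]
  refine (mb_remove_le h0 _ ((Pr (hh M) (v1 M) (v2 M)).filter fun q => GoodB (hh M) μ δ (sz (hh M) q))
    (fun q => Tset M a J s μ δ (sz (hh M) q)) fun τ hτ => ?_).trans ?_
  · obtain ⟨hn, h1, h2, h3, h4⟩ := mem_filter.1 hτ
    obtain ⟨hU, hA⟩ := mem_filter.1 hn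
    rw [mem_powerset] at hU
    obtain ⟨u, hu, hmax⟩ := exists_max_image (τ.filter fun p => v1 M ≤ sz (hh M) p ∧
      sz (hh M) p < v2 M ∧ GoodB (hh M) μ δ (sz (hh M) p)) id
      (by obtain ⟨p, hp, b⟩ := h4; exact ⟨p, mem_filter.2 ⟨hp, b⟩⟩)
    obtain ⟨hu, b1, b2, b3⟩ := mem_filter.1 hu
    have hne : ∀ p ∈ τ.erase u, sz (hh M) p ≠ sz (hh M) u := fun p hp e =>
      (mem_erase.1 hp).1 (h3 p (mem_of_mem_erase hp) u hu e (e ▸ b1) (e ▸ b2))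
    refine ⟨u, hu, mem_filter.2 ⟨(mem_Pr hh0).2 ⟨((mem_Pr hh0).1 (hU hu)).1, b1, b2⟩, b3⟩,
      mII_mem.2 ⟨(erase_subset _ _).trans hU, fun p hp => ⟨hne p hp, fun c => ?_⟩,
        (card_erase_lt_of_mem hu).trans_le h2, ?_, fun u' hu' => ?_⟩⟩
    · exact absurd (sz_mono _ (hmax p (mem_filter.2 ⟨mem_of_mem_erase hp, b1.trans c.1.le, c.2⟩)))
        (not_le.2 c.1)
    · rw [mb_tot_erase hu]
      omega
    · have e : sz (hh M) u = sz (hh M) u' := by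
        have := (mem_Pr hh0).1 hu'
        omega
      have key : ∀ {p x y : ℕ}, sz (hh M) p ≠ sz (hh M) x → sz (hh M) x = sz (hh M) y → p < x → p < y :=
        fun {p x y} c1 c2 c3 => by
          by_contra c4
          have d1 := sz_mono (hh M) c3.le
          have d2 := sz_mono (hh M) (not_lt.1 c4)
          omega
      rw [← alive_swap (notMem_erase u τ) (fun c => hne u' c e.symm) e fun p hp =>
        ⟨key (hne p hp) e, key (e ▸ hne p hp) e.symm⟩, insert_erase hu]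
      exact hA
  · rw [← sum_fiberwise_of_maps_to (g := sz (hh M))
      (t := (Ico (v1 M) (v2 M)).filter (GoodB (hh M) μ δ)) fun q hq => mem_filter.2
        ⟨mem_Ico.2 ((mem_Pr hh0).1 (mem_filter.1 hq).1).2, (mem_filter.1 hq).2⟩]
    refine sum_le_sum fun i _ => ?_
    have hT : 0 ≤ ∑ τ ∈ Tset M a J s μ δ i, wt μ τ := sum_nonneg fun τ _ => mk_wt_nonneg h0 τ
    rw [← sum_mul, mul_sum]
    refine (sum_le_sum fun q hq => ?_).trans (sum_le_sum_of_subset_of_nonneg (fun q hq => ?_)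
      fun q _ _ => mul_nonneg hT ((hμ q).1.trans (hμ q).2))
    · rw [(mem_filter.1 hq).2, mul_comm]
      exact mul_le_mul_of_nonneg_left (hμ q).2 hT
    · have b1 := (mem_filter.1 hq).2
      exact (mem_Pr hh0).2 ⟨((mem_Pr hh0).1 (mem_filter.1 (mem_filter.1 hq).1).1).1, by omega, by omega⟩

theorem mII_ev (c : ℝ) : ∀ᶠ M : ℝ in atTop, ∃ x : ℝ, c * ll M ≤ x ∧ LL M = x ^ 10 ∧
    hh M * x ^ 7 ≤ v1 M ∧ (v1 M : ℝ) ≤ hh M * x ^ 7 + 1 ∧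
    hh M * x ^ 8 ≤ v2 M ∧ (v2 M : ℝ) ≤ hh M * x ^ 8 + 1 := by
  have h1 : Tendsto LL atTop atTop := Real.tendsto_log_atTop
  have h2 := (isLittleO_log_rpow_atTop (r := 1 / 10) (by norm_num)).bound
    (c := 1 / (|c| + 1)) (by positivity)
  filter_upwards [ev_basic 1, h1.eventually h2] with M ⟨a, b, _, _⟩ hl
  have hL : 0 ≤ LL M := by linarith
  have e : ∀ k : ℕ, (LL M ^ (1 / 10 : ℝ)) ^ k = LL M ^ ((k : ℝ) / 10) := fun k => by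
    rw [← Real.rpow_natCast, ← Real.rpow_mul hL]
    congr 1
    ring
  have hx : 0 ≤ LL M ^ (1 / 10 : ℝ) := Real.rpow_nonneg hL _
  refine ⟨LL M ^ (1 / 10 : ℝ), ?_, by rw [e]; norm_num, ?_, ?_, ?_, ?_⟩
  · rw [Real.norm_of_nonneg hx, one_div, ← div_eq_inv_mul, le_div_iff₀ (by positivity)] at hl
    have h3 : ll M ≤ ‖Real.log (LL M)‖ := le_abs_self _
    nlinarith [le_abs_self c, abs_nonneg c]
  · rw [e]
    exact_mod_cast Nat.le_ceil _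
  · rw [e]
    exact_mod_cast (Nat.ceil_lt_add_one (by positivity)).le
  · rw [e]
    exact_mod_cast Nat.le_ceil _
  · rw [e]
    exact_mod_cast (Nat.ceil_lt_add_one (by positivity)).le

theorem mII_real {N K h l L x J v w t : ℝ} (hN : 0 ≤ N) (hK : 1 ≤ K) (hl : 1 ≤ l) (hh : 1 ≤ h)
    (t1 : h * L / 2 ≤ t) (x1 : (N * (K + 1) + 64) * l ≤ x) (x2 : L = x ^ 10) (x3 : h * x ^ 7 ≤ v)
    (x4 : v ≤ h * x ^ 7 + 1) (x5 : h * x ^ 8 ≤ w) (x6 : w ≤ h * x ^ 8 + 1) (u2 : J ≤ K * h * l + 1) :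
    N * J ≤ v ∧ N * v ≤ w ∧ 2 * w ≤ t ∧ 0 < w ∧ 8 * l * (2 * w) ≤ t := by
  have b0 : 0 ≤ N * (K + 1) * l := by positivity
  have b1 : N * (K + 1) * l ≤ x := by linarith
  have b2 : 64 * l ≤ x := by linarith
  have b3 : 64 ≤ x := by linarith
  have b4 : 2 * N ≤ x := by
    have := mul_le_mul_of_nonneg_left (mul_le_mul (show 2 ≤ K + 1 by linarith) hl zero_le_one
      (by linarith)) hN
    linarith
  have b5 : x ≤ x ^ 7 := le_self_pow₀ (by linarith) (by norm_num)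
  have b6 : 1 ≤ h * x ^ 7 := one_le_mul_of_one_le_of_one_le hh (by linarith)
  have b7 : 1 ≤ h * x ^ 8 := one_le_mul_of_one_le_of_one_le hh (one_le_pow₀ (by linarith))
  have b9 : x * w ≤ t / 16 := by
    have c1 : h * L = x * (x * (h * x ^ 8)) := by rw [x2]; ring
    have c2 := mul_le_mul_of_nonneg_right b3 (show 0 ≤ x * (h * x ^ 8) by positivity)
    have c3 := mul_le_mul_of_nonneg_left (show w ≤ 2 * (h * x ^ 8) by linarith)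
      (show 0 ≤ x by linarith)
    have c4 : 0 ≤ x * (h * x ^ 8) := by positivity
    linarith
  have hl1 : 1 ≤ h * l := one_le_mul_of_one_le_of_one_le hh hl
  have b10 := mul_le_mul_of_nonneg_right b2 (show 0 ≤ w by linarith)
  have b11 := mul_le_mul_of_nonneg_right hl (show 0 ≤ w by linarith)
  refine ⟨?_, ?_, by linarith, by linarith, by linarith⟩
  · have c2 := mul_le_mul_of_nonneg_left (show J ≤ h * ((K + 1) * l) by linarith) hN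
    have c3 := mul_le_mul_of_nonneg_left (b1.trans b5) (show 0 ≤ h by linarith)
    linarith
  · have c1 := mul_le_mul_of_nonneg_left (show v ≤ 2 * (h * x ^ 7) by linarith) hN
    have c2 := mul_le_mul_of_nonneg_right b4 (show 0 ≤ h * x ^ 7 by linarith)
    have c3 : x * (h * x ^ 7) = h * x ^ 8 := by ring
    linarith

theorem mII_real2 {c h L J t z : ℝ} (hc : 0 < c) (hh : 1 ≤ h) (hL : 1 ≤ L) (a5 : 8 / c ≤ L)
    (t1 : h * L / 2 ≤ t) (t2 : t ≤ h * L) (hJ : h ≤ J) (h3 : L ^ 10 ≤ z) :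
    (2 * t / J) ^ 3 / z ≤ c * (J ^ 2 / t ^ 2) := by
  have c0 : 0 < t := lt_of_lt_of_le (by positivity) t1
  have c1 : 0 < J := by linarith
  have c2 : t / J ≤ L := by
    rw [div_le_iff₀ c1]
    nlinarith
  have c3 : (t / J) ^ 5 ≤ L ^ 5 := pow_le_pow_left₀ (by positivity) c2 5
  have c4 : 8 ≤ c * L ^ 5 := by
    rw [div_le_iff₀ hc] at a5
    have : L ≤ L ^ 5 := le_self_pow₀ hL (by norm_num)
    nlinarith
  have c5 : 8 * (t / J) ^ 5 ≤ c * z := by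
    have : 8 * L ^ 5 ≤ c * L ^ 5 * L ^ 5 := mul_le_mul_of_nonneg_right c4 (by positivity)
    have c6 : c * L ^ 5 * L ^ 5 = c * L ^ 10 := by ring
    have := mul_le_mul_of_nonneg_left h3 hc.le
    linarith
  rw [div_le_iff₀ (lt_of_lt_of_le (by positivity) h3)]
  have c6 := mul_le_mul_of_nonneg_right c5 (show 0 ≤ J ^ 2 / t ^ 2 by positivity)
  refine le_trans (le_of_eq ?_) (c6.trans (le_of_eq (by ring)))
  field_simp
  norm_num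

theorem mII_par (N K : ℕ) (hK : 1 ≤ K) {c : ℝ} (hc : 0 < c) : ∀ᶠ M : ℝ in atTop,
    N * un M K ≤ v1 M ∧ N * v1 M ≤ v2 M ∧ 2 * v2 M ≤ top M ∧
    (top M : ℝ) ^ 4 * Real.exp (-(top M : ℝ) / (2 * v2 M)) ≤ 1 ∧
    (2 * (top M : ℝ) / un M K) ^ 3 / 3 ^ hh M ≤ c * ((un M K : ℝ) ^ 2 / (top M : ℝ) ^ 2) := by
  filter_upwards [ev_basic 1, ev_basic (8 / c), ev_top, mII_ev (N * (K + 1) + 64)] with M
    ⟨a1, a2, _, a3, a4, _⟩ ⟨_, a5, _⟩ ⟨t1, t2, t3⟩ ⟨x, x1, x2, x3, x4, x5, x6⟩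
  obtain ⟨u1, u2⟩ := un_spec (M := M) (κ := K) (by positivity) (by linarith)
  have hh1 : (1 : ℝ) ≤ hh M := by exact_mod_cast a3
  have hK1 : (1 : ℝ) ≤ K := by exact_mod_cast hK
  have hl : ll M = Real.log (LL M) := rfl
  have h3 : LL M ^ 10 ≤ 3 ^ hh M := by
    rw [← Real.exp_log (show 0 < LL M by linarith), ← hl, ← Real.exp_nat_mul]
    refine (Real.exp_le_exp.2 (show _ ≤ (hh M : ℝ) * 1 by push_cast; linarith)).trans ?_
    rw [Real.exp_nat_mul]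
    exact pow_le_pow_left₀ (Real.exp_pos _).le (Real.exp_one_lt_d9.le.trans (by norm_num)) _
  have h4 : (top M : ℝ) ^ 4 ≤ Real.exp (8 * ll M) := by
    rw [show 8 * ll M = (8 : ℕ) * ll M by norm_num, Real.exp_nat_mul, hl, Real.exp_log (by linarith),
      show 8 = 2 * 4 by norm_num, pow_mul]
    exact pow_le_pow_left₀ (by positivity) t3 4
  obtain ⟨b1, b2, b3, b4, b5⟩ := mII_real (Nat.cast_nonneg N) hK1 a1 hh1 t1 x1 x2 x3 x4 x5 x6 u2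
  have hJ : (hh M : ℝ) ≤ un M K := by
    have := mul_le_mul_of_nonneg_left (one_le_mul_of_one_le_of_one_le hK1 a1) (Nat.cast_nonneg (hh M))
    linarith
  refine ⟨by exact_mod_cast b1, by exact_mod_cast b2, by exact_mod_cast b3, ?_,
    mII_real2 hc hh1 a2 a5 t1 t2 hJ h3⟩
  refine (mul_le_mul_of_nonneg_right h4 (Real.exp_pos _).le).trans ?_
  rw [← Real.exp_add, Real.exp_le_one_iff, neg_div, ← sub_eq_add_neg, sub_nonpos,
    le_div_iff₀ (by positivity)]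
  exact b5

theorem mII_small (k : ℕ) {A c : ℝ} (hc : 0 < c) :
    ∃ s : ℕ, 1 ≤ s ∧ A * ((s : ℝ) ^ k * Real.exp (-(s : ℝ))) ≤ c := by
  have h := ((Real.tendsto_pow_mul_exp_neg_atTop_nhds_zero k).comp
    tendsto_natCast_atTop_atTop).const_mul A
  rw [mul_zero] at h
  obtain ⟨s, h1, h2⟩ := ((eventually_ge_atTop 1).and (h.eventually (ge_mem_nhds hc))).exists
  exact ⟨s, h1, h2⟩

theorem mII_root (a : ℕ) : ∀ᶠ M : ℝ in atTop, ∀ (μ : ℕ → ℝ) (j : ℕ), un M 1 ≤ j → j ≤ top M →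
    (∀ b, 0 ≤ μ b) → (∀ i, ∑ p ∈ Pr (hh M) i (i + 1), μ p ≤ ∑ p ∈ Pr (hh M) i (i + 1), iv p) →
    Root (sz (hh M)) μ (Pr (hh M) j (top M)) j (top M) (R0 M a) := by
  filter_upwards [ev_basic 1, ev_BS, ev_R0 a (Nat.cast_nonneg a)] with M ⟨_, _, _, h0, _⟩ hB hR μ j
    h1 h2 h3 h4
  refine ⟨hB μ _ j _ h1 h2 (fun p hp => ?_) h3 fun i _ => le_trans
    (sum_le_sum_of_subset_of_nonneg (fun p hp => ?_) fun p _ _ => h3 p) (h4 i), ?_, hR.2.2.1⟩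
  · have := (mem_Pr h0).1 hp
    exact (mem_Pr h0).2 ⟨this.1, this.2.1, by omega⟩
  · have := (mem_filter.1 hp).2
    exact (mem_Pr h0).2 ⟨((mem_Pr h0).1 (mem_filter.1 hp).1).1, by omega, by omega⟩
  · unfold R0
    omega

/-- `mass_transfer` to the cut `J₃ = un K₃` (choose `s₃`).  Remove the nodes that are deep
(`BS.depth`), have two primes of equal size in `[v1, v2)` (`mass_dbl`), miss one of the ranges
`[ρ^k v1, ρ^{k+1} v1)`, `k < J₀` (`mass_gap`), or have no prime of good middle size (then they have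
`J₀` primes of bad middle size; `mass_cum` for the weights `μ/(1-δ)` on bad middle sizes, `ev_BS`).
For the others remove the largest prime `u` of good middle size (`alive_swap`). -/
theorem mass_II (a K s₁ : ℕ) (hK : 1 ≤ K) (hs : 1 ≤ s₁) (ε : ℝ) (hε : 0 < ε) :
    ∃ (s₃ : ℕ) (ε₃ : ℝ), 1 ≤ s₃ ∧ 0 < ε₃ ∧ ∀ δ : ℝ, 0 < δ → δ < 1 → ∀ K₃ : ℕ, 8 * s₁ * K + 1 ≤ K₃ →
      ∀ᶠ M : ℝ in atTop, ∀ μ : ℕ → ℝ, (∀ p, 0 ≤ μ p ∧ μ p ≤ iv p) →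
        ε * (un M K : ℝ) ^ 2 / (top M : ℝ) ^ 2 ≤
          mass (sz (hh M)) μ (R0 M a) 0 (Pr (hh M) (un M K) (top M))
            (fun τ => R0 M a - tot (sz (hh M)) τ ≤ ((s₁ * un M K : ℕ) : ℤ)) →
        ε₃ * (un M K₃ : ℝ) ^ 2 / (top M : ℝ) ^ 2 ≤
          ∑ i ∈ (Ico (v1 M) (v2 M)).filter (GoodB (hh M) μ δ),
            ∑ τ ∈ Tset M a (un M K₃) s₃ μ δ i, wt μ τ * ∑ p ∈ Pr (hh M) i (i + 1), iv p := by
  obtain ⟨CT, hCT, hT⟩ := mass_transfer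
  obtain ⟨C, hC, hcore⟩ := mII_core
  have hs1 : (0 : ℝ) < s₁ := by exact_mod_cast hs
  obtain ⟨s₃, hs₃, hs₃'⟩ := mII_small 2 (A := CT * s₁ ^ 3) (half_pos hε)
  have hs3 : (0 : ℝ) < s₃ := by exact_mod_cast hs₃
  obtain ⟨ε₃, hε₃, he⟩ : ∃ ε₃ : ℝ, 0 < ε₃ ∧ CT * s₁ ^ 3 * (5 * ε₃) = ε / 2 :=
    ⟨ε / (10 * (CT * s₁ ^ 3)), by positivity, by field_simp; norm_num⟩
  refine ⟨s₃, ε₃, hs₃, hε₃, fun δ hδ0 hδ1 K₃ hK₃ => ?_⟩
  obtain ⟨J₀, hJ₀⟩ := exists_pow_lt_of_lt_one (show 0 < ε₃ / (C * s₃ ^ 3) by positivity)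
    (show 1 - δ < 1 by linarith)
  obtain ⟨ρ, hρ, hρ'⟩ := mII_small 1 (A := C * s₃ ^ 3 * J₀) hε₃
  filter_upwards [ev_basic (8 * s₁ + 1), mII_root a, mII_par (8 * s₃ + ρ ^ J₀ + ⌈C * s₃ ^ 3 / ε₃⌉₊) K₃
    (by omega) hε₃] with M ⟨a1, _, _, h0, a4, _⟩ hR ⟨p1, p2, p3, p4, p5⟩ μ hμ hm
  have hl : 0 ≤ ll M := by linarith
  have hh1 : (1 : ℝ) ≤ hh M := by exact_mod_cast h0
  have hun : ∀ {κ κ' : ℝ}, κ ≤ κ' → un M κ ≤ un M κ' := fun h => Nat.ceil_mono (by gcongr)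
  have q1 : un M 1 ≤ un M K := hun (by exact_mod_cast hK)
  have q2 : 8 * (s₁ * un M K) ≤ un M K₃ := by
    have b1 := (un_spec (M := M) (κ := K) (by positivity) hl).2
    have b2 := (un_spec (M := M) (κ := K₃) (by positivity) hl).1
    have b3 : (8 * s₁ * K + 1 : ℝ) ≤ K₃ := by exact_mod_cast hK₃
    have b4 := mul_le_mul_of_nonneg_right b3 (show 0 ≤ hh M * ll M by positivity)
    have b5 := mul_le_mul_of_nonneg_left b1 (show (0 : ℝ) ≤ 8 * s₁ by positivity)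
    have b6 := mul_le_mul_of_nonneg_right hh1 hl
    have : (8 * (s₁ * un M K) : ℝ) ≤ un M K₃ := by linarith
    exact_mod_cast this
  have q3 : un M K ≤ un M K₃ := le_trans (by nlinarith) q2
  have q4 : 8 * (s₃ * un M K₃) ≤ v1 M := le_trans (by nlinarith [Nat.zero_le (ρ ^ J₀ * un M K₃)]) p1
  have q5 : ρ ^ J₀ * v1 M ≤ v2 M := (Nat.mul_le_mul_right _ (by omega)).trans p2
  have q6 : v1 M ≤ v2 M := (Nat.le_mul_of_pos_left _ (by positivity)).trans q5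
  have q7 : un M K₃ ≤ v1 M := le_trans (by nlinarith) q4
  have h1 : ∀ p, 0 ≤ μ p := fun p => (hμ p).1
  have h2 : ∀ i, ∑ p ∈ Pr (hh M) i (i + 1), μ p ≤ ∑ p ∈ Pr (hh M) i (i + 1), iv p :=
    fun i => sum_le_sum fun p _ => (hμ p).2
  have hθ : 0 < 1 - δ := by linarith
  have R1 := hR μ (un M K) q1 (by omega) h1 h2
  have R2 := hR μ (un M K₃) (q1.trans q3) (by omega) h1 h2
  have R3 := hR (fun p => (if v1 M ≤ sz (hh M) p ∧ sz (hh M) p < v2 M ∧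
      ¬ GoodB (hh M) μ δ (sz (hh M) p) then 1 - δ else 1)⁻¹ * μ p) (un M K₃) (q1.trans q3) (by omega)
    (fun p => mul_nonneg (by split_ifs <;> positivity) (h1 p)) fun i => by
      rw [sum_congr rfl (g := fun p => (if v1 M ≤ i ∧ i < v2 M ∧ ¬ GoodB (hh M) μ δ i then 1 - δ
        else 1)⁻¹ * μ p) fun p hp => by
          have := (mem_Pr h0).1 hp
          rw [show sz (hh M) p = i by omega], ← mul_sum]
      split_ifs with c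
      · rw [inv_mul_le_iff₀ hθ]
        exact (not_le.1 c.2.2).le
      · simpa using h2 i
  have hJ : (0 : ℝ) < un M K := R1.mk_pos
  have hJ₃ : (0 : ℝ) < un M K₃ := R2.mk_pos
  have ht : (0 : ℝ) < top M := hJ.trans_le (by exact_mod_cast R1.j_le)
  have m1 := hT R1 (un M K₃) s₃ (s₁ * un M K) q3 q2 hs₃ (by omega)
    (mII_exp ht.le (by positivity) (by exact_mod_cast (by omega)) p4)
  have e1 : (Pr (hh M) (un M K) (top M)).filter (fun p => un M K₃ ≤ sz (hh M) p) =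
      Pr (hh M) (un M K₃) (top M) := by
    ext p
    simp only [mem_filter, mem_Pr h0]
    exact ⟨fun b => ⟨b.1.1, b.2, b.1.2.2⟩, fun b => ⟨⟨b.1, q3.trans b.2.1, b.2.2⟩, b.2.1⟩⟩
  rw [e1] at m1
  have m2 := (hcore (GoodB (hh M) μ δ) (hh M) (s₃ * un M K₃) (v1 M) (v2 M) ρ J₀ (1 - δ) R2 R3 hθ.le
    (by linarith) (fun p => (mul_inv_cancel_left₀ (by split_ifs <;> positivity) _).symm) q7 q4 hρ q5
    p3 p4).trans (add_le_add_right (mII_main (a := a) (δ := δ) (J := un M K₃) (s := s₃) h0 hμ) _)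
  have m4 := hm.trans m1
  have hv : C * s₃ ^ 3 * (1 / v1 M) ≤ ε₃ := by
    have b1 : ⌈C * s₃ ^ 3 / ε₃⌉₊ ≤ v1 M := le_trans (le_trans (by omega)
      (Nat.le_mul_of_pos_right _ (by exact_mod_cast hJ₃))) p1
    have b2 := Nat.ceil_le.1 b1
    have b3 : (0 : ℝ) < v1 M := hJ₃.trans_le (by exact_mod_cast q7)
    rw [div_le_iff₀ hε₃] at b2
    rw [mul_one_div, div_le_iff₀ b3]
    linarith
  rw [lt_div_iff₀ (by positivity)] at hJ₀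
  generalize mass (sz (hh M)) μ (R0 M a) 0 (Pr (hh M) (un M K₃) (top M))
    (fun τ => R0 M a - tot (sz (hh M)) τ ≤ ((s₃ * un M K₃ : ℕ) : ℤ)) = m at m2 m4
  push_cast at m2 m4
  generalize (un M K : ℝ) = J at *
  generalize (un M K₃ : ℝ) = J₃ at *
  generalize (top M : ℝ) = t at *
  have hQ : 0 ≤ J₃ ^ 2 / t ^ 2 := by positivity
  have m5 : 5 * ε₃ * (J₃ ^ 2 / t ^ 2) ≤ m := by
    have b1 : CT * (s₃ : ℝ) ^ 2 * Real.exp (-(s₃ : ℝ)) * (s₁ * J) ^ 3 / (J * t ^ 2) =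
        CT * s₁ ^ 3 * (s₃ ^ 2 * Real.exp (-(s₃ : ℝ))) * (J ^ 2 / t ^ 2) := by field_simp
    have b2 := mul_le_mul_of_nonneg_right hs₃' (show 0 ≤ J ^ 2 / t ^ 2 by positivity)
    refine le_of_mul_le_mul_left ?_ (show 0 < CT * (s₁ * J) ^ 3 / (J * J₃ ^ 2) by positivity)
    have b3 : CT * (s₁ * J) ^ 3 / (J * J₃ ^ 2) * (5 * ε₃ * (J₃ ^ 2 / t ^ 2)) =
        CT * s₁ ^ 3 * (5 * ε₃) * (J ^ 2 / t ^ 2) := by field_simp
    rw [b3, he]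
    rw [b1, mul_div_assoc] at m4
    linarith
  have b4 : (s₃ * J₃) ^ 3 / (J₃ * t ^ 2) = s₃ ^ 3 * (J₃ ^ 2 / t ^ 2) := by field_simp
  rw [b4] at m2
  have b5 := mul_le_mul_of_nonneg_right hv hQ
  have b6 := mul_le_mul_of_nonneg_right hρ' hQ
  have b7 := mul_le_mul_of_nonneg_right hJ₀.le hQ
  rw [mul_div_assoc]
  linarith

/-- the map `(i, τ, u) ↦ insert u τ` is injective into the nodes -/
theorem sum_Tset_le {M a δ : ℝ} {J s : ℕ} {μ : ℕ → ℝ} (hh0 : 0 < hh M) (hJ : J ≤ v1 M)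
    (hv : v2 M ≤ top M) (Φ : Finset ℕ → ℝ) (hΦ : ∀ τ, 0 ≤ Φ τ) :
    ∑ i ∈ (Ico (v1 M) (v2 M)).filter (GoodB (hh M) μ δ), ∑ τ ∈ Tset M a J s μ δ i,
      ∑ u ∈ Pr (hh M) i (i + 1), Φ (insert u τ) ≤
        ∑ τ ∈ nodes (sz (hh M)) (R0 M a) 0 (Pr (hh M) J (top M)), Φ τ := by
  simp only [sum_sigma']
  refine (sum_image (g := fun z : Σ _ : ℕ, Σ _ : Finset ℕ, ℕ => insert z.2.2 z.2.1) (f := Φ)
    fun z hz z' hz' e => ?_).symm.trans_le (sum_le_sum_of_subset_of_nonneg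
    (image_subset_iff.2 fun z hz => ?_) fun τ _ _ => hΦ τ)
  · obtain ⟨i, τ, u⟩ := z
    obtain ⟨i', τ', u'⟩ := z'
    simp only [coe_sigma, Set.mem_sigma_iff, mem_coe, mem_filter, mem_Ico, mII_mem, mem_Pr hh0] at hz hz' e
    obtain ⟨⟨⟨a1, a2⟩, a3⟩, ⟨-, a4, -⟩, -, a5, a6⟩ := hz
    obtain ⟨⟨⟨b1, b2⟩, b3⟩, ⟨-, b4, -⟩, -, b5, b6⟩ := hz'
    have c1 : sz (hh M) u = i := by omega
    have c2 : sz (hh M) u' = i' := by omega
    have hu : u = u' := by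
      by_contra hne
      have d1 : u ∈ τ' := (mem_insert.1 (e ▸ mem_insert_self u τ)).resolve_left hne
      have d2 : u' ∈ τ := (mem_insert.1 (e.symm ▸ mem_insert_self u' τ')).resolve_left (Ne.symm hne)
      have d3 := b4 u d1
      have d4 := a4 u' d2
      rw [c1] at d3
      rw [c2] at d4
      rcases lt_trichotomy i i' with h | h | h
      · exact d4.2 ⟨h, b2, b3⟩
      · exact d3.1 h
      · exact d3.2 ⟨h, a2, a3⟩
    subst hu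
    obtain rfl : i = i' := c1.symm.trans c2
    obtain rfl : τ = τ' := by
      rw [← erase_insert (s := τ) fun h => (a4 u h).1 c1, e, erase_insert fun h => (b4 u h).1 c1]
    rfl
  · obtain ⟨i, τ, u⟩ := z
    simp only [mem_sigma, mem_filter, mem_Ico, mII_mem] at hz
    obtain ⟨⟨⟨a1, a2⟩, -⟩, ⟨a3, -, -, -, a4⟩, a5⟩ := hz
    have := (mem_Pr hh0).1 a5
    dsimp only
    exact mem_filter.2 ⟨mem_powerset.2 (insert_subset ((mem_Pr hh0).2 ⟨this.1, by omega, by omega⟩) a3),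
      a4 u a5⟩

end Crest.Agent.R1
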