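import Crest.Agent.R1.Gain
import Crest.Agent.R1.MassII
import Crest.Agent.R1.Model

/-!
# R1 / CaseII: a rational centre forces many survivors
-/

set_option autoImplicit false

namespace Crest.Agent.R1

open Finset Filter
open scoped Classical

theorem CII_ev (K₃ : ℕ) : ∀ᶠ M : ℝ in atTop, un M K₃ ≤ v1 M ∧ v1 M ≤ v2 M ∧ v2 M ≤ top M := by
  have h1 : Tendsto LL atTop atTop := Real.tendsto_log_atTop
  have h2 : ∀ᶠ x : ℝ in atTop, ‖Real.log x‖ ≤ 1 / ((K₃ : ℝ) + 1) * ‖x ^ (7 / 10 : ℝ)‖ :=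
    (isLittleO_log_rpow_atTop (by norm_num : (0 : ℝ) < 7 / 10)).bound (by positivity)
  have h3 : ∀ᶠ x : ℝ in atTop, 2 ≤ x ^ (2 / 10 : ℝ) :=
    (tendsto_rpow_atTop (by norm_num : (0 : ℝ) < 2 / 10)).eventually_ge_atTop 2
  filter_upwards [ev_basic 1, ev_top, h1.eventually h2, h1.eventually h3]
    with M ⟨a, b, _, d, _, _⟩ ⟨t1, _, _⟩ e f
  have hL0 : 0 < LL M := by linarith
  have hh0 : (0 : ℝ) ≤ hh M := Nat.cast_nonneg _
  refine ⟨Nat.ceil_le_ceil ?_, Nat.ceil_le_ceil ?_, Nat.ceil_le.2 (le_trans ?_ t1)⟩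
  · have e1 : ll M ≤ 1 / ((K₃ : ℝ) + 1) * LL M ^ (7 / 10 : ℝ) := by
      rw [Real.norm_of_nonneg (Real.rpow_nonneg hL0.le _)] at e
      exact (le_abs_self _).trans e
    rw [one_div, ← div_eq_inv_mul, le_div_iff₀ (by positivity)] at e1
    have e2 : (K₃ : ℝ) * ll M ≤ LL M ^ (7 / 10 : ℝ) := by nlinarith
    calc (K₃ : ℝ) * hh M * ll M = hh M * (K₃ * ll M) := by ring
      _ ≤ hh M * LL M ^ (7 / 10 : ℝ) := by gcongr
  · exact mul_le_mul_of_nonneg_left (Real.rpow_le_rpow_of_exponent_le b (by norm_num)) hh0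
  · have e1 : LL M ^ (8 / 10 : ℝ) * LL M ^ (2 / 10 : ℝ) = LL M := by
      rw [← Real.rpow_add hL0]; norm_num
    have e2 : 0 ≤ LL M ^ (8 / 10 : ℝ) := Real.rpow_nonneg hL0.le _
    have e3 : LL M ^ (8 / 10 : ℝ) ≤ LL M / 2 := by nlinarith
    calc (hh M : ℝ) * LL M ^ (8 / 10 : ℝ) ≤ hh M * (LL M / 2) := by gcongr
      _ = hh M * LL M / 2 := by ring

theorem CII_strw_neg (X c b : ℤ) : strw (-X) c (-b) = strw X c b := by
  funext p
  unfold strw Str
  rw [show c * -X - -b = -(c * X - b) by ring, dvd_neg]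

/-- exact level: the survivors are bounded below by the main term and the dead leaves -/
theorem CII_surv {M a : ℝ} (hM : 2 ≤ M) (hh0 : 0 < hh M) (hi : hh M ≤ i0 M) {J a' : ℕ}
    (ha : a' + i0 M ≤ J) (hJ : J ≤ top M) (hlev : Real.exp (((R0 M a : ℝ) - a') / hh M) ≤ M)
    (X : ℤ) :
    M * Main M a J a' + ∑ τ ∈ nodes (sz (hh M)) (R0 M a) 0 (Pr (hh M) J (top M)),
      Ew M X (Pr (hh M) 0 (top M))
        (deadLoc (hh M) (i0 M) J τ.card (R0 M a - tot (sz (hh M)) τ - a') τ) ≤ Surv M X := by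
  refine le_trans ?_ (surv_ge hM hh0 X (R0 M a) hJ)
  rw [Main, mul_sum, ← sum_add_distrib]
  refine sum_le_sum fun τ hτ => ?_
  have hR : 2 * (top M : ℤ) ≤ R0 M a := by unfold R0; omega
  have H := (locOk_node hh0 hi ha hJ hR hτ).1
  have hτ' : τ ⊆ Pr (hh M) J (top M) := mem_powerset.1 (mem_filter.1 hτ).1
  have hp : ∀ p ∈ τ, p.Prime := fun p hp => ((mem_Pr hh0).1 (hτ' hp)).1
  have h0 : remLoc M X (hh M) (i0 M) J τ.card (R0 M a - tot (sz (hh M)) τ - a') τ = 0 := by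
    refine sum_eq_zero fun T _ => ?_
    by_cases hT : loc (hh M) (i0 M) J τ.card (R0 M a - tot (sz (hh M)) τ - a') T = 0
    · rw [hT, zero_mul]
    · obtain ⟨h1, h2⟩ := H.supp hT
      have p1 := pd_pos hp
      have p2 := pd_pos fun p hp => ((mem_Pr hh0).1 (h1 hp)).1
      rw [rem_eq_zero hM (Nat.mul_pos p1 p2), mul_zero]
      push_cast
      refine (mul_le_mul (pd_le_exp hh0 hp) h2 (Nat.cast_nonneg _) (Real.exp_pos _).le).trans
        (le_trans (le_of_eq ?_) hlev)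
      rw [← Real.exp_add]
      congr 1
      push_cast
      ring
  have h1 := H.node_ext hM X hJ hτ'
  rw [h0, add_zero] at h1
  refine le_trans (le_of_eq ?_) h1
  ring

/-- By reflection (`Ew_neg`, `(X, b) ↦ (-X, -b)`) assume `b ≤ 0`.  With `J₃ = un K₃`, `a' = ap M a`:
`surv_ge`, `locOk_node`, `node_ext` with `remLoc = 0` (`LocOk.supp`, `pd_le_exp`, `ev_R0`,
`rem_eq_zero`) give `Surv ≥ M · Main M a J₃ a' + ∑_τ Ew (deadLoc ..)`; `main_lower` with `κ = a + 13`;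
`sum_Tset_le`, `gain`, `mass_II` give a gain `≥ c₀ ε₃ K₃ M ℓ/L²` (`top ≤ h L`); choose `K₃` last. -/
theorem caseII (a K s₁ C₁ : ℕ) (hK : 1 ≤ K) (hs : 1 ≤ s₁) (ε : ℝ) (hε : 0 < ε) :
    ∀ᶠ M : ℝ in atTop, ∀ X c b : ℤ, IsCoprime c b → 1 ≤ c → (c : ℝ) ≤ LL M ^ C₁ →
      |(b : ℝ)| ≤ M * LL M ^ C₁ →
      ε * (un M K : ℝ) ^ 2 / (top M : ℝ) ^ 2 ≤
        mass (sz (hh M)) (strw X c b) (R0 M a) 0 (Pr (hh M) (un M K) (top M))
          (fun τ => R0 M a - tot (sz (hh M)) τ ≤ ((s₁ * un M K : ℕ) : ℤ)) →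
      M * ll M / LL M ^ 2 ≤ Surv M X := by
  obtain ⟨s₃, ε₃, hs₃, hε₃, hmass⟩ := mass_II a K s₁ hK hs ε hε
  obtain ⟨δ, c₀, hδ0, hδ1, hc₀, hgain⟩ := gain s₃ hs₃
  obtain ⟨K₀, hgain⟩ := hgain a C₁
  obtain ⟨c', C, hc', hC, hmain⟩ := main_lower
  obtain ⟨K₁, hK₁⟩ := exists_nat_ge ((1 + C * (1 + ((a : ℝ) + 13)) ^ 2) / (c₀ * ε₃))
  set K₃ : ℕ := K₀ + (8 * s₁ * K + 1) + (a + 34) + K₁ with hK₃
  have hK₃' : 1 + C * (1 + ((a : ℝ) + 13)) ^ 2 ≤ c₀ * ε₃ * K₃ := by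
    rw [div_le_iff₀ (by positivity)] at hK₁
    have : (K₁ : ℝ) ≤ K₃ := by exact_mod_cast (by omega : K₁ ≤ K₃)
    nlinarith [mul_pos hc₀ hε₃]
  have hK₃a : (a : ℝ) + 34 ≤ K₃ := by exact_mod_cast (by omega : a + 34 ≤ K₃)
  filter_upwards [hmass δ hδ0 hδ1 K₃ (by omega), hgain K₃ (by omega),
    hmain a (a + 13) (Nat.cast_nonneg a) (by positivity), ev_basic 2, ev_top, CII_ev K₃,
    ev_R0 a (Nat.cast_nonneg a)]
    with M hm hg hmn ⟨b1, b2, b3, b4, b5, _⟩ ⟨_, t2, _⟩ ⟨v1', v2', v3'⟩ ⟨_, _, _, r4, r5, _⟩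
  have hl0 : 0 ≤ ll M := by linarith
  have hh1 : (1 : ℝ) ≤ hh M := by exact_mod_cast b4
  have hhl : (1 : ℝ) ≤ hh M * ll M := by nlinarith
  have hJ1 := (un_spec (M := M) (Nat.cast_nonneg K₃) hl0).1
  have hi1 := un_spec (M := M) (κ := 20) (by norm_num) hl0
  have hi : hh M ≤ i0 M := by
    have : (hh M : ℝ) ≤ un M 20 := by nlinarith [hi1.1]
    exact_mod_cast this
  have ha : ap M a + i0 M ≤ un M K₃ := by
    have : (ap M a : ℝ) + un M 20 ≤ un M K₃ := by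
      have := mul_le_mul_of_nonneg_right hK₃a (by linarith : (0 : ℝ) ≤ hh M * ll M)
      nlinarith [hi1.2]
    exact_mod_cast this
  have hJ : un M K₃ ≤ top M := v1'.trans (v2'.trans v3')
  have hJ0 : (0 : ℝ) < un M K₃ := by
    have : (0 : ℝ) < K₃ * hh M * ll M := by
      have : (0 : ℝ) < K₃ := by linarith [(Nat.cast_nonneg a : (0 : ℝ) ≤ a)]
      have : 0 < ll M := by linarith
      positivity
    linarith
  have ht0 : (0 : ℝ) < top M := hJ0.trans_le (Nat.cast_le.2 hJ)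
  have hL0 : 0 < LL M := by linarith
  have hM0 : 0 < M := by linarith
  have key : ∀ X c b : ℤ, IsCoprime c b → 1 ≤ c → (c : ℝ) ≤ LL M ^ C₁ → b ≤ 0 →
      |(b : ℝ)| ≤ M * LL M ^ C₁ →
      ε * (un M K : ℝ) ^ 2 / (top M : ℝ) ^ 2 ≤
        mass (sz (hh M)) (strw X c b) (R0 M a) 0 (Pr (hh M) (un M K) (top M))
          (fun τ => R0 M a - tot (sz (hh M)) τ ≤ ((s₁ * un M K : ℕ) : ℤ)) →
      M * ll M / LL M ^ 2 ≤ Surv M X := by
    intro X c b h1 h2 h3 h4 h5 h6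
    have hμ : ∀ p, 0 ≤ strw X c b p ∧ strw X c b p ≤ iv p := by
      intro p
      have : 0 ≤ iv p := by unfold iv; positivity
      unfold strw
      split_ifs
      · exact ⟨this, le_rfl⟩
      · exact ⟨le_rfl, this⟩
    have a1 := hm _ hμ h6
    have a2 := hg X c b h1 h2 h3 h4 h5
    have a3 := hmn (un M K₃) (ap M a) r4 ha hJ
    have a4 := CII_surv (a := a) b3 b4 hi ha hJ r5 X
    have a5 := sum_Tset_le (a := a) (δ := δ) (s := s₃) (μ := strw X c b) b4 v1' v3'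
      (fun τ => Ew M X (Pr (hh M) 0 (top M)) (deadLoc (hh M) (i0 M) (un M K₃) τ.card
        (R0 M a - tot (sz (hh M)) τ - ap M a) τ))
      (fun τ => Ew_nonneg fun S _ => deadLoc_nonneg _ _)
    have a6 : c₀ * M * (hh M / un M K₃) *
        ∑ i ∈ (Ico (v1 M) (v2 M)).filter (GoodB (hh M) (strw X c b) δ),
          ∑ τ ∈ Tset M a (un M K₃) s₃ (strw X c b) δ i,
            wt (strw X c b) τ * ∑ p ∈ Pr (hh M) i (i + 1), iv p ≤
        ∑ i ∈ (Ico (v1 M) (v2 M)).filter (GoodB (hh M) (strw X c b) δ),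
          ∑ τ ∈ Tset M a (un M K₃) s₃ (strw X c b) δ i, ∑ u ∈ Pr (hh M) i (i + 1),
            Ew M X (Pr (hh M) 0 (top M)) (deadLoc (hh M) (i0 M) (un M K₃) (insert u τ).card
              (R0 M a - tot (sz (hh M)) (insert u τ) - ap M a) (insert u τ)) := by
      rw [mul_sum]
      refine sum_le_sum fun i hi => ?_
      rw [mul_sum]
      refine sum_le_sum fun τ hτ => ?_
      by_cases hstr : ∀ p ∈ τ, Str X c b p
      · have e : wt (strw X c b) τ = wt iv τ := prod_congr rfl fun p hp => if_pos (hstr p hp)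
        refine le_trans (le_of_eq ?_) (a2 i (mem_filter.1 hi).1 (mem_filter.1 hi).2 τ hτ hstr)
        rw [e]; ring
      · push Not at hstr
        obtain ⟨p, hp, hp'⟩ := hstr
        have e : wt (strw X c b) τ = 0 := prod_eq_zero hp (if_neg hp')
        rw [e, zero_mul, mul_zero]
        exact sum_nonneg fun u _ => Ew_nonneg fun S _ => deadLoc_nonneg _ _
    have a7 : c₀ * ε₃ * K₃ * (M * ll M / LL M ^ 2) ≤
        c₀ * M * (hh M / un M K₃) * (ε₃ * (un M K₃ : ℝ) ^ 2 / (top M : ℝ) ^ 2) := by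
      have e1 : c₀ * M * (hh M / un M K₃) * (ε₃ * (un M K₃ : ℝ) ^ 2 / (top M : ℝ) ^ 2) =
          c₀ * ε₃ * M * (hh M * un M K₃ / (top M : ℝ) ^ 2) := by
        field_simp
      have e2 : c₀ * ε₃ * K₃ * (M * ll M / LL M ^ 2) =
          c₀ * ε₃ * M * (hh M * (K₃ * hh M * ll M) / (hh M * LL M) ^ 2) := by
        field_simp
      rw [e1, e2]
      gcongr
    have a8 := mul_le_mul_of_nonneg_left a1
      (by positivity : 0 ≤ c₀ * M * ((hh M : ℝ) / un M K₃))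
    have a9 : 0 ≤ c' * max ((un M a : ℝ) - ap M a) 0 / (hh M * LL M ^ 2) := by positivity
    have a10 : -(C * (1 + ((a : ℝ) + 13)) ^ 2 * (M * ll M / LL M ^ 2)) ≤
        M * Main M a (un M K₃) (ap M a) := by
      have := mul_le_mul_of_nonneg_left
        (show -(C * (1 + ((a : ℝ) + 13)) ^ 2 * ll M / LL M ^ 2) ≤ Main M a (un M K₃) (ap M a) by
          linarith) hM0.le
      refine le_trans (le_of_eq ?_) this
      ring
    have a11 := mul_le_mul_of_nonneg_right hK₃' (by positivity : 0 ≤ M * ll M / LL M ^ 2)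
    linarith
  intro X c b h1 h2 h3 h5 h6
  rcases le_total b 0 with h4 | h4
  · exact key X c b h1 h2 h3 h4 h5 h6
  · have := key (-X) c (-b) h1.neg_right h2 h3 (by omega) (by simpa using h5)
      (by rwa [CII_strw_neg])
    rwa [Surv, Ew_neg] at this

end Crest.Agent.R1
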