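import Crest.Agent.R1.CDefs

/-!
# R1 / CenA: few centres
-/

set_option autoImplicit false

namespace Crest.Agent.R1

open Finset Filter
open scoped Classical

/-- multiplicity bound: the excess multiplicity is at most the number of ordered pairs -/
theorem cena_mult {α β : Type*} [DecidableEq α] (Z : Finset α) (V : Finset β) (R : α → β → Prop)
    (w : β → ℝ) (hw : ∀ p ∈ V, 0 ≤ w p) :
    ∑ z ∈ Z, ∑ p ∈ V, (if R z p then w p else 0) ≤
      ∑ p ∈ V, w p + ∑ y ∈ Z.offDiag, ∑ p ∈ V.filter (fun p => R y.1 p ∧ R y.2 p), w p := by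
  have e : ∑ y ∈ Z.offDiag, ∑ p ∈ V.filter (fun p => R y.1 p ∧ R y.2 p), w p =
      ∑ p ∈ V, (((Z.filter (fun z => R z p)).offDiag).card : ℝ) * w p := by
    simp_rw [sum_filter]
    rw [sum_comm]
    refine sum_congr rfl fun p _ => ?_
    rw [← sum_filter, sum_const, nsmul_eq_mul]
    congr 2
    congr 1
    ext y
    simp only [mem_filter, mem_offDiag]
    tauto
  rw [e, sum_comm, ← sum_add_distrib]
  refine sum_le_sum fun p hp => ?_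
  rw [← sum_filter, sum_const, nsmul_eq_mul, offDiag_card]
  generalize (Z.filter (fun z => R z p)).card = m
  have h1 : m ≤ 1 + (m * m - m) := by
    rcases Nat.lt_or_ge m 2 with h | h
    · omega
    · have : m * 2 ≤ m * m := Nat.mul_le_mul_left m h
      omega
  have h2 : (m : ℝ) ≤ 1 + ((m * m - m : ℕ) : ℝ) := by exact_mod_cast h1
  nlinarith [hw p hp]

theorem cena_ne {a b a' b' : ℤ} (ha : 0 < a) (ha' : 0 < a') (h : IsCoprime a b) (h' : IsCoprime a' b')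
    (e : a * b' - a' * b = 0) : (a, b) = (a', b') := by
  have e1 : a * b' = a' * b := by linarith
  have d1 : a ∣ a' := h.dvd_of_dvd_mul_right ⟨b', e1.symm⟩
  have d2 : a' ∣ a := h'.dvd_of_dvd_mul_right ⟨b, e1⟩
  obtain rfl : a = a' := Int.dvd_antisymm ha.le ha'.le d1 d2
  rw [mul_left_cancel₀ ha.ne' e1]

theorem Cst.ev_overlap' (c : Cst) : ∀ᶠ M : ℝ in atTop, ∀ X : ℤ, ∀ z ∈ c.Cen M X, ∀ z' ∈ c.Cen M X,
    z ≠ z' → ∀ W : Finset ℕ, (∀ p ∈ W, p.Prime ∧ 3 ≤ p ∧ Str X z.1 z.2 p ∧ Str X z'.1 z'.2 p) →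
      (W.card : ℝ) ≤ 2 * LL M := by
  have h0 : ∀ᶠ x : ℝ in atTop, ‖Real.log x ^ (c.C₂ + c.C₁)‖ ≤ 1 / 2 * ‖id x‖ :=
    Real.isLittleO_pow_log_id_atTop.bound (by norm_num)
  filter_upwards [h0, ev_basic 1] with M hM ⟨_, hL, hM1, _⟩ X z hz z' hz' hne W hW
  have hL0 : 0 ≤ LL M := by linarith
  have hM0 : 0 < M := by linarith
  have hM2 : 2 * LL M ^ (c.C₂ + c.C₁) ≤ M := by
    change ‖LL M ^ (c.C₂ + c.C₁)‖ ≤ 1 / 2 * ‖M‖ at hM
    rw [Real.norm_of_nonneg (pow_nonneg hL0 _), Real.norm_of_nonneg hM0.le] at hM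
    linarith
  simp only [Cst.Cen, mem_filter, mem_product, mem_Icc] at hz hz'
  obtain ⟨⟨⟨a1, a2⟩, a3, a4⟩, a5, -⟩ := hz
  obtain ⟨⟨⟨b1, b2⟩, b3, b4⟩, b5, -⟩ := hz'
  have hD : z.1 * z'.2 - z'.1 * z.2 ≠ 0 := fun e => hne (cena_ne (by omega) (by omega) a5 b5 e)
  have hdvd : (pd W : ℤ) ∣ z.1 * z'.2 - z'.1 * z.2 := by
    rw [pd_dvd_iff fun p hp => (hW p hp).1]
    intro p hp
    obtain ⟨-, -, s1, s2⟩ := hW p hp
    unfold Str at s1 s2
    have : z.1 * z'.2 - z'.1 * z.2 = z'.1 * (z.1 * X - z.2) - z.1 * (z'.1 * X - z'.2) := by ring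
    rw [this]
    exact (s1.mul_left _).sub (s2.mul_left _)
  have h1 : (pd W : ℤ) ≤ |z.1 * z'.2 - z'.1 * z.2| :=
    Int.le_of_dvd (abs_pos.2 hD) ((dvd_abs _ _).2 hdvd)
  have h2 : (pd W : ℝ) ≤ |(z.1 : ℝ) * z'.2 - z'.1 * z.2| := by exact_mod_cast h1
  have f1 : ∀ {a : ℤ}, 1 ≤ a → a ≤ ⌊LL M ^ c.C₂⌋ → |(a : ℝ)| ≤ LL M ^ c.C₂ := fun {a} u1 u2 => by
    rw [abs_of_nonneg (by exact_mod_cast (by omega : 0 ≤ a))]
    exact Int.le_floor.1 u2
  have f2 : ∀ {a : ℤ}, -⌊M * LL M ^ c.C₁⌋ ≤ a → a ≤ ⌊M * LL M ^ c.C₁⌋ → |(a : ℝ)| ≤ M * LL M ^ c.C₁ :=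
    fun {a} u1 u2 => by
      have : |a| ≤ ⌊M * LL M ^ c.C₁⌋ := abs_le.2 ⟨u1, u2⟩
      have := Int.le_floor.1 this
      exact_mod_cast this
  have h3 : |(z.1 : ℝ) * z'.2 - z'.1 * z.2| ≤ M * M := by
    refine (abs_sub _ _).trans ?_
    rw [abs_mul, abs_mul]
    have g1 := mul_le_mul (f1 a1 a2) (f2 b3 b4) (abs_nonneg _) (by positivity)
    have g2 := mul_le_mul (f1 b1 b2) (f2 a3 a4) (abs_nonneg _) (by positivity)
    have g3 : LL M ^ c.C₂ * (M * LL M ^ c.C₁) * 2 = M * (2 * LL M ^ (c.C₂ + c.C₁)) := by ring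
    have g4 := mul_le_mul_of_nonneg_left hM2 hM0.le
    linarith
  have h4 : Real.exp W.card ≤ pd W := by
    have : (3 : ℕ) ^ W.card ≤ pd W := pow_card_le_prod W id 3 fun p hp => (hW p hp).2.1
    have h5 : (3 : ℝ) ^ W.card ≤ pd W := by exact_mod_cast this
    refine le_trans ?_ h5
    rw [← mul_one (W.card : ℝ), Real.exp_nat_mul]
    exact pow_le_pow_left₀ (Real.exp_pos _).le (by linarith [Real.exp_one_lt_d9]) _
  have h5 : (W.card : ℝ) ≤ Real.log (M * M) :=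
    (Real.le_log_iff_exp_le (by positivity)).2 (h4.trans (h2.trans h3))
  rw [Real.log_mul hM0.ne' hM0.ne'] at h5
  unfold LL
  linarith

theorem Cst.cena_lo (c : Cst) : ∀ᶠ M : ℝ in atTop, ∀ i : ℕ, c.t1 M ≤ i →
    LL M ^ c.Kt / 3 ≤ Real.exp (((i : ℝ) - 1) / hh M) := by
  filter_upwards [ev_basic 1] with M ⟨hl, hL, _, hh0, _⟩ i hi
  have h0 : (1 : ℝ) ≤ hh M := by exact_mod_cast hh0
  have h1 := (un_spec (M := M) (κ := c.Kt) (Nat.cast_nonneg _) (by linarith)).1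
  have h2 : ((un M c.Kt : ℕ) : ℝ) ≤ i := by exact_mod_cast hi
  have h3 : c.Kt * ll M - 1 ≤ ((i : ℝ) - 1) / hh M := by
    rw [le_div_iff₀ (by linarith)]
    nlinarith
  refine le_trans ?_ (Real.exp_le_exp.2 h3)
  have e : Real.exp (ll M) = LL M := Real.exp_log (by unfold LL at hL; linarith)
  rw [Real.exp_sub, Real.exp_nat_mul, e]
  exact div_le_div_of_nonneg_left (by positivity) (Real.exp_pos _) (by linarith [Real.exp_one_lt_d9])

theorem Cst.ev_card_Cen' (c : Cst) (h : 2 * c.C₂ + 8 ≤ c.Kt) : ∀ᶠ M : ℝ in atTop, ∀ X : ℤ,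
    ((c.Cen M X).card : ℝ) ≤ LL M ^ (c.C₂ + 2) := by
  have h0 : ∀ᶠ x : ℝ in atTop, ‖Real.log x ^ 2‖ ≤ 1 * ‖id x‖ :=
    Real.isLittleO_pow_log_id_atTop.bound (by norm_num)
  have h0' : Tendsto LL atTop atTop := Real.tendsto_log_atTop
  filter_upwards [c.ev_overlap', c.cena_lo, ev_basic 10, ev_basic (3 * (c.ρ * (11 * c.Kt + 1))),
    h0'.eventually h0] with M hov hlo ⟨hl, hL, _, hh0, _, hh1⟩ ⟨_, hL', _⟩ hll X
  have hL0 : 0 < LL M := by linarith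
  have hl2 : ll M ^ 2 ≤ LL M := by
    rw [Real.norm_of_nonneg (sq_nonneg _), id, Real.norm_of_nonneg hL0.le, one_mul] at hll
    exact hll
  have hP : 1 ≤ LL M ^ c.C₂ := one_le_pow₀ (by linarith)
  -- one window
  have hwin : ∀ i ∈ Ico (c.t1 M) (c.t2 M), (((c.Cen M X).filter (fun z =>
      (lo (hh M) i : ℝ) / LL M ^ c.C₂ ≤ ((R29.win (lo (hh M) i)).filter (Str X z.1 z.2)).card)).card : ℝ) ≤
      3 * LL M ^ c.C₂ := by
    intro i hi
    by_contra hc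
    rw [not_le] at hc
    have hk1 : 2 * LL M ^ c.C₂ ≤ (⌈2 * LL M ^ c.C₂⌉₊ : ℝ) := Nat.le_ceil _
    have hk2 : (⌈2 * LL M ^ c.C₂⌉₊ : ℝ) ≤ 3 * LL M ^ c.C₂ := by
      have := Nat.ceil_lt_add_one (show 0 ≤ 2 * LL M ^ c.C₂ by positivity)
      linarith
    obtain ⟨Z, hZ, hZc⟩ := exists_subset_card_eq (n := ⌈2 * LL M ^ c.C₂⌉₊)
      (Nat.cast_le.1 (hk2.trans hc.le))
    rw [← hZc] at hk1 hk2
    have hN : LL M ^ c.Kt / 3 ≤ lo (hh M) i := (hlo i (mem_Ico.1 hi).1).trans (Nat.le_ceil _)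
    have hK : LL M ^ (2 * c.C₂ + 8) ≤ LL M ^ c.Kt := pow_le_pow_right₀ (by linarith) h
    have hK2 : LL M ^ (2 * c.C₂ + 8) = (LL M ^ c.C₂) ^ 2 * LL M * LL M ^ 7 := by ring
    have hK3 : (10 : ℝ) ^ 7 ≤ LL M ^ 7 := pow_le_pow_left₀ (by norm_num) hL _
    have hK4 : (LL M ^ c.C₂) ^ 2 * LL M * 10 ^ 7 ≤ (LL M ^ c.C₂) ^ 2 * LL M * LL M ^ 7 :=
      mul_le_mul_of_nonneg_left hK3 (by positivity)
    have hK5 : 1 ≤ (LL M ^ c.C₂) ^ 2 * LL M :=
      one_le_mul_of_one_le_of_one_le (one_le_pow₀ hP) (by linarith)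
    have hN3 : 3 ≤ lo (hh M) i := by
      have : (3 : ℝ) ≤ lo (hh M) i := by linarith
      exact_mod_cast this
    generalize lo (hh M) i = N at *
    have m := cena_mult Z (R29.win N) (fun z p => Str X z.1 z.2 p) (fun _ => 1) fun _ _ => zero_le_one
    have m1 : (Z.card : ℝ) * (N / LL M ^ c.C₂) ≤
        ∑ z ∈ Z, ∑ p ∈ R29.win N, (if Str X z.1 z.2 p then (1 : ℝ) else 0) := by
      rw [← nsmul_eq_mul]
      refine card_nsmul_le_sum _ _ _ fun z hz => ?_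
      rw [sum_boole]
      exact (mem_filter.1 (hZ hz)).2
    have m2 : ∑ _p ∈ R29.win N, (1 : ℝ) ≤ N := by
      rw [sum_const, nsmul_eq_mul, mul_one]
      have : (R29.win N).card ≤ N := (card_filter_le _ _).trans (by rw [Nat.card_Ico]; omega)
      exact_mod_cast this
    have m3 : ∑ y ∈ Z.offDiag, ∑ _p ∈ (R29.win N).filter
        (fun p => Str X y.1.1 y.1.2 p ∧ Str X y.2.1 y.2.2 p), (1 : ℝ) ≤ (Z.card : ℝ) ^ 2 * (2 * LL M) := by
      refine (sum_le_card_nsmul _ _ (2 * LL M) fun y hy => ?_).trans ?_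
      · rw [sum_const, nsmul_eq_mul, mul_one]
        obtain ⟨y1, y2, y3⟩ := mem_offDiag.1 hy
        refine hov X _ (mem_filter.1 (hZ y1)).1 _ (mem_filter.1 (hZ y2)).1 y3 _ fun p hp => ?_
        obtain ⟨p1, p2, p3⟩ := mem_filter.1 hp
        obtain ⟨p4, p5⟩ := mem_filter.1 p1
        exact ⟨p5, hN3.trans (mem_Ico.1 p4).1, p2, p3⟩
      · rw [nsmul_eq_mul]
        refine mul_le_mul_of_nonneg_right ?_ (by positivity)
        have : Z.offDiag.card ≤ Z.card ^ 2 := by rw [offDiag_card, sq]; omega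
        exact_mod_cast this
    have m4 : 2 * (N : ℝ) ≤ (Z.card : ℝ) * (N / LL M ^ c.C₂) := by
      have : 2 * (N : ℝ) = 2 * LL M ^ c.C₂ * (N / LL M ^ c.C₂) := by field_simp
      rw [this]
      exact mul_le_mul_of_nonneg_right hk1 (by positivity)
    have m5 : (Z.card : ℝ) ^ 2 * (2 * LL M) ≤ (3 * LL M ^ c.C₂) ^ 2 * (2 * LL M) :=
      mul_le_mul_of_nonneg_right (pow_le_pow_left₀ (Nat.cast_nonneg _) hk2 _) (by positivity)
    have m6 : (3 * LL M ^ c.C₂) ^ 2 * (2 * LL M) = 18 * ((LL M ^ c.C₂) ^ 2 * LL M) := by ring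
    linarith
  have hsub : c.Cen M X ⊆ (Ico (c.t1 M) (c.t2 M)).biUnion fun i => (c.Cen M X).filter (fun z =>
      (lo (hh M) i : ℝ) / LL M ^ c.C₂ ≤ ((R29.win (lo (hh M) i)).filter (Str X z.1 z.2)).card) := by
    intro z hz
    obtain ⟨i, hi, hi'⟩ := (mem_filter.1 hz).2.2
    exact mem_biUnion.2 ⟨i, hi, mem_filter.2 ⟨hz, hi'⟩⟩
  have h1 : ((c.Cen M X).card : ℝ) ≤ ∑ i ∈ Ico (c.t1 M) (c.t2 M), (((c.Cen M X).filter (fun z =>
      (lo (hh M) i : ℝ) / LL M ^ c.C₂ ≤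
        ((R29.win (lo (hh M) i)).filter (Str X z.1 z.2)).card)).card : ℝ) := by
    exact_mod_cast (card_le_card hsub).trans card_biUnion_le
  have h2 := sum_le_card_nsmul _ _ _ hwin
  rw [nsmul_eq_mul] at h2
  have h3 : ((Ico (c.t1 M) (c.t2 M)).card : ℝ) ≤ c.ρ * c.t1 M := by
    have : (Ico (c.t1 M) (c.t2 M)).card ≤ c.ρ * c.t1 M := by
      rw [Nat.card_Ico]
      exact Nat.sub_le _ _
    exact_mod_cast this
  have h4 : (c.t1 M : ℝ) ≤ (11 * c.Kt + 1) * LL M := by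
    have a1 := (un_spec (M := M) (κ := c.Kt) (Nat.cast_nonneg _) (by linarith)).2
    have a2 : (hh M : ℝ) * ll M ≤ 11 * LL M := by nlinarith
    have a3 := mul_le_mul_of_nonneg_left a2 (Nat.cast_nonneg (α := ℝ) c.Kt)
    unfold Cst.t1
    nlinarith
  have h5 : ((Ico (c.t1 M) (c.t2 M)).card : ℝ) * 3 ≤ LL M ^ 2 := by
    have a1 := mul_le_mul_of_nonneg_left h4 (Nat.cast_nonneg (α := ℝ) c.ρ)
    have a2 := mul_le_mul_of_nonneg_right hL' hL0.le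
    nlinarith
  have h6 := mul_le_mul_of_nonneg_right h5 (show 0 ≤ LL M ^ c.C₂ by positivity)
  rw [pow_add]
  linarith

theorem Cst.ev_theta' (c : Cst) (h : 2 * c.C₂ + 8 ≤ c.Kt) : ∀ᶠ M : ℝ in atTop, ∀ (X : ℤ) (i i' : ℕ),
    c.t1 M ≤ i → ∑ z ∈ c.Cen M X, ∑ p ∈ Pr (hh M) i i', strw X z.1 z.2 p ≤
      ∑ p ∈ Pr (hh M) i i', iv p + 1 := by
  filter_upwards [c.ev_overlap', c.cena_lo, c.ev_card_Cen' h, ev_basic 10] with M hov hlo hcard
    ⟨_, hL, _, hh0, _⟩ X i i' hi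
  have hL0 : 0 < LL M := by linarith
  have hK : LL M ^ (2 * c.C₂ + 8) ≤ LL M ^ c.Kt := pow_le_pow_right₀ (by linarith) h
  have hK2 : LL M ^ (2 * c.C₂ + 8) = (LL M ^ (c.C₂ + 2)) ^ 2 * LL M * LL M ^ 3 := by ring
  have hK3 : (10 : ℝ) ^ 3 ≤ LL M ^ 3 := pow_le_pow_left₀ (by norm_num) hL _
  have hK4 : (LL M ^ (c.C₂ + 2)) ^ 2 * LL M * 10 ^ 3 ≤ (LL M ^ (c.C₂ + 2)) ^ 2 * LL M * LL M ^ 3 :=
    mul_le_mul_of_nonneg_left hK3 (by positivity)
  have hK5 : 1 ≤ (LL M ^ (c.C₂ + 2)) ^ 2 * LL M :=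
    one_le_mul_of_one_le_of_one_le (one_le_pow₀ (one_le_pow₀ (by linarith))) (by linarith)
  have hp : ∀ p ∈ Pr (hh M) i i', p.Prime ∧ LL M ^ c.Kt / 3 ≤ p := by
    intro p hp
    obtain ⟨p1, p2, -⟩ := (mem_Pr hh0).1 hp
    refine ⟨p1, (hlo _ (hi.trans p2)).trans ?_⟩
    exact (Real.le_log_iff_exp_le (Nat.cast_pos.2 p1.pos)).1 (sz_le_log hh0 p)
  have m := cena_mult (c.Cen M X) (Pr (hh M) i i') (fun z p => Str X z.1 z.2 p) iv
    fun p _ => by unfold iv; positivity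
  refine le_trans (le_of_eq ?_) (m.trans (add_le_add_right ?_ _))
  · rfl
  have hQ : 0 < LL M ^ c.Kt / 3 := by positivity
  refine (sum_le_card_nsmul _ _ (2 * LL M * (1 / (LL M ^ c.Kt / 3))) fun y hy => ?_).trans ?_
  · obtain ⟨y1, y2, y3⟩ := mem_offDiag.1 hy
    refine (sum_le_card_nsmul _ _ (1 / (LL M ^ c.Kt / 3)) fun p hp' => ?_).trans ?_
    · exact one_div_le_one_div_of_le hQ (hp p (mem_filter.1 hp').1).2
    · rw [nsmul_eq_mul]
      refine mul_le_mul_of_nonneg_right ?_ (by positivity)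
      refine hov X _ y1 _ y2 y3 _ fun p hp' => ?_
      obtain ⟨p1, p2, p3⟩ := mem_filter.1 hp'
      obtain ⟨p4, p5⟩ := hp p p1
      have : (3 : ℝ) ≤ p := by linarith
      exact ⟨p4, by exact_mod_cast this, p2, p3⟩
  · rw [nsmul_eq_mul, ← mul_assoc, mul_one_div, div_le_one hQ]
    have a1 : ((c.Cen M X).offDiag.card : ℝ) ≤ ((c.Cen M X).card : ℝ) ^ 2 := by
      have : (c.Cen M X).offDiag.card ≤ (c.Cen M X).card ^ 2 := by rw [offDiag_card, sq]; omega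
      exact_mod_cast this
    have a2 := pow_le_pow_left₀ (Nat.cast_nonneg _) (hcard X) 2
    have a3 := mul_le_mul_of_nonneg_right (a1.trans a2) (show 0 ≤ 2 * LL M by positivity)
    linarith

end Crest.Agent.R1
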