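import Crest.Agent.R1.FamA

/-!
# R1 / CenC: irregular nodes (proof of `exc_mass`)
-/

set_option autoImplicit false

namespace Crest.Agent.R1

open Finset Filter
open scoped Classical

/-- the combinatorial part: the four ways of being irregular -/
theorem CenC_cases {c : Cst} {M : ℝ} (h : c.Ord M) {τ : Finset ℕ}
    (hτ : τ ∈ nodes (sz (hh M)) (c.R M) 0 (c.U0 M))
    (hr : c.R M - tot (sz (hh M)) τ ≤ c.r M) (hn : ¬ c.Reg M τ) :
    hh M < τ.card ∨ (∀ p ∈ τ, ¬ (c.t1 M ≤ sz (hh M) p ∧ sz (hh M) p < c.t2 M)) ∨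
      (∀ p ∈ τ, ¬ (c.u1 M ≤ sz (hh M) p ∧ sz (hh M) p < c.u2 M)) ∨
      ((c.s₂ * c.ix M : ℕ) : ℤ) <
        c.R M - tot (sz (hh M)) (τ.filter (fun p => c.ix M ≤ sz (hh M) p)) := by
  by_contra hc
  simp only [not_or, not_lt, not_forall, not_not] at hc
  obtain ⟨h1, ⟨t, ht, h2⟩, ⟨p, hp, h3⟩, h4⟩ := hc
  have hh0 : 0 < hh M := by have := h.h_ge; omega
  set σ := sz (hh M) with hσ
  have hm : Monotone σ := sz_mono _
  obtain ⟨hU, hal⟩ := mem_filter.1 hτ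
  have hU' : ∀ q ∈ τ, q.Prime ∧ c.J M ≤ σ q ∧ σ q < top M := fun q hq =>
    (mem_Pr hh0).1 (mem_powerset.1 hU hq)
  obtain ⟨u, hu, hmax⟩ := exists_max_image (τ.filter fun q => σ q < c.u2 M) id
    ⟨p, mem_filter.2 ⟨hp, h3.2⟩⟩
  obtain ⟨hu1, hu2⟩ := mem_filter.1 hu
  have hpu : c.u1 M ≤ σ u := h3.1.trans (hm (hmax p (mem_filter.2 ⟨hp, h3.2⟩)))
  have hix : c.ix M ≤ σ u := h.ix_le.trans hpu
  refine hn ⟨hr, h1, ⟨t, ht, h2⟩, u, hu1, hpu, hu2,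
    fun q hq hq' => hmax q (mem_filter.2 ⟨hq, hq'⟩), ?_⟩
  set A := τ.filter fun q => σ u ≤ σ q with hA
  set B := τ ∩ Pr (hh M) (c.ix M) (σ u) with hB
  set D := τ.filter fun q => σ q < c.ix M with hD
  have hBm : ∀ q, q ∈ B ↔ q ∈ τ ∧ c.ix M ≤ σ q ∧ σ q < σ u := fun q => by
    rw [hB, mem_inter, mem_Pr hh0]
    exact ⟨fun ⟨a, _, b⟩ => ⟨a, b⟩, fun ⟨a, b⟩ => ⟨a, (hU' q a).1, b⟩⟩
  have hAB : A ∪ B = τ.filter fun q => c.ix M ≤ σ q := by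
    ext q
    simp only [mem_union, hBm, hA, mem_filter]
    constructor
    · rintro (⟨a, b⟩ | ⟨a, b, _⟩)
      · exact ⟨a, hix.trans b⟩
      · exact ⟨a, b⟩
    · rintro ⟨a, b⟩
      by_cases d : σ u ≤ σ q
      · exact Or.inl ⟨a, d⟩
      · exact Or.inr ⟨a, b, not_le.1 d⟩
  have hτe : τ = (τ.filter fun q => c.ix M ≤ σ q) ∪ D := by
    ext q
    simp only [mem_union, hD, mem_filter]
    constructor
    · intro a
      by_cases d : c.ix M ≤ σ q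
      · exact Or.inl ⟨a, d⟩
      · exact Or.inr ⟨a, not_le.1 d⟩
    · rintro (⟨a, _⟩ | ⟨a, _⟩) <;> exact a
  have hlt : ∀ {a b : ℕ}, σ a < σ b → a < b := fun {a b} hab => by
    by_contra hc
    exact absurd (hm (not_lt.1 hc)) (not_le.2 hab)
  have ho1 : ∀ a ∈ τ.filter fun q => c.ix M ≤ σ q, ∀ b ∈ D, b < a := fun a ha b hb =>
    hlt ((mem_filter.1 hb).2.trans_le (mem_filter.1 ha).2)
  have ho2 : ∀ a ∈ A, ∀ b ∈ B, b < a := fun a ha b hb =>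
    hlt (((hBm b).1 hb).2.2.trans_le (mem_filter.1 ha).2)
  have hal1 : Alive σ (c.R M) 0 (A ∪ B) := by
    rw [hAB]
    rw [hτe] at hal
    exact ((alive_union ho1).1 hal).1
  obtain ⟨hal2, hal3⟩ := (alive_union ho2).1 hal1
  have hS : Start (c.R M) 0 (top M) := by
    have : (0 : ℤ) ≤ un M c.a := Int.natCast_nonneg _
    have h0 : (0 : ℤ) ≤ top M := Int.natCast_nonneg _
    unfold Cst.R R0
    exact ⟨fun _ => by linarith, by linarith⟩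
  have hS2 := Alive.start hm hS (fun q hq => (hU' q (mem_filter.1 hq).1).2.2.le) hal2
    (hU' u hu1).2.2.le fun q hq => (mem_filter.1 hq).2
  have hix' : (c.ix M : ℤ) ≤ σ u := by exact_mod_cast hix
  have hix0 : (0 : ℤ) ≤ c.ix M := Int.natCast_nonneg _
  obtain ⟨x, hx, hx1, hx2⟩ := Alive.split hm hS2 (fun q hq => ((hBm q).1 hq).2.2.le) hal3
    (D := (σ u : ℤ) - c.ix M) (by linarith) (by linarith [hS2.2])
  refine ⟨x, hx, ?_, hx2⟩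
  have hd : Disjoint A B := disjoint_left.2 fun a ha hb => lt_irrefl _ (ho2 a ha a hb)
  rw [← hAB, TreeA_tot_union hd] at h4
  push_cast at h4
  linarith

theorem CenC_u1 (c : Cst) (N : ℝ) (hN : 0 < N) : ∀ᶠ M : ℝ in atTop, N * c.u1 M * ll M ≤ top M := by
  have h1 : Tendsto LL atTop atTop := Real.tendsto_log_atTop
  have h2 : ∀ᶠ x : ℝ in atTop, ‖Real.log x‖ ≤ 1 / (4 * N) * ‖x ^ (1 / 4 : ℝ)‖ :=
    (isLittleO_log_rpow_atTop (by norm_num : (0 : ℝ) < 1 / 4)).bound (by positivity)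
  filter_upwards [ev_basic 1, ev_top, h1.eventually h2] with M ⟨a, b, _, d, _, _⟩ ⟨t1, _, _⟩ hl
  have hL : 0 < LL M := by linarith
  have e1 : 0 < LL M ^ (1 / 4 : ℝ) := Real.rpow_pos_of_pos hL _
  have e2 : 1 ≤ LL M ^ (3 / 4 : ℝ) := Real.one_le_rpow b (by norm_num)
  have e3 : LL M ^ (3 / 4 : ℝ) * LL M ^ (1 / 4 : ℝ) = LL M := by
    rw [← Real.rpow_add hL]
    norm_num
  rw [Real.norm_of_nonneg e1.le] at hl
  have e4 : ll M ≤ 1 / (4 * N) * LL M ^ (1 / 4 : ℝ) := (le_abs_self _).trans hl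
  have e5 : (1 : ℝ) ≤ hh M := by exact_mod_cast d
  have e6 : 1 ≤ hh M * LL M ^ (3 / 4 : ℝ) := one_le_mul_of_one_le_of_one_le e5 e2
  have e7 : (c.u1 M : ℝ) ≤ 2 * (hh M * LL M ^ (3 / 4 : ℝ)) := by
    have := Nat.ceil_lt_add_one (by linarith : 0 ≤ hh M * LL M ^ (3 / 4 : ℝ))
    unfold Cst.u1
    linarith
  calc N * c.u1 M * ll M ≤ N * (2 * (hh M * LL M ^ (3 / 4 : ℝ))) *
        (1 / (4 * N) * LL M ^ (1 / 4 : ℝ)) := by gcongr
    _ = hh M * (LL M ^ (3 / 4 : ℝ) * LL M ^ (1 / 4 : ℝ)) / 2 := by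
        field_simp
        ring
    _ ≤ top M := by rw [e3]; exact t1

theorem CenC_exp {M : ℝ} {T i u : ℕ} (hL : 0 < LL M) (hl : 0 ≤ ll M) (hT : (T : ℝ) ≤ LL M ^ 2)
    (hi : 0 < i) (hu : i ≤ u) (h : 16 * (u : ℝ) * ll M ≤ T) :
    (T : ℝ) ^ 4 * Real.exp (-(T : ℝ) / (2 * i)) ≤ 1 := by
  have hi' : (0 : ℝ) < i := by exact_mod_cast hi
  have hu' : (i : ℝ) ≤ u := by exact_mod_cast hu
  have e1 : Real.exp (ll M) = LL M := Real.exp_log hL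
  have e2 : 8 * ll M ≤ T / (2 * i) := by
    rw [le_div_iff₀ (by positivity)]
    nlinarith
  have e3 : (T : ℝ) ^ 4 ≤ Real.exp (T / (2 * i)) := by
    calc (T : ℝ) ^ 4 ≤ (LL M ^ 2) ^ 4 := by gcongr
      _ = Real.exp (8 * ll M) := by
          rw [← e1, ← pow_mul, ← Real.exp_nat_mul]
          norm_num
      _ ≤ _ := Real.exp_le_exp.2 e2
  rw [neg_div, Real.exp_neg, ← div_eq_mul_inv, div_le_one (Real.exp_pos _)]
  exact e3

theorem CenC_root (c : Cst) (h1 : 1 ≤ c.K) : ∀ᶠ M : ℝ in atTop, c.J M ≤ top M →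
    Root (sz (hh M)) iv (c.U0 M) (c.J M) (top M) (c.R M) := by
  filter_upwards [ev_BS, ev_basic 1, ev_R0 c.a (Nat.cast_nonneg _)] with M hBS ⟨a, _, _, d, _, _⟩
    ⟨_, _, hR, _⟩ hJ
  have hiv : ∀ b, 0 ≤ iv b := fun b => by unfold iv; positivity
  refine ⟨hBS iv _ _ _ ?_ hJ (fun p hp => ?_) hiv fun i _ => ?_, ?_, hR⟩
  · refine Nat.ceil_le_ceil ?_
    have : (1 : ℝ) ≤ c.K := by exact_mod_cast h1
    have h0 : 0 ≤ ll M := by linarith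
    gcongr
  · have := (mem_Pr d).1 hp
    exact (mem_Pr d).2 ⟨this.1, this.2.1, by omega⟩
  · refine sum_le_sum_of_subset_of_nonneg (fun p hp => ?_) fun p _ _ => hiv p
    obtain ⟨h2, h3⟩ := mem_filter.1 hp
    exact (mem_Pr d).2 ⟨((mem_Pr d).1 h2).1, by omega, by omega⟩
  · have : (0 : ℤ) ≤ un M c.a := Int.natCast_nonneg _
    unfold Cst.R R0
    linarith

theorem CenC_or {σ : ℕ → ℕ} {μ : ℕ → ℝ} {R : ℤ} {e : ℕ} {U : Finset ℕ} (hμ : ∀ b, 0 ≤ μ b)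
    (Φ Ψ : Finset ℕ → Prop) :
    mass σ μ R e U (fun τ => Φ τ ∨ Ψ τ) ≤ mass σ μ R e U Φ + mass σ μ R e U Ψ := by
  simp only [mass, sum_filter]
  rw [← sum_add_distrib]
  refine sum_le_sum fun τ _ => ?_
  have := mk_wt_nonneg hμ τ
  by_cases a : Φ τ <;> by_cases b : Ψ τ <;> simp [a, b, this]

theorem CenC_main : ∃ C : ℝ, 0 < C ∧ ∀ c : Cst, 20 ≤ c.K → 8 * c.s₁ * c.K + 1 ≤ c.Kt → 1 ≤ c.ρ →
    1 ≤ c.s₁ → 1 ≤ c.s₂ → c.ρ * c.Kt + 1 ≤ c.Kx → ∀ᶠ M : ℝ in atTop,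
      mass (sz (hh M)) iv (c.R M) 0 (c.U0 M)
          (fun τ => c.R M - tot (sz (hh M)) τ ≤ c.r M ∧ ¬ c.Reg M τ) ≤
        C * (c.s₁ : ℝ) ^ 3 * (c.ρ * Real.exp (-(c.ρ : ℝ)) + (c.s₂ : ℝ) ^ 2 * Real.exp (-(c.s₂ : ℝ)) +
          1 / ll M) * (c.J M : ℝ) ^ 2 / (top M : ℝ) ^ 2 := by
  obtain ⟨Cg, hCg, hg⟩ := mass_gap
  obtain ⟨Ct, hCt, ht⟩ := mass_thr
  refine ⟨2 * Cg + Ct + 1, by positivity, fun c h1 h2 h3 h4 h5 h6 => ?_⟩
  have hK : c.K ≤ c.Kt := by nlinarith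
  have hρ : (1 : ℝ) ≤ c.ρ := by exact_mod_cast h3
  have hs₁ : (1 : ℝ) ≤ c.s₁ := by exact_mod_cast h4
  have hs₂ : (1 : ℝ) ≤ c.s₂ := by exact_mod_cast h5
  filter_upwards [c.ev_ord h1 hK h3 h6, CenC_root c (by omega), ev_basic 1, ev_basic (c.s₁ : ℝ),
    ev_top, CenC_u1 c 16 (by norm_num), CenC_u1 c (2 * c.ρ) (by positivity),
    CenC_u1 c (2 * c.s₂) (by positivity)] with M hO hR ⟨a, b, _, d, e, _⟩ ⟨a', _⟩ ⟨_, _, tp⟩ u16 uρ us
  have o1 := hO.J_le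
  have o2 := hO.t2_le
  have o3 := hO.ix_le
  have o4 := hO.u2_le
  have o5 := hO.t_le
  have o6 := hO.u_le
  have hR := hR (by omega)
  have hbig := hR.big
  have hl0 : 0 < ll M := by linarith
  have hL0 : 0 < LL M := by linarith
  have hJ : (0 : ℝ) < c.J M := hR.mk_pos
  have htop : (0 : ℝ) < top M := by exact_mod_cast (by omega : 0 < top M)
  have hu0 : (0 : ℝ) ≤ c.u1 M := Nat.cast_nonneg _
  have hh1 : (1 : ℝ) ≤ hh M := by exact_mod_cast d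
  have hJ1 := un_spec (M := M) (κ := c.K) (Nat.cast_nonneg _) hl0.le
  have hJ2 := un_spec (M := M) (κ := c.Kt) (Nat.cast_nonneg _) hl0.le
  have hr : 8 * c.r M ≤ c.t1 M := by
    have e1 : (8 * c.s₁ * c.K + 1 : ℝ) ≤ c.Kt := by exact_mod_cast h2
    have e2 : (8 * c.s₁ : ℝ) ≤ hh M * ll M := by nlinarith
    have e3 : (8 * c.s₁ * c.K + 1 : ℝ) * (hh M * ll M) ≤ c.Kt * (hh M * ll M) := by gcongr
    have e4 : (8 * c.s₁ : ℝ) * un M c.K ≤ 8 * c.s₁ * (c.K * hh M * ll M + 1) := by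
      gcongr
      exact hJ1.2
    have e5 : (8 : ℝ) * (c.s₁ * un M c.K) ≤ un M c.Kt := by nlinarith [hJ2.1]
    unfold Cst.r Cst.t1 Cst.J
    exact_mod_cast e5
  have hu2 : 2 * c.u2 M ≤ top M := by
    have e1 : (2 : ℝ) * (c.ρ * c.u1 M) ≤ top M := by
      have : 0 ≤ 2 * c.ρ * (c.u1 M : ℝ) := by positivity
      nlinarith
    unfold Cst.u2
    exact_mod_cast e1
  have hsi : 2 * (c.s₂ * c.ix M) ≤ top M := by
    have e1 : (2 : ℝ) * (c.s₂ * c.u1 M) ≤ top M := by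
      have : 0 ≤ 2 * c.s₂ * (c.u1 M : ℝ) := by positivity
      nlinarith
    have e2 : 2 * (c.s₂ * c.u1 M) ≤ top M := by exact_mod_cast e1
    exact le_trans (by gcongr) e2
  have g1 := hg hR (c.t1 M) (c.t2 M) (c.r M) o1 hr o5 (by omega)
    (CenC_exp hL0 hl0.le tp (by omega) (by omega : c.t1 M ≤ c.u1 M) u16)
  have g2 := hg hR (c.u1 M) (c.u2 M) (c.r M) (by omega) (by omega) o6 hu2
    (CenC_exp hL0 hl0.le tp (by omega) le_rfl u16)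
  have g3 := ht hR (c.ix M) c.s₂ (c.r M) (by omega) (by omega) h5 hsi
    (CenC_exp hL0 hl0.le tp (by omega) o3 u16)
  have q1 : (c.t2 M : ℝ) / c.t1 M = c.ρ := by
    have : (0 : ℝ) < c.t1 M := by exact_mod_cast (by omega : 0 < c.t1 M)
    unfold Cst.t2
    push_cast
    field_simp
  have q2 : (c.u2 M : ℝ) / c.u1 M = c.ρ := by
    have : (0 : ℝ) < c.u1 M := by exact_mod_cast (by omega : 0 < c.u1 M)
    unfold Cst.u2
    push_cast
    field_simp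
  rw [q1] at g1
  rw [q2] at g2
  have g0 : mass (sz (hh M)) iv (c.R M) 0 (c.U0 M) (fun τ => hh M < τ.card) ≤
      1 / ll M * (c.J M : ℝ) ^ 2 / (top M : ℝ) ^ 2 := by
    refine le_trans ?_ ((hR.toBS.depth (hh M)).trans ?_)
    · rw [mk_mass_eq]
      refine sum_le_sum_of_subset_of_nonneg (fun τ hτ => ?_) fun τ _ _ => mk_wt_nonneg hR.nonneg τ
      obtain ⟨k1, k2⟩ := mem_filter.1 hτ
      exact mem_filter.2 ⟨(mem_filter.1 k1).1, k2⟩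
    · have e1 : Real.exp (ll M) = LL M := Real.exp_log hL0
      have e2 : (top M : ℝ) ^ 5 ≤ 3 ^ hh M := by
        calc (top M : ℝ) ^ 5 ≤ (LL M ^ 2) ^ 5 := by gcongr
          _ = Real.exp (10 * ll M) := by
              rw [← e1, ← pow_mul, ← Real.exp_nat_mul]
              norm_num
          _ ≤ Real.exp (hh M * 1) := Real.exp_le_exp.2 (by linarith)
          _ = Real.exp 1 ^ hh M := Real.exp_nat_mul _ _
          _ ≤ 3 ^ hh M := by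
              gcongr
              exact Real.exp_one_lt_d9.le.trans (by norm_num)
      have e3 : 8 * ll M ≤ c.J M := by
        have k1 : (20 : ℝ) ≤ c.K := by exact_mod_cast h1
        have k2 : 20 * 1 * ll M ≤ c.K * hh M * ll M := by gcongr
        have := hJ1.1
        unfold Cst.J
        linarith
      have e4 : (c.J M : ℝ) ≤ (c.J M : ℝ) ^ 5 :=
        le_self_pow₀ (by exact_mod_cast (by omega : 1 ≤ c.J M)) (by norm_num)
      have e5 : 8 * ll M * (top M : ℝ) ^ 5 ≤ (c.J M : ℝ) ^ 5 * 3 ^ hh M := by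
        gcongr
        exact e3.trans e4
      rw [div_le_div_iff₀ (by positivity) (by positivity)]
      have e6 : (2 * (top M : ℝ) / c.J M) ^ 3 * (top M : ℝ) ^ 2 =
          8 * ll M * (top M : ℝ) ^ 5 / (ll M * (c.J M : ℝ) ^ 3) := by
        field_simp
        ring
      have e7 : 1 / ll M * (c.J M : ℝ) ^ 2 * 3 ^ hh M =
          (c.J M : ℝ) ^ 5 * 3 ^ hh M / (ll M * (c.J M : ℝ) ^ 3) := by
        field_simp
      rw [e6, e7]
      gcongr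
  refine le_trans (mk_mass_mono hR.nonneg (Ψ := fun τ => hh M < τ.card ∨
    ((c.R M - tot (sz (hh M)) τ ≤ c.r M ∧
      ∀ p ∈ τ, ¬ (c.t1 M ≤ sz (hh M) p ∧ sz (hh M) p < c.t2 M)) ∨
    ((c.R M - tot (sz (hh M)) τ ≤ c.r M ∧
      ∀ p ∈ τ, ¬ (c.u1 M ≤ sz (hh M) p ∧ sz (hh M) p < c.u2 M)) ∨
    (c.R M - tot (sz (hh M)) τ ≤ c.r M ∧ ((c.s₂ * c.ix M : ℕ) : ℤ) <
        c.R M - tot (sz (hh M)) (τ.filter (fun p => c.ix M ≤ sz (hh M) p)))))) fun τ hτ hΦ => ?_) ?_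
  · rcases CenC_cases hO hτ hΦ.1 hΦ.2 with k | k | k | k
    · exact Or.inl k
    · exact Or.inr (Or.inl ⟨hΦ.1, k⟩)
    · exact Or.inr (Or.inr (Or.inl ⟨hΦ.1, k⟩))
    · exact Or.inr (Or.inr (Or.inr ⟨hΦ.1, k⟩))
  refine (CenC_or hR.nonneg _ _).trans ((add_le_add g0 ((CenC_or hR.nonneg _ _).trans
    (add_le_add g1 ((CenC_or hR.nonneg _ _).trans (add_le_add g2 g3))))).trans ?_)
  set A := (c.ρ : ℝ) * Real.exp (-(c.ρ : ℝ)) with hA
  set B := (c.s₂ : ℝ) ^ 2 * Real.exp (-(c.s₂ : ℝ)) with hB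
  have hA0 : 0 ≤ A := by positivity
  have hB0 : 0 ≤ B := by positivity
  have hE0 : 0 ≤ 1 / ll M := by positivity
  have hs3 : (1 : ℝ) ≤ (c.s₁ : ℝ) ^ 3 := one_le_pow₀ hs₁
  have e1 : ∀ Z : ℝ, Z * (c.r M : ℝ) ^ 3 / (c.J M * (top M : ℝ) ^ 2) =
      Z * (c.s₁ : ℝ) ^ 3 * (c.J M : ℝ) ^ 2 / (top M : ℝ) ^ 2 := fun Z => by
    unfold Cst.r
    push_cast
    field_simp
  rw [e1, e1, mul_assoc Cg, mul_assoc Ct, ← hA, ← hB, ← add_div, ← add_div, ← add_div, ← add_mul,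
    ← add_mul, ← add_mul]
  gcongr
  have k1 : 1 / ll M ≤ (c.s₁ : ℝ) ^ 3 * (1 / ll M) := le_mul_of_one_le_left hE0 hs3
  have k2 : 0 ≤ (c.s₁ : ℝ) ^ 3 * ((Ct + 1) * A + (2 * Cg + 1) * B + (2 * Cg + Ct) * (1 / ll M)) := by
    positivity
  nlinarith

end Crest.Agent.R1
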