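import Crest.Agent.R1.FamA
import Crest.Agent.R1.CenC
import Crest.Agent.R1.CenA

/-!
# R1 / Cen: few centres, and one centre carries a positive proportion
-/

set_option autoImplicit false

namespace Crest.Agent.R1

open Finset Filter
open scoped Classical

/-- two different reduced centres share at most `2 L` structured primes `≥ 3` -/
theorem Cst.ev_overlap (c : Cst) : ∀ᶠ M : ℝ in atTop, ∀ X : ℤ, ∀ z ∈ c.Cen M X, ∀ z' ∈ c.Cen M X,
    z ≠ z' → ∀ W : Finset ℕ, (∀ p ∈ W, p.Prime ∧ 3 ≤ p ∧ Str X z.1 z.2 p ∧ Str X z'.1 z'.2 p) →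
      (W.card : ℝ) ≤ 2 * LL M := by
  exact c.ev_overlap'

/-- in one window at most `2 L^{C₂} + 1` centres are popular (inclusion-exclusion), and there are at
most `t2 ≤ L/3` windows -/
theorem Cst.ev_card_Cen (c : Cst) (h : 2 * c.C₂ + 8 ≤ c.Kt) : ∀ᶠ M : ℝ in atTop, ∀ X : ℤ,
    ((c.Cen M X).card : ℝ) ≤ LL M ^ (c.C₂ + 2) := by
  exact c.ev_card_Cen' h

theorem Cst.ev_theta (c : Cst) (h : 2 * c.C₂ + 8 ≤ c.Kt) : ∀ᶠ M : ℝ in atTop, ∀ (X : ℤ) (i i' : ℕ),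
    c.t1 M ≤ i → ∑ z ∈ c.Cen M X, ∑ p ∈ Pr (hh M) i i', strw X z.1 z.2 p ≤
      ∑ p ∈ Pr (hh M) i i', iv p + 1 := by
  exact c.ev_theta' h

theorem CenB_pick {ι : Type} (S : Finset ι) (m a b : ι → ℝ) {T C x ε : ℝ} (hT : 0 < T) (hC : 0 < C)
    (hx : 0 < x) (hε : 0 < ε) (ha : ∀ z, 0 ≤ a z) (hb : ∀ z, 0 ≤ b z) (hsa : ∑ z ∈ S, a z ≤ T)
    (hsb : ∑ z ∈ S, b z ≤ T) (hm : ∀ z ∈ S, m z ≤ C * a z * b z * x) (h : ε * x ≤ ∑ z ∈ S, m z) :
    ∃ z ∈ S, ε * (ε / (4 * C * T)) / (4 * T) * x ≤ m z := by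
  by_contra hc
  push Not at hc
  set η := ε / (4 * C * T) with hη
  have hη0 : 0 < η := by positivity
  have key : ∀ z ∈ S, m z ≤ C * η * x * b z + ε / (4 * T) * x * a z := by
    intro z hz
    have h1 := ha z
    have h2 := hb z
    rcases le_total (a z) η with hl | hl
    · have h3 : C * a z * b z * x ≤ C * η * b z * x := by gcongr
      have h4 : 0 ≤ ε / (4 * T) * x * a z := by positivity
      nlinarith [hm z hz]
    · have h3 : ε / (4 * T) * x * η ≤ ε / (4 * T) * x * a z := by gcongr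
      have h4 : 0 ≤ C * η * x * b z := by positivity
      have h5 : ε * η / (4 * T) * x = ε / (4 * T) * x * η := by ring
      linarith [hc z hz]
  have h6 := sum_le_sum key
  rw [sum_add_distrib, ← mul_sum, ← mul_sum] at h6
  have h7 : C * η * x * ∑ z ∈ S, b z ≤ C * η * x * T := by gcongr
  have h8 : ε / (4 * T) * x * ∑ z ∈ S, a z ≤ ε / (4 * T) * x * T := by gcongr
  have h9 : C * η * x * T = ε * x / 4 := by rw [hη]; field_simp
  have h10 : ε / (4 * T) * x * T = ε * x / 4 := by field_simp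
  have h11 : 0 < ε * x := by positivity
  linarith

theorem CenB_strw_nonneg (X c b : ℤ) (p : ℕ) : 0 ≤ strw X c b p := by
  unfold strw iv
  split_ifs <;> positivity

theorem CenB_strw_le (X c b : ℤ) (p : ℕ) : strw X c b p ≤ iv p := by
  unfold strw iv
  split_ifs
  · exact le_rfl
  · positivity

theorem CenB_small (C : ℝ) : ∀ᶠ M : ℝ in atTop, C * ll M ^ 2 ≤ LL M ^ (1 / 4 : ℝ) := by
  have h1 : Tendsto LL atTop atTop := Real.tendsto_log_atTop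
  have h2 := (isLittleO_log_rpow_rpow_atTop (s := 1 / 4) 2 (by norm_num)).bound
    (c := 1 / (|C| + 1)) (by positivity)
  filter_upwards [h1.eventually h2, ev_basic 1] with M h ⟨a, b, _⟩
  have h3 : 0 ≤ LL M ^ (1 / 4 : ℝ) := by positivity
  rw [Real.norm_of_nonneg h3, Real.rpow_two, Real.norm_of_nonneg (sq_nonneg _)] at h
  have h4 : ll M ^ 2 ≤ 1 / (|C| + 1) * LL M ^ (1 / 4 : ℝ) := h
  rw [one_div, ← div_eq_inv_mul, le_div_iff₀ (by positivity)] at h4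
  have h5 : C * ll M ^ 2 ≤ (|C| + 1) * ll M ^ 2 := by
    have := le_abs_self C
    gcongr
    linarith
  linarith

theorem CenB_un_mono {M κ κ' : ℝ} (hl : 0 ≤ ll M) (h : κ ≤ κ') : un M κ ≤ un M κ' := by
  unfold un
  exact Nat.ceil_le_ceil (by gcongr)

/-- the parameter facts needed for `mass_mark2` -/
theorem CenB_par (c : Cst) (h1 : 20 ≤ c.K) (h2 : 8 * c.s₁ * c.K + 2 * c.C₂ + 8 ≤ c.Kt)
    (h3 : 1 ≤ c.ρ) : ∀ᶠ M : ℝ in atTop, un M 1 ≤ c.J M ∧ c.J M ≤ top M ∧ un M 1 ≤ c.t1 M ∧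
      8 * c.r M ≤ c.t1 M ∧ 16 * c.t2 M ≤ c.u1 M ∧
      (∀ i : ℕ, 0 < i → i ≤ c.u2 M → (top M : ℝ) ^ 4 * Real.exp (-(top M : ℝ) / i) ≤ 1) ∧
      ∀ i j : ℕ, c.u1 M ≤ i → 0 < j → j ≤ c.t2 M →
        (top M : ℝ) ^ 4 * Real.exp (-(i : ℝ) / (16 * j)) ≤ 1 := by
  filter_upwards [ev_basic 1, ev_basic (c.s₁ : ℝ), ev_top, CenB_small (2 * (c.K + 1)),
    CenB_small (128 * c.ρ * (c.Kt + 1))] with M ⟨a, b, _, d, e, g⟩ ⟨a', _⟩ ⟨p1, _, p3⟩ q1 q2
  have hl0 : 0 ≤ ll M := by linarith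
  have hL0 : 0 < LL M := by linarith
  have hh1 : (1 : ℝ) ≤ hh M := by exact_mod_cast d
  have hρ : (1 : ℝ) ≤ c.ρ := by exact_mod_cast h3
  have hK : (0 : ℝ) ≤ c.K := Nat.cast_nonneg _
  have hKt : (0 : ℝ) ≤ c.Kt := Nat.cast_nonneg _
  have hs : (0 : ℝ) ≤ c.s₁ := Nat.cast_nonneg _
  set y := LL M ^ (1 / 4 : ℝ) with hy
  have hy1 : 1 ≤ y := Real.one_le_rpow b (by norm_num)
  have hy4 : LL M = y ^ 4 := by
    rw [hy, ← Real.rpow_natCast, ← Real.rpow_mul hL0.le]; norm_num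
  have hy3 : LL M ^ (3 / 4 : ℝ) = y ^ 3 := by
    rw [hy, ← Real.rpow_natCast, ← Real.rpow_mul hL0.le]; norm_num
  have hy13 : y ≤ y ^ 3 := le_self_pow₀ hy1 (by norm_num)
  have hy14 : y ≤ y ^ 4 := le_self_pow₀ hy1 (by norm_num)
  have hll : ll M ≤ ll M ^ 2 := le_self_pow₀ a (by norm_num)
  have hhl : 1 ≤ (hh M : ℝ) * ll M := one_le_mul_of_one_le_of_one_le hh1 a
  obtain ⟨j1, j2⟩ := un_spec (M := M) hK hl0
  obtain ⟨t1, t2⟩ := un_spec (M := M) hKt hl0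
  have u1 : (hh M : ℝ) * y ^ 3 ≤ c.u1 M := by rw [← hy3]; exact Nat.le_ceil _
  have u2 : (c.u1 M : ℝ) ≤ hh M * y ^ 3 + 1 := by
    rw [← hy3]; exact (Nat.ceil_lt_add_one (by positivity)).le
  have hJ : (c.J M : ℝ) ≤ (c.K + 1) * (hh M * ll M) := by unfold Cst.J; nlinarith
  have ht2 : (c.t2 M : ℝ) ≤ c.ρ * ((c.Kt + 1) * (hh M * ll M)) := by
    unfold Cst.t2 Cst.t1
    push_cast
    gcongr
    nlinarith
  have htop4 : (top M : ℝ) ^ 4 ≤ Real.exp (8 * ll M) := by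
    have : Real.exp (8 * ll M) = (LL M ^ 2) ^ 4 := by
      have e0 : Real.exp (ll M) = LL M := Real.exp_log hL0
      rw [show 8 * ll M = (8 : ℕ) * ll M by norm_num, Real.exp_nat_mul, e0]
      ring
    rw [this]
    gcongr
  have fin : ∀ w : ℝ, 8 * ll M ≤ w → (top M : ℝ) ^ 4 * Real.exp (-w) ≤ 1 := by
    intro w hw
    calc (top M : ℝ) ^ 4 * Real.exp (-w) ≤ Real.exp (8 * ll M) * Real.exp (-w) := by gcongr
      _ = Real.exp (8 * ll M - w) := by rw [← Real.exp_add]; ring_nf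
      _ ≤ 1 := Real.exp_le_one_iff.2 (by linarith)
  have k1 : (128 * c.ρ * (c.Kt + 1) : ℝ) * ll M ≤ y := by
    refine le_trans ?_ q2
    gcongr
  refine ⟨CenB_un_mono hl0 (by exact_mod_cast (by omega : 1 ≤ c.K)), ?_,
    CenB_un_mono hl0 (by exact_mod_cast (by omega : 1 ≤ c.Kt)), ?_, ?_, ?_, ?_⟩
  · have k2 : (2 * (c.K + 1) : ℝ) * ll M ≤ LL M := by
      refine le_trans ?_ (q1.trans (hy4 ▸ hy14))
      gcongr
    have : (c.J M : ℝ) ≤ top M := by nlinarith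
    exact_mod_cast this
  · have k3 : (8 * c.s₁ * c.K + 8 : ℝ) ≤ c.Kt := by
      exact_mod_cast (by omega : 8 * c.s₁ * c.K + 8 ≤ c.Kt)
    have k4 : (c.s₁ : ℝ) ≤ hh M * ll M := by nlinarith
    have k5 : (8 * c.s₁ * c.K + 8 : ℝ) * (hh M * ll M) ≤ c.Kt * (hh M * ll M) := by gcongr
    have k6 : (c.s₁ : ℝ) * un M c.K ≤ c.s₁ * (c.K * hh M * ll M + 1) := by gcongr
    have : (8 * (c.s₁ * un M c.K) : ℝ) ≤ un M c.Kt := by nlinarith
    unfold Cst.r Cst.J Cst.t1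
    exact_mod_cast this
  · have k7 : (hh M : ℝ) * ((128 * c.ρ * (c.Kt + 1) : ℝ) * ll M) ≤ hh M * y ^ 3 := by
      gcongr
      linarith
    have k8 : 0 ≤ (c.ρ : ℝ) * ((c.Kt + 1) * (hh M * ll M)) := by positivity
    have : (16 * c.t2 M : ℝ) ≤ c.u1 M := by nlinarith
    exact_mod_cast this
  · intro i hi hiu
    have hi0 : (0 : ℝ) < i := by exact_mod_cast hi
    rw [neg_div]
    refine fin _ ?_
    rw [le_div_iff₀ hi0]
    have k9 : (i : ℝ) ≤ c.ρ * (2 * (hh M * y ^ 3)) := by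
      have : (i : ℝ) ≤ c.ρ * c.u1 M := by exact_mod_cast hiu
      refine this.trans ?_
      have : (1 : ℝ) ≤ hh M * y ^ 3 := one_le_mul_of_one_le_of_one_le hh1 (one_le_pow₀ hy1)
      gcongr
      linarith
    have k10 : 32 * c.ρ * ll M ≤ y := by
      refine le_trans (mul_le_mul_of_nonneg_right ?_ hl0) k1
      nlinarith
    calc 8 * ll M * i ≤ 8 * ll M * (c.ρ * (2 * (hh M * y ^ 3))) := by gcongr
      _ = (32 * c.ρ * ll M) * (hh M * y ^ 3) / 2 := by ring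
      _ ≤ y * (hh M * y ^ 3) / 2 := by gcongr
      _ = hh M * LL M / 2 := by rw [hy4]; ring
      _ ≤ top M := p1
  · intro i j hi hj hjt
    have hj0 : (0 : ℝ) < j := by exact_mod_cast hj
    rw [neg_div]
    refine fin _ ?_
    rw [le_div_iff₀ (by positivity)]
    have k11 : (j : ℝ) ≤ c.ρ * ((c.Kt + 1) * (hh M * ll M)) :=
      le_trans (by exact_mod_cast hjt) ht2
    have k12 : (c.u1 M : ℝ) ≤ i := by exact_mod_cast hi
    calc 8 * ll M * (16 * j) ≤ 8 * ll M * (16 * (c.ρ * ((c.Kt + 1) * (hh M * ll M)))) := by gcongr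
      _ = hh M * (128 * c.ρ * (c.Kt + 1) * ll M ^ 2) := by ring
      _ ≤ hh M * y ^ 3 := by
        gcongr
        exact q2.trans hy13
      _ ≤ i := u1.trans k12

/-- With `Θ_z(A)`, `Θ_z(B)` the structured masses of the `u`- and `t`-ranges, `mass_mark2` bounds the
mass of the `z`-structured nodes by `C s₁³ Θ_z(A) Θ_z(B) J²/top²`, and both `∑_z Θ_z` are at most
`log ρ + 2`.  Centres with `Θ_z(A) ≤ η` carry little; the others are at most `(log ρ + 2)/η`. -/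
theorem Cst.one_centre (c : Cst) (h1 : 20 ≤ c.K) (h2 : 8 * c.s₁ * c.K + 2 * c.C₂ + 8 ≤ c.Kt)
    (h3 : 1 ≤ c.ρ) (h4 : 1 ≤ c.s₁) (ε : ℝ) (hε : 0 < ε) : ∃ ε₂ : ℝ, 0 < ε₂ ∧ ∀ᶠ M : ℝ in atTop, ∀ X : ℤ,
      ε * (c.J M : ℝ) ^ 2 / (top M : ℝ) ^ 2 ≤ mass (sz (hh M)) iv (c.R M) 0 (c.U0 M)
        (fun τ => c.Reg M τ ∧ ∃ z ∈ c.Cen M X, ∀ p ∈ τ, Str X z.1 z.2 p) →
      ∃ z ∈ c.Cen M X, ε₂ * (c.J M : ℝ) ^ 2 / (top M : ℝ) ^ 2 ≤
        mass (sz (hh M)) (strw X z.1 z.2) (c.R M) 0 (c.U0 M)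
          (fun τ => c.R M - tot (sz (hh M)) τ ≤ c.r M) := by
  obtain ⟨C, hC, HC⟩ := mass_mark2
  have hρ : (1 : ℝ) ≤ c.ρ := by exact_mod_cast h3
  have hs : (0 : ℝ) < c.s₁ := by exact_mod_cast h4
  have hT : 0 < Real.log c.ρ + 2 := by have := Real.log_nonneg hρ; linarith
  refine ⟨ε * (ε / (4 * (C * (c.s₁ : ℝ) ^ 3) * (Real.log c.ρ + 2))) / (4 * (Real.log c.ρ + 2)),
    by positivity, ?_⟩
  filter_upwards [CenB_par c h1 h2 h3, c.ev_theta (by omega), ev_R0 (c.a : ℝ) (Nat.cast_nonneg _),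
    ev_BS, ev_range, ev_basic 1, pfa_block] with M ⟨p1, p2, p3, p4, p5, p6, p7⟩ hθ ⟨_, _, hR, _⟩ hBS
      hrg ⟨_, _, _, d, _⟩ hbl X hX
  have ht12 : c.t1 M ≤ c.t2 M := Nat.le_mul_of_pos_left _ h3
  have hu12 : c.u1 M ≤ c.u2 M := Nat.le_mul_of_pos_left _ h3
  have htu : c.t1 M ≤ c.u1 M := by omega
  have hJ : 1000 ≤ c.J M := (hbl _ p1).1
  have ht0 : 1000 ≤ c.t1 M := (hbl _ p3).1
  have hJ0 : (0 : ℝ) < c.J M := by exact_mod_cast (by omega : 0 < c.J M)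
  have htop0 : (0 : ℝ) < top M := by exact_mod_cast (by omega : 0 < top M)
  have hsum : ∀ i : ℕ, c.t1 M ≤ i →
      ∑ z ∈ c.Cen M X, ∑ p ∈ Pr (hh M) i (c.ρ * i), strw X z.1 z.2 p ≤ Real.log c.ρ + 2 := by
    intro i hi
    have e1 := hθ X i (c.ρ * i) hi
    have e2 := (hrg i (c.ρ * i) (p3.trans hi) (Nat.le_mul_of_pos_left _ h3)).2
    have hi0 : (i : ℝ) ≠ 0 := by exact_mod_cast (by omega : i ≠ 0)
    rw [Nat.cast_mul, mul_div_cancel_right₀ _ hi0] at e2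
    linarith
  have hroot : ∀ z : ℤ × ℤ, Root (sz (hh M)) (strw X z.1 z.2) (c.U0 M) (c.J M) (top M) (c.R M) := by
    intro z
    refine ⟨hBS _ _ _ _ p1 p2 (fun p hp => ?_) (CenB_strw_nonneg _ _ _) fun i hi => ?_, ?_, hR⟩
    · have := (mem_Pr d).1 hp
      exact (mem_Pr d).2 ⟨this.1, this.2.1, by omega⟩
    · refine (sum_le_sum fun p _ => CenB_strw_le X z.1 z.2 p).trans
        (sum_le_sum_of_subset_of_nonneg (fun p hp => ?_) fun p _ _ => by unfold iv; positivity)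
      obtain ⟨e1, e2⟩ := mem_filter.1 hp
      exact (mem_Pr d).2 ⟨((mem_Pr d).1 e1).1, by omega, by omega⟩
    · unfold Cst.R R0
      omega
  obtain ⟨z, hz, hm⟩ := CenB_pick (c.Cen M X)
    (fun z => mass (sz (hh M)) (strw X z.1 z.2) (c.R M) 0 (c.U0 M) (fun τ =>
      c.R M - tot (sz (hh M)) τ ≤ c.r M ∧ ∃ u ∈ τ, ∃ t ∈ τ, u ∈ Pr (hh M) (c.u1 M) (c.u2 M) ∧
        t ∈ Pr (hh M) (c.t1 M) (c.t2 M)))
    (fun z => ∑ p ∈ Pr (hh M) (c.u1 M) (c.u2 M), strw X z.1 z.2 p)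
    (fun z => ∑ p ∈ Pr (hh M) (c.t1 M) (c.t2 M), strw X z.1 z.2 p)
    (C := C * (c.s₁ : ℝ) ^ 3) (x := (c.J M : ℝ) ^ 2 / (top M : ℝ) ^ 2) hT (by positivity)
    (by positivity) hε (fun z => sum_nonneg fun p _ => CenB_strw_nonneg _ _ _ p)
    (fun z => sum_nonneg fun p _ => CenB_strw_nonneg _ _ _ p) (hsum _ htu) (hsum _ le_rfl)
    (fun z _ => by
      have hμ := CenB_strw_nonneg X z.1 z.2
      refine (mk_union hμ ((Pr (hh M) (c.u1 M) (c.u2 M) ∩ c.U0 M) ×ˢ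
        (Pr (hh M) (c.t1 M) (c.t2 M) ∩ c.U0 M))
        (Ψ := fun w τ => c.R M - tot (sz (hh M)) τ ≤ c.r M ∧ w.1 ∈ τ ∧ w.2 ∈ τ) ?_).trans ?_
      · rintro τ hτ ⟨e1, u, hu, t, ht, e2, e3⟩
        have hs := (MassDa_mem.1 hτ).1
        exact ⟨(u, t), mem_product.2 ⟨mem_inter.2 ⟨e2, hs hu⟩, mem_inter.2 ⟨e3, hs ht⟩⟩, e1, hu, ht⟩
      refine (sum_le_sum (g := fun w : ℕ × ℕ => C * strw X z.1 z.2 w.1 * strw X z.1 z.2 w.2 *
        (c.r M : ℝ) ^ 3 / (c.J M * (top M : ℝ) ^ 2)) fun w hw => ?_).trans ?_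
      · obtain ⟨e1, e2⟩ := mem_product.1 hw
        obtain ⟨e3, e4⟩ := mem_inter.1 e1
        obtain ⟨e5, e6⟩ := mem_inter.1 e2
        have e7 := ((mem_Pr d).1 e3).2
        have e8 := ((mem_Pr d).1 e5).2
        exact HC (hroot z) w.1 w.2 (c.r M) e4 e6 (by omega) (by omega)
          (p6 _ (by omega) e7.2.le) (p7 _ _ e7.1 (by omega) e8.2.le)
      refine (sum_le_sum_of_subset_of_nonneg
        (product_subset_product inter_subset_left inter_subset_left) fun w _ _ => by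
          have := hμ w.1
          have := hμ w.2
          positivity).trans (le_of_eq ?_)
      rw [← sum_div, ← sum_mul, mul_assoc (C * _), sum_mul_sum, ← sum_product', Cst.r]
      simp only [mul_assoc C, ← mul_sum]
      push_cast
      field_simp)
    (by
      rw [← mul_div_assoc]
      refine hX.trans ((mk_union (fun p => by unfold iv; positivity) (c.Cen M X)
        (Ψ := fun z τ => c.Reg M τ ∧ ∀ p ∈ τ, Str X z.1 z.2 p) ?_).trans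
          (sum_le_sum fun z _ => ?_))
      · rintro τ - ⟨e1, z, hz, e2⟩
        exact ⟨z, hz, e1, e2⟩
      refine MassDa_sum_le (fun τ hτ => ?_) fun τ _ => mk_wt_nonneg (CenB_strw_nonneg _ _ _) τ
      obtain ⟨e1, ⟨e2, -, ⟨t, ht, e3⟩, u, hu, e4, e5, -⟩, e6⟩ := MassDa_mf.1 hτ
      have hs := (MassDa_mem.1 e1).1
      refine ⟨MassDa_mf.2 ⟨e1, e2, u, hu, t, ht, (mem_Pr d).2 ⟨((mem_Pr d).1 (hs hu)).1, e4, e5⟩,
        (mem_Pr d).2 ⟨((mem_Pr d).1 (hs ht)).1, e3⟩⟩, le_of_eq ?_⟩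
      exact prod_congr rfl fun p hp => by rw [strw, if_pos (e6 p hp)])
  refine ⟨z, hz, ?_⟩
  rw [mul_div_assoc _ ((c.J M : ℝ) ^ 2)]
  exact hm.trans (mk_mass_mono (CenB_strw_nonneg _ _ _) fun τ _ h => h.1)

/-- irregular nodes: deep (`BS.depth`), a gap in the `t`- or `u`-range (`mass_gap`), or large
remaining level at the threshold `ix` (`mass_thr`); otherwise `Alive.split` applied to
`τ ∩ Pr ix (sz u)` from the state after the primes of size `≥ sz u`, with `D = sz u - ix` -/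
theorem exc_mass : ∃ C : ℝ, 0 < C ∧ ∀ c : Cst, 20 ≤ c.K → 8 * c.s₁ * c.K + 1 ≤ c.Kt → 1 ≤ c.ρ →
    1 ≤ c.s₁ → 1 ≤ c.s₂ → c.ρ * c.Kt + 1 ≤ c.Kx → ∀ᶠ M : ℝ in atTop,
      mass (sz (hh M)) iv (c.R M) 0 (c.U0 M)
          (fun τ => c.R M - tot (sz (hh M)) τ ≤ c.r M ∧ ¬ c.Reg M τ) ≤
        C * (c.s₁ : ℝ) ^ 3 * (c.ρ * Real.exp (-(c.ρ : ℝ)) + (c.s₂ : ℝ) ^ 2 * Real.exp (-(c.s₂ : ℝ)) +
          1 / ll M) * (c.J M : ℝ) ^ 2 / (top M : ℝ) ^ 2 := by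
  exact CenC_main

end Crest.Agent.R1
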