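import Crest.Agent.R29.PSD
import Crest.Agent.R29.Primes

/-!
# Row 1 (Jacobsthal's function): basic definitions

`M` is the length scale, `L = log M`, `ℓ = log L`.  One residue class `X mod p` is removed for every
prime `p`; `hit P X n` is the set of primes of `P` that remove `n`.  Primes carry integer sizes
`sz h p ≈ h log p` with `h = ⌈10 ℓ⌉`.  A squarefree number is a finset `τ` of primes.  `Alive` is
Rosser's rule of the linear sieve for the level `R` (in units `1/h`), started with parity `e`.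
-/

set_option autoImplicit false

namespace Crest.Agent.R1

open Finset
open scoped Classical

noncomputable section

/-! ### the tree -/

/-- total size -/
def tot (σ : ℕ → ℕ) (τ : Finset ℕ) : ℤ := ∑ p ∈ τ, (σ p : ℤ)

/-- Rosser's rule -/
def Alive (σ : ℕ → ℕ) (R : ℤ) (e : ℕ) (τ : Finset ℕ) : Prop :=
  ∀ p ∈ τ, Even (e + (τ.filter (fun q => p ≤ q)).card) →
    tot σ (τ.filter (fun q => p ≤ q)) + 2 * σ p ≤ R

/-- alive subsets of `U` -/
def nodes (σ : ℕ → ℕ) (R : ℤ) (e : ℕ) (U : Finset ℕ) : Finset (Finset ℕ) :=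
  U.powerset.filter (Alive σ R e)

/-- dead subsets of `U` whose parent (remove the least element) is alive -/
def leaves (σ : ℕ → ℕ) (R : ℤ) (e : ℕ) (U : Finset ℕ) : Finset (Finset ℕ) :=
  U.powerset.filter (fun τ => ¬ Alive σ R e τ ∧ ∀ p ∈ τ, (∀ q ∈ τ, p ≤ q) → Alive σ R e (τ.erase p))

/-- multiplicative weight -/
def wt (μ : ℕ → ℝ) (τ : Finset ℕ) : ℝ := ∏ p ∈ τ, μ p

/-- mass of the alive subsets of `U` with property `Φ` -/
def mass (σ : ℕ → ℕ) (μ : ℕ → ℝ) (R : ℤ) (e : ℕ) (U : Finset ℕ) (Φ : Finset ℕ → Prop) : ℝ :=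
  ∑ τ ∈ (nodes σ R e U).filter Φ, wt μ τ

/-- block sums: all sizes lie in `[j, top]`, and each size carries mass at most `1/i + 3/i²` -/
structure BS (σ : ℕ → ℕ) (μ : ℕ → ℝ) (U : Finset ℕ) (j top : ℕ) : Prop where
  mono : Monotone σ
  nonneg : ∀ b, 0 ≤ μ b
  big : 1000 ≤ j
  j_le : j ≤ top
  range : ∀ b ∈ U, j ≤ σ b ∧ σ b ≤ top
  block : ∀ i, j ≤ i → ∑ b ∈ U.filter (fun b => σ b = i), μ b ≤ 1 / (i : ℝ) + 3 / (i : ℝ) ^ 2

/-- admissible starting state when all sizes are at most `top` -/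
def Start (R : ℤ) (e top : ℕ) : Prop := (Even e → 2 * (top : ℤ) ≤ R) ∧ (top : ℤ) ≤ R

/-! ### primes and sizes -/

def LL (M : ℝ) : ℝ := Real.log M
def ll (M : ℝ) : ℝ := Real.log (Real.log M)
def hh (M : ℝ) : ℕ := ⌈10 * ll M⌉₊

/-- size of `p` in units `1/h` -/
def sz (h p : ℕ) : ℕ := ⌊(h : ℝ) * Real.log p⌋₊ + 1

/-- primes with size in `[i, j)` -/
def Pr (h i j : ℕ) : Finset ℕ :=
  (range ⌈Real.exp ((j : ℝ) / h)⌉₊).filter (fun p => p.Prime ∧ i ≤ sz h p ∧ sz h p < j)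

/-- `1/p` -/
def iv (p : ℕ) : ℝ := 1 / (p : ℝ)

/-- product of a finset of primes -/
def pd (τ : Finset ℕ) : ℕ := ∏ p ∈ τ, p

/-- `∏ (1 - 1/p)` over primes of size `< j` -/
def Vs (h j : ℕ) : ℝ := ∏ p ∈ Pr h 0 j, (1 - iv p)

/-- the size of `L^κ` -/
def un (M κ : ℝ) : ℕ := ⌈κ * hh M * ll M⌉₊

/-- the bottom cut `L^20` -/
def i0 (M : ℝ) : ℕ := un M 20

/-- all primes `p ≤ √M L^6` have size `< top M` -/
def top (M : ℝ) : ℕ := ⌈hh M * (LL M / 2 + 6 * ll M)⌉₊ + 2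

/-- the level `≈ M L^{12 + a}` -/
def R0 (M a : ℝ) : ℤ := 2 * (top M : ℤ) + un M a

/-! ### the weighted interval -/

/-- primes of `P` removing `n` -/
def hit (P : Finset ℕ) (X n : ℤ) : Finset ℕ := P.filter (fun p => (p : ℤ) ∣ n - X)

/-- weighted sum over the integers of a function of the hit set -/
def Ew (M : ℝ) (X : ℤ) (P : Finset ℕ) (Φ : Finset ℕ → ℝ) : ℝ :=
  ∑' n : ℤ, R29.Wt (M / 2) n * Φ (hit P X n)

/-- weighted number of `n ≡ X mod q` -/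
def cntA (M : ℝ) (X : ℤ) (q : ℕ) : ℝ :=
  ∑' n : ℤ, R29.Wt (M / 2) n * (if (q : ℤ) ∣ n - X then 1 else 0)

/-- remainder term; it vanishes for `q ≤ M` -/
def rem (M : ℝ) (X : ℤ) (q : ℕ) : ℝ := cntA M X q - M / q

/-- indicator: `S` contains `τ` and misses `V` -/
def ind (τ V S : Finset ℕ) : ℝ := if τ ⊆ S ∧ Disjoint S V then 1 else 0

/-- indicator of a leaf: `S` contains `τ` and no element of `S ∩ V` lies below `τ` -/
def lind (τ V S : Finset ℕ) : ℝ := if τ ⊆ S ∧ ∀ q ∈ S ∩ V, ∃ p ∈ τ, p ≤ q then 1 else 0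

/-- weighted number of survivors -/
def Surv (M : ℝ) (X : ℤ) : ℝ := Ew M X (Pr (hh M) 0 (top M)) (fun S => if S = ∅ then 1 else 0)

/-- `p` is structured for the centre `b / c` -/
def Str (X c b : ℤ) (p : ℕ) : Prop := (p : ℤ) ∣ c * X - b

/-! ### sieve weights -/

/-- `lam` is a lower (`e` even) or upper (`e` odd) sieve weight for the primes `P`, of level `D` -/
structure IsSW (e : ℕ) (P : Finset ℕ) (D : ℝ) (lam : Finset ℕ → ℝ) : Prop where
  abs_le : ∀ T, |lam T| ≤ 1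
  supp : ∀ T, lam T ≠ 0 → T ⊆ P ∧ (pd T : ℝ) ≤ D
  ineq : ∀ S ⊆ P, (-1 : ℝ) ^ e * ∑ T ∈ S.powerset, lam T ≤
    (-1 : ℝ) ^ e * (if S = ∅ then 1 else 0)

/-- quality of a sieve weight -/
def Qual (C : ℝ) (P : Finset ℕ) (s : ℝ) (lam : Finset ℕ → ℝ) : Prop :=
  ∀ g : ℕ → ℝ, (∀ p ∈ P, 0 ≤ g p ∧ g p ≤ 1 / 2 ∧ g p ≤ 2 / p) →
    |∑ T ∈ P.powerset, lam T * wt g T - ∏ p ∈ P, (1 - g p)| ≤
      C * Real.exp (-s / C) * ∏ p ∈ P, (1 - g p)

end

end Crest.Agent.R1
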