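import Crest.Agent.R1.Defs
import Crest.Agent.Lib.SW.Main

/-!
# R1 / PrimeFb: primes in intervals (proofs for `PrimeF`)
-/

set_option autoImplicit false

namespace Crest.Agent.R1

open Finset Filter
open scoped Classical

theorem PFb_sw_interval (A B : ℕ) : ∃ C : ℝ, 0 < C ∧ ∀ y y' : ℝ, 3 ≤ y → y ≤ y' → y' ≤ 2 * y →
    ∀ q : ℕ, 1 ≤ q → (q : ℝ) ≤ Real.log y ^ B → ∀ a : ℤ, IsCoprime a (q : ℤ) →
      |∑ p ∈ (Ioc ⌊y⌋₊ ⌊y'⌋₊).filter (fun p : ℕ => p.Prime ∧ (p : ℤ) ≡ a [ZMOD q]), Real.log p -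
        (y' - y) / Nat.totient q| ≤ C * y / Real.log y ^ A := by
  obtain ⟨C, hC, h⟩ := SW.siegel_walfisz A B
  refine ⟨3 * C, by positivity, fun y y' hy hyy hy2 q hq hqB a ha => ?_⟩
  have hl : 1 ≤ Real.log y := SW.main_one_le_log hy
  have hll : Real.log y ≤ Real.log y' := Real.log_le_log (by linarith) hyy
  have h1 := h y hy q hq hqB a ha
  have h2 := h y' (hy.trans hyy) q hq (hqB.trans (pow_le_pow_left₀ (by linarith) hll B)) a ha
  have h3 : C * y' / Real.log y' ^ A ≤ C * (2 * y) / Real.log y ^ A := by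
    have : 0 < Real.log y ^ A := by positivity
    gcongr
  have e : SW.thetaAP y q a + ∑ p ∈ (Ioc ⌊y⌋₊ ⌊y'⌋₊).filter
      (fun p : ℕ => p.Prime ∧ (p : ℤ) ≡ a [ZMOD q]), Real.log p = SW.thetaAP y' q a := by
    simp only [SW.thetaAP, SW.main_Icc, sum_filter]
    exact sum_Ioc_consecutive _ (Nat.zero_le _) (Nat.floor_le_floor hyy)
  have e2 : 3 * C * y / Real.log y ^ A
      = C * y / Real.log y ^ A + C * (2 * y) / Real.log y ^ A := by ring
  rw [abs_le] at h1 h2 ⊢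
  rw [e2, sub_div]
  constructor <;> linarith [h1.1, h1.2, h2.1, h2.2]

theorem PFb_theta (A : ℕ) : ∃ C : ℝ, 0 < C ∧ ∀ y y' : ℝ, 3 ≤ y → y ≤ y' → y' ≤ 2 * y →
    |∑ p ∈ (Ioc ⌊y⌋₊ ⌊y'⌋₊).filter Nat.Prime, Real.log p - (y' - y)| ≤ C * y / Real.log y ^ A := by
  obtain ⟨C, hC, h⟩ := PFb_sw_interval A 0
  refine ⟨C, hC, fun y y' hy hyy hy2 => ?_⟩
  have h1 := h y y' hy hyy hy2 1 le_rfl (by simp) 0 (by simp [isCoprime_one_right])
  simpa [Int.modEq_one] using h1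

theorem PFb_primes_short : ∃ y₀ : ℝ, ∀ y η : ℝ, y₀ ≤ y → 1 / Real.log y ^ 3 ≤ η → η ≤ 1 →
    η * y / (2 * Real.log (2 * y)) ≤ (((Ioc ⌊y⌋₊ ⌊y * (1 + η)⌋₊).filter Nat.Prime).card : ℝ) := by
  obtain ⟨C, hC, h⟩ := PFb_theta 4
  refine ⟨max 3 (Real.exp (2 * C)), fun y η hy hη hη1 => ?_⟩
  have hy3 : 3 ≤ y := (le_max_left _ _).trans hy
  have hy0 : 0 < y := by linarith
  have hl : 1 ≤ Real.log y := SW.main_one_le_log hy3
  have hlC : 2 * C ≤ Real.log y := by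
    rw [Real.le_log_iff_exp_le hy0]
    exact (le_max_right _ _).trans hy
  have hη0 : 0 < η := lt_of_lt_of_le (by positivity) hη
  have h1 := (abs_le.1 (h y (y * (1 + η)) hy3 (by nlinarith) (by nlinarith))).1
  have h2 : C * y / Real.log y ^ 4 ≤ η * y / 2 := by
    calc C * y / Real.log y ^ 4 ≤ Real.log y / 2 * y / Real.log y ^ 4 := by
          gcongr
          linarith
      _ = 1 / Real.log y ^ 3 * y / 2 := by field_simp
      _ ≤ η * y / 2 := by gcongr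
  have hl2 : 0 < Real.log (2 * y) := Real.log_pos (by linarith)
  have h3 : ∑ p ∈ (Ioc ⌊y⌋₊ ⌊y * (1 + η)⌋₊).filter Nat.Prime, Real.log p
      ≤ ((Ioc ⌊y⌋₊ ⌊y * (1 + η)⌋₊).filter Nat.Prime).card • Real.log (2 * y) := by
    refine sum_le_card_nsmul _ _ _ fun p hp => ?_
    rw [mem_filter, mem_Ioc] at hp
    refine Real.log_le_log (by exact_mod_cast hp.2.pos) ?_
    have := (Nat.le_floor_iff (by positivity)).1 hp.1.2
    nlinarith
  rw [nsmul_eq_mul] at h3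
  rw [div_le_iff₀ (by positivity)]
  nlinarith

/-- one short piece -/
theorem PFb_piece : ∃ C : ℝ, 0 < C ∧ ∀ u x : ℝ, 2 ≤ u → 0 ≤ x → x ≤ 1 / 2 →
    (x - x ^ 2 - C / u ^ 6) / (u + x)
      ≤ ∑ p ∈ (Ioc ⌊Real.exp u⌋₊ ⌊Real.exp (u + x)⌋₊).filter Nat.Prime, iv p ∧
    ∑ p ∈ (Ioc ⌊Real.exp u⌋₊ ⌊Real.exp (u + x)⌋₊).filter Nat.Prime, iv p
      ≤ (x + x ^ 2 + C / u ^ 6) / u := by
  obtain ⟨C, hC, h⟩ := PFb_theta 6
  refine ⟨C, hC, fun u x hu hx0 hx => ?_⟩
  have hu0 : 0 < u := by linarith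
  have hy3 : 3 ≤ Real.exp u := by linarith [Real.add_one_le_exp u]
  have hy0 : 0 < Real.exp u := Real.exp_pos u
  have hy0' : 0 < Real.exp (u + x) := Real.exp_pos _
  have a1 := abs_le.1 (Real.abs_exp_sub_one_sub_id_le (x := x)
    (by rw [abs_le]; constructor <;> linarith))
  have a2 := abs_le.1 (Real.abs_exp_sub_one_sub_id_le (x := -x)
    (by rw [abs_le]; constructor <;> linarith))
  have hyy : Real.exp u ≤ Real.exp (u + x) := Real.exp_le_exp.2 (by linarith)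
  have e1 : Real.exp (u + x) = Real.exp u * Real.exp x := Real.exp_add u x
  have e2 : Real.exp u = Real.exp (u + x) * Real.exp (-x) := by
    rw [← Real.exp_add]
    congr 1
    ring
  have hx2 : Real.exp x ≤ 2 := by nlinarith [a1.2]
  have h1 := abs_le.1 (h _ _ hy3 hyy (by nlinarith))
  rw [Real.log_exp] at h1
  have hm : ∀ p ∈ (Ioc ⌊Real.exp u⌋₊ ⌊Real.exp (u + x)⌋₊).filter Nat.Prime,
      Real.exp u ≤ p ∧ (p : ℝ) ≤ Real.exp (u + x) ∧ u ≤ Real.log p ∧ Real.log p ≤ u + x := by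
    intro p hp
    rw [mem_filter, mem_Ioc] at hp
    have b1 : Real.exp u ≤ p := ((Nat.floor_lt hy0.le).1 hp.1.1).le
    have b2 : (p : ℝ) ≤ Real.exp (u + x) := (Nat.le_floor_iff hy0'.le).1 hp.1.2
    exact ⟨b1, b2, (Real.le_log_iff_exp_le (by linarith)).2 b1,
      (Real.log_le_iff_le_exp (by linarith)).2 b2⟩
  have hδ : 0 < C / u ^ 6 := by positivity
  have e3 : C * Real.exp u / u ^ 6 = C / u ^ 6 * Real.exp u := by ring
  rw [e3] at h1
  generalize C / u ^ 6 = δ at *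
  constructor
  · have h2 : ∑ p ∈ (Ioc ⌊Real.exp u⌋₊ ⌊Real.exp (u + x)⌋₊).filter Nat.Prime, Real.log p
        ≤ (∑ p ∈ (Ioc ⌊Real.exp u⌋₊ ⌊Real.exp (u + x)⌋₊).filter Nat.Prime, iv p)
          * (u + x) * Real.exp (u + x) := by
      rw [sum_mul, sum_mul]
      refine sum_le_sum fun p hp => ?_
      obtain ⟨b1, b2, b3, b4⟩ := hm p hp
      have hp0 : (0 : ℝ) < p := by linarith
      rw [iv, mul_right_comm]
      refine b4.trans (le_mul_of_one_le_left (by linarith) ?_)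
      rwa [one_div, inv_mul_eq_div, one_le_div hp0]
    rw [div_le_iff₀ (by linarith)]
    refine le_of_mul_le_mul_right (le_trans ?_ h2) hy0'
    have : Real.exp u ≤ Real.exp (u + x) * (1 - x + x ^ 2) := by
      rw [e2]
      nlinarith [a2.2]
    nlinarith [h1.1]
  · have h2 : (∑ p ∈ (Ioc ⌊Real.exp u⌋₊ ⌊Real.exp (u + x)⌋₊).filter Nat.Prime, iv p)
          * u * Real.exp u
        ≤ ∑ p ∈ (Ioc ⌊Real.exp u⌋₊ ⌊Real.exp (u + x)⌋₊).filter Nat.Prime, Real.log p := by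
      rw [sum_mul, sum_mul]
      refine sum_le_sum fun p hp => ?_
      obtain ⟨b1, b2, b3, b4⟩ := hm p hp
      have hp0 : (0 : ℝ) < p := by linarith
      rw [iv, mul_right_comm]
      refine le_trans (mul_le_of_le_one_left hu0.le ?_) b3
      rwa [one_div, inv_mul_eq_div, div_le_one hp0]
    rw [le_div_iff₀ hu0]
    refine le_of_mul_le_mul_right (h2.trans ?_) hy0
    nlinarith [h1.2, a1.2]

/-- consecutive pieces -/
theorem PFb_chain : ∃ C : ℝ, 0 < C ∧ ∀ L x U : ℝ, 2 ≤ L → 0 ≤ x → x ≤ 1 / 2 →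
    0 ≤ x - x ^ 2 - C / L ^ 6 → ∀ K : ℕ, L + K * x ≤ U →
    K * ((x - x ^ 2 - C / L ^ 6) / U)
      ≤ ∑ p ∈ (Ioc ⌊Real.exp L⌋₊ ⌊Real.exp (L + K * x)⌋₊).filter Nat.Prime, iv p ∧
    ∑ p ∈ (Ioc ⌊Real.exp L⌋₊ ⌊Real.exp (L + K * x)⌋₊).filter Nat.Prime, iv p
      ≤ K * ((x + x ^ 2 + C / L ^ 6) / L) := by
  obtain ⟨C, hC, h⟩ := PFb_piece
  refine ⟨C, hC, fun L x U hL hx0 hx hn K => ?_⟩
  induction K with
  | zero => simp
  | succ K ih =>
    intro hU
    have hK : 0 ≤ (K : ℝ) * x := by positivity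
    have e : L + ((K + 1 : ℕ) : ℝ) * x = L + K * x + x := by push_cast; ring
    rw [e] at hU ⊢
    obtain ⟨i1, i2⟩ := ih (by linarith)
    obtain ⟨p1, p2⟩ := h (L + K * x) x (by linarith) hx0 hx
    have e2 : ∑ p ∈ (Ioc ⌊Real.exp L⌋₊ ⌊Real.exp (L + K * x + x)⌋₊).filter Nat.Prime, iv p
        = ∑ p ∈ (Ioc ⌊Real.exp L⌋₊ ⌊Real.exp (L + K * x)⌋₊).filter Nat.Prime, iv p
          + ∑ p ∈ (Ioc ⌊Real.exp (L + K * x)⌋₊ ⌊Real.exp (L + K * x + x)⌋₊).filter Nat.Prime,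
            iv p := by
      simp only [sum_filter]
      exact (sum_Ioc_consecutive _ (Nat.floor_le_floor (Real.exp_le_exp.2 (by linarith)))
        (Nat.floor_le_floor (Real.exp_le_exp.2 (by linarith)))).symm
    have hL0 : 0 < L := by linarith
    have hδ : C / (L + K * x) ^ 6 ≤ C / L ^ 6 := by
      gcongr
      linarith
    have q1 : (x - x ^ 2 - C / L ^ 6) / U ≤ (x - x ^ 2 - C / (L + K * x) ^ 6) / (L + K * x + x) :=
      div_le_div₀ (by linarith) (by linarith) (by linarith) hU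
    have q2 : (x + x ^ 2 + C / (L + K * x) ^ 6) / (L + K * x) ≤ (x + x ^ 2 + C / L ^ 6) / L :=
      div_le_div₀ (by positivity) (by linarith) hL0 (by linarith)
    rw [e2]
    push_cast
    constructor <;> linarith

theorem PFb_mem {h m p : ℕ} (hh : 0 < h) : p ∈ Pr h (m + 1) (m + 1 + 1) ↔
    p.Prime ∧ Real.exp ((m : ℝ) / h) ≤ p ∧ (p : ℝ) < Real.exp (((m : ℝ) + 1) / h) := by
  have hh' : (0 : ℝ) < h := by exact_mod_cast hh
  have key : p.Prime → ((m + 1 ≤ sz h p ∧ sz h p < m + 1 + 1) ↔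
      Real.exp ((m : ℝ) / h) ≤ p ∧ (p : ℝ) < Real.exp (((m : ℝ) + 1) / h)) := fun hp => by
    have hp0 : (0 : ℝ) < p := by exact_mod_cast hp.pos
    have h0 : 0 ≤ (h : ℝ) * Real.log p := mul_nonneg hh'.le (Real.log_natCast_nonneg p)
    rw [← Real.le_log_iff_exp_le hp0, ← Real.log_lt_iff_lt_exp hp0, div_le_iff₀' hh',
      lt_div_iff₀' hh', ← Nat.floor_eq_iff h0, sz]
    omega
  rw [Pr, mem_filter, mem_range, Nat.lt_ceil]
  refine ⟨fun H => ⟨H.2.1, (key H.2.1).1 H.2.2⟩, fun H => ⟨H.2.2.trans_le ?_, H.1, (key H.1).2 H.2⟩⟩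
  refine Real.exp_le_exp.2 ?_
  push_cast
  gcongr
  linarith

theorem PFb_block_sum : ∃ lam₀ : ℝ, ∀ h i : ℕ, 0 < h → lam₀ ≤ (i : ℝ) / h →
    (h : ℝ) ≤ 20 * ((i : ℝ) / h) →
    1 / (2 * (i : ℝ)) ≤ ∑ p ∈ Pr h i (i + 1), iv p ∧
      ∑ p ∈ Pr h i (i + 1), iv p ≤ 1 / (i : ℝ) + 3 / (i : ℝ) ^ 2 := by
  obtain ⟨C, hC, H⟩ := PFb_chain
  refine ⟨2 * (512000 * C + 3072000), fun h i hh hl h20 => ?_⟩
  have hh1 : (1 : ℝ) ≤ h := by exact_mod_cast hh
  have hh0 : (0 : ℝ) < h := by linarith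
  have hi : (i : ℝ) / h ≤ i := div_le_self (Nat.cast_nonneg i) hh1
  have hi11 : (11 : ℝ) ≤ i := by linarith
  obtain ⟨m, rfl⟩ : ∃ m, i = m + 1 := ⟨i - 1, by
    have : 11 ≤ i := by exact_mod_cast hi11
    omega⟩
  push_cast at hl h20 hi hi11 ⊢
  set I : ℝ := (m : ℝ) + 1 with hI
  set L : ℝ := (m : ℝ) / h with hL
  set x : ℝ := 1 / (h * I) with hx
  have hI0 : 0 < I := by linarith
  have hm0 : (0 : ℝ) < m := by linarith
  have eU : I / h = L + 1 / h := by rw [hI, hL, add_div]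
  have h1h : 1 / (h : ℝ) ≤ 1 := (div_le_one hh0).2 hh1
  have hlam : I / h ≤ 2 * L := by linarith
  have hLb : 512000 * C + 3072000 ≤ L := by linarith
  have hL0 : 0 < L := by linarith
  have hhL : (h : ℝ) ≤ 40 * L := by linarith
  have hIL : I ≤ 80 * L ^ 2 := by
    rw [div_le_iff₀ hh0] at hlam
    nlinarith
  have hI2 : I ^ 2 ≤ 6400 * L ^ 4 := by nlinarith
  have hx0 : 0 < x := by positivity
  have hxI : x ≤ 1 / I := by
    rw [hx]
    gcongr
    nlinarith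
  have hx2 : x ≤ 1 / 2 := hxI.trans (by gcongr; linarith)
  have hxx : x ^ 2 ≤ x / I := by
    rw [pow_two, div_eq_mul_one_div]
    gcongr
  have hδ : C / L ^ 6 ≤ x / (2 * I) := by
    rw [hx, div_div, div_le_div_iff₀ (by positivity) (by positivity)]
    calc C * (h * I * (2 * I)) = 2 * C * (h * I ^ 2) := by ring
      _ ≤ 2 * C * (40 * L * (6400 * L ^ 4)) := by gcongr
      _ = 512000 * C * L ^ 5 := by ring
      _ ≤ L * L ^ 5 := by gcongr; linarith
      _ = 1 * L ^ 6 := by ring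
  have e3 : x / I + x / (2 * I) = x * (3 / (2 * I)) := by field_simp; ring
  have h32 : 3 / (2 * I) ≤ 1 / 2 := by
    rw [div_le_div_iff₀ (by positivity) (by positivity)]
    linarith
  have hn : x * (1 - 3 / (2 * I)) ≤ x - x ^ 2 - C / L ^ 6 := by linarith
  have hn0 : 0 ≤ x - x ^ 2 - C / L ^ 6 := le_trans (mul_nonneg hx0.le (by linarith)) hn
  have eK : L + ((m + 1 : ℕ) : ℝ) * x = I / h := by
    rw [eU, hx, Nat.cast_add_one, ← hI]
    field_simp
  have eK' : L + (m : ℝ) * x < I / h := by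
    rw [← eK]
    push_cast
    linarith
  have hiv : ∀ p : ℕ, 0 ≤ iv p := fun p => by rw [iv]; positivity
  constructor
  · refine le_trans ?_ ((H L x (I / h) (by linarith) hx0.le hx2 hn0 m eK'.le).1.trans
      (sum_le_sum_of_subset_of_nonneg (fun p hp => ?_) fun p _ _ => hiv p))
    · calc 1 / (2 * I) ≤ m * (x * (1 - 3 / (2 * I)) / (I / h)) := by
            have e : (m : ℝ) * (x * (1 - 3 / (2 * I)) / (I / h))
                = (I - 1) * (2 * I - 3) / I ^ 2 * (1 / (2 * I)) := by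
              rw [hx, show (m : ℝ) = I - 1 by rw [hI]; ring]
              field_simp
            rw [e]
            refine le_mul_of_one_le_left (by positivity) ?_
            rw [one_le_div (by positivity)]
            nlinarith
        _ ≤ m * ((x - x ^ 2 - C / L ^ 6) / (I / h)) := by gcongr
    · rw [mem_filter, mem_Ioc] at hp
      exact (PFb_mem hh).2 ⟨hp.2, ((Nat.floor_lt (Real.exp_pos _).le).1 hp.1.1).le,
        ((Nat.le_floor_iff (Real.exp_pos _).le).1 hp.1.2).trans_lt (Real.exp_lt_exp.2 eK')⟩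
  · have h2 := (H L x (I / h) (by linarith) hx0.le hx2 hn0 (m + 1) eK.le).2
    rw [eK, Nat.cast_add_one, ← hI] at h2
    have h3 : ∑ p ∈ Pr h (m + 1) (m + 1 + 1), iv p ≤ ∑ p ∈ insert ⌊Real.exp L⌋₊
        ((Ioc ⌊Real.exp L⌋₊ ⌊Real.exp (I / h)⌋₊).filter Nat.Prime), iv p := by
      refine sum_le_sum_of_subset_of_nonneg (fun p hp => ?_) fun p _ _ => hiv p
      obtain ⟨p1, p2, p3⟩ := (PFb_mem hh).1 hp
      rw [mem_insert, mem_filter, mem_Ioc]
      rcases (Nat.floor_le_of_le p2).eq_or_lt with h4 | h4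
      · exact Or.inl h4.symm
      · exact Or.inr ⟨⟨h4, Nat.le_floor p3.le⟩, p1⟩
    rw [sum_insert (by simp)] at h3
    have h4 : iv ⌊Real.exp L⌋₊ ≤ 1 / (4 * I ^ 2) := by
      have h5 : 4 * (m + 1) ^ 2 ≤ ⌊Real.exp L⌋₊ := by
        refine Nat.le_floor ?_
        have h6 := Real.pow_div_factorial_le_exp L hL0.le 5
        have h7 : 3072000 * L ^ 4 ≤ L * L ^ 4 := by gcongr; linarith
        push_cast
        norm_num [Nat.factorial] at h6
        nlinarith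
      have h8 : 4 * I ^ 2 ≤ (⌊Real.exp L⌋₊ : ℝ) := by
        rw [hI]
        exact_mod_cast h5
      rw [iv]
      gcongr
    have h5 : I * ((x + x ^ 2 + C / L ^ 6) / L) ≤ 1 / I + 11 / (4 * I ^ 2) := by
      calc I * ((x + x ^ 2 + C / L ^ 6) / L) ≤ I * (x * (1 + 3 / (2 * I)) / L) := by
            gcongr
            linarith
        _ = (2 * I + 3) / (2 * I * (I - 1)) := by
            have : I - 1 ≠ 0 := by linarith
            rw [hx, hL, show (m : ℝ) = I - 1 by rw [hI]; ring]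
            field_simp
        _ ≤ (4 * I + 11) / (4 * I ^ 2) := by
            rw [div_le_div_iff₀ (by nlinarith) (by positivity)]
            nlinarith
        _ = 1 / I + 11 / (4 * I ^ 2) := by field_simp
    have e : 3 / I ^ 2 = 1 / (4 * I ^ 2) + 11 / (4 * I ^ 2) := by field_simp; norm_num
    linarith

end Crest.Agent.R1
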