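import Crest.Agent.R1.Defs
import Crest.Agent.Lib.SW.Main
import Crest.Agent.R1.PrimeFb

/-!
# R1 / PrimeF: facts about primes and sizes
-/

set_option autoImplicit false

namespace Crest.Agent.R1

open Finset Filter
open scoped Classical

theorem sz_mono (h : ℕ) : Monotone (sz h) := by
  intro p q hpq
  unfold sz
  refine Nat.add_le_add_right (Nat.floor_le_floor (mul_le_mul_of_nonneg_left ?_ (Nat.cast_nonneg h))) 1
  rcases Nat.eq_zero_or_pos p with rfl | hp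
  · simpa using Real.log_natCast_nonneg q
  · exact Real.log_le_log (Nat.cast_pos.mpr hp) (Nat.cast_le.mpr hpq)

theorem log_lt_sz {h : ℕ} (hh : 0 < h) (p : ℕ) : Real.log p < (sz h p : ℝ) / h := by
  have h0 : (0 : ℝ) < h := Nat.cast_pos.mpr hh
  rw [lt_div_iff₀ h0, sz, mul_comm]
  push_cast
  exact Nat.lt_floor_add_one _

theorem sz_le_log {h : ℕ} (hh : 0 < h) (p : ℕ) : ((sz h p : ℝ) - 1) / h ≤ Real.log p := by
  have h0 : (0 : ℝ) < h := Nat.cast_pos.mpr hh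
  rw [div_le_iff₀ h0, sz, mul_comm (Real.log p)]
  push_cast
  rw [add_sub_cancel_right]
  exact Nat.floor_le (mul_nonneg h0.le (Real.log_natCast_nonneg p))

theorem mem_Pr {h : ℕ} (hh : 0 < h) {i j p : ℕ} :
    p ∈ Pr h i j ↔ p.Prime ∧ i ≤ sz h p ∧ sz h p < j := by
  rw [Pr, mem_filter, mem_range, and_iff_right_iff_imp]
  rintro ⟨hp, -, hj⟩
  have h0 : (0 : ℝ) < h := Nat.cast_pos.mpr hh
  rw [Nat.lt_ceil, ← Real.log_lt_iff_lt_exp (Nat.cast_pos.mpr hp.pos)]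
  refine (log_lt_sz hh p).trans_le ?_
  have : (sz h p : ℝ) ≤ j := Nat.cast_le.mpr hj.le
  gcongr

theorem Pr_union {h : ℕ} (hh : 0 < h) {i j k : ℕ} (hij : i ≤ j) (hjk : j ≤ k) :
    Pr h j k ∪ Pr h i j = Pr h i k := by
  ext p
  simp only [mem_union, mem_Pr hh]
  constructor
  · rintro (⟨a, b, c⟩ | ⟨a, b, c⟩)
    · exact ⟨a, by omega, c⟩
    · exact ⟨a, b, by omega⟩
  · rintro ⟨a, b, c⟩
    rcases le_or_gt j (sz h p) with d | d
    · exact Or.inl ⟨a, d, c⟩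
    · exact Or.inr ⟨a, b, d⟩

theorem Pr_lt {h : ℕ} (hh : 0 < h) {i j j' k p q : ℕ} (hj : j ≤ j') (hp : p ∈ Pr h j' k)
    (hq : q ∈ Pr h i j) : q < p := by
  rw [mem_Pr hh] at hp hq
  by_contra hc
  have := sz_mono h (not_lt.mp hc)
  omega

theorem pd_pos {τ : Finset ℕ} (hτ : ∀ p ∈ τ, p.Prime) : 0 < pd τ := prod_pos fun p hp => (hτ p hp).pos

theorem wt_iv (τ : Finset ℕ) : wt iv τ = 1 / (pd τ : ℝ) := by
  simp only [wt, iv, pd, one_div, Nat.cast_prod, prod_inv_distrib]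

theorem pd_le_exp {h : ℕ} (hh : 0 < h) {τ : Finset ℕ} (hτ : ∀ p ∈ τ, p.Prime) :
    (pd τ : ℝ) ≤ Real.exp ((tot (sz h) τ : ℝ) / h) := by
  rw [pd, tot]
  push_cast
  rw [sum_div, Real.exp_sum]
  refine prod_le_prod (fun p _ => Nat.cast_nonneg p) fun p hp => ?_
  rw [← Real.log_le_iff_le_exp (Nat.cast_pos.mpr (hτ p hp).pos)]
  exact (log_lt_sz hh p).le

theorem exp_le_pd {h : ℕ} (hh : 0 < h) {τ : Finset ℕ} (hτ : ∀ p ∈ τ, p.Prime) :
    Real.exp (((tot (sz h) τ : ℝ) - τ.card) / h) ≤ pd τ := by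
  have e : ((tot (sz h) τ : ℝ) - τ.card) / h = ∑ p ∈ τ, ((sz h p : ℝ) - 1) / h := by
    rw [tot, ← sum_div, sum_sub_distrib]
    push_cast
    simp
  rw [e, Real.exp_sum, pd]
  push_cast
  refine prod_le_prod (fun p _ => (Real.exp_pos _).le) fun p hp => ?_
  rw [← Real.le_log_iff_exp_le (Nat.cast_pos.mpr (hτ p hp).pos)]
  exact sz_le_log hh p

theorem pd_squarefree {τ : Finset ℕ} (hτ : ∀ p ∈ τ, p.Prime) : Squarefree (pd τ) := by
  refine Finset.squarefree_prod_of_pairwise_isCoprime ?_ fun p hp => (hτ p hp).squarefree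
  intro p hp q hq hne
  exact Nat.coprime_iff_isRelPrime.mp ((Nat.coprime_primes (hτ p hp) (hτ q hq)).mpr hne)

theorem primeFactors_pd {τ : Finset ℕ} (hτ : ∀ p ∈ τ, p.Prime) : (pd τ).primeFactors = τ := Nat.primeFactors_prod hτ

theorem pd_dvd_iff {τ : Finset ℕ} (hτ : ∀ p ∈ τ, p.Prime) (n : ℤ) :
    (pd τ : ℤ) ∣ n ↔ ∀ p ∈ τ, (p : ℤ) ∣ n := by
  rw [pd]
  push_cast
  refine ⟨fun h p hp => (dvd_prod_of_mem (fun p : ℕ => (p : ℤ)) hp).trans h, fun h => ?_⟩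
  refine Finset.prod_dvd_of_coprime ?_ h
  intro p hp q hq hne
  exact Nat.isCoprime_iff_coprime.mpr ((Nat.coprime_primes (hτ p hp) (hτ q hq)).mpr hne)

/-- Siegel-Walfisz in an interval -/
theorem sw_interval (A B : ℕ) : ∃ C : ℝ, 0 < C ∧ ∀ y y' : ℝ, 3 ≤ y → y ≤ y' → y' ≤ 2 * y →
    ∀ q : ℕ, 1 ≤ q → (q : ℝ) ≤ Real.log y ^ B → ∀ a : ℤ, IsCoprime a (q : ℤ) →
      |∑ p ∈ (Ioc ⌊y⌋₊ ⌊y'⌋₊).filter (fun p : ℕ => p.Prime ∧ (p : ℤ) ≡ a [ZMOD q]), Real.log p -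
        (y' - y) / Nat.totient q| ≤ C * y / Real.log y ^ A := by
  exact PFb_sw_interval A B

/-- primes in fairly short intervals -/
theorem primes_short : ∃ y₀ : ℝ, ∀ y η : ℝ, y₀ ≤ y → 1 / Real.log y ^ 3 ≤ η → η ≤ 1 →
    η * y / (2 * Real.log (2 * y)) ≤ (((Ioc ⌊y⌋₊ ⌊y * (1 + η)⌋₊).filter Nat.Prime).card : ℝ) := by
  exact PFb_primes_short

/-- the mass of one size.  The primes of size `i` fill `[y, y e^{1/h})`, `y = exp((i-1)/h)`; cut the
interval into pieces of relative length `≈ (log y)^{-4}` (or use Abel summation) and apply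
`sw_interval` with `q = 1`; note `i ≤ 21 (log y + 1)^2`, `log (i/(i-1)) ≤ 1/i + 2/i²`. -/
theorem block_sum : ∃ lam₀ : ℝ, ∀ h i : ℕ, 0 < h → lam₀ ≤ (i : ℝ) / h → (h : ℝ) ≤ 20 * ((i : ℝ) / h) →
    1 / (2 * (i : ℝ)) ≤ ∑ p ∈ Pr h i (i + 1), iv p ∧
      ∑ p ∈ Pr h i (i + 1), iv p ≤ 1 / (i : ℝ) + 3 / (i : ℝ) ^ 2 := by
  exact PFb_block_sum

/-- `∏_{p ≤ y} (1 - 1/p) ≤ 1/log y` -/
theorem Vs_le {h j : ℕ} (hh : 0 < h) (hj : 3 * h ≤ j) : 0 ≤ Vs h j ∧ Vs h j ≤ 3 * h / j := by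
  have h0 : (0 : ℝ) < h := Nat.cast_pos.mpr hh
  have hj' : 3 * (h : ℝ) ≤ j := by exact_mod_cast hj
  have h1 : (1 : ℝ) ≤ h := by exact_mod_cast hh
  have hf : ∀ p : ℕ, p.Prime → 0 < 1 - iv p ∧ 1 - iv p ≤ 1 := by
    intro p hp
    have h2 : (2 : ℝ) ≤ p := by exact_mod_cast hp.two_le
    have h3 : iv p ≤ 1 / 2 := by unfold iv; gcongr
    have h4 : 0 ≤ iv p := by unfold iv; positivity
    constructor <;> linarith
  refine ⟨prod_nonneg fun p hp => (hf p ((mem_Pr hh).mp hp).1).1.le, ?_⟩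
  obtain ⟨n, hn⟩ : ∃ n : ℕ, n + 1 = ⌈Real.exp (((j : ℝ) - 1) / h)⌉₊ :=
    ⟨_, Nat.sub_add_cancel (Nat.ceil_pos.mpr (Real.exp_pos _))⟩
  have hsub : Nat.primesLE n ⊆ Pr h 0 j := by
    intro p hp
    rw [Nat.mem_primesLE] at hp
    rw [mem_Pr hh]
    refine ⟨hp.2, Nat.zero_le _, ?_⟩
    have a1 : p < ⌈Real.exp (((j : ℝ) - 1) / h)⌉₊ := by omega
    rw [Nat.lt_ceil, ← Real.log_lt_iff_lt_exp (Nat.cast_pos.mpr hp.2.pos)] at a1
    have a2 := (sz_le_log hh p).trans_lt a1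
    rw [div_lt_div_iff_of_pos_right h0] at a2
    have a3 : (sz h p : ℝ) < j := by linarith
    exact_mod_cast a3
  have hle : Vs h j ≤ ∏ p ∈ Nat.primesLE n, (1 - iv p) :=
    prod_le_prod_of_subset_of_le_one hsub (fun p hp => (hf p ((mem_Pr hh).mp hp).1).1.le)
      fun p hp _ => (hf p ((mem_Pr hh).mp hp).1).2
  have hpos : 0 < ∏ p ∈ Nat.primesLE n, (1 - iv p) :=
    prod_pos fun p hp => (hf p (Nat.mem_primesLE.mp hp).2).1
  have hh1 := R29.primes_harmonic_le n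
  rw [prod_inv_distrib] at hh1
  have hh2 : ((j : ℝ) - 1) / h ≤ harmonic n := by
    refine le_trans ?_ (log_add_one_le_harmonic n)
    rw [Real.le_log_iff_exp_le (by positivity), hn]
    exact Nat.le_ceil _
  have hh3 : ((j : ℝ) - 1) / h ≤ (∏ p ∈ Nat.primesLE n, (1 - iv p))⁻¹ := by
    simpa only [iv, one_div] using hh2.trans hh1
  have hj0 : (0 : ℝ) < j := by linarith
  have hp2 : 0 < ((j : ℝ) - 1) / h := div_pos (by linarith) h0
  refine hle.trans ((le_inv_comm₀ hp2 hpos).mp hh3 |>.trans ?_)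
  rw [inv_div, div_le_div_iff₀ (by linarith) hj0]
  nlinarith

/-! ### the parameters for large `M` -/

theorem ev_basic (C : ℝ) : ∀ᶠ M : ℝ in atTop, C ≤ ll M ∧ C ≤ LL M ∧ C ≤ M ∧ 0 < hh M ∧
    10 * ll M ≤ hh M ∧ (hh M : ℝ) ≤ 11 * ll M := by
  have h1 : Tendsto LL atTop atTop := Real.tendsto_log_atTop
  have h2 : Tendsto ll atTop atTop := Real.tendsto_log_atTop.comp Real.tendsto_log_atTop
  filter_upwards [h2.eventually_ge_atTop C, h1.eventually_ge_atTop C, eventually_ge_atTop C,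
    h2.eventually_ge_atTop 1] with M a b c d
  refine ⟨a, b, c, Nat.ceil_pos.mpr (by linarith), Nat.le_ceil _, ?_⟩
  have := Nat.ceil_lt_add_one (by linarith : 0 ≤ 10 * ll M)
  unfold hh
  linarith

theorem un_spec {M κ : ℝ} (hκ : 0 ≤ κ) (hl : 0 ≤ ll M) :
    κ * hh M * ll M ≤ un M κ ∧ (un M κ : ℝ) ≤ κ * hh M * ll M + 1 := ⟨Nat.le_ceil _, (Nat.ceil_lt_add_one (by positivity)).le⟩

theorem ev_top : ∀ᶠ M : ℝ in atTop, (hh M : ℝ) * LL M / 2 ≤ top M ∧ (top M : ℝ) ≤ hh M * LL M ∧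
    (top M : ℝ) ≤ LL M ^ 2 := by
  have h1 : Tendsto LL atTop atTop := Real.tendsto_log_atTop
  have h2 : ∀ᶠ x : ℝ in atTop, ‖Real.log x‖ ≤ 1 / 24 * ‖x‖ :=
    Real.isLittleO_log_id_atTop.bound (by norm_num)
  filter_upwards [ev_basic 12, h1.eventually h2] with M ⟨a, b, _, d, e, g⟩ hl
  have hl' : ll M ≤ 1 / 24 * LL M := by
    rw [Real.norm_of_nonneg (by linarith : 0 ≤ LL M)] at hl
    exact (le_abs_self _).trans hl
  have hd : (1 : ℝ) ≤ hh M := by exact_mod_cast d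
  have h0 : 0 ≤ (hh M : ℝ) * (LL M / 2 + 6 * ll M) := by positivity
  have t1 := Nat.le_ceil ((hh M : ℝ) * (LL M / 2 + 6 * ll M))
  have t2 := Nat.ceil_lt_add_one h0
  have t3 : (top M : ℝ) = (⌈(hh M : ℝ) * (LL M / 2 + 6 * ll M)⌉₊ : ℝ) + 2 := by
    unfold top; push_cast; ring
  have t4 : (top M : ℝ) ≤ hh M * LL M := by
    have : (hh M : ℝ) * (6 * ll M + 3) ≤ hh M * (LL M / 2) := by gcongr; linarith
    nlinarith
  refine ⟨by nlinarith, t4, t4.trans ?_⟩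
  nlinarith

theorem pfa_block : ∀ᶠ M : ℝ in atTop, ∀ i : ℕ, un M 1 ≤ i → 1000 ≤ i ∧
    1 / (2 * (i : ℝ)) ≤ ∑ p ∈ Pr (hh M) i (i + 1), iv p ∧
      ∑ p ∈ Pr (hh M) i (i + 1), iv p ≤ 1 / (i : ℝ) + 3 / (i : ℝ) ^ 2 := by
  obtain ⟨lam₀, hl⟩ := block_sum
  filter_upwards [ev_basic 10, ev_basic lam₀] with M ⟨a, _, _, d, e, g⟩ ⟨a', _⟩ i hi
  have h0 : (0 : ℝ) < hh M := Nat.cast_pos.mpr d
  have h1 : (hh M : ℝ) * ll M ≤ i := by
    have := (un_spec (M := M) zero_le_one (by linarith)).1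
    have h2 : (un M 1 : ℝ) ≤ i := Nat.cast_le.mpr hi
    linarith
  have h2 : ll M ≤ (i : ℝ) / hh M := by rw [le_div_iff₀ h0]; linarith
  refine ⟨?_, hl _ i d (by linarith) (by linarith)⟩
  have : (1000 : ℝ) ≤ i := by nlinarith
  exact_mod_cast this


/-- sub-weights of `1/p` on primes of size at least `h ℓ` satisfy the block bound -/
theorem ev_BS : ∀ᶠ M : ℝ in atTop, ∀ (μ : ℕ → ℝ) (U : Finset ℕ) (j t : ℕ), un M 1 ≤ j → j ≤ t →
    U ⊆ Pr (hh M) j (t + 1) → (∀ b, 0 ≤ μ b) →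
    (∀ i, j ≤ i → ∑ b ∈ U.filter (fun b => sz (hh M) b = i), μ b ≤ ∑ p ∈ Pr (hh M) i (i + 1), iv p) →
    BS (sz (hh M)) μ U j t := by
  filter_upwards [pfa_block, ev_basic 10] with M hb ⟨_, _, _, d, _, _⟩ μ U j t hj hjt hU hμ hs
  refine ⟨sz_mono _, hμ, (hb j hj).1, hjt, fun b hbU => ?_, fun i hi => ?_⟩
  · have := (mem_Pr d).mp (hU hbU)
    omega
  · exact (hs i hi).trans (hb i (hj.trans hi)).2.2

/-- mass of a range of sizes -/
theorem ev_range : ∀ᶠ M : ℝ in atTop, ∀ i i' : ℕ, un M 1 ≤ i → i ≤ i' →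
    Real.log ((i' : ℝ) / i) / 2 ≤ ∑ p ∈ Pr (hh M) i i', iv p ∧
      ∑ p ∈ Pr (hh M) i i', iv p ≤ Real.log ((i' : ℝ) / i) + 1 := by
  filter_upwards [pfa_block, ev_basic 10] with M hb ⟨_, _, _, d, _, _⟩ i i' hi hii
  have hi0 : (1000 : ℝ) ≤ i := by exact_mod_cast (hb i hi).1
  have key : Real.log ((i' : ℝ) / i) / 2 ≤ ∑ p ∈ Pr (hh M) i i', iv p ∧
      ∑ p ∈ Pr (hh M) i i', iv p ≤ Real.log ((i' : ℝ) / i) + (8 / i - 8 / i') := by
    induction i', hii using Nat.le_induction with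
    | base =>
      have : Pr (hh M) i i = ∅ := by
        ext p
        simp only [mem_Pr d, notMem_empty, iff_false]
        omega
      rw [this, div_self (by linarith), Real.log_one]
      simp
    | succ k hk ih =>
      obtain ⟨-, b1, b2⟩ := hb k (hi.trans hk)
      have hk0 : (1000 : ℝ) ≤ k := hi0.trans (Nat.cast_le.mpr hk)
      have hdis : Disjoint (Pr (hh M) k (k + 1)) (Pr (hh M) i k) :=
        disjoint_left.mpr fun p hp hq => lt_irrefl _ (Pr_lt d le_rfl hp hq)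
      rw [← Pr_union d hk (Nat.le_succ k), sum_union hdis]
      have e1 : Real.log (((k + 1 : ℕ) : ℝ) / i) =
          Real.log (((k : ℝ) + 1) / k) + Real.log ((k : ℝ) / i) := by
        rw [← Real.log_mul (by positivity) (by positivity)]
        congr 1
        push_cast
        field_simp
      have e2 : Real.log (((k : ℝ) + 1) / k) ≤ 1 / k := by
        refine (Real.log_le_sub_one_of_pos (by positivity)).trans (le_of_eq ?_)
        field_simp; ring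
      have e3 : 1 / ((k : ℝ) + 1) ≤ Real.log (((k : ℝ) + 1) / k) := by
        refine le_trans (le_of_eq ?_) (Real.one_sub_inv_le_log_of_pos (by positivity))
        field_simp; ring
      have e4 : 1 / (k : ℝ) + 3 / (k : ℝ) ^ 2 ≤ 1 / ((k : ℝ) + 1) + (8 / k - 8 / (k + 1)) := by
        have : 1 / ((k : ℝ) + 1) + (8 / k - 8 / (k + 1)) - (1 / (k : ℝ) + 3 / (k : ℝ) ^ 2) =
            (4 * k - 3) / (k ^ 2 * (k + 1)) := by
          field_simp; ring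
        have h2 : 0 ≤ (4 * (k : ℝ) - 3) / (k ^ 2 * (k + 1)) := div_nonneg (by linarith) (by positivity)
        linarith
      have e5 : 1 / (2 * (k : ℝ)) = 1 / k / 2 := by field_simp
      rw [e1]
      push_cast
      constructor <;> linarith [ih.1, ih.2]
  refine ⟨key.1, key.2.trans ?_⟩
  have h1 : 8 / (i : ℝ) ≤ 1 := by rw [div_le_one (by linarith)]; linarith
  have h2 : 0 ≤ 8 / (i' : ℝ) := by positivity
  linarith

end Crest.Agent.R1
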