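import Crest.Agent.R1.Defs

/-!
# R1 / Tree: combinatorics of Rosser's rule and the exact Buchstab identity
-/

set_option autoImplicit false

namespace Crest.Agent.R1

open Finset
open scoped Classical

variable {σ : ℕ → ℕ}

theorem TreeA_tot_union {τ τ' : Finset ℕ} (h : Disjoint τ τ') :
    tot σ (τ ∪ τ') = tot σ τ + tot σ τ' :=
  Finset.sum_union h

theorem TreeA_tot_insert {τ : Finset ℕ} {a : ℕ} (h : a ∉ τ) : tot σ (insert a τ) = σ a + tot σ τ :=
  Finset.sum_insert h

theorem alive_empty (R : ℤ) (e : ℕ) : Alive σ R e ∅ := by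
  intro p hp
  simp at hp

theorem Alive.mono {R R' : ℤ} {e : ℕ} {τ : Finset ℕ} (h : Alive σ R e τ) (hR : R ≤ R') :
    Alive σ R' e τ := by
  intro p hp he
  exact (h p hp he).trans hR

/-- only the parity of `e` matters -/
theorem alive_congr {R : ℤ} {e e' : ℕ} (he : e % 2 = e' % 2) (τ : Finset ℕ) :
    Alive σ R e τ ↔ Alive σ R e' τ := by
  have key : ∀ k : ℕ, Even (e + k) ↔ Even (e' + k) := fun k => by
    rw [Nat.even_iff, Nat.even_iff]
    omega
  unfold Alive
  simp only [key]

/-- concatenation -/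
theorem alive_union {R : ℤ} {e : ℕ} {τ τ' : Finset ℕ} (h : ∀ p ∈ τ, ∀ q ∈ τ', q < p) :
    Alive σ R e (τ ∪ τ') ↔ Alive σ R e τ ∧ Alive σ (R - tot σ τ) (e + τ.card) τ' := by
  have hd : Disjoint τ τ' := Finset.disjoint_left.2 fun p hp hp' => lt_irrefl _ (h p hp p hp')
  have h1 : ∀ p ∈ τ, (τ ∪ τ').filter (fun q => p ≤ q) = τ.filter (fun q => p ≤ q) := by
    intro p hp
    ext q
    simp only [Finset.mem_filter, Finset.mem_union]
    constructor
    · rintro ⟨hq | hq, hle⟩
      · exact ⟨hq, hle⟩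
      · exact absurd (h p hp q hq) (not_lt.2 hle)
    · rintro ⟨hq, hle⟩
      exact ⟨Or.inl hq, hle⟩
  have h2 : ∀ p ∈ τ', (τ ∪ τ').filter (fun q => p ≤ q) = τ ∪ τ'.filter (fun q => p ≤ q) := by
    intro p hp
    rw [Finset.filter_union, Finset.filter_true_of_mem fun q hq => (h q hq p hp).le]
  have h3 : ∀ p, Disjoint τ (τ'.filter (fun q => p ≤ q)) := fun p =>
    hd.mono_right (Finset.filter_subset _ _)
  constructor
  · intro H
    refine ⟨fun p hp he => ?_, fun p hp he => ?_⟩
    · have := H p (Finset.mem_union_left _ hp)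
      rw [h1 p hp] at this
      exact this he
    · have := H p (Finset.mem_union_right _ hp)
      rw [h2 p hp, Finset.card_union_of_disjoint (h3 p), TreeA_tot_union (h3 p), ← add_assoc] at this
      have := this he
      linarith
  · rintro ⟨H1, H2⟩ p hp
    rcases Finset.mem_union.1 hp with hp | hp
    · rw [h1 p hp]
      exact H1 p hp
    · rw [h2 p hp, Finset.card_union_of_disjoint (h3 p), TreeA_tot_union (h3 p), ← add_assoc]
      intro he
      have := H2 p hp he
      linarith

/-- a new least element -/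
theorem alive_insert {R : ℤ} {e : ℕ} {τ : Finset ℕ} {q : ℕ} (h : ∀ p ∈ τ, q < p) :
    Alive σ R e (insert q τ) ↔
      Alive σ R e τ ∧ (Even (e + τ.card + 1) → tot σ τ + 3 * σ q ≤ R) := by
  have e1 : insert q τ = τ ∪ {q} := by
    rw [Finset.union_comm]
    rfl
  have h' : ∀ p ∈ τ, ∀ r ∈ ({q} : Finset ℕ), r < p := fun p hp r hr => by
    rw [Finset.mem_singleton.1 hr]
    exact h p hp
  rw [e1, alive_union h']
  refine and_congr_right fun _ => ?_
  have e2 : ({q} : Finset ℕ).filter (fun r => q ≤ r) = {q} :=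
    Finset.filter_true_of_mem fun r hr => (Finset.mem_singleton.1 hr).ge
  unfold Alive
  simp only [Finset.mem_singleton, forall_eq, e2, Finset.card_singleton]
  refine imp_congr_right fun _ => ?_
  have e3 : tot σ {q} = σ q := by simp [tot]
  rw [e3]
  constructor <;> intro _ <;> linarith

/-- replacing an element by one of the same size in the same position -/
theorem alive_swap {R : ℤ} {e : ℕ} {τ : Finset ℕ} {u u' : ℕ} (hu : u ∉ τ) (hu' : u' ∉ τ)
    (hs : σ u = σ u') (ho : ∀ p ∈ τ, p < u ↔ p < u') :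
    Alive σ R e (insert u τ) ↔ Alive σ R e (insert u' τ) := by
  have key : ∀ v : ℕ, v ∉ τ → (∀ p ∈ τ, p < u ↔ p < v) →
      (Alive σ R e (insert v τ) ↔
        (Alive σ R e (τ.filter fun p => ¬ p < u) ∧
          (Even (e + (τ.filter fun p => ¬ p < u).card + 1) →
            tot σ (τ.filter fun p => ¬ p < u) + 3 * σ v ≤ R)) ∧
        Alive σ (R - (σ v + tot σ (τ.filter fun p => ¬ p < u)))
          (e + ((τ.filter fun p => ¬ p < u).card + 1)) (τ.filter fun p => p < u)) := by
    intro v hv hov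
    have hA : ∀ p ∈ τ.filter (fun p => ¬ p < u), v < p := by
      intro p hp
      obtain ⟨hp1, hp2⟩ := Finset.mem_filter.1 hp
      rw [hov p hp1] at hp2
      exact lt_of_le_of_ne (not_lt.1 hp2) fun h => hv (h ▸ hp1)
    have hvA : v ∉ τ.filter (fun p => ¬ p < u) := fun h => lt_irrefl _ (hA v h)
    have e1 : insert v τ = insert v (τ.filter fun p => ¬ p < u) ∪ τ.filter fun p => p < u := by
      rw [Finset.insert_union, Finset.union_comm, Finset.filter_union_filter_not_eq]
    have h1 : ∀ p ∈ insert v (τ.filter fun p => ¬ p < u), ∀ q ∈ τ.filter (fun p => p < u), q < p := by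
      intro p hp q hq
      obtain ⟨hq1, hq2⟩ := Finset.mem_filter.1 hq
      rcases Finset.mem_insert.1 hp with rfl | hp
      · exact (hov q hq1).1 hq2
      · exact hq2.trans_le (not_lt.1 (Finset.mem_filter.1 hp).2)
    rw [e1, alive_union h1, alive_insert hA, Finset.card_insert_of_notMem hvA, TreeA_tot_insert hvA]
  rw [key u hu fun _ _ => Iff.rfl, key u' hu' ho, hs]

/-- the state after an alive set is an admissible start for everything below it -/
theorem Alive.start (hσ : Monotone σ) {R : ℤ} {e top : ℕ} (hS : Start R e top) {τ : Finset ℕ}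
    (hτ : ∀ p ∈ τ, σ p ≤ top) (h : Alive σ R e τ) {i : ℕ} (hi : i ≤ top) (hi' : ∀ p ∈ τ, i ≤ σ p) :
    Start (R - tot σ τ) (e + τ.card) i := by
  induction τ using Finset.induction_on_min generalizing i with
  | empty =>
    have hi2 : (i : ℤ) ≤ top := by exact_mod_cast hi
    simp only [tot, Finset.sum_empty, sub_zero, Finset.card_empty, add_zero]
    exact ⟨fun he => by have := hS.1 he; linarith, hi2.trans hS.2⟩
  | insert a s ha ih =>
    have has : a ∉ s := fun h => lt_irrefl _ (ha a h)
    obtain ⟨h1, h2⟩ := (alive_insert ha).1 h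
    have IH := ih (fun p hp => hτ p (Finset.mem_insert_of_mem hp)) h1
      (hτ a (Finset.mem_insert_self _ _)) fun p hp => hσ (ha p hp).le
    have hia : (i : ℤ) ≤ σ a := by exact_mod_cast hi' a (Finset.mem_insert_self _ _)
    have h0 : (0 : ℤ) ≤ σ a := Int.natCast_nonneg _
    rw [Finset.card_insert_of_notMem has, TreeA_tot_insert has, ← add_assoc]
    by_cases he : Even (e + s.card + 1)
    · have := h2 he
      exact ⟨fun _ => by linarith, by linarith⟩
    · have := IH.1 (by simpa [Nat.even_add_one] using he)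
      exact ⟨fun h => absurd h he, by linarith⟩

/-- weaker start (used for the hybrid tree) -/
theorem Alive.rem_ge (hσ : Monotone σ) {R : ℤ} {e top j : ℕ}
    (hS : (Even e → (top : ℤ) + j ≤ R) ∧ (j : ℤ) ≤ R) {τ : Finset ℕ}
    (hτ : ∀ p ∈ τ, j ≤ σ p ∧ σ p ≤ top) (h : Alive σ R e τ) : (j : ℤ) ≤ R - tot σ τ := by
  have key : ∀ i : ℕ, i ≤ top → (∀ p ∈ τ, i ≤ σ p) →
      (Even (e + τ.card) → (i : ℤ) + j ≤ R - tot σ τ) ∧ (j : ℤ) ≤ R - tot σ τ := by
    induction τ using Finset.induction_on_min with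
    | empty =>
      intro i hi _
      have hi2 : (i : ℤ) ≤ top := by exact_mod_cast hi
      simp only [tot, Finset.sum_empty, sub_zero, Finset.card_empty, add_zero]
      exact ⟨fun he => by have := hS.1 he; linarith, hS.2⟩
    | insert a s ha ih =>
      intro i _ hi'
      have has : a ∉ s := fun h => lt_irrefl _ (ha a h)
      obtain ⟨h1, h2⟩ := (alive_insert ha).1 h
      have IH := ih (fun p hp => hτ p (Finset.mem_insert_of_mem hp)) h1 (σ a)
        (hτ a (Finset.mem_insert_self _ _)).2 fun p hp => hσ (ha p hp).le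
      have hia : (i : ℤ) ≤ σ a := by exact_mod_cast hi' a (Finset.mem_insert_self _ _)
      have hja : (j : ℤ) ≤ σ a := by exact_mod_cast (hτ a (Finset.mem_insert_self _ _)).1
      have h0 : (0 : ℤ) ≤ σ a := Int.natCast_nonneg _
      rw [Finset.card_insert_of_notMem has, TreeA_tot_insert has, ← add_assoc]
      by_cases he : Even (e + s.card + 1)
      · have := h2 he
        exact ⟨fun _ => by linarith, by linarith⟩
      · have := IH.1 (by simpa [Nat.even_add_one] using he)
        exact ⟨fun h => absurd h he, by linarith⟩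
  exact (key 0 (Nat.zero_le _) fun _ _ => Nat.zero_le _).2

theorem TreeA_two_le (hσ : Monotone σ) {R : ℤ} {e top : ℕ} (hS : Start R e top) {s : Finset ℕ} {a : ℕ}
    (ha : ∀ x ∈ s, a < x) (hτ : ∀ p ∈ insert a s, σ p ≤ top) (h : Alive σ R e (insert a s)) :
    2 * (σ a : ℤ) ≤ R - tot σ s := by
  obtain ⟨h1, h2⟩ := (alive_insert ha).1 h
  have IH := Alive.start hσ hS (fun p hp => hτ p (Finset.mem_insert_of_mem hp)) h1
    (hτ a (Finset.mem_insert_self _ _)) fun p hp => hσ (ha p hp).le
  have h0 : (0 : ℤ) ≤ σ a := Int.natCast_nonneg _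
  by_cases he : Even (e + s.card + 1)
  · have := h2 he
    linarith
  · exact IH.1 (by simpa [Nat.even_add_one] using he)

/-- each step at most halves the remaining level -/
theorem Alive.halving (hσ : Monotone σ) {R : ℤ} {e top : ℕ} (hS : Start R e top) {τ : Finset ℕ}
    (hτ : ∀ p ∈ τ, σ p ≤ top) (h : Alive σ R e τ) : R ≤ 2 ^ τ.card * (R - tot σ τ) := by
  induction τ using Finset.induction_on_min with
  | empty => simp [tot]
  | insert a s ha ih =>
    have has : a ∉ s := fun h => lt_irrefl _ (ha a h)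
    have IH := ih (fun p hp => hτ p (Finset.mem_insert_of_mem hp)) ((alive_insert ha).1 h).1
    have h2 := TreeA_two_le hσ hS ha hτ h
    rw [Finset.card_insert_of_notMem has, TreeA_tot_insert has, pow_succ, mul_assoc]
    refine IH.trans (mul_le_mul_of_nonneg_left (by linarith) (by positivity))

/-- well-factorability: put the elements in decreasing order into one of two boxes -/
theorem Alive.split (hσ : Monotone σ) {R : ℤ} {e top : ℕ} (hS : Start R e top) {τ : Finset ℕ}
    (hτ : ∀ p ∈ τ, σ p ≤ top) (h : Alive σ R e τ) {D : ℤ} (h0 : 0 ≤ D) (h1 : D ≤ R) :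
    ∃ x ⊆ τ, D - (R - tot σ τ) ≤ tot σ x ∧ tot σ x ≤ D := by
  induction τ using Finset.induction_on_min with
  | empty => exact ⟨∅, Finset.Subset.refl _, by simp [tot, h1], by simp [tot, h0]⟩
  | insert a s ha ih =>
    have has : a ∉ s := fun h => lt_irrefl _ (ha a h)
    obtain ⟨x, hx, hx1, hx2⟩ :=
      ih (fun p hp => hτ p (Finset.mem_insert_of_mem hp)) ((alive_insert ha).1 h).1
    have h2 := TreeA_two_le hσ hS ha hτ h
    rw [TreeA_tot_insert has]
    by_cases hc : σ a + tot σ x ≤ D
    · refine ⟨insert a x, Finset.insert_subset_insert _ hx, ?_, ?_⟩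
      · rw [TreeA_tot_insert fun h => has (hx h)]
        linarith
      · rw [TreeA_tot_insert fun h => has (hx h)]
        exact hc
    · exact ⟨x, hx.trans (Finset.subset_insert _ _), by linarith, hx2⟩

/-- a leaf has even total parity -/
theorem leaves_spec {R : ℤ} {e : ℕ} {U τ : Finset ℕ} (h : τ ∈ leaves σ R e U) :
    ∃ q ∈ τ, (∀ p ∈ τ.erase q, q < p) ∧ τ.erase q ∈ nodes σ R e U ∧ Even (e + τ.card) ∧
      R - tot σ τ < 2 * σ q := by
  simp only [leaves, mem_filter, mem_powerset] at h
  obtain ⟨hU, hna, hpar⟩ := h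
  have hne : τ.Nonempty := by
    rw [nonempty_iff_ne_empty]
    rintro rfl
    exact hna (alive_empty R e)
  have hq : τ.min' hne ∈ τ := min'_mem τ hne
  set q := τ.min' hne with hq_def
  have hmin : ∀ p ∈ τ, q ≤ p := fun p hp => min'_le τ p hp
  have hlt : ∀ p ∈ τ.erase q, q < p := fun p hp =>
    lt_of_le_of_ne (hmin p (mem_of_mem_erase hp)) (ne_of_mem_erase hp).symm
  have hal : Alive σ R e (τ.erase q) := hpar q hq hmin
  have hins : insert q (τ.erase q) = τ := insert_erase hq
  have h1 := alive_insert (σ := σ) (R := R) (e := e) hlt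
  rw [hins] at h1
  have h2 : ¬ (Even (e + (τ.erase q).card + 1) → tot σ (τ.erase q) + 3 * σ q ≤ R) :=
    fun h3 => hna (h1.2 ⟨hal, h3⟩)
  push Not at h2
  have hc : (τ.erase q).card + 1 = τ.card := card_erase_add_one hq
  have ht : tot σ (τ.erase q) + σ q = tot σ τ := sum_erase_add τ (fun p => (σ p : ℤ)) hq
  refine ⟨q, hq, hlt, ?_, ?_, ?_⟩
  · simp only [nodes, mem_filter, mem_powerset]
    exact ⟨(erase_subset _ _).trans hU, hal⟩
  · rw [← hc, ← add_assoc]
    exact h2.1
  · linarith [h2.2]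

theorem Tree_parent {R : ℤ} {e : ℕ} {τ : Finset ℕ} {q : ℕ} (h : ∀ p ∈ τ, q < p) :
    (∀ p ∈ insert q τ, (∀ r ∈ insert q τ, p ≤ r) → Alive σ R e ((insert q τ).erase p)) ↔
      Alive σ R e τ := by
  have hqτ : q ∉ τ := fun hq => lt_irrefl q (h q hq)
  constructor
  · intro H
    have := H q (mem_insert_self q τ) fun r hr => by
      rcases mem_insert.1 hr with rfl | hr'
      · exact le_rfl
      · exact (h r hr').le
    rwa [erase_insert hqτ] at this
  · intro H p hp hmin
    rcases mem_insert.1 hp with rfl | hp'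
    · rwa [erase_insert hqτ]
    · exact absurd (h p hp') (not_lt.2 (hmin q (mem_insert_self q τ)))

/-- the exact Buchstab-Rosser identity (induction on `U`, removing the least element) -/
theorem buchstab (R : ℤ) (e : ℕ) (U S : Finset ℕ) :
    (-1 : ℝ) ^ e * ind ∅ U S =
      ∑ τ ∈ nodes σ R e U, (-1 : ℝ) ^ (e + τ.card) * ind τ ∅ S +
        ∑ τ ∈ leaves σ R e U, lind τ U S := by
  induction U using Finset.induction_on_min with
  | empty =>
    have h1 : nodes σ R e ∅ = {∅} := by
      simp only [nodes, powerset_empty]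
      exact filter_true_of_mem fun τ hτ => by
        rw [mem_singleton.1 hτ]; exact alive_empty R e
    have h2 : leaves σ R e ∅ = ∅ := by
      simp only [leaves, powerset_empty]
      exact filter_false_of_mem fun τ hτ h => h.1 (by
        rw [mem_singleton.1 hτ]; exact alive_empty R e)
    rw [h1, h2]
    simp
  | insert q U hq ih =>
    have hqU : q ∉ U := fun h => lt_irrefl q (hq q h)
    simp only [nodes, leaves, sum_filter] at ih ⊢
    rw [sum_powerset_insert hqU, sum_powerset_insert hqU]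
    by_cases hS : q ∈ S
    · have hL : ind ∅ (insert q U) S = 0 := by
        unfold ind
        rw [if_neg]
        rintro ⟨-, h⟩
        exact disjoint_left.1 h hS (mem_insert_self q U)
      rw [hL, mul_zero, ← sum_add_distrib, ← sum_add_distrib, ← sum_add_distrib]
      refine (sum_eq_zero fun τ hτ => ?_).symm
      have hτU : τ ⊆ U := mem_powerset.1 hτ
      have hlt : ∀ p ∈ τ, q < p := fun p hp => hq p (hτU hp)
      have hqτ : q ∉ τ := fun h => lt_irrefl q (hlt q h)
      have h1 : lind τ (insert q U) S = 0 := by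
        unfold lind
        rw [if_neg]
        rintro ⟨-, h⟩
        obtain ⟨p, hp, hpq⟩ := h q (mem_inter.2 ⟨hS, mem_insert_self q U⟩)
        exact absurd (hlt p hp) (not_lt.2 hpq)
      have h2 : ind (insert q τ) ∅ S = ind τ ∅ S := by
        simp [ind, insert_subset_iff, hS]
      have h3 : lind (insert q τ) (insert q U) S = ind τ ∅ S := by
        unfold lind ind
        refine if_congr ?_ rfl rfl
        constructor
        · rintro ⟨h, -⟩
          exact ⟨(subset_insert q τ).trans h, disjoint_empty_right S⟩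
        · rintro ⟨h, -⟩
          refine ⟨insert_subset hS h, fun r hr => ⟨q, mem_insert_self q τ, ?_⟩⟩
          rcases mem_insert.1 (mem_inter.1 hr).2 with rfl | hr'
          · exact le_rfl
          · exact (hq r hr').le
      simp only [h1, h2, h3, ite_self, Tree_parent hlt, card_insert_of_notMem hqτ,
        alive_insert hlt]
      by_cases ha : Alive σ R e τ
      · by_cases hb : Even (e + τ.card + 1) → tot σ τ + 3 * σ q ≤ R
        · rw [if_pos ha, if_pos ⟨ha, hb⟩, if_neg fun h => h.1 ⟨ha, hb⟩, ← add_assoc e, pow_succ]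
          ring
        · rw [if_pos ha, if_neg fun h => hb h.2, if_pos ⟨fun h => hb h.2, ha⟩]
          have hev : Even (e + τ.card + 1) := by
            by_contra hne
            exact hb fun h => absurd h hne
          have h4 : (-1 : ℝ) ^ (e + τ.card) = -1 := by
            have := hev.neg_one_pow (α := ℝ)
            rw [pow_succ] at this
            linarith
          rw [h4]
          ring
      · rw [if_neg ha, if_neg fun h => ha h.1, if_neg fun h => ha h.2]
        ring
    · have hL : ind ∅ (insert q U) S = ind ∅ U S := by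
        simp [ind, hS]
      have h1 : ∀ τ, lind τ (insert q U) S = lind τ U S := by
        intro τ
        unfold lind
        rw [inter_insert_of_notMem hS]
      have h2 : ∀ τ, ind (insert q τ) ∅ S = 0 := by
        intro τ
        simp [ind, insert_subset_iff, hS]
      have h3 : ∀ τ, lind (insert q τ) U S = 0 := by
        intro τ
        simp [lind, insert_subset_iff, hS]
      simp only [hL, h1, h2, h3, mul_zero, ite_self, sum_const_zero, add_zero]
      exact ih

/-- the form used below: `V` lies below `U`, `τ₀` above -/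
theorem buchstab' (R : ℤ) (e : ℕ) {τ₀ U V : Finset ℕ} (hUV : ∀ p ∈ U, ∀ q ∈ V, q < p)
    (S : Finset ℕ) :
    (-1 : ℝ) ^ e * ind τ₀ (U ∪ V) S =
      ∑ τ ∈ nodes σ R e U, (-1 : ℝ) ^ (e + τ.card) * ind (τ₀ ∪ τ) V S +
        ∑ τ ∈ leaves σ R e U, ind τ₀ ∅ S * lind τ (U ∪ V) S := by
  have h1 : ind τ₀ (U ∪ V) S = ind τ₀ V S * ind ∅ U S := by
    unfold ind
    simp only [disjoint_union_right]
    by_cases ha : τ₀ ⊆ S <;> by_cases hb : Disjoint S U <;> by_cases hc : Disjoint S V <;>
      simp [ha, hb, hc]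
  rw [h1, mul_left_comm, buchstab (σ := σ) R e U S, mul_add, mul_sum, mul_sum]
  congr 1
  · refine sum_congr rfl fun τ _ => ?_
    rw [mul_left_comm]
    congr 1
    unfold ind
    simp only [union_subset_iff]
    by_cases ha : τ₀ ⊆ S <;> by_cases hb : τ ⊆ S <;> by_cases hc : Disjoint S V <;>
      simp [ha, hb, hc]
  · refine sum_congr rfl fun τ hτ => ?_
    have hτU : τ ⊆ U := mem_powerset.1 (mem_filter.1 hτ).1
    have h2 : (∀ q ∈ S ∩ (U ∪ V), ∃ p ∈ τ, p ≤ q) ↔
        (∀ q ∈ S ∩ U, ∃ p ∈ τ, p ≤ q) ∧ Disjoint S V := by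
      constructor
      · intro H
        refine ⟨fun q hq => H q (mem_inter.2 ⟨(mem_inter.1 hq).1,
          mem_union_left _ (mem_inter.1 hq).2⟩), disjoint_left.2 fun q hqS hqV => ?_⟩
        obtain ⟨p, hp, hpq⟩ := H q (mem_inter.2 ⟨hqS, mem_union_right _ hqV⟩)
        exact absurd (hUV p (hτU hp) q hqV) (not_lt.2 hpq)
      · rintro ⟨H, hd⟩ q hq
        rcases mem_union.1 (mem_inter.1 hq).2 with hq' | hq'
        · exact H q (mem_inter.2 ⟨(mem_inter.1 hq).1, hq'⟩)
        · exact absurd hq' (disjoint_left.1 hd (mem_inter.1 hq).1)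
    unfold ind lind
    simp only [h2]
    by_cases ha : τ₀ ⊆ S <;> by_cases hb : τ ⊆ S <;> by_cases hc : Disjoint S V <;>
      by_cases hd : ∀ q ∈ S ∩ U, ∃ p ∈ τ, p ≤ q <;> simp only [ha, hb, hc, hd] <;> simp

/-- sums over alive subsets of `U ∪ V` split -/
theorem sum_nodes_union {R : ℤ} {e : ℕ} {U V : Finset ℕ} (hUV : ∀ p ∈ U, ∀ q ∈ V, q < p)
    (F : Finset ℕ → ℝ) :
    ∑ τ ∈ nodes σ R e (U ∪ V), F τ =
      ∑ τ ∈ nodes σ R e U, ∑ τ' ∈ nodes σ (R - tot σ τ) (e + τ.card) V, F (τ ∪ τ') := by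
  rw [sum_sigma']
  have hd : ∀ p ∈ U, p ∉ V := fun p hp hp' => lt_irrefl p (hUV p hp p hp')
  have hsplit : ∀ τ ⊆ U ∪ V, τ ∩ U ∪ τ ∩ V = τ := fun τ hτ => by
    rw [← inter_union_distrib_left, inter_eq_left.2 hτ]
  refine sum_bij' (fun τ _ => (⟨τ ∩ U, τ ∩ V⟩ : Σ _ : Finset ℕ, Finset ℕ))
    (fun x _ => x.1 ∪ x.2) ?_ ?_ ?_ ?_ ?_
  · intro τ hτ
    simp only [nodes, mem_filter, mem_powerset, mem_sigma] at hτ ⊢
    have h1 := (alive_union (σ := σ) (R := R) (e := e) (τ := τ ∩ U) (τ' := τ ∩ V)
      fun p hp q hq => hUV p (mem_inter.1 hp).2 q (mem_inter.1 hq).2).1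
      (by rw [hsplit τ hτ.1]; exact hτ.2)
    exact ⟨⟨inter_subset_right, h1.1⟩, inter_subset_right, h1.2⟩
  · rintro ⟨τ, τ'⟩ hx
    simp only [nodes, mem_filter, mem_powerset, mem_sigma] at hx ⊢
    obtain ⟨⟨h1, h2⟩, h3, h4⟩ := hx
    exact ⟨union_subset_union h1 h3,
      (alive_union fun p hp q hq => hUV p (h1 hp) q (h3 hq)).2 ⟨h2, h4⟩⟩
  · intro τ hτ
    exact hsplit τ (mem_powerset.1 (mem_filter.1 hτ).1)
  · rintro ⟨τ, τ'⟩ hx
    simp only [nodes, mem_filter, mem_powerset, mem_sigma] at hx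
    obtain ⟨⟨h1, -⟩, h3, -⟩ := hx
    have e1 : (τ ∪ τ') ∩ U = τ := by
      ext p
      simp only [mem_inter, mem_union]
      constructor
      · rintro ⟨h | h, hp⟩
        · exact h
        · exact absurd (h3 h) (hd p hp)
      · intro h
        exact ⟨Or.inl h, h1 h⟩
    have e2 : (τ ∪ τ') ∩ V = τ' := by
      ext p
      simp only [mem_inter, mem_union]
      constructor
      · rintro ⟨h | h, hp⟩
        · exact absurd hp (hd p (h1 h))
        · exact h
      · intro h
        exact ⟨Or.inr h, h3 h⟩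
    simp only [e1, e2]
  · intro τ hτ
    rw [hsplit τ (mem_powerset.1 (mem_filter.1 hτ).1)]

/-- a sieve inequality can be averaged in the product measure -/
theorem mean_le {P : Finset ℕ} {lam : Finset ℕ → ℝ} {c : ℝ}
    (h : ∀ S ⊆ P, ∑ T ∈ S.powerset, lam T ≤ c * (if S = ∅ then 1 else 0)) {g : ℕ → ℝ}
    (hg : ∀ p ∈ P, 0 ≤ g p ∧ g p ≤ 1) :
    ∑ T ∈ P.powerset, lam T * wt g T ≤ c * ∏ p ∈ P, (1 - g p) := by
  have key : ∀ T ∈ P.powerset, wt g T =
      ∑ S ∈ P.powerset, if T ⊆ S then wt g S * ∏ p ∈ P \ S, (1 - g p) else 0 := by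
    intro T hT
    have hTP : T ⊆ P := mem_powerset.1 hT
    have h1 := prod_add g (fun p => if p ∈ T then 0 else 1 - g p) P
    have h2 : ∏ p ∈ P, (g p + if p ∈ T then 0 else 1 - g p) = wt g T := by
      rw [← prod_sdiff hTP, prod_eq_one, one_mul]
      · exact prod_congr rfl fun p hp => by rw [if_pos hp, add_zero]
      · intro p hp
        rw [if_neg (mem_sdiff.1 hp).2]; ring
    rw [← h2, h1]
    refine sum_congr rfl fun S _ => ?_
    split_ifs with hTS
    · unfold wt
      congr 1
      exact prod_congr rfl fun p hp => if_neg fun h => (mem_sdiff.1 hp).2 (hTS h)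
    · obtain ⟨p, hp, hp'⟩ := not_subset.1 hTS
      rw [prod_eq_zero (f := fun p => if p ∈ T then 0 else 1 - g p)
        (mem_sdiff.2 ⟨hTP hp, hp'⟩) (if_pos hp), mul_zero]
  calc ∑ T ∈ P.powerset, lam T * wt g T
      = ∑ T ∈ P.powerset, ∑ S ∈ P.powerset,
          if T ⊆ S then lam T * (wt g S * ∏ p ∈ P \ S, (1 - g p)) else 0 := by
        refine sum_congr rfl fun T hT => ?_
        rw [key T hT, mul_sum]
        exact sum_congr rfl fun S _ => by rw [mul_ite, mul_zero]
    _ = ∑ S ∈ P.powerset, (∑ T ∈ S.powerset, lam T) * (wt g S * ∏ p ∈ P \ S, (1 - g p)) := by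
        rw [sum_comm]
        refine sum_congr rfl fun S hS => ?_
        rw [← sum_filter, sum_mul]
        refine sum_congr ?_ fun _ _ => rfl
        ext T
        simp only [mem_filter, mem_powerset]
        exact ⟨fun h => h.2, fun h => ⟨h.trans (mem_powerset.1 hS), h⟩⟩
    _ ≤ ∑ S ∈ P.powerset, (c * if S = ∅ then 1 else 0) * (wt g S * ∏ p ∈ P \ S, (1 - g p)) := by
        refine sum_le_sum fun S hS => ?_
        have hSP : S ⊆ P := mem_powerset.1 hS
        refine mul_le_mul_of_nonneg_right (h S hSP) (mul_nonneg ?_ ?_)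
        · exact prod_nonneg fun p hp => (hg p (hSP hp)).1
        · exact prod_nonneg fun p hp => sub_nonneg.2 (hg p (mem_sdiff.1 hp).1).2
    _ = c * ∏ p ∈ P, (1 - g p) := by
        rw [sum_eq_single ∅]
        · simp [wt]
        · intro S _ hS
          rw [if_neg hS]; ring
        · intro h0
          exact absurd (empty_mem_powerset P) h0

end Crest.Agent.R1
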