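import Crest.Agent.R1.FL
import Crest.Agent.R1.PrimeF
import Crest.Agent.R1.Tree

/-!
# R1 / Ew: the weighted interval, exact level `M`, and the basic sieve bounds
-/

set_option autoImplicit false

namespace Crest.Agent.R1

open Finset
open scoped Classical

variable {M : ℝ} {X : ℤ} {P : Finset ℕ}

theorem ew_hit_subset (n : ℤ) : hit P X n ⊆ P := filter_subset _ _

theorem ew_Wt_neg (Y : ℝ) (n : ℤ) : R29.Wt Y (-n) = R29.Wt Y n := by
  unfold R29.Wt
  rw [Int.cast_neg, mul_neg, neg_div, Real.sinc_neg]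

theorem summable_Ew (hM : 0 < M) (Φ : Finset ℕ → ℝ) :
    Summable (fun n : ℤ => R29.Wt (M / 2) n * Φ (hit P X n)) := by
  refine Summable.of_norm_bounded
    ((R29.summable_Wt (X := M / 2) (by linarith)).mul_right (∑ S ∈ P.powerset, |Φ S|)) fun n => ?_
  rw [norm_mul, Real.norm_of_nonneg (R29.Wt_nonneg _ _), Real.norm_eq_abs]
  refine mul_le_mul_of_nonneg_left ?_ (R29.Wt_nonneg _ _)
  exact single_le_sum (f := fun S => |Φ S|) (fun _ _ => abs_nonneg _)
    (mem_powerset.2 (ew_hit_subset n))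

theorem Ew_add (hM : 0 < M) (Φ Ψ : Finset ℕ → ℝ) :
    Ew M X P (fun S => Φ S + Ψ S) = Ew M X P Φ + Ew M X P Ψ := by
  unfold Ew
  rw [← (summable_Ew hM Φ).tsum_add (summable_Ew hM Ψ)]
  exact tsum_congr fun n => mul_add _ _ _

theorem Ew_mul (c : ℝ) (Φ : Finset ℕ → ℝ) : Ew M X P (fun S => c * Φ S) = c * Ew M X P Φ := by
  unfold Ew
  rw [← tsum_mul_left]
  exact tsum_congr fun n => by ring

theorem Ew_sum (hM : 0 < M) {ι : Type*} (s : Finset ι) (Φ : ι → Finset ℕ → ℝ) :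
    Ew M X P (fun S => ∑ i ∈ s, Φ i S) = ∑ i ∈ s, Ew M X P (Φ i) := by
  unfold Ew
  rw [← Summable.tsum_finsetSum fun i _ => summable_Ew hM (Φ i)]
  exact tsum_congr fun n => mul_sum _ _ _

theorem Ew_mono (hM : 0 < M) {Φ Ψ : Finset ℕ → ℝ} (h : ∀ S ⊆ P, Φ S ≤ Ψ S) :
    Ew M X P Φ ≤ Ew M X P Ψ := by
  exact (summable_Ew hM Φ).tsum_le_tsum
    (fun n => mul_le_mul_of_nonneg_left (h _ (ew_hit_subset n)) (R29.Wt_nonneg _ _))
    (summable_Ew hM Ψ)

theorem Ew_nonneg {Φ : Finset ℕ → ℝ} (h : ∀ S ⊆ P, 0 ≤ Φ S) : 0 ≤ Ew M X P Φ := by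
  exact tsum_nonneg fun n => mul_nonneg (R29.Wt_nonneg _ _) (h _ (ew_hit_subset n))

theorem Ew_ind {T : Finset ℕ} (hT : T ⊆ P) (hP : ∀ p ∈ P, p.Prime) :
    Ew M X P (ind T ∅) = cntA M X (pd T) := by
  unfold Ew cntA
  refine tsum_congr fun n => ?_
  congr 1
  unfold ind
  refine if_congr ?_ rfl rfl
  rw [pd_dvd_iff fun p hp => hP p (hT hp)]
  simp only [disjoint_empty_right, and_true]
  exact ⟨fun h p hp => (mem_filter.1 (h hp)).2, fun h p hp => mem_filter.2 ⟨hT hp, h p hp⟩⟩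

/-- lower bound by a finite set of integers near the centre -/
theorem card_le_Ew (hM : 0 < M) {Φ : Finset ℕ → ℝ} (h0 : ∀ S ⊆ P, 0 ≤ Φ S) (A : Finset ℤ)
    (hA : ∀ n ∈ A, |(n : ℝ)| ≤ M / 2 ∧ 1 ≤ Φ (hit P X n)) :
    2 / 5 * (A.card : ℝ) ≤ Ew M X P Φ := by
  refine le_trans ?_ ((summable_Ew hM Φ).sum_le_tsum A fun n _ =>
    mul_nonneg (R29.Wt_nonneg _ _) (h0 _ (ew_hit_subset n)))
  rw [mul_comm, ← nsmul_eq_mul]
  refine card_nsmul_le_sum _ _ _ fun n hn => ?_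
  have h1 := R29.Wt_ge (X := M / 2) (by linarith) (hA n hn).1
  nlinarith [(hA n hn).2]

/-- reflection -/
theorem Ew_neg (Φ : Finset ℕ → ℝ) : Ew M (-X) P Φ = Ew M X P Φ := by
  unfold Ew
  rw [← (Equiv.neg ℤ).tsum_eq]
  refine tsum_congr fun n => ?_
  rw [Equiv.neg_apply, ew_Wt_neg]
  congr 2
  unfold hit
  refine filter_congr fun p _ => ?_
  rw [show -n - -X = -(n - X) by ring, dvd_neg]

theorem ew_cntA_neg (q : ℕ) : cntA M (-X) q = cntA M X q := by
  unfold cntA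
  rw [← (Equiv.neg ℤ).tsum_eq]
  refine tsum_congr fun n => ?_
  rw [Equiv.neg_apply, ew_Wt_neg, show -n - -X = -(n - X) by ring]
  simp only [dvd_neg]

theorem ew_tri_zero {q : ℝ} (hq : 0 < q) {k : ℤ} (h : q ≤ M * |(k : ℝ)|) :
    R29.tri (M / 2) k q = 0 := by
  unfold R29.tri
  refine max_eq_left ?_
  rw [sub_nonpos, le_div_iff₀ hq]
  linarith

theorem ew_cntA_eq (hM : 2 ≤ M) {q Z : ℕ} (hq : 0 < q) (hZ : (q : ℝ) ≤ M * Z) :
    (rem M X q : ℂ) = ((M / q : ℝ) : ℂ) *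
      ∑ k ∈ R29.Ibar Z, (R29.tri (M / 2) k q : ℂ) * R29.ee ((k : ℝ) * X / q) := by
  have hq0 : (q : ℝ) ≠ 0 := by exact_mod_cast hq.ne'
  have hqC : (q : ℂ) ≠ 0 := by exact_mod_cast hq.ne'
  have hX : 1 ≤ M / 2 := by linarith
  set V : ℤ → ℂ := fun k => R29.ee ((k : ℝ) * X / q) / q with hV
  have hper : R29.Per q V := by
    intro x y hxy
    obtain ⟨c, hc⟩ := Int.modEq_iff_dvd.1 hxy
    have h1 : y = x + q * c := by linarith
    simp only [hV]
    rw [h1, ← R29.ee_add_int ((x : ℝ) * X / q) (c * X)]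
    congr 2
    push_cast
    field_simp
  have h1 := R29.psd_hasSum_expand hX q fun k => V k
  rw [R29.psd_sum_kern hX hq (Z := Z) (by linarith) V hper] at h1
  have h2 : HasSum (fun n : ℤ => ((R29.Wt (M / 2) n *
      (if (q : ℤ) ∣ n - -X then 1 else 0) : ℝ) : ℂ))
      (∑ k ∈ Icc (-(Z : ℤ)) Z, ((2 * (M / 2) * R29.tri (M / 2) k q : ℝ) : ℂ) * V k) := by
    refine R29.psd_hasSum_congr h1 (fun n => ?_) rfl
    have h3 : ∑ k ∈ range q, V k * R29.ee ((n : ℝ) * ((k : ℝ) / q)) =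
        (∑ k ∈ range q, R29.ee (((n - -X : ℤ) : ℝ) * k / q)) / q := by
      rw [sum_div]
      refine sum_congr rfl fun k _ => ?_
      simp only [hV]
      rw [div_mul_eq_mul_div, ← R29.ee_add]
      congr 2
      push_cast
      ring
    rw [h3, R29.sum_ee_range q hq]
    push_cast
    split_ifs
    · simp [div_self hqC]
    · simp
  have h4 : (cntA M (-X) q : ℂ) =
      ∑ k ∈ Icc (-(Z : ℤ)) Z, ((2 * (M / 2) * R29.tri (M / 2) k q : ℝ) : ℂ) * V k := by
    unfold cntA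
    rw [Complex.ofReal_tsum, h2.tsum_eq]
  rw [ew_cntA_neg] at h4
  have h0 : (0 : ℤ) ∈ Icc (-(Z : ℤ)) Z := by simp
  rw [← add_sum_erase _ _ h0] at h4
  have h5 : ((2 * (M / 2) * R29.tri (M / 2) 0 q : ℝ) : ℂ) * V 0 = ((M / q : ℝ) : ℂ) := by
    simp only [hV, R29.tri, Int.cast_zero, abs_zero, mul_zero, zero_div, sub_zero, zero_mul,
      R29.ee_zero, max_eq_right (zero_le_one' ℝ)]
    push_cast
    ring
  unfold rem
  rw [Complex.ofReal_sub, h4, h5, add_sub_cancel_left, mul_sum]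
  refine sum_congr rfl fun k _ => ?_
  simp only [hV]
  push_cast
  ring

/-- exact level (`R29.hasSum_Wt_per`) -/
theorem rem_eq_zero (hM : 2 ≤ M) {q : ℕ} (hq : 0 < q) (hqM : (q : ℝ) ≤ M) : rem M X q = 0 := by
  have h := ew_cntA_eq (X := X) hM hq (Z := 1) (by simpa using hqM)
  have hq0 : (0 : ℝ) < q := by exact_mod_cast hq
  rw [sum_eq_zero, mul_zero] at h
  · exact_mod_cast h
  · intro k hk
    have h1 : (1 : ℝ) ≤ |(k : ℝ)| := by exact_mod_cast Int.one_le_abs (ne_of_mem_erase hk)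
    rw [ew_tri_zero hq0 (by nlinarith)]
    simp

/-- Fourier expansion (`R29.psd_hasSum_expand`, `R29.psd_sum_kern`) -/
theorem rem_eq (hM : 2 ≤ M) {q Z : ℕ} (hq : 0 < q) (hZ : (q : ℝ) ≤ M * Z) :
    (rem M X q : ℂ) = ((M / q : ℝ) : ℂ) *
      ∑ k ∈ R29.Ibar Z, (R29.tri (M / 2) k q : ℂ) * R29.ee ((k : ℝ) * X / q) := by
  exact ew_cntA_eq hM hq hZ

theorem cntA_le (hM : 2 ≤ M) {q : ℕ} (hq : 0 < q) : cntA M X q ≤ M / q + 3 := by
  have hq0 : (0 : ℝ) < q := by exact_mod_cast hq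
  have hM0 : 0 < M := by linarith
  set Z := ⌊(q : ℝ) / M⌋₊ with hZ
  have hZ1 : (q : ℝ) / M < Z + 1 := Nat.lt_floor_add_one _
  have hZ2 : (Z : ℝ) ≤ q / M := Nat.floor_le (by positivity)
  rw [div_lt_iff₀ hM0] at hZ1
  rw [le_div_iff₀ hM0] at hZ2
  have h := ew_cntA_eq (X := X) hM hq (Z := Z + 1) (by push_cast; linarith)
  have h1 : ‖∑ k ∈ R29.Ibar (Z + 1), (R29.tri (M / 2) k q : ℂ) * R29.ee ((k : ℝ) * X / q)‖ ≤
      2 * Z := by
    have hsub : R29.Ibar Z ⊆ R29.Ibar (Z + 1) :=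
      erase_subset_erase _ (Icc_subset_Icc (by push_cast; omega) (by push_cast; omega))
    rw [← sum_subset hsub]
    · refine (norm_sum_le _ _).trans ((sum_le_card_nsmul _ _ 1 fun k _ => ?_).trans ?_)
      · rw [norm_mul, R29.norm_ee, mul_one, Complex.norm_real, Real.norm_eq_abs, R29.tri,
          abs_of_nonneg (le_max_left _ _)]
        refine max_le zero_le_one ?_
        have : 0 ≤ 2 * (M / 2) * |(k : ℝ)| / q := by positivity
        linarith
      · have : (R29.Ibar Z).card = 2 * Z := by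
          rw [R29.Ibar, card_erase_of_mem (by simp), Int.card_Icc]
          omega
        rw [this]
        simp
    · intro k hk hk'
      have h2 : (Z : ℤ) + 1 ≤ |k| := by
        simp only [R29.Ibar, mem_erase, mem_Icc] at hk hk'
        rcases abs_cases k with h3 | h3 <;> omega
      have h3 : (Z : ℝ) + 1 ≤ |(k : ℝ)| := by exact_mod_cast h2
      rw [ew_tri_zero hq0 (by nlinarith)]
      simp
  have h2 : |rem M X q| ≤ M / q * (2 * Z) := by
    rw [← Real.norm_eq_abs, ← Complex.norm_real, h, norm_mul, Complex.norm_real,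
      Real.norm_of_nonneg (by positivity)]
    gcongr
  have h3 : M / q * (2 * Z) ≤ 2 := by
    rw [div_mul_eq_mul_div, div_le_iff₀ hq0]
    linarith
  have h4 := (le_abs_self _).trans (h2.trans h3)
  unfold rem at h4
  linarith

/-- a sieve weight applied to the progression `τ ⊆ S` -/
theorem Ew_sieve (hM : 2 ≤ M) (hP : ∀ p ∈ P, p.Prime) {τ V : Finset ℕ} (hτ : τ ⊆ P) (hV : V ⊆ P)
    (hd : Disjoint τ V) (lam : Finset ℕ → ℝ) :
    Ew M X P (fun S => ∑ T ∈ V.powerset, lam T * ind (τ ∪ T) ∅ S) =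
      M * wt iv τ * ∑ T ∈ V.powerset, lam T * wt iv T +
        ∑ T ∈ V.powerset, lam T * rem M X (pd τ * pd T) := by
  rw [Ew_sum (by linarith), mul_sum, ← sum_add_distrib]
  refine sum_congr rfl fun T hT => ?_
  have hTV := mem_powerset.1 hT
  have h1 : pd (τ ∪ T) = pd τ * pd T := prod_union (hd.mono_right hTV)
  rw [Ew_mul, Ew_ind (union_subset hτ (hTV.trans hV)) hP, h1, wt_iv, wt_iv]
  unfold rem
  push_cast
  ring

theorem ew_sum_ind (τ V S : Finset ℕ) (lam : Finset ℕ → ℝ) :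
    ∑ T ∈ V.powerset, lam T * ind (τ ∪ T) ∅ S =
      (if τ ⊆ S then 1 else 0) * ∑ T ∈ (S ∩ V).powerset, lam T := by
  by_cases h : τ ⊆ S
  · have h1 : (S ∩ V).powerset = V.powerset.filter (fun T => T ⊆ S) := by
      ext T
      simp only [mem_powerset, mem_filter, subset_inter_iff, and_comm]
    rw [h1, sum_filter, if_pos h, one_mul]
    refine sum_congr rfl fun T _ => ?_
    simp [ind, union_subset_iff, h]
  · simp [ind, union_subset_iff, h]

/-- the fundamental lemma at exact level -/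
theorem Ew_FL (hM : 2 ≤ M) (hP : ∀ p ∈ P, p.Prime) {τ V : Finset ℕ} (hτ : τ ⊆ P) (hV : V ⊆ P)
    (hd : Disjoint τ V) {y D : ℝ} (hy : 2 ≤ y) (hVy : ∀ p ∈ V, (p : ℝ) ≤ y)
    (hD : y ^ (1 / 4 : ℝ) ≤ D) (hlev : pd τ * D ≤ M) :
    |Ew M X P (ind τ V) - M * wt iv τ * ∏ p ∈ V, (1 - iv p)| ≤
      Cfl * Real.exp (-(Real.log D / Real.log y) / Cfl) * (M * wt iv τ * ∏ p ∈ V, (1 - iv p)) := by
  have hM0 : 0 < M := by linarith
  have hVp : ∀ p ∈ V, p.Prime ∧ (p : ℝ) ≤ y := fun p hp => ⟨hP p (hV hp), hVy p hp⟩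
  have hg : ∀ p ∈ V, 0 ≤ iv p ∧ iv p ≤ 1 / 2 ∧ iv p ≤ 2 / p := fun p hp => by
    have h2 : (2 : ℝ) ≤ p := by exact_mod_cast (hVp p hp).1.two_le
    unfold iv
    exact ⟨by positivity, by gcongr, by gcongr; norm_num⟩
  have hw : 0 ≤ M * wt iv τ := by rw [wt_iv]; positivity
  have key : ∀ e : ℕ, (-1 : ℝ) ^ e * (M * wt iv τ * ∑ T ∈ V.powerset, flw e V y D T * wt iv T) ≤
      (-1 : ℝ) ^ e * Ew M X P (ind τ V) := by
    intro e
    obtain ⟨hsw, -⟩ := flw_spec e hy hVp hD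
    have h1 := Ew_sieve (X := X) hM hP hτ hV hd (flw e V y D)
    rw [sum_eq_zero (s := V.powerset)
      (f := fun T => flw e V y D T * rem M X (pd τ * pd T)), add_zero] at h1
    · rw [← h1, ← Ew_mul, ← Ew_mul]
      refine Ew_mono hM0 fun S _ => ?_
      rw [ew_sum_ind]
      have h2 := hsw.ineq (S ∩ V) inter_subset_right
      unfold ind
      by_cases h3 : τ ⊆ S
      · simpa only [h3, if_true, true_and, one_mul, disjoint_iff_inter_eq_empty] using h2
      · simp [h3]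
    · intro T hT
      by_cases h0 : flw e V y D T = 0
      · rw [h0, zero_mul]
      · obtain ⟨h2, h3⟩ := hsw.supp T h0
        have p1 := pd_pos fun p hp => hP p (hτ hp)
        have p2 := pd_pos fun p hp => hP p (hV (h2 hp))
        rw [rem_eq_zero hM (Nat.mul_pos p1 p2), mul_zero]
        push_cast
        exact le_trans (by gcongr) hlev
  have k0 := key 0
  have k1 := key 1
  have q0 := abs_le.1 ((flw_spec 0 hy hVp hD).2 iv hg)
  have q1 := abs_le.1 ((flw_spec 1 hy hVp hD).2 iv hg)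
  rw [pow_zero, one_mul, one_mul] at k0
  rw [pow_one, neg_one_mul, neg_one_mul, neg_le_neg_iff] at k1
  have a0 := mul_le_mul_of_nonneg_left q0.1 hw
  have a1 := mul_le_mul_of_nonneg_left q1.2 hw
  rw [abs_le]
  constructor <;> nlinarith

end Crest.Agent.R1
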