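import Crest.Agent.R1.Defs

/-!
# R1 / FLa: Bonferroni inequalities and the abstract Brun-Hooley sieve
-/

set_option autoImplicit false

namespace Crest.Agent.R1.FLa

open Finset
open scoped Classical

/-- truncated inclusion-exclusion sum -/
noncomputable def trunc (g : ℕ → ℝ) (m : ℕ) (P : Finset ℕ) : ℝ :=
  ∑ T ∈ P.powerset, if T.card ≤ m then (-1 : ℝ) ^ T.card * wt g T else 0

/-- elementary symmetric sum -/
noncomputable def esy (g : ℕ → ℝ) (k : ℕ) (P : Finset ℕ) : ℝ :=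
  ∑ T ∈ P.powerset, if T.card = k then wt g T else 0

theorem wt_insert (g : ℕ → ℝ) {p : ℕ} {T : Finset ℕ} (h : p ∉ T) :
    wt g (insert p T) = g p * wt g T := by
  unfold wt; rw [Finset.prod_insert h]

theorem trunc_zero (g : ℕ → ℝ) (P : Finset ℕ) : trunc g 0 P = 1 := by
  unfold trunc
  rw [Finset.sum_eq_single ∅]
  · simp [wt]
  · intro T _ hT
    have : ¬ T.card ≤ 0 := by
      intro h; exact hT (Finset.card_eq_zero.1 (Nat.le_zero.1 h))
    simp [this]
  · intro h; exact absurd (Finset.empty_mem_powerset P) h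

theorem trunc_empty (g : ℕ → ℝ) (m : ℕ) : trunc g m ∅ = 1 := by
  simp [trunc, wt]

theorem trunc_insert (g : ℕ → ℝ) (m : ℕ) {p : ℕ} {P : Finset ℕ} (h : p ∉ P) :
    trunc g (m + 1) (insert p P) = trunc g (m + 1) P - g p * trunc g m P := by
  unfold trunc
  rw [Finset.sum_powerset_insert h, sub_eq_add_neg, Finset.mul_sum, ← Finset.sum_neg_distrib]
  congr 1
  refine Finset.sum_congr rfl fun T hT => ?_
  have hp : p ∉ T := fun hp => h (Finset.mem_powerset.1 hT hp)
  rw [Finset.card_insert_of_notMem hp, wt_insert g hp]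
  by_cases hc : T.card ≤ m
  · rw [if_pos (by omega), if_pos hc]; ring
  · rw [if_neg (by omega), if_neg hc]; ring

theorem trunc_succ (g : ℕ → ℝ) (m : ℕ) (P : Finset ℕ) :
    trunc g (m + 1) P = trunc g m P + (-1 : ℝ) ^ (m + 1) * esy g (m + 1) P := by
  unfold trunc esy
  rw [Finset.mul_sum, ← Finset.sum_add_distrib]
  refine Finset.sum_congr rfl fun T _ => ?_
  by_cases h1 : T.card ≤ m
  · rw [if_pos (by omega), if_pos h1, if_neg (by omega)]; ring
  · by_cases h2 : T.card = m + 1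
    · rw [if_pos (by omega), if_neg h1, if_pos h2, h2]; ring
    · rw [if_neg (by omega), if_neg h1, if_neg h2]; ring

theorem trunc_sign (g : ℕ → ℝ) (P : Finset ℕ) (hg : ∀ p ∈ P, 0 ≤ g p ∧ g p ≤ 1) (m : ℕ) :
    0 ≤ (-1 : ℝ) ^ m * (trunc g m P - ∏ p ∈ P, (1 - g p)) := by
  induction P using Finset.induction_on generalizing m with
  | empty => simp [trunc_empty]
  | insert p P hp ih =>
    have hg' : ∀ q ∈ P, 0 ≤ g q ∧ g q ≤ 1 := fun q hq => hg q (Finset.mem_insert_of_mem hq)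
    have hgp := hg p (Finset.mem_insert_self p P)
    cases m with
    | zero =>
      rw [trunc_zero, pow_zero, one_mul, sub_nonneg]
      exact Finset.prod_le_one (fun q hq => by linarith [(hg q hq).2])
        (fun q hq => by linarith [(hg q hq).1])
    | succ m =>
      rw [trunc_insert g m hp, Finset.prod_insert hp]
      have h1 := ih hg' (m + 1)
      have h2 := mul_nonneg hgp.1 (ih hg' m)
      have : (-1 : ℝ) ^ (m + 1) * (trunc g (m + 1) P - g p * trunc g m P -
          (1 - g p) * ∏ q ∈ P, (1 - g q)) =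
          (-1 : ℝ) ^ (m + 1) * (trunc g (m + 1) P - ∏ q ∈ P, (1 - g q)) +
            g p * ((-1 : ℝ) ^ m * (trunc g m P - ∏ q ∈ P, (1 - g q))) := by
        rw [pow_succ]; ring
      rw [this]; linarith

theorem trunc_bounds (g : ℕ → ℝ) (P : Finset ℕ) (hg : ∀ p ∈ P, 0 ≤ g p ∧ g p ≤ 1) {m : ℕ}
    (hm : Even m) :
    ∏ p ∈ P, (1 - g p) ≤ trunc g m P ∧ trunc g m P ≤ ∏ p ∈ P, (1 - g p) + esy g (m + 1) P := by
  have h1 := trunc_sign g P hg m
  have h2 := trunc_sign g P hg (m + 1)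
  rw [trunc_succ, pow_succ, hm.neg_one_pow] at h2
  rw [hm.neg_one_pow] at h1
  constructor <;> linarith

theorem esy_nonneg (g : ℕ → ℝ) (P : Finset ℕ) (hg : ∀ p ∈ P, 0 ≤ g p) (k : ℕ) : 0 ≤ esy g k P := by
  unfold esy
  refine Finset.sum_nonneg fun T hT => ?_
  split_ifs
  · exact Finset.prod_nonneg fun p hp => hg p (Finset.mem_powerset.1 hT hp)
  · exact le_rfl

theorem esy_zero (g : ℕ → ℝ) (P : Finset ℕ) : esy g 0 P = 1 := by
  unfold esy
  rw [Finset.sum_eq_single ∅]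
  · simp [wt]
  · intro T _ hT
    have : ¬ T.card = 0 := fun h => hT (Finset.card_eq_zero.1 h)
    simp [this]
  · intro h; exact absurd (Finset.empty_mem_powerset P) h

theorem esy_insert (g : ℕ → ℝ) (k : ℕ) {p : ℕ} {P : Finset ℕ} (h : p ∉ P) :
    esy g (k + 1) (insert p P) = esy g (k + 1) P + g p * esy g k P := by
  unfold esy
  rw [Finset.sum_powerset_insert h, Finset.mul_sum]
  congr 1
  refine Finset.sum_congr rfl fun T hT => ?_
  have hp : p ∉ T := fun hp => h (Finset.mem_powerset.1 hT hp)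
  rw [Finset.card_insert_of_notMem hp, wt_insert g hp]
  by_cases hc : T.card = k
  · rw [if_pos (by omega), if_pos hc]
  · rw [if_neg (by omega), if_neg hc]; ring

theorem esy_le (g : ℕ → ℝ) (P : Finset ℕ) (hg : ∀ p ∈ P, 0 ≤ g p) (k : ℕ) :
    esy g k P ≤ (∑ p ∈ P, g p) ^ k / k.factorial := by
  induction P using Finset.induction_on generalizing k with
  | empty =>
    cases k with
    | zero => simp [esy_zero]
    | succ k => simp [esy]
  | insert p P hp ih =>
    have hg' : ∀ q ∈ P, 0 ≤ g q := fun q hq => hg q (Finset.mem_insert_of_mem hq)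
    have hgp := hg p (Finset.mem_insert_self p P)
    cases k with
    | zero => simp [esy_zero]
    | succ k =>
      rw [esy_insert g k hp, Finset.sum_insert hp]
      set s := ∑ q ∈ P, g q with hs
      have hs0 : 0 ≤ s := Finset.sum_nonneg hg'
      have h1 := ih hg' (k + 1)
      have h2 := mul_le_mul_of_nonneg_left (ih hg' k) hgp
      have h3 : s ^ (k + 1) + ((k + 1 : ℕ) : ℝ) * s ^ (k + 1 - 1) * g p ≤ (s + g p) ^ (k + 1) :=
        pow_add_mul_le_add_pow hs0 (by linarith) (k + 1)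
      have hf : (0 : ℝ) < (k.factorial : ℝ) := by exact_mod_cast k.factorial_pos
      have hk : (0 : ℝ) < ((k + 1 : ℕ) : ℝ) := by positivity
      have h4 : s ^ (k + 1) / ((k + 1).factorial : ℝ) + g p * (s ^ k / k.factorial) =
          (s ^ (k + 1) + ((k + 1 : ℕ) : ℝ) * s ^ (k + 1 - 1) * g p) / ((k + 1).factorial : ℝ) := by
        rw [Nat.factorial_succ, Nat.cast_mul, Nat.add_sub_cancel]
        field_simp
      have h5 : (s ^ (k + 1) + ((k + 1 : ℕ) : ℝ) * s ^ (k + 1 - 1) * g p) / ((k + 1).factorial : ℝ)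
          ≤ (g p + s) ^ (k + 1) / ((k + 1).factorial : ℝ) := by
        rw [add_comm (g p) s]
        exact div_le_div_of_nonneg_right h3 (by positivity)
      linarith

theorem esy_one (k : ℕ) (S : Finset ℕ) : esy (fun _ => 1) k S = (S.card.choose k : ℝ) := by
  unfold esy wt
  simp only [Finset.prod_const_one]
  rw [← Finset.sum_filter, Finset.sum_const, ← Finset.powersetCard_eq_filter,
    Finset.card_powersetCard]
  simp

theorem prod_one_sub_one (S : Finset ℕ) :
    ∏ _p ∈ S, ((1 : ℝ) - 1) = if S = ∅ then 1 else 0 := by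
  split_ifs with h
  · simp [h]
  · obtain ⟨p, hp⟩ := Finset.nonempty_iff_ne_empty.2 h
    exact Finset.prod_eq_zero hp (by ring)

theorem bonf (m : ℕ) (hm : Even m) (S : Finset ℕ) :
    (if S = ∅ then (1 : ℝ) else 0) ≤ ∑ T ∈ S.powerset.filter (fun T => T.card ≤ m), (-1 : ℝ) ^ T.card ∧
    ∑ T ∈ S.powerset.filter (fun T => T.card ≤ m), (-1 : ℝ) ^ T.card ≤
      (if S = ∅ then (1 : ℝ) else 0) + (S.card.choose (m + 1) : ℝ) := by
  have h := trunc_bounds (fun _ => 1) S (fun _ _ => ⟨zero_le_one, le_rfl⟩) hm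
  rw [esy_one, prod_one_sub_one] at h
  have e : trunc (fun _ => 1) m S =
      ∑ T ∈ S.powerset.filter (fun T => T.card ≤ m), (-1 : ℝ) ^ T.card := by
    unfold trunc wt
    rw [Finset.sum_filter]
    simp
  rwa [e] at h

/-- sums over the powerset of a disjoint union -/
theorem sum_powerset_union {A B : Finset ℕ} (h : Disjoint A B) (F : Finset ℕ → ℝ) :
    ∑ T ∈ (A ∪ B).powerset, F T = ∑ T₁ ∈ A.powerset, ∑ T₂ ∈ B.powerset, F (T₁ ∪ T₂) := by
  induction A using Finset.induction_on generalizing F with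
  | empty => simp
  | insert p A hp ih =>
    have hpB : p ∉ B := fun hb => Finset.disjoint_left.1 h (Finset.mem_insert_self p A) hb
    have hd : Disjoint A B := Finset.disjoint_of_subset_left (Finset.subset_insert p A) h
    have hpAB : p ∉ A ∪ B := by simp [hp, hpB]
    rw [Finset.insert_union, Finset.sum_powerset_insert hpAB, Finset.sum_powerset_insert hp,
      ih hd F, ih hd (fun T => F (insert p T))]
    simp only [Finset.insert_union]

/-- factorisation of block-multiplicative sums -/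
theorem sum_prod_blocks (b : ℕ → ℕ) (f : ℕ → Finset ℕ → ℝ) (J : Finset ℕ) :
    ∀ S : Finset ℕ, (∀ p ∈ S, b p ∈ J) →
      ∑ T ∈ S.powerset, ∏ j ∈ J, f j (T.filter (fun p => b p = j)) =
        ∏ j ∈ J, ∑ T ∈ (S.filter (fun p => b p = j)).powerset, f j T := by
  induction J using Finset.induction_on with
  | empty =>
    intro S hS
    have : S = ∅ := Finset.eq_empty_of_forall_notMem fun p hp => by simpa using hS p hp
    simp [this]
  | insert j J hj ih =>
    intro S hS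
    set A := S.filter (fun p => b p = j) with hA
    set B := S.filter (fun p => ¬ b p = j) with hB
    have hAB : A ∪ B = S := Finset.filter_union_filter_not_eq _ S
    have hd : Disjoint A B := Finset.disjoint_filter_filter_not S S _
    have hBJ : ∀ p ∈ B, b p ∈ J := by
      intro p hp
      rw [hB, Finset.mem_filter] at hp
      rcases Finset.mem_insert.1 (hS p hp.1) with h | h
      · exact absurd h hp.2
      · exact h
    have hBi : ∀ i ∈ J, B.filter (fun p => b p = i) = S.filter (fun p => b p = i) := by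
      intro i hi
      ext p
      simp only [hB, Finset.mem_filter]
      constructor
      · rintro ⟨⟨h1, _⟩, h2⟩; exact ⟨h1, h2⟩
      · rintro ⟨h1, h2⟩
        refine ⟨⟨h1, fun h3 => hj ?_⟩, h2⟩
        rw [← h3, h2]; exact hi
    rw [Finset.prod_insert hj]
    have e1 : ∏ i ∈ J, ∑ T ∈ (S.filter (fun p => b p = i)).powerset, f i T =
        ∑ T ∈ B.powerset, ∏ i ∈ J, f i (T.filter (fun p => b p = i)) := by
      rw [ih B hBJ]
      exact Finset.prod_congr rfl fun i hi => by rw [hBi i hi]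
    rw [e1, Finset.sum_mul_sum]
    conv_lhs => rw [← hAB]
    rw [sum_powerset_union hd]
    refine Finset.sum_congr rfl fun T₁ h₁ => Finset.sum_congr rfl fun T₂ h₂ => ?_
    have hT₁ : ∀ p ∈ T₁, b p = j := fun p hp =>
      (Finset.mem_filter.1 (Finset.mem_powerset.1 h₁ hp)).2
    have hT₂ : ∀ p ∈ T₂, ¬ b p = j := fun p hp =>
      (Finset.mem_filter.1 (Finset.mem_powerset.1 h₂ hp)).2
    rw [Finset.prod_insert hj]
    congr 1
    · congr 1
      rw [Finset.filter_union, Finset.filter_true_of_mem hT₁, Finset.filter_false_of_mem hT₂,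
        Finset.union_empty]
    · refine Finset.prod_congr rfl fun i hi => ?_
      congr 1
      rw [Finset.filter_union, Finset.filter_false_of_mem, Finset.empty_union]
      intro p hp h
      exact hj (by rw [← hT₁ p hp, h]; exact hi)

theorem wt_blocks (b : ℕ → ℕ) (g : ℕ → ℝ) (J T : Finset ℕ) (h : ∀ p ∈ T, b p ∈ J) :
    wt g T = ∏ j ∈ J, wt g (T.filter (fun p => b p = j)) := by
  unfold wt
  exact (Finset.prod_fiberwise_of_maps_to h g).symm

theorem prod_sub_prod_le (J : Finset ℕ) (U x : ℕ → ℝ) (h0 : ∀ j ∈ J, 0 ≤ x j)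
    (h1 : ∀ j ∈ J, x j ≤ U j) :
    ∏ j ∈ J, U j - ∏ j ∈ J, x j ≤ ∑ j ∈ J, (U j - x j) * ∏ i ∈ J.erase j, U i := by
  induction J using Finset.induction_on with
  | empty => simp
  | insert a J ha ih =>
    have h0' : ∀ j ∈ J, 0 ≤ x j := fun j hj => h0 j (Finset.mem_insert_of_mem hj)
    have h1' : ∀ j ∈ J, x j ≤ U j := fun j hj => h1 j (Finset.mem_insert_of_mem hj)
    have hxa := h0 a (Finset.mem_insert_self a J)
    have hUa := h1 a (Finset.mem_insert_self a J)
    have ih' := ih h0' h1'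
    have hle : ∏ j ∈ J, x j ≤ ∏ j ∈ J, U j := Finset.prod_le_prod h0' h1'
    rw [Finset.prod_insert ha, Finset.prod_insert ha, Finset.sum_insert ha,
      Finset.erase_insert ha]
    have e : ∑ j ∈ J, (U j - x j) * ∏ i ∈ (insert a J).erase j, U i =
        U a * ∑ j ∈ J, (U j - x j) * ∏ i ∈ J.erase j, U i := by
      rw [Finset.mul_sum]
      refine Finset.sum_congr rfl fun j hj => ?_
      have hne : a ≠ j := fun h => ha (h ▸ hj)
      rw [Finset.erase_insert_of_ne hne,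
        Finset.prod_insert (fun h => ha (Finset.mem_of_mem_erase h))]
      ring
    rw [e]
    have h2 := mul_le_mul_of_nonneg_left ih' (hxa.trans hUa)
    nlinarith [mul_nonneg (sub_nonneg.2 hUa) (sub_nonneg.2 hle)]

/-- block weights -/
noncomputable def uu (m : ℕ → ℕ) (j : ℕ) (T : Finset ℕ) : ℝ :=
  if T.card ≤ m j then (-1 : ℝ) ^ T.card else 0

noncomputable def vv (m : ℕ → ℕ) (j : ℕ) (T : Finset ℕ) : ℝ := if T.card = m j + 1 then 1 else 0

noncomputable def lamP (J : Finset ℕ) (b m : ℕ → ℕ) (T : Finset ℕ) : ℝ :=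
  ∏ j ∈ J, uu m j (T.filter (fun p => b p = j))

noncomputable def corr (J : Finset ℕ) (b m : ℕ → ℕ) (j : ℕ) (T : Finset ℕ) : ℝ :=
  vv m j (T.filter (fun p => b p = j)) * ∏ i ∈ J.erase j, uu m i (T.filter (fun p => b p = i))

noncomputable def lamM (J : Finset ℕ) (b m : ℕ → ℕ) (T : Finset ℕ) : ℝ :=
  lamP J b m T - ∑ j ∈ J, corr J b m j T

theorem abs_uu_le (m : ℕ → ℕ) (j : ℕ) (T : Finset ℕ) : |uu m j T| ≤ 1 := by
  unfold uu; split_ifs <;> simp

theorem abs_prod_uu_le (J : Finset ℕ) (b m : ℕ → ℕ) (T : Finset ℕ) :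
    |∏ j ∈ J, uu m j (T.filter (fun p => b p = j))| ≤ 1 := by
  rw [Finset.abs_prod]
  exact Finset.prod_le_one (fun _ _ => abs_nonneg _) fun j _ => abs_uu_le m j _

theorem abs_corr_le (J : Finset ℕ) (b m : ℕ → ℕ) (j : ℕ) (T : Finset ℕ) :
    |corr J b m j T| ≤ 1 := by
  unfold corr vv
  split_ifs
  · rw [one_mul]; exact abs_prod_uu_le _ b m T
  · simp

theorem lamM_cases (J : Finset ℕ) (b m : ℕ → ℕ) (T : Finset ℕ) :
    ((∀ j ∈ J, (T.filter (fun p => b p = j)).card ≤ m j) ∧ lamM J b m T = lamP J b m T) ∨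
      ∃ j ∈ J, m j < (T.filter (fun p => b p = j)).card ∧ lamM J b m T = - corr J b m j T := by
  by_cases h : ∀ j ∈ J, (T.filter (fun p => b p = j)).card ≤ m j
  · refine Or.inl ⟨h, ?_⟩
    unfold lamM
    rw [Finset.sum_eq_zero, sub_zero]
    intro j hj
    unfold corr vv
    rw [if_neg (by have := h j hj; omega), zero_mul]
  · push Not at h
    obtain ⟨j, hj, hlt⟩ := h
    refine Or.inr ⟨j, hj, hlt, ?_⟩
    have hu : uu m j (T.filter (fun p => b p = j)) = 0 := by
      unfold uu; rw [if_neg (by omega)]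
    unfold lamM lamP
    rw [Finset.prod_eq_zero hj hu, zero_sub, Finset.sum_eq_single j]
    · intro i _ hij
      unfold corr
      rw [Finset.prod_eq_zero (Finset.mem_erase.2 ⟨fun h => hij h.symm, hj⟩) hu, mul_zero]
    · intro h; exact absurd hj h

theorem sum_lamP (J : Finset ℕ) (b m : ℕ → ℕ) (g : ℕ → ℝ) (S : Finset ℕ) (hS : ∀ p ∈ S, b p ∈ J) :
    ∑ T ∈ S.powerset, lamP J b m T * wt g T =
      ∏ j ∈ J, trunc g (m j) (S.filter (fun p => b p = j)) := by
  have h := sum_prod_blocks b (fun j T => uu m j T * wt g T) J S hS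
  simp only [trunc]
  have e : ∀ j T, uu m j T * wt g T =
      if T.card ≤ m j then (-1 : ℝ) ^ T.card * wt g T else 0 := by
    intro j T; unfold uu; split_ifs <;> simp
  simp only [← e]
  rw [← h]
  refine Finset.sum_congr rfl fun T hT => ?_
  rw [Finset.prod_mul_distrib, ← wt_blocks b g J T
    (fun p hp => hS p (Finset.mem_powerset.1 hT hp))]
  rfl

theorem sum_corr (J : Finset ℕ) (b m : ℕ → ℕ) (g : ℕ → ℝ) (S : Finset ℕ) (hS : ∀ p ∈ S, b p ∈ J)
    {j : ℕ} (hj : j ∈ J) :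
    ∑ T ∈ S.powerset, corr J b m j T * wt g T =
      esy g (m j + 1) (S.filter (fun p => b p = j)) *
        ∏ i ∈ J.erase j, trunc g (m i) (S.filter (fun p => b p = i)) := by
  have h := sum_prod_blocks b
    (fun i T => (if i = j then vv m i T else uu m i T) * wt g T) J S hS
  rw [← Finset.mul_prod_erase J _ hj] at h
  have e1 : ∑ T ∈ (S.filter (fun p => b p = j)).powerset,
      (if j = j then vv m j T else uu m j T) * wt g T =
      esy g (m j + 1) (S.filter (fun p => b p = j)) := by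
    unfold esy vv
    refine Finset.sum_congr rfl fun T _ => ?_
    rw [if_pos rfl]; split_ifs <;> simp
  have e2 : ∏ i ∈ J.erase j, ∑ T ∈ (S.filter (fun p => b p = i)).powerset,
      (if i = j then vv m i T else uu m i T) * wt g T =
      ∏ i ∈ J.erase j, trunc g (m i) (S.filter (fun p => b p = i)) := by
    refine Finset.prod_congr rfl fun i hi => ?_
    unfold trunc uu
    refine Finset.sum_congr rfl fun T _ => ?_
    rw [if_neg (Finset.mem_erase.1 hi).1]; split_ifs <;> simp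
  rw [e1, e2] at h
  rw [← h]
  refine Finset.sum_congr rfl fun T hT => ?_
  rw [Finset.prod_mul_distrib, ← wt_blocks b g J T
    (fun p hp => hS p (Finset.mem_powerset.1 hT hp)), ← Finset.mul_prod_erase J _ hj, if_pos rfl]
  unfold corr
  congr 2
  exact Finset.prod_congr rfl fun i hi => by rw [if_neg (Finset.mem_erase.1 hi).1]

theorem sum_lamM (J : Finset ℕ) (b m : ℕ → ℕ) (g : ℕ → ℝ) (S : Finset ℕ) (hS : ∀ p ∈ S, b p ∈ J) :
    ∑ T ∈ S.powerset, lamM J b m T * wt g T =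
      ∏ j ∈ J, trunc g (m j) (S.filter (fun p => b p = j)) -
        ∑ j ∈ J, esy g (m j + 1) (S.filter (fun p => b p = j)) *
          ∏ i ∈ J.erase j, trunc g (m i) (S.filter (fun p => b p = i)) := by
  unfold lamM
  simp only [sub_mul, Finset.sum_sub_distrib, Finset.sum_mul]
  rw [sum_lamP J b m g S hS, Finset.sum_comm]
  congr 1
  exact Finset.sum_congr rfl fun j hj => sum_corr J b m g S hS hj

/-- both sieve inequalities with weights -/
theorem sieve_bounds (J : Finset ℕ) (b m : ℕ → ℕ) (hm : ∀ j, Even (m j)) (g : ℕ → ℝ)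
    (S : Finset ℕ) (hS : ∀ p ∈ S, b p ∈ J) (hg : ∀ p ∈ S, 0 ≤ g p ∧ g p ≤ 1) :
    ∑ T ∈ S.powerset, lamM J b m T * wt g T ≤ ∏ p ∈ S, (1 - g p) ∧
      ∏ p ∈ S, (1 - g p) ≤ ∑ T ∈ S.powerset, lamP J b m T * wt g T := by
  have hb : ∀ j, ∏ p ∈ S.filter (fun p => b p = j), (1 - g p) ≤
        trunc g (m j) (S.filter (fun p => b p = j)) ∧
      trunc g (m j) (S.filter (fun p => b p = j)) ≤ ∏ p ∈ S.filter (fun p => b p = j), (1 - g p) +
        esy g (m j + 1) (S.filter (fun p => b p = j)) := fun j =>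
    trunc_bounds g _ (fun p hp => hg p (Finset.mem_filter.1 hp).1) (hm j)
  have hx : ∀ j, 0 ≤ ∏ p ∈ S.filter (fun p => b p = j), (1 - g p) := fun j =>
    Finset.prod_nonneg fun p hp => by linarith [(hg p (Finset.mem_filter.1 hp).1).2]
  rw [sum_lamM J b m g S hS, sum_lamP J b m g S hS,
    ← Finset.prod_fiberwise_of_maps_to hS (fun p => 1 - g p)]
  refine ⟨?_, Finset.prod_le_prod (fun j _ => hx j) fun j _ => (hb j).1⟩
  have h := prod_sub_prod_le J (fun j => trunc g (m j) (S.filter (fun p => b p = j)))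
    (fun j => ∏ p ∈ S.filter (fun p => b p = j), (1 - g p)) (fun j _ => hx j) (fun j _ => (hb j).1)
  have h2 : ∑ j ∈ J, (trunc g (m j) (S.filter (fun p => b p = j)) -
        ∏ p ∈ S.filter (fun p => b p = j), (1 - g p)) *
        ∏ i ∈ J.erase j, trunc g (m i) (S.filter (fun p => b p = i)) ≤
      ∑ j ∈ J, esy g (m j + 1) (S.filter (fun p => b p = j)) *
        ∏ i ∈ J.erase j, trunc g (m i) (S.filter (fun p => b p = i)) := by
    refine Finset.sum_le_sum fun j _ => mul_le_mul_of_nonneg_right (by linarith [(hb j).2]) ?_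
    exact Finset.prod_nonneg fun i _ => (hx i).trans (hb i).1
  linarith

theorem exp_neg_two_mul_le {x : ℝ} (h0 : 0 ≤ x) (h1 : x ≤ 1 / 2) : Real.exp (-(2 * x)) ≤ 1 - x := by
  have h2 : 1 + 2 * x ≤ Real.exp (2 * x) := by linarith [Real.add_one_le_exp (2 * x)]
  rw [Real.exp_neg, inv_le_comm₀ (Real.exp_pos _) (by linarith)]
  refine le_trans ?_ h2
  rw [inv_eq_one_div, div_le_iff₀ (by linarith)]
  nlinarith

theorem esy_le_eps (g : ℕ → ℝ) (Q : Finset ℕ) (Λ : ℝ) (hg : ∀ p ∈ Q, 0 ≤ g p ∧ g p ≤ 1 / 2)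
    (hΛ : ∑ p ∈ Q, g p ≤ Λ) (k : ℕ) :
    esy g k Q ≤ Real.exp (2 * Λ) * Λ ^ k / k.factorial * ∏ p ∈ Q, (1 - g p) := by
  have hs0 : 0 ≤ ∑ p ∈ Q, g p := Finset.sum_nonneg fun p hp => (hg p hp).1
  have hΛ0 : 0 ≤ Λ := hs0.trans hΛ
  have h1 := esy_le g Q (fun p hp => (hg p hp).1) k
  have h2 : (∑ p ∈ Q, g p) ^ k / k.factorial ≤ Λ ^ k / k.factorial :=
    div_le_div_of_nonneg_right (pow_le_pow_left₀ hs0 hΛ k) (by positivity)
  have h3 : Real.exp (-(2 * Λ)) ≤ ∏ p ∈ Q, (1 - g p) := by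
    calc Real.exp (-(2 * Λ)) ≤ Real.exp (∑ p ∈ Q, -(2 * g p)) := by
          apply Real.exp_le_exp.2
          rw [Finset.sum_neg_distrib, ← Finset.mul_sum]; linarith
      _ = ∏ p ∈ Q, Real.exp (-(2 * g p)) := Real.exp_sum _ _
      _ ≤ ∏ p ∈ Q, (1 - g p) := Finset.prod_le_prod (fun _ _ => (Real.exp_pos _).le)
          fun p hp => exp_neg_two_mul_le (hg p hp).1 (hg p hp).2
  have h4 : 1 ≤ Real.exp (2 * Λ) * ∏ p ∈ Q, (1 - g p) := by
    calc (1 : ℝ) = Real.exp (2 * Λ) * Real.exp (-(2 * Λ)) := by rw [← Real.exp_add]; simp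
      _ ≤ _ := mul_le_mul_of_nonneg_left h3 (Real.exp_pos _).le
  have h5 : 0 ≤ Λ ^ k / k.factorial := by positivity
  calc esy g k Q ≤ Λ ^ k / k.factorial * 1 := by linarith
    _ ≤ Λ ^ k / k.factorial * (Real.exp (2 * Λ) * ∏ p ∈ Q, (1 - g p)) :=
        mul_le_mul_of_nonneg_left h4 h5
    _ = _ := by ring

theorem prod_one_add_le_exp' (J : Finset ℕ) (ε : ℕ → ℝ) (h : ∀ j ∈ J, 0 ≤ ε j) :
    ∏ j ∈ J, (1 + ε j) ≤ Real.exp (∑ j ∈ J, ε j) := by
  rw [Real.exp_sum]
  exact Finset.prod_le_prod (fun j hj => by linarith [h j hj])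
    fun j _ => by linarith [Real.add_one_le_exp (ε j)]

theorem exp_le_of_le_one {η : ℝ} (h0 : 0 ≤ η) (h1 : η ≤ 1) : Real.exp η ≤ 1 + 2 * η := by
  have h := Real.abs_exp_sub_one_le (x := η) (by rw [abs_of_nonneg h0]; exact h1)
  rw [abs_of_nonneg h0] at h
  linarith [le_abs_self (Real.exp η - 1)]

/-- abstract estimate of the main terms -/
theorem main_est (J : Finset ℕ) (U E x ε : ℕ → ℝ) (η : ℝ) (hx : ∀ j ∈ J, 0 ≤ x j)
    (hε : ∀ j ∈ J, 0 ≤ ε j) (h1 : ∀ j ∈ J, x j ≤ U j) (h2 : ∀ j ∈ J, U j ≤ x j + E j)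
    (h3 : ∀ j ∈ J, E j ≤ ε j * x j) (hη : ∑ j ∈ J, ε j ≤ η) (hη1 : η ≤ 1) :
    ∏ j ∈ J, U j ≤ (1 + 2 * η) * ∏ j ∈ J, x j ∧
      ∑ j ∈ J, E j * ∏ i ∈ J.erase j, U i ≤ 3 * η * ∏ j ∈ J, x j := by
  have hη0 : 0 ≤ η := (Finset.sum_nonneg hε).trans hη
  have key : ∀ K ⊆ J, ∏ j ∈ K, U j ≤ (1 + 2 * η) * ∏ j ∈ K, x j := by
    intro K hK
    have a1 : ∏ j ∈ K, U j ≤ ∏ j ∈ K, ((1 + ε j) * x j) :=
      Finset.prod_le_prod (fun j hj => (hx j (hK hj)).trans (h1 j (hK hj)))
        fun j hj => by linarith [h2 j (hK hj), h3 j (hK hj)]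
    rw [Finset.prod_mul_distrib] at a1
    have a2 : ∏ j ∈ K, (1 + ε j) ≤ 1 + 2 * η := by
      refine (prod_one_add_le_exp' K ε fun j hj => hε j (hK hj)).trans ?_
      refine le_trans (Real.exp_le_exp.2 ?_) (exp_le_of_le_one hη0 hη1)
      exact (Finset.sum_le_sum_of_subset_of_nonneg hK fun j hj _ => hε j hj).trans hη
    exact a1.trans (mul_le_mul_of_nonneg_right a2
      (Finset.prod_nonneg fun j hj => hx j (hK hj)))
  refine ⟨key J subset_rfl, ?_⟩
  have hV : 0 ≤ ∏ j ∈ J, x j := Finset.prod_nonneg hx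
  have a3 : ∀ j ∈ J, E j * ∏ i ∈ J.erase j, U i ≤ ε j * (3 * ∏ i ∈ J, x i) := by
    intro j hj
    have b1 : 0 ≤ ∏ i ∈ J.erase j, U i := Finset.prod_nonneg fun i hi =>
      (hx i (Finset.mem_of_mem_erase hi)).trans (h1 i (Finset.mem_of_mem_erase hi))
    have b2 : 0 ≤ ∏ i ∈ J.erase j, x i :=
      Finset.prod_nonneg fun i hi => hx i (Finset.mem_of_mem_erase hi)
    have b3 : ∏ i ∈ J.erase j, U i ≤ 3 * ∏ i ∈ J.erase j, x i :=
      (key _ (Finset.erase_subset j J)).trans (mul_le_mul_of_nonneg_right (by linarith) b2)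
    calc E j * ∏ i ∈ J.erase j, U i ≤ (ε j * x j) * ∏ i ∈ J.erase j, U i :=
          mul_le_mul_of_nonneg_right (h3 j hj) b1
      _ ≤ (ε j * x j) * (3 * ∏ i ∈ J.erase j, x i) :=
          mul_le_mul_of_nonneg_left b3 (mul_nonneg (hε j hj) (hx j hj))
      _ = ε j * (3 * ∏ i ∈ J, x i) := by rw [← Finset.mul_prod_erase J x hj]; ring
  calc ∑ j ∈ J, E j * ∏ i ∈ J.erase j, U i ≤ ∑ j ∈ J, ε j * (3 * ∏ i ∈ J, x i) :=
        Finset.sum_le_sum a3
    _ = (∑ j ∈ J, ε j) * (3 * ∏ i ∈ J, x i) := by rw [Finset.sum_mul]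
    _ ≤ η * (3 * ∏ i ∈ J, x i) := mul_le_mul_of_nonneg_right hη (by positivity)
    _ = _ := by ring

theorem main_terms (P : Finset ℕ) (b m : ℕ → ℕ) (hm : ∀ j, Even (m j)) (g : ℕ → ℝ) (Λ η : ℝ)
    (hg : ∀ p ∈ P, 0 ≤ g p ∧ g p ≤ 1 / 2)
    (hΛ : ∀ j, ∑ p ∈ P.filter (fun p => b p = j), g p ≤ Λ)
    (hη : ∑ j ∈ P.image b, Real.exp (2 * Λ) * Λ ^ (m j + 1) / (m j + 1).factorial ≤ η)
    (hη1 : η ≤ 1) :
    |∑ T ∈ P.powerset, lamM (P.image b) b m T * wt g T - ∏ p ∈ P, (1 - g p)| ≤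
        10 * η * ∏ p ∈ P, (1 - g p) ∧
      |∑ T ∈ P.powerset, lamP (P.image b) b m T * wt g T - ∏ p ∈ P, (1 - g p)| ≤
        10 * η * ∏ p ∈ P, (1 - g p) := by
  have hS : ∀ p ∈ P, b p ∈ P.image b := fun p hp => Finset.mem_image_of_mem b hp
  have hg1 : ∀ p ∈ P, 0 ≤ g p ∧ g p ≤ 1 := fun p hp => ⟨(hg p hp).1, by linarith [(hg p hp).2]⟩
  have hΛ0 : 0 ≤ Λ := (Finset.sum_nonneg fun p hp => (hg p (Finset.mem_filter.1 hp).1).1).trans (hΛ 0)
  have hε : ∀ j ∈ P.image b,
      0 ≤ Real.exp (2 * Λ) * Λ ^ (m j + 1) / ((m j + 1).factorial : ℝ) := fun j _ => by positivity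
  have hη0 : 0 ≤ η := (Finset.sum_nonneg hε).trans hη
  have hb := fun j => trunc_bounds g (P.filter (fun p => b p = j))
    (fun p hp => hg1 p (Finset.mem_filter.1 hp).1) (hm j)
  have hx : ∀ j, 0 ≤ ∏ p ∈ P.filter (fun p => b p = j), (1 - g p) := fun j =>
    Finset.prod_nonneg fun p hp => by linarith [(hg1 p (Finset.mem_filter.1 hp).1).2]
  have hest := main_est (P.image b) (fun j => trunc g (m j) (P.filter (fun p => b p = j)))
    (fun j => esy g (m j + 1) (P.filter (fun p => b p = j)))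
    (fun j => ∏ p ∈ P.filter (fun p => b p = j), (1 - g p))
    (fun j => Real.exp (2 * Λ) * Λ ^ (m j + 1) / ((m j + 1).factorial : ℝ)) η
    (fun j _ => hx j) hε (fun j _ => (hb j).1) (fun j _ => (hb j).2)
    (fun j _ => esy_le_eps g _ Λ (fun p hp => hg p (Finset.mem_filter.1 hp).1) (hΛ j) _) hη hη1
  rw [Finset.prod_fiberwise_of_maps_to hS (fun p => 1 - g p)] at hest
  have hs := sieve_bounds (P.image b) b m hm g P hS hg1
  have hV : 0 ≤ ∏ p ∈ P, (1 - g p) := Finset.prod_nonneg fun p hp => by linarith [(hg1 p hp).2]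
  have hηV := mul_nonneg hη0 hV
  have e1 := sum_lamM (P.image b) b m g P hS
  have e2 := sum_lamP (P.image b) b m g P hS
  constructor
  · rw [abs_le]; constructor <;> nlinarith [hs.1, hs.2, hest.1, hest.2]
  · rw [abs_le]; constructor <;> nlinarith [hs.1, hs.2, hest.1, hest.2]

theorem brun_hooley (e : ℕ) (P : Finset ℕ) (b m : ℕ → ℕ) (hm : ∀ j, Even (m j)) :
    ∃ lam : Finset ℕ → ℝ, (∀ T, |lam T| ≤ 1) ∧
      (∀ T, lam T ≠ 0 → T ⊆ P ∧ ∀ j, (T.filter (fun p => b p = j)).card ≤ m j + 1) ∧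
      (∀ S ⊆ P, (-1 : ℝ) ^ e * ∑ T ∈ S.powerset, lam T ≤ (-1 : ℝ) ^ e * (if S = ∅ then 1 else 0)) ∧
      ∀ (g : ℕ → ℝ) (Λ η : ℝ), (∀ p ∈ P, 0 ≤ g p ∧ g p ≤ 1 / 2) →
        (∀ j, ∑ p ∈ P.filter (fun p => b p = j), g p ≤ Λ) →
        ∑ j ∈ P.image b, Real.exp (2 * Λ) * Λ ^ (m j + 1) / (m j + 1).factorial ≤ η → η ≤ 1 →
        |∑ T ∈ P.powerset, lam T * wt g T - ∏ p ∈ P, (1 - g p)| ≤ 10 * η * ∏ p ∈ P, (1 - g p) := by
  set J := P.image b with hJ
  have hout : ∀ T ⊆ P, ∀ j, j ∉ J → (T.filter (fun p => b p = j)).card ≤ m j + 1 := by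
    intro T hT j hj
    rw [Finset.filter_false_of_mem]
    · simp
    · intro p hp h
      exact hj (h ▸ Finset.mem_image_of_mem b (hT hp))
  have hprod : ∀ (K : Finset ℕ) (T : Finset ℕ),
      ∏ j ∈ K, uu m j (T.filter (fun p => b p = j)) ≠ 0 →
      ∀ j ∈ K, (T.filter (fun p => b p = j)).card ≤ m j := by
    intro K T h j hj
    have := Finset.prod_ne_zero_iff.1 h j hj
    by_contra hc
    exact this (by unfold uu; rw [if_neg hc])
  have hsv : ∀ S ⊆ P, ∑ T ∈ S.powerset, lamM J b m T ≤ (if S = ∅ then 1 else 0) ∧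
      (if S = ∅ then (1 : ℝ) else 0) ≤ ∑ T ∈ S.powerset, lamP J b m T := by
    intro S hS
    have h := sieve_bounds J b m hm (fun _ => 1) S
      (fun p hp => Finset.mem_image_of_mem b (hS hp)) (fun _ _ => ⟨zero_le_one, le_rfl⟩)
    rw [prod_one_sub_one] at h
    simpa [wt] using h
  have hres : ∀ (l : Finset ℕ → ℝ) (S : Finset ℕ), S ⊆ P → ∀ w : Finset ℕ → ℝ,
      ∑ T ∈ S.powerset, (if T ⊆ P then l T else 0) * w T = ∑ T ∈ S.powerset, l T * w T := by
    intro l S hS w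
    exact Finset.sum_congr rfl fun T hT => by rw [if_pos ((Finset.mem_powerset.1 hT).trans hS)]
  rcases Nat.even_or_odd e with he | he
  · refine ⟨fun T => if T ⊆ P then lamM J b m T else 0, fun T => ?_, fun T hT => ?_,
      fun S hS => ?_, fun g Λ η hg hΛ hη hη1 => ?_⟩
    · dsimp only
      split_ifs
      · rcases lamM_cases J b m T with ⟨_, h⟩ | ⟨j, _, _, h⟩
        · rw [h]; exact abs_prod_uu_le J b m T
        · rw [h, abs_neg]; exact abs_corr_le J b m j T
      · simp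
    · dsimp only at hT
      have hTP : T ⊆ P := by by_contra hc; exact hT (if_neg hc)
      rw [if_pos hTP] at hT
      refine ⟨hTP, fun j => ?_⟩
      by_cases hj : j ∈ J
      swap
      · exact hout T hTP j hj
      rcases lamM_cases J b m T with ⟨h, _⟩ | ⟨i, _, _, h⟩
      · exact (h j hj).trans (Nat.le_succ _)
      · rw [h, neg_ne_zero] at hT
        unfold corr at hT
        by_cases hji : j = i
        · subst hji
          have := left_ne_zero_of_mul hT
          by_contra hc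
          exact this (by unfold vv; rw [if_neg (by omega)])
        · exact (hprod _ T (right_ne_zero_of_mul hT) j
            (Finset.mem_erase.2 ⟨hji, hj⟩)).trans (Nat.le_succ _)
    · have h := hres (lamM J b m) S hS (fun _ => 1)
      simp only [mul_one] at h
      rw [he.neg_one_pow, one_mul, one_mul, h]
      exact (hsv S hS).1
    · rw [hres (lamM J b m) P subset_rfl (wt g)]
      exact (main_terms P b m hm g Λ η hg hΛ hη hη1).1
  · refine ⟨fun T => if T ⊆ P then lamP J b m T else 0, fun T => ?_, fun T hT => ?_,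
      fun S hS => ?_, fun g Λ η hg hΛ hη hη1 => ?_⟩
    · dsimp only
      split_ifs
      · exact abs_prod_uu_le J b m T
      · simp
    · dsimp only at hT
      have hTP : T ⊆ P := by by_contra hc; exact hT (if_neg hc)
      rw [if_pos hTP] at hT
      refine ⟨hTP, fun j => ?_⟩
      by_cases hj : j ∈ J
      · exact (hprod J T hT j hj).trans (Nat.le_succ _)
      · exact hout T hTP j hj
    · have h := hres (lamP J b m) S hS (fun _ => 1)
      simp only [mul_one] at h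
      rw [he.neg_one_pow, h]
      linarith [(hsv S hS).2]
    · rw [hres (lamP J b m) P subset_rfl (wt g)]
      exact (main_terms P b m hm g Λ η hg hΛ hη hη1).2

end Crest.Agent.R1.FLa
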