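import Crest.Agent.R1.Defs
import Crest.Agent.R1.FLa

/-!
# R1 / FL: the fundamental lemma of sieve theory (Brun-Hooley weights)
-/

set_option autoImplicit false

namespace Crest.Agent.R1

open Finset
open scoped Classical

/-- Bonferroni in one block: for even `m`, `U(S) = ∑_{T ⊆ S, |T| ≤ m} (-1)^|T|` satisfies
`[S = ∅] ≤ U(S) ≤ [S = ∅] + (|S| choose (m+1))` -/
theorem bonf (m : ℕ) (hm : Even m) (S : Finset ℕ) :
    (if S = ∅ then (1 : ℝ) else 0) ≤ ∑ T ∈ S.powerset.filter (fun T => T.card ≤ m), (-1 : ℝ) ^ T.card ∧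
    ∑ T ∈ S.powerset.filter (fun T => T.card ≤ m), (-1 : ℝ) ^ T.card ≤
      (if S = ∅ then (1 : ℝ) else 0) + (S.card.choose (m + 1) : ℝ) :=
  FLa.bonf m hm S

/-- abstract Brun-Hooley.  Blocks are the fibres of `b : ℕ → ℕ` on `P`; block `j` is truncated at
the even number `m j`.  `lam⁺ T = (-1)^|T| [∀ j, |T_j| ≤ m j]`,
`lam⁻ T = lam⁺ T - ∑_j (-1)^{|T \ T_j|} [|T_j| = m j + 1, ∀ i ≠ j, |T_i| ≤ m i]`.
If every block has `g`-mass at most `Λ` and `ε j = e^{2Λ} Λ^{m j+1}/(m j+1)!` has `∑ ε j ≤ η ≤ 1`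
then both main terms are `V (1 + O(η))`. -/
theorem brun_hooley (e : ℕ) (P : Finset ℕ) (b m : ℕ → ℕ) (hm : ∀ j, Even (m j)) :
    ∃ lam : Finset ℕ → ℝ, (∀ T, |lam T| ≤ 1) ∧
      (∀ T, lam T ≠ 0 → T ⊆ P ∧ ∀ j, (T.filter (fun p => b p = j)).card ≤ m j + 1) ∧
      (∀ S ⊆ P, (-1 : ℝ) ^ e * ∑ T ∈ S.powerset, lam T ≤ (-1 : ℝ) ^ e * (if S = ∅ then 1 else 0)) ∧
      ∀ (g : ℕ → ℝ) (Λ η : ℝ), (∀ p ∈ P, 0 ≤ g p ∧ g p ≤ 1 / 2) →
        (∀ j, ∑ p ∈ P.filter (fun p => b p = j), g p ≤ Λ) →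
        ∑ j ∈ P.image b, Real.exp (2 * Λ) * Λ ^ (m j + 1) / (m j + 1).factorial ≤ η → η ≤ 1 →
        |∑ T ∈ P.powerset, lam T * wt g T - ∏ p ∈ P, (1 - g p)| ≤ 10 * η * ∏ p ∈ P, (1 - g p) :=
  FLa.brun_hooley e P b m hm

/-- primes with `u ≤ log p ≤ K u` have bounded reciprocal sum -/
theorem flb_win (S : Finset ℕ) {u K : ℝ} (hK : 0 ≤ K)
    (hS : ∀ p ∈ S, p.Prime ∧ u ≤ Real.log p ∧ Real.log p ≤ K * u) :
    ∑ p ∈ S, 1 / (p : ℝ) ≤ K + 15 := by
  have h2 : (0.69 : ℝ) < Real.log 2 := by linarith [Real.log_two_gt_d9]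
  obtain ⟨v, hv⟩ : ∃ v, v = max u (Real.log 2) := ⟨_, rfl⟩
  have hv2 : Real.log 2 ≤ v := hv ▸ le_max_right _ _
  have hvu : u ≤ v := hv ▸ le_max_left _ _
  have hv0 : 0 < v := by linarith
  have hm := R29.mertens_upper (y := Real.exp (K * v)) (Real.one_le_exp (by positivity))
  rw [Real.log_exp] at hm
  have hsub : S ⊆ R29.primesUpTo (Real.exp (K * v)) := fun p hp => by
    obtain ⟨h1, -, h3⟩ := hS p hp
    refine (R29.mem_primesUpTo (Real.exp_pos _).le).2 ⟨h1, ?_⟩
    rw [← Real.log_le_iff_le_exp (by exact_mod_cast h1.pos)]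
    exact h3.trans (mul_le_mul_of_nonneg_left hvu hK)
  have h1 : ∑ p ∈ S, Real.log p / p ≤ K * v + 10 :=
    (sum_le_sum_of_subset_of_nonneg hsub fun p _ _ =>
      div_nonneg (Real.log_natCast_nonneg p) (Nat.cast_nonneg p)).trans hm
  have h3 : v * ∑ p ∈ S, 1 / (p : ℝ) ≤ ∑ p ∈ S, Real.log p / p := by
    rw [mul_sum]
    refine sum_le_sum fun p hp => ?_
    obtain ⟨a1, a2, -⟩ := hS p hp
    rw [mul_one_div]
    refine div_le_div_of_nonneg_right ?_ (Nat.cast_nonneg p)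
    rw [hv]
    exact max_le a2 (Real.log_le_log (by norm_num) (by exact_mod_cast a1.two_le))
  refine le_of_mul_le_mul_left (h3.trans (h1.trans ?_)) hv0
  nlinarith

/-- the fundamental lemma for `s ≥ 400` -/
theorem flb_big (e : ℕ) (P : Finset ℕ) {y D : ℝ} (hy : 1 < y) (hD : 0 < D)
    (hP : ∀ p ∈ P, p.Prime ∧ (p : ℝ) ≤ y) (hs : 400 ≤ Real.log D / Real.log y) :
    ∃ lam, IsSW e P D lam ∧ ∀ g : ℕ → ℝ, (∀ p ∈ P, 0 ≤ g p ∧ g p ≤ 1 / 2 ∧ g p ≤ 2 / p) →
      |∑ T ∈ P.powerset, lam T * wt g T - ∏ p ∈ P, (1 - g p)| ≤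
        10 * Real.exp (175 - Real.log D / Real.log y / 2) * ∏ p ∈ P, (1 - g p) := by
  have hL : 0 < Real.log y := Real.log_pos hy
  obtain ⟨s, hsd⟩ : ∃ s, s = Real.log D / Real.log y := ⟨_, rfl⟩
  rw [← hsd] at hs ⊢
  obtain ⟨n, hn⟩ : ∃ n : ℕ, n = ⌊(s - 6) / 4⌋₊ := ⟨_, rfl⟩
  have hn1 : (n : ℝ) ≤ (s - 6) / 4 := hn ▸ Nat.floor_le (by linarith)
  have hn2 : (s - 6) / 4 < n + 1 := hn ▸ Nat.lt_floor_add_one _
  obtain ⟨b, hb⟩ : ∃ b : ℕ → ℕ, ∀ p, b p = Nat.log 2 ⌊Real.log y / Real.log p⌋₊ :=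
    ⟨_, fun _ => rfl⟩
  have hbp : ∀ p ∈ P, Real.log y / 2 ^ (b p + 1) ≤ Real.log p ∧
      Real.log p ≤ Real.log y / 2 ^ b p := by
    intro p hp
    obtain ⟨h1, h2⟩ := hP p hp
    have hp0 : (0 : ℝ) < p := by exact_mod_cast h1.pos
    have hl : 0 < Real.log p := Real.log_pos (by exact_mod_cast h1.one_lt)
    have h3 : 1 ≤ Real.log y / Real.log p := (one_le_div hl).2 (Real.log_le_log hp0 h2)
    have h4 : ⌊Real.log y / Real.log p⌋₊ ≠ 0 := (Nat.floor_pos.2 h3).ne'
    have h5 := Nat.pow_log_le_self 2 h4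
    have h6 := Nat.lt_pow_succ_log_self (by norm_num : 1 < 2) ⌊Real.log y / Real.log p⌋₊
    rw [← hb] at h5 h6
    have h7 : (2 : ℝ) ^ b p ≤ Real.log y / Real.log p := by
      have := (Nat.le_floor_iff (by linarith)).1 h5
      exact_mod_cast this
    have h8 : Real.log y / Real.log p < (2 : ℝ) ^ (b p + 1) := by
      have := (Nat.floor_lt (by linarith)).1 h6
      exact_mod_cast this
    rw [le_div_iff₀ hl] at h7
    rw [div_lt_iff₀ hl] at h8
    rw [div_le_iff₀ (by positivity), le_div_iff₀ (by positivity)]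
    constructor <;> linarith
  obtain ⟨lam, h1, h2, h3, h4⟩ := brun_hooley e P b (fun j => 2 * n + 2 * j)
    (fun j => ⟨n + j, by ring⟩)
  refine ⟨lam, ⟨h1, fun T hT => ⟨(h2 T hT).1, ?_⟩, h3⟩, fun g hg => ?_⟩
  · obtain ⟨hTP, hc⟩ := h2 T hT
    have hpos : ∀ p ∈ T, (0 : ℝ) < p := fun p hp => by exact_mod_cast (hP p (hTP hp)).1.pos
    have hpd : (pd T : ℝ) = ∏ p ∈ T, (p : ℝ) := by simp [pd]
    rw [hpd, ← Real.log_le_log_iff (prod_pos hpos) hD, Real.log_prod fun p hp => (hpos p hp).ne',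
      ← sum_fiberwise_of_maps_to (t := T.image b) (g := b) fun p hp => mem_image_of_mem b hp]
    have hsum : HasSum (fun j : ℕ => ((2 * n + 1) * (1 / 2 : ℝ) ^ j + 2 * (j * (1 / 2 : ℝ) ^ j))
        * Real.log y) (((2 * n + 1) * 2 + 2 * ((1 / 2) / (1 - 1 / 2) ^ 2)) * Real.log y) :=
      ((hasSum_geometric_two.mul_left _).add ((hasSum_coe_mul_geometric_of_norm_lt_one
        (r := (1 / 2 : ℝ)) (by norm_num)).mul_left 2)).mul_right _
    refine le_trans (sum_le_sum fun j _ => ?_)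
      ((sum_le_hasSum _ (fun j _ => by positivity) hsum).trans ?_)
    · refine (sum_le_card_nsmul _ _ (Real.log y / 2 ^ j) fun p hp => ?_).trans ?_
      · rw [mem_filter] at hp
        rw [← hp.2]
        exact (hbp p (hTP hp.1)).2
      · have : ((T.filter fun p => b p = j).card : ℝ) ≤ 2 * n + 2 * j + 1 := by
          exact_mod_cast hc j
        rw [nsmul_eq_mul]
        refine (mul_le_mul_of_nonneg_right this (by positivity)).trans (le_of_eq ?_)
        rw [one_div, inv_pow]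
        field_simp
        ring
    · rw [← le_div_iff₀ hL, ← hsd]
      norm_num
      linarith
  · refine (h4 g 34 (Real.exp (175 - s / 2)) (fun p hp => ⟨(hg p hp).1, (hg p hp).2.1⟩)
      (fun j => ?_) ?_ (Real.exp_le_one_iff.2 (by linarith)))
    · have h := flb_win (P.filter fun p => b p = j) (u := Real.log y / 2 ^ (j + 1)) (K := 2)
        (by norm_num) fun p hp => by
          rw [mem_filter] at hp
          obtain ⟨a1, a2⟩ := hbp p hp.1
          rw [hp.2] at a1 a2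
          refine ⟨(hP p hp.1).1, a1, a2.trans (le_of_eq ?_)⟩
          field_simp
          ring
      calc _ ≤ ∑ p ∈ P.filter (fun p => b p = j), 2 * (1 / (p : ℝ)) :=
            sum_le_sum fun p hp => by
              rw [mul_one_div]
              exact (hg p (mem_filter.1 hp).1).2.2
        _ ≤ 34 := by
            rw [← mul_sum]
            linarith
    · have hsum := hasSum_geometric_two.mul_left (Real.exp (175 - s / 2) / 2)
      refine le_trans (sum_le_sum fun j _ => ?_)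
        ((sum_le_hasSum _ (fun j _ => by positivity) hsum).trans (le_of_eq (by ring)))
      have a1 := Real.pow_div_factorial_le_exp (Real.exp 1 * 34) (by positivity) (2 * n + 2 * j + 1)
      have a2 : Real.exp (Real.exp 1 * 34) ≤ Real.exp 102 :=
        Real.exp_le_exp.2 (by linarith [Real.exp_one_lt_d9])
      rw [mul_pow, ← Real.exp_nat_mul, mul_one, mul_div_assoc, ← le_div_iff₀' (Real.exp_pos _)] at a1
      have a3 : (2 : ℝ) ^ (j + 1) ≤ Real.exp (j + 1 : ℕ) := by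
        rw [← mul_one ((j + 1 : ℕ) : ℝ), Real.exp_nat_mul]
        exact pow_le_pow_left₀ (by norm_num) (by linarith [Real.exp_one_gt_d9]) _
      rw [mul_div_assoc]
      refine (mul_le_mul_of_nonneg_left (a1.trans (div_le_div_of_nonneg_right a2
        (Real.exp_pos _).le)) (Real.exp_pos _).le).trans ?_
      have a4 : Real.exp (175 - s / 2) / 2 * (1 / 2) ^ j = Real.exp (175 - s / 2) / 2 ^ (j + 1) := by
        rw [one_div, inv_pow]
        field_simp
        ring
      rw [a4]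
      refine le_trans ?_ (div_le_div_of_nonneg_left (Real.exp_pos _).le (by positivity) a3)
      rw [← Real.exp_sub, ← Real.exp_add, ← Real.exp_sub]
      refine Real.exp_le_exp.2 ?_
      push_cast
      linarith [(Nat.cast_nonneg j : (0 : ℝ) ≤ j)]

theorem flb_prod (S : Finset ℕ) (g : ℕ → ℝ) (hg : ∀ p ∈ S, 0 ≤ g p ∧ g p ≤ 1 / 2) :
    Real.exp (-(2 * ∑ p ∈ S, g p)) ≤ ∏ p ∈ S, (1 - g p) := by
  rw [mul_sum, ← sum_neg_distrib, Real.exp_sum]
  refine prod_le_prod (fun p _ => (Real.exp_pos _).le) fun p hp => ?_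
  obtain ⟨h1, h2⟩ := hg p hp
  rw [Real.exp_neg, inv_le_iff_one_le_mul₀ (Real.exp_pos _)]
  have := mul_le_mul_of_nonneg_left (Real.add_one_le_exp (2 * g p)) (by linarith : 0 ≤ 1 - g p)
  nlinarith

/-- **Fundamental lemma.**  Blocks `y^{2^{-j-1}} < p ≤ y^{2^{-j}}` have `∑ 1/p ≤ C` (Mertens; see
`R16.Primes`, `R20.mertens2_upper`, `R29.mertens_upper`), `m j = m₀ + 2 j` with `m₀ ≈ s/4` even gives
level `y^{2 m₀ + 6}`.  For `s ≤ s₀`: lower weight `0`, upper weight = weight for the primes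
`≤ D^{1/s₀}` only (the omitted primes change `∏ (1 - g)` by a bounded factor). -/
theorem exists_FL : ∃ C : ℝ, 1 ≤ C ∧ ∀ (e : ℕ) (P : Finset ℕ) (y D : ℝ), 2 ≤ y →
    (∀ p ∈ P, p.Prime ∧ (p : ℝ) ≤ y) → y ^ (1 / 4 : ℝ) ≤ D →
    ∃ lam, IsSW e P D lam ∧ Qual C P (Real.log D / Real.log y) lam := by
  obtain ⟨K₁, hK₁⟩ : ∃ K₁, K₁ = 10 * Real.exp 175 := ⟨_, rfl⟩
  obtain ⟨E, hE⟩ : ∃ E, E = Real.exp 6460 := ⟨_, rfl⟩
  have hK0 : 0 < K₁ := by rw [hK₁]; positivity
  have hE1 : 1 ≤ E := hE ▸ Real.one_le_exp (by norm_num)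
  have hK2 : 1 ≤ (K₁ + 2) * E := one_le_mul_of_one_le_of_one_le (by linarith) hE1
  obtain ⟨C, hC⟩ : ∃ C, C = 3 * ((K₁ + 2) * E) + K₁ + 400 := ⟨_, rfl⟩
  have hC4 : 400 ≤ C := by linarith
  refine ⟨C, by linarith, fun e P y D hy hP hD => ?_⟩
  have hL : 0 < Real.log y := Real.log_pos (by linarith)
  have hD0 : 0 < D := lt_of_lt_of_le (by positivity) hD
  have hDy : Real.log y / 4 ≤ Real.log D := by
    have := Real.log_le_log (by positivity) hD
    rw [Real.log_rpow (by linarith)] at this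
    linarith
  have hV : ∀ (S : Finset ℕ) (g : ℕ → ℝ), (∀ p ∈ S, g p ≤ 1 / 2) → 0 ≤ ∏ p ∈ S, (1 - g p) :=
    fun S g hg => prod_nonneg fun p hp => by linarith [hg p hp]
  by_cases hs : 400 ≤ Real.log D / Real.log y
  · obtain ⟨lam, h1, h2⟩ := flb_big e P (by linarith) hD0 hP hs
    refine ⟨lam, h1, fun g hg => (h2 g hg).trans ?_⟩
    refine mul_le_mul_of_nonneg_right ?_ (hV P g fun p hp => (hg p hp).2.1)
    rw [sub_eq_add_neg, Real.exp_add, ← mul_assoc, ← hK₁]
    refine mul_le_mul (by linarith) (Real.exp_le_exp.2 ?_) (Real.exp_pos _).le (by linarith)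
    rw [neg_div, neg_le_neg_iff]
    exact div_le_div_of_nonneg_left (by linarith) (by norm_num) (by linarith)
  have hsm : (K₁ + 2) * E ≤ C * Real.exp (-(Real.log D / Real.log y) / C) := by
    have h1 : 1 / 3 ≤ Real.exp (-(Real.log D / Real.log y) / C) := by
      refine le_trans ?_ (Real.exp_le_exp.2 (?_ : (-1 : ℝ) ≤ _))
      · linarith [Real.exp_neg_one_gt_d9]
      · rw [le_div_iff₀ (by linarith)]
        linarith
    have := mul_le_mul_of_nonneg_left h1 (by linarith : 0 ≤ C)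
    linarith
  rcases Nat.even_or_odd e with he | he
  · refine ⟨0, ⟨fun T => by simp, fun T hT => absurd rfl hT, fun S _ => ?_⟩, fun g hg => ?_⟩
    · rw [he.neg_one_pow]
      simp only [Pi.zero_apply, sum_const_zero, mul_zero, one_mul]
      positivity
    · have := hV P g fun p hp => (hg p hp).2.1
      simp only [Pi.zero_apply, zero_mul, sum_const_zero, zero_sub, abs_neg]
      rw [abs_of_nonneg this]
      exact le_mul_of_one_le_left this (by linarith)
  · obtain ⟨z, hz⟩ : ∃ z, z = Real.exp (Real.log D / 400) := ⟨_, rfl⟩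
    have hlz : Real.log z = Real.log D / 400 := by rw [hz, Real.log_exp]
    have hlD : 0 < Real.log D := by linarith
    have hz1 : 1 < z := hz ▸ Real.one_lt_exp_iff.2 (by positivity)
    have hsz : Real.log D / Real.log z = 400 := by
      rw [hlz]
      field_simp
    obtain ⟨lam, h1, h2⟩ := flb_big e (P.filter fun p => (p : ℝ) ≤ z) hz1 hD0
      (fun p hp => ⟨(hP p (mem_filter.1 hp).1).1, (mem_filter.1 hp).2⟩) hsz.ge
    refine ⟨lam, ⟨h1.abs_le, fun T hT => ⟨(h1.supp T hT).1.trans (filter_subset _ _),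
      (h1.supp T hT).2⟩, fun S hS => ?_⟩, fun g hg => ?_⟩
    · have h3 := h1.ineq (S.filter fun p => (p : ℝ) ≤ z) (filter_subset_filter _ hS)
      have h4 : ∑ T ∈ (S.filter fun p : ℕ => (p : ℝ) ≤ z).powerset, lam T
          = ∑ T ∈ S.powerset, lam T := by
        refine sum_subset (powerset_mono.2 (filter_subset _ _)) fun T hT hT' => ?_
        by_contra h
        refine hT' (mem_powerset.2 fun p hp => mem_filter.2 ⟨mem_powerset.1 hT hp, ?_⟩)
        exact (mem_filter.1 ((h1.supp T h).1 hp)).2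
      rw [h4, he.neg_one_pow] at h3
      rw [he.neg_one_pow]
      refine h3.trans ?_
      by_cases hS0 : S = ∅
      · simp [hS0]
      · rw [if_neg hS0]
        split_ifs <;> norm_num
    · have h3 := h2 g fun p hp => hg p (mem_filter.1 hp).1
      have h4 : ∑ T ∈ (P.filter fun p : ℕ => (p : ℝ) ≤ z).powerset, lam T * wt g T
          = ∑ T ∈ P.powerset, lam T * wt g T := by
        refine sum_subset (powerset_mono.2 (filter_subset _ _)) fun T _ hT' => ?_
        by_contra h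
        exact hT' (mem_powerset.2 (h1.supp T (left_ne_zero_of_mul h)).1)
      rw [h4] at h3
      have h5 := flb_win (P.filter fun p : ℕ => ¬ (p : ℝ) ≤ z) (u := Real.log y / 1600) (K := 1600)
        (by norm_num) fun p hp => by
          rw [mem_filter, not_le] at hp
          obtain ⟨a1, a2⟩ := hP p hp.1
          have a3 := Real.log_le_log (by linarith) hp.2.le
          have a4 := Real.log_le_log (by linarith [hp.2]) a2
          exact ⟨a1, by linarith, by linarith⟩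
      have h6 : ∑ p ∈ P.filter (fun p : ℕ => ¬ (p : ℝ) ≤ z), g p ≤ 3230 := by
        calc _ ≤ ∑ p ∈ P.filter (fun p : ℕ => ¬ (p : ℝ) ≤ z), 2 * (1 / (p : ℝ)) :=
              sum_le_sum fun p hp => by
                rw [mul_one_div]
                exact (hg p (mem_filter.1 hp).1).2.2
          _ ≤ 3230 := by
              rw [← mul_sum]
              linarith
      have h7 := flb_prod (P.filter fun p : ℕ => ¬ (p : ℝ) ≤ z) g fun p hp =>
        ⟨(hg p (mem_filter.1 hp).1).1, (hg p (mem_filter.1 hp).1).2.1⟩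
      have h8 : 1 ≤ E * ∏ p ∈ P.filter (fun p : ℕ => ¬ (p : ℝ) ≤ z), (1 - g p) := by
        refine le_trans ?_ (mul_le_mul_of_nonneg_left h7 (by linarith))
        rw [hE, ← Real.exp_add]
        exact Real.one_le_exp (by linarith)
      have h9 := prod_filter_mul_prod_filter_not P (fun p : ℕ => (p : ℝ) ≤ z) fun p => 1 - g p
      have hV1 := hV (P.filter fun p : ℕ => (p : ℝ) ≤ z) g fun p hp =>
        (hg p (mem_filter.1 hp).1).2.1
      have hV0 := hV P g fun p hp => (hg p hp).2.1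
      have h10 : ∏ p ∈ P.filter (fun p : ℕ => (p : ℝ) ≤ z), (1 - g p)
          ≤ E * ∏ p ∈ P, (1 - g p) := by
        rw [← h9, mul_left_comm]
        exact le_mul_of_one_le_right hV1 h8
      have h11 : 10 * Real.exp (175 - Real.log D / Real.log z / 2) ≤ K₁ := by
        rw [hK₁, hsz]
        exact mul_le_mul_of_nonneg_left (Real.exp_le_exp.2 (by norm_num)) (by norm_num)
      have h12 := h3.trans ((mul_le_mul_of_nonneg_right h11 hV1).trans
        (mul_le_mul_of_nonneg_left h10 hK0.le))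
      have h13 := le_mul_of_one_le_left hV0 hE1
      refine le_trans ?_ (mul_le_mul_of_nonneg_right hsm hV0)
      rw [abs_le] at h12 ⊢
      constructor <;> linarith [h12.1, h12.2]

/-- the constant of the fundamental lemma -/
noncomputable def Cfl : ℝ := Classical.choose exists_FL

theorem one_le_Cfl : 1 ≤ Cfl := (Classical.choose_spec exists_FL).1

/-- chosen weights -/
noncomputable def flw (e : ℕ) (P : Finset ℕ) (y D : ℝ) : Finset ℕ → ℝ :=
  if h : ∃ lam, IsSW e P D lam ∧ Qual Cfl P (Real.log D / Real.log y) lam then Classical.choose h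
  else 0

theorem flw_spec (e : ℕ) {P : Finset ℕ} {y D : ℝ} (hy : 2 ≤ y)
    (hP : ∀ p ∈ P, p.Prime ∧ (p : ℝ) ≤ y) (hD : y ^ (1 / 4 : ℝ) ≤ D) :
    IsSW e P D (flw e P y D) ∧ Qual Cfl P (Real.log D / Real.log y) (flw e P y D) := by
  have h : ∃ lam, IsSW e P D lam ∧ Qual Cfl P (Real.log D / Real.log y) lam :=
    (Classical.choose_spec exists_FL).2 e P y D hy hP hD
  unfold flw
  rw [dif_pos h]
  exact Classical.choose_spec h

end Crest.Agent.R1
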