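import Crest.Agent.R1.CDefs

/-!
# R1 / FamAa: parameters and members of a family (helpers for `FamA`)
-/

set_option autoImplicit false

namespace Crest.Agent.R1

open Finset Filter
open scoped Classical

theorem FAa_subset_win {h : ℕ} (hh : 2 ≤ h) (i : ℕ) : Pr h i (i + 1) ⊆ R29.win (lo h i) := by
  intro p hp
  have h0 : 0 < h := by omega
  obtain ⟨hp1, hp2, hp3⟩ := (mem_Pr h0).1 hp
  have hs : sz h p = i := by omega
  have hp0 : (0 : ℝ) < p := Nat.cast_pos.2 hp1.pos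
  have h2 : (2 : ℝ) ≤ h := by exact_mod_cast hh
  have a1 := sz_le_log h0 p
  have a2 := log_lt_sz h0 p
  rw [hs] at a1 a2
  rw [R29.win, mem_filter, mem_Ico]
  refine ⟨⟨Nat.ceil_le.2 ((Real.le_log_iff_exp_le hp0).1 a1), ?_⟩, hp1⟩
  have a3 : (p : ℝ) < Real.exp ((i : ℝ) / h) := (Real.log_lt_iff_lt_exp hp0).1 a2
  have a4 : Real.exp ((i : ℝ) / h) = Real.exp (1 / h) * Real.exp (((i : ℝ) - 1) / h) := by
    rw [← Real.exp_add]; congr 1; ring
  have a5 : Real.exp (1 / h) ≤ 2 := by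
    rw [← Real.le_log_iff_exp_le (by norm_num)]
    have : 1 / (h : ℝ) ≤ 1 / 2 := by gcongr
    linarith [Real.log_two_gt_d9]
  have a6 : Real.exp (((i : ℝ) - 1) / h) ≤ lo h i := Nat.le_ceil _
  have a7 : (p : ℝ) < 2 * (lo h i : ℝ) := by
    refine a3.trans_le ?_
    rw [a4]
    exact mul_le_mul a5 a6 (Real.exp_pos _).le (by norm_num)
  exact_mod_cast a7

theorem FAa_un_mono {M κ κ' : ℝ} (hl : 0 ≤ ll M) (h : κ ≤ κ') : un M κ ≤ un M κ' := by
  unfold un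
  refine Nat.ceil_le_ceil ?_
  gcongr

theorem FAa_ev_log (C s : ℝ) (hC : 0 < C) (hs : 0 < s) :
    ∀ᶠ M : ℝ in atTop, C * ll M ≤ LL M ^ s := by
  have h1 : Tendsto LL atTop atTop := Real.tendsto_log_atTop
  have h2 : ∀ᶠ x : ℝ in atTop, ‖Real.log x‖ ≤ 1 / C * ‖x ^ s‖ :=
    (isLittleO_log_rpow_atTop hs).bound (by positivity)
  filter_upwards [ev_basic 1, h1.eventually h2] with M ⟨a, b, _⟩ hl
  rw [Real.norm_of_nonneg (Real.rpow_nonneg (by linarith) _)] at hl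
  have h3 : ll M ≤ 1 / C * LL M ^ s := (le_abs_self _).trans hl
  calc C * ll M ≤ C * (1 / C * LL M ^ s) := by gcongr
    _ = LL M ^ s := by field_simp

theorem FAa_ev_ord (c : Cst) (h1 : 20 ≤ c.K) (h2 : c.K ≤ c.Kt) (h3 : 1 ≤ c.ρ)
    (h4 : c.ρ * c.Kt + 1 ≤ c.Kx) : ∀ᶠ M : ℝ in atTop, c.Ord M := by
  have hρ : (1 : ℝ) ≤ c.ρ := by exact_mod_cast h3
  have h4' : (c.ρ : ℝ) * c.Kt + 1 ≤ c.Kx := by exact_mod_cast h4
  have hKx : (0 : ℝ) < c.Kx := by
    have : (0 : ℝ) ≤ (c.ρ : ℝ) * c.Kt := by positivity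
    linarith
  filter_upwards [ev_basic 1, ev_basic (c.ρ : ℝ), ev_top, FAa_ev_log c.Kx (3 / 4) hKx (by norm_num),
    FAa_ev_log (4 * c.ρ) (1 / 4) (by linarith) (by norm_num)] with M ⟨a, b, _, d, e, _⟩ ⟨a', _⟩
    ⟨t1, _, _⟩ l1 l2
  have hl : 0 ≤ ll M := by linarith
  have hd : (1 : ℝ) ≤ hh M := by exact_mod_cast d
  refine ⟨?_, ?_, FAa_un_mono hl (by exact_mod_cast h1), FAa_un_mono hl (by exact_mod_cast h2),
    ?_, ?_, ?_, Nat.le_mul_of_pos_left _ h3, Nat.le_mul_of_pos_left _ h3⟩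
  · have : (2 : ℝ) ≤ hh M := by linarith
    exact_mod_cast this
  · have h5 := (un_spec (M := M) (κ := 20) (by norm_num) hl).1
    have : (hh M : ℝ) ≤ i0 M := by
      unfold i0
      nlinarith
    exact_mod_cast this
  · have h5 := (un_spec (M := M) (κ := c.Kt) (Nat.cast_nonneg _) hl).2
    have h6 := (un_spec (M := M) (κ := c.Kx) (Nat.cast_nonneg _) hl).1
    have h7 : (c.ρ : ℝ) ≤ hh M * ll M := by nlinarith
    have h8 : 0 ≤ (hh M : ℝ) * ll M := by positivity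
    have : ((c.ρ * c.t1 M : ℕ) : ℝ) ≤ c.ix M := by
      unfold Cst.t1 Cst.ix
      push_cast
      calc (c.ρ : ℝ) * un M c.Kt ≤ c.ρ * (c.Kt * hh M * ll M + 1) := by gcongr
        _ = c.ρ * c.Kt * (hh M * ll M) + c.ρ := by ring
        _ ≤ c.ρ * c.Kt * (hh M * ll M) + hh M * ll M := by linarith
        _ = (c.ρ * c.Kt + 1) * (hh M * ll M) := by ring
        _ ≤ c.Kx * (hh M * ll M) := by gcongr
        _ = c.Kx * hh M * ll M := by ring
        _ ≤ _ := h6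
    exact_mod_cast this
  · unfold Cst.ix Cst.u1 un
    refine Nat.ceil_le_ceil ?_
    calc (c.Kx : ℝ) * hh M * ll M = hh M * (c.Kx * ll M) := by ring
      _ ≤ _ := by gcongr
  · have hL0 : 0 < LL M := by linarith
    have p1 : (1 : ℝ) ≤ LL M ^ (3 / 4 : ℝ) := Real.one_le_rpow b (by norm_num)
    have p2 : LL M ^ (1 / 4 : ℝ) * LL M ^ (3 / 4 : ℝ) = LL M := by
      rw [← Real.rpow_add hL0]; norm_num
    have p3 : (c.u1 M : ℝ) ≤ hh M * LL M ^ (3 / 4 : ℝ) + 1 :=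
      (Nat.ceil_lt_add_one (by positivity)).le
    have p4 : (1 : ℝ) ≤ hh M * LL M ^ (3 / 4 : ℝ) := by nlinarith
    have p5 : 4 * (c.ρ : ℝ) ≤ LL M ^ (1 / 4 : ℝ) := by nlinarith
    have : ((c.ρ * c.u1 M : ℕ) : ℝ) ≤ top M := by
      push_cast
      calc (c.ρ : ℝ) * c.u1 M ≤ c.ρ * (2 * (hh M * LL M ^ (3 / 4 : ℝ))) := by
            gcongr; linarith
        _ = (4 * c.ρ) * (hh M * LL M ^ (3 / 4 : ℝ)) / 2 := by ring
        _ ≤ LL M ^ (1 / 4 : ℝ) * (hh M * LL M ^ (3 / 4 : ℝ)) / 2 := by gcongr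
        _ = hh M * (LL M ^ (1 / 4 : ℝ) * LL M ^ (3 / 4 : ℝ)) / 2 := by ring
        _ = hh M * LL M / 2 := by rw [p2]
        _ ≤ _ := t1
    exact_mod_cast this

theorem FAa_ev_R0 (a : ℝ) (ha : 0 ≤ a) : ∀ᶠ M : ℝ in atTop,
    M ≤ Real.exp ((R0 M a : ℝ) / hh M) ∧ Real.exp ((R0 M a : ℝ) / hh M) ≤ M * LL M ^ (a + 13) ∧
    R0 M a ≤ 4 * (top M : ℤ) ∧ (ap M a : ℝ) ≤ (a + 13) * hh M * ll M ∧
    Real.exp (((R0 M a : ℝ) - ap M a) / hh M) ≤ M ∧
    M ≤ Real.exp (((R0 M a : ℝ) - ap M a + 1) / hh M) := by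
  filter_upwards [ev_basic 1, ev_top, FAa_ev_log (a + 1) 1 (by linarith) one_pos] with M
    ⟨b1, b2, b3, d, e, _⟩ ⟨t1, _, _⟩ l1
  rw [Real.rpow_one] at l1
  have hl : 0 ≤ ll M := by linarith
  have hM : 0 < M := by linarith
  have hL0 : 0 < LL M := by linarith
  have hd : (10 : ℝ) ≤ hh M := by linarith
  have hd0 : (0 : ℝ) < hh M := by linarith
  have hM' : Real.exp (LL M) = M := Real.exp_log hM
  obtain ⟨u1, u2⟩ := un_spec (M := M) ha hl
  have h0 : 0 ≤ (hh M : ℝ) * (LL M / 2 + 6 * ll M) := by positivity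
  have c1 := Nat.le_ceil ((hh M : ℝ) * (LL M / 2 + 6 * ll M))
  have c2 := Nat.ceil_lt_add_one h0
  have c3 : (top M : ℝ) = (⌈(hh M : ℝ) * (LL M / 2 + 6 * ll M)⌉₊ : ℝ) + 2 := by
    unfold top; push_cast; ring
  have r0 : (R0 M a : ℝ) = 2 * (top M : ℝ) + un M a := by unfold R0; push_cast; ring
  have hhl : (10 : ℝ) ≤ hh M * ll M := by nlinarith
  have hal : 0 ≤ a * hh M * ll M := by positivity
  have r1 : hh M * LL M ≤ (R0 M a : ℝ) := by nlinarith
  have r2 : (R0 M a : ℝ) ≤ hh M * LL M + (a + 12) * hh M * ll M + 7 := by nlinarith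
  have f1 : ((⌊hh M * LL M⌋₊ : ℕ) : ℝ) ≤ hh M * LL M := Nat.floor_le (by positivity)
  have f2 : hh M * LL M < ((⌊hh M * LL M⌋₊ : ℕ) : ℝ) + 1 := Nat.lt_floor_add_one _
  have f3 : (0 : ℤ) ≤ R0 M a - ⌊hh M * LL M⌋₊ := by
    have : (0 : ℝ) ≤ (R0 M a : ℝ) - ((⌊hh M * LL M⌋₊ : ℕ) : ℝ) := by linarith
    exact_mod_cast this
  have f4 : (ap M a : ℝ) = (R0 M a : ℝ) - ((⌊hh M * LL M⌋₊ : ℕ) : ℝ) := by
    have : (ap M a : ℤ) = R0 M a - ⌊hh M * LL M⌋₊ := Int.toNat_of_nonneg f3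
    exact_mod_cast this
  refine ⟨?_, ?_, ?_, ?_, ?_, ?_⟩
  · conv_lhs => rw [← hM']
    rw [Real.exp_le_exp, le_div_iff₀ hd0]
    linarith
  · rw [Real.rpow_def_of_pos hL0]
    conv_rhs => rw [← hM', ← Real.exp_add]
    rw [Real.exp_le_exp, div_le_iff₀ hd0, hM']
    have : Real.log (LL M) = ll M := rfl
    rw [this]
    nlinarith
  · have : (R0 M a : ℝ) ≤ 4 * (top M : ℝ) := by
      have h5 : a * hh M * ll M + 1 ≤ hh M * LL M := by nlinarith
      linarith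
    exact_mod_cast this
  · rw [f4]
    nlinarith
  · conv_rhs => rw [← hM']
    rw [Real.exp_le_exp, div_le_iff₀ hd0, f4]
    linarith
  · conv_lhs => rw [← hM']
    rw [Real.exp_le_exp, le_div_iff₀ hd0, f4]
    linarith

theorem FAa_lt {h p v : ℕ} (hs : sz h p < sz h v) : p < v := by
  by_contra hc
  have := sz_mono h (not_lt.1 hc)
  omega

theorem FAa_cmp {h i B v v' : ℕ} {g : Finset ℕ} (hB : i < B) (hv : sz h v = i) (hv' : sz h v' = i)
    (h1 : ∀ p ∈ g, sz h p < B → p < v) (h2 : ∀ p ∈ g, sz h p < B → p < v') {p : ℕ}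
    (hp : p ∈ g ∨ sz h p ≠ i) : p < v ↔ p < v' := by
  rcases lt_trichotomy (sz h p) i with h3 | h3 | h3
  · exact iff_of_true (FAa_lt (hv ▸ h3)) (FAa_lt (hv' ▸ h3))
  · rcases hp with hp | hp
    · exact iff_of_true (h1 p hp (by omega)) (h2 p hp (by omega))
    · exact absurd h3 hp
  · exact iff_of_false (not_lt.2 (FAa_lt (hv ▸ h3)).le) (not_lt.2 (FAa_lt (hv' ▸ h3)).le)

theorem FAa_fam_mem {c : Cst} {M : ℝ} (h : c.Ord M) {F : Fam} (hF : F ∈ c.fams M)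
    {x : Finset ℕ} (hx : x ∈ c.FX M F) {u t : ℕ} (hu : u ∈ c.FU M F) (ht : t ∈ c.FT M F) :
    nd4 F.1 x u t ∈ nodes (sz (hh M)) (c.R M) 0 (c.U0 M) ∧ c.Reg M (nd4 F.1 x u t) ∧
    c.R M - tot (sz (hh M)) (nd4 F.1 x u t) = c.Rf M F ∧
    (nd4 F.1 x u t).card = F.1.card + x.card + 2 ∧
    pd (nd4 F.1 x u t) = pd F.1 * pd x * u * t ∧
    (u ∉ F.1 ∧ u ∉ x ∧ t ∉ F.1 ∧ t ∉ x ∧ u ≠ t ∧ Disjoint x F.1) ∧
    LocOk (hh M) (i0 M) (c.J M) (F.1.card + F.2.2.2.2) (c.Rf M F) ∧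
    Start (c.Rf M F) (F.1.card + F.2.2.2.2) (c.J M) ∧
    c.X0f M F ≤ pd x ∧ pd x ≤ 3 * c.X0f M F ∧
    u ∈ R29.win (lo (hh M) F.2.1) ∧ t ∈ R29.win (lo (hh M) F.2.2.1) ∧
    ∀ X : ℤ, c.remN M X (nd4 F.1 x u t) = ∑ T ∈ (Pr (hh M) 0 (c.J M)).powerset,
      loc (hh M) (i0 M) (c.J M) (F.1.card + F.2.2.2.2) (c.Rf M F) T *
        rem M X (pd F.1 * pd x * u * t * pd T) := by
  obtain ⟨g, iu, it, sx, e⟩ := F
  obtain ⟨o1, o2, o3, o4, o5, o6, o7, o8, o9⟩ := h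
  have h0 : 0 < hh M := by omega
  simp only [Cst.fams, mem_product, mem_powerset, mem_Ico, mem_range] at hF
  obtain ⟨hg, ⟨iu1, iu2⟩, ⟨it1, it2⟩, -, -⟩ := hF
  simp only [Cst.FX, mem_filter, mem_powerset] at hx
  obtain ⟨hxs, hdis, hspl, -, htot, hpar, hcard, hRf, u', hu', t', ht', hal⟩ := hx
  simp only [Cst.FU, mem_filter] at hu hu'
  simp only [Cst.FT, mem_filter] at ht ht'
  dsimp only
  have hxp : ∀ p ∈ x, p.Prime ∧ c.ix M ≤ sz (hh M) p ∧ sz (hh M) p < iu := fun p hp =>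
    (mem_Pr h0).1 (hxs hp)
  have su : ∀ v, v ∈ Pr (hh M) iu (iu + 1) → sz (hh M) v = iu := fun v hv => by
    have := (mem_Pr h0).1 hv; omega
  have st : ∀ v, v ∈ Pr (hh M) it (it + 1) → sz (hh M) v = it := fun v hv => by
    have := (mem_Pr h0).1 hv; omega
  have nu : ∀ v w, v ∈ Pr (hh M) iu (iu + 1) → (∀ p ∈ g, sz (hh M) p < c.u2 M → p < v) →
      w ∈ Pr (hh M) it (it + 1) → v ∉ g ∧ v ∉ x ∧ v ≠ w := fun v w hv hv' hw => by
    have a1 := su v hv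
    have a2 := st w hw
    refine ⟨fun hc => lt_irrefl _ (hv' v hc (by omega)), fun hc => ?_, fun hc => ?_⟩
    · have := hxp v hc; omega
    · subst hc; omega
  have nt : ∀ w, w ∈ Pr (hh M) it (it + 1) → (∀ p ∈ g, sz (hh M) p < c.t2 M → p < w) →
      w ∉ g ∧ w ∉ x := fun w hw hw' => by
    have a2 := st w hw
    refine ⟨fun hc => lt_irrefl _ (hw' w hc (by omega)), fun hc => ?_⟩
    have := hxp w hc; omega
  obtain ⟨n1, n2, n3⟩ := nu u t hu.1 hu.2 ht.1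
  obtain ⟨n4, n5⟩ := nt t ht.1 ht.2
  have hsu := su u hu.1
  have hst := st t ht.1
  have halive : Alive (sz (hh M)) (c.R M) 0 (nd4 g x u t) := by
    obtain ⟨m1, m2, m3⟩ := nu u t' hu.1 hu.2 ht'.1
    obtain ⟨m4, m5, m6⟩ := nu u' t' hu'.1 hu'.2 ht'.1
    obtain ⟨m7, m8⟩ := nt t' ht'.1 ht'.2
    have hst' := st t' ht'.1
    have a1 : Alive (sz (hh M)) (c.R M) 0 (insert u (insert t' (g ∪ x))) := by
      refine (alive_swap (u := u') (by simp [m4, m5, m6]) (by simp [m1, m2, m3])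
        ((su u' hu'.1).trans hsu.symm) fun p hp => ?_).1 hal
      refine FAa_cmp iu2 (su u' hu'.1) hsu hu'.2 hu.2 ?_
      rcases mem_insert.1 hp with rfl | hp
      · right; omega
      · rcases mem_union.1 hp with hp | hp
        · exact Or.inl hp
        · right; have := hxp p hp; omega
    rw [insert_comm] at a1
    unfold nd4
    rw [insert_comm]
    refine (alive_swap (u := t') (by simp [m7, m8, Ne.symm m3]) (by simp [n4, n5, Ne.symm n3])
      (hst'.trans hst.symm) fun p hp => ?_).1 a1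
    refine FAa_cmp it2 hst' hst ht'.2 ht.2 ?_
    rcases mem_insert.1 hp with rfl | hp
    · right; omega
    · rcases mem_union.1 hp with hp | hp
      · exact Or.inl hp
      · right; have := hxp p hp; omega
  have q1 : t ∉ g ∪ x := by simp [n4, n5]
  have q2 : u ∉ insert t (g ∪ x) := by simp [n1, n2, n3]
  have hnode : nd4 g x u t ∈ nodes (sz (hh M)) (c.R M) 0 (c.U0 M) := by
    refine mem_filter.2 ⟨mem_powerset.2 fun p hp => ?_, halive⟩
    rcases mem_insert.1 hp with rfl | hp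
    · exact (mem_Pr h0).2 ⟨((mem_Pr h0).1 hu.1).1, by omega, by omega⟩
    rcases mem_insert.1 hp with rfl | hp
    · exact (mem_Pr h0).2 ⟨((mem_Pr h0).1 ht.1).1, by omega, by omega⟩
    rcases mem_union.1 hp with hp | hp
    · exact hg hp
    · have := hxp p hp
      exact (mem_Pr h0).2 ⟨this.1, by omega, by omega⟩
  have hR : c.R M - tot (sz (hh M)) (nd4 g x u t) = c.Rf M (g, iu, it, sx, e) := by
    unfold nd4 Cst.Rf
    rw [TreeA_tot_insert q2, TreeA_tot_insert q1, TreeA_tot_union hdis.symm, hsu, hst, htot]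
    ring
  have hc : (nd4 g x u t).card = g.card + x.card + 2 := by
    unfold nd4
    rw [card_insert_of_notMem q2, card_insert_of_notMem q1, card_union_of_disjoint hdis.symm]
  have hpd : pd (nd4 g x u t) = pd g * pd x * u * t := by
    unfold nd4 pd
    rw [prod_insert q2, prod_insert q1, prod_union hdis.symm]
    ring
  have hpar' : (nd4 g x u t).card % 2 = (g.card + e) % 2 := by rw [hc]; omega
  have hev : Even (g.card + e) → Even (nd4 g x u t).card := fun he => by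
    rw [Nat.even_iff] at he ⊢; omega
  obtain ⟨lo1, st1⟩ := locOk_node (i := i0 M) (a' := 0) h0 o2 (by omega) (by omega)
    (show 2 * (top M : ℤ) ≤ c.R M by unfold Cst.R R0; omega) hnode
  rw [Nat.cast_zero, sub_zero, hR] at lo1
  rw [hR] at st1
  have hh0 : (0 : ℝ) < hh M := Nat.cast_pos.2 h0
  have htotR : (tot (sz (hh M)) x : ℝ) = sx := by rw [htot]; simp
  refine ⟨hnode, ⟨hR ▸ hRf, hc ▸ hcard, ⟨t, by simp [nd4], by omega, by omega⟩,
    u, by simp [nd4], by omega, by omega, fun p hp hp' => ?_, x, fun p hp => ?_, hsu ▸ hspl⟩,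
    hR, hc, hpd, ⟨n1, n2, n4, n5, n3, hdis⟩,
    ⟨lo1.h_pos, lo1.h_le, lo1.i_le, fun he => lo1.ev (hev he), lo1.od⟩,
    ⟨fun he => st1.1 (hev he), st1.2⟩, ?_, ?_, FAa_subset_win o1 _ hu.1, FAa_subset_win o1 _ ht.1,
    fun X => ?_⟩
  · rcases mem_insert.1 hp with rfl | hp
    · exact le_rfl
    rcases mem_insert.1 hp with rfl | hp
    · exact (FAa_lt (h := hh M) (by omega)).le
    rcases mem_union.1 hp with hp | hp
    · exact (hu.2 p hp hp').le
    · have := hxp p hp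
      exact (FAa_lt (h := hh M) (by omega)).le
  · refine mem_inter.2 ⟨by simp [nd4, hp], ?_⟩
    rw [hsu]
    exact hxs hp
  · refine Nat.ceil_le.2 (le_trans ?_ (exp_le_pd h0 fun p hp => (hxp p hp).1))
    rw [Real.exp_le_exp, htotR, sub_div]
    have : (x.card : ℝ) / hh M ≤ 1 := by
      rw [div_le_one hh0]
      exact_mod_cast (by omega : x.card ≤ hh M)
    dsimp only
    linarith
  · have a1 := pd_le_exp h0 fun p hp => (hxp p hp).1
    rw [htotR] at a1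
    have a2 : Real.exp ((sx : ℝ) / hh M) = Real.exp 1 * Real.exp ((sx : ℝ) / hh M - 1) := by
      rw [← Real.exp_add]; congr 1; ring
    have a3 : Real.exp ((sx : ℝ) / hh M - 1) ≤ c.X0f M (g, iu, it, sx, e) := Nat.le_ceil _
    have a4 : Real.exp 1 ≤ 3 := by linarith [Real.exp_one_lt_d9]
    have a5 : (pd x : ℝ) ≤ 3 * (c.X0f M (g, iu, it, sx, e) : ℝ) := by
      refine a1.trans ?_
      rw [a2]
      exact mul_le_mul a4 a3 (Real.exp_pos _).le (by norm_num)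
    exact_mod_cast a5
  · unfold Cst.remN remLoc
    rw [hR, hpd, loc_congr hpar']

end Crest.Agent.R1
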