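import Crest.Agent.R1.CDefs
import Crest.Agent.R1.FamAa

/-!
# R1 / FamA: decomposition of the regular nodes into families
-/

set_option autoImplicit false

namespace Crest.Agent.R1

open Finset Filter
open scoped Classical

theorem Pr_subset_win {h : ℕ} (hh : 2 ≤ h) (i : ℕ) : Pr h i (i + 1) ⊆ R29.win (lo h i) :=
  FAa_subset_win hh i

theorem Cst.ev_ord (c : Cst) (h1 : 20 ≤ c.K) (h2 : c.K ≤ c.Kt) (h3 : 1 ≤ c.ρ)
    (h4 : c.ρ * c.Kt + 1 ≤ c.Kx) : ∀ᶠ M : ℝ in atTop, c.Ord M :=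
  FAa_ev_ord c h1 h2 h3 h4

/-- the level: `M ≤ exp (R0/h) ≤ M L^{a+13}`, and the exact level -/
theorem ev_R0 (a : ℝ) (ha : 0 ≤ a) : ∀ᶠ M : ℝ in atTop,
    M ≤ Real.exp ((R0 M a : ℝ) / hh M) ∧ Real.exp ((R0 M a : ℝ) / hh M) ≤ M * LL M ^ (a + 13) ∧
    R0 M a ≤ 4 * (top M : ℤ) ∧ (ap M a : ℝ) ≤ (a + 13) * hh M * ll M ∧
    Real.exp (((R0 M a : ℝ) - ap M a) / hh M) ≤ M ∧
    M ≤ Real.exp (((R0 M a : ℝ) - ap M a + 1) / hh M) :=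
  FAa_ev_R0 a ha

/-- members of a family (`alive_swap` twice, `locOk_node` with `a' = 0`, `loc_congr`) -/
theorem Cst.Ord.fam_mem {c : Cst} {M : ℝ} (h : c.Ord M) {F : Fam} (hF : F ∈ c.fams M)
    {x : Finset ℕ} (hx : x ∈ c.FX M F) {u t : ℕ} (hu : u ∈ c.FU M F) (ht : t ∈ c.FT M F) :
    nd4 F.1 x u t ∈ nodes (sz (hh M)) (c.R M) 0 (c.U0 M) ∧ c.Reg M (nd4 F.1 x u t) ∧
    c.R M - tot (sz (hh M)) (nd4 F.1 x u t) = c.Rf M F ∧
    (nd4 F.1 x u t).card = F.1.card + x.card + 2 ∧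
    pd (nd4 F.1 x u t) = pd F.1 * pd x * u * t ∧
    (u ∉ F.1 ∧ u ∉ x ∧ t ∉ F.1 ∧ t ∉ x ∧ u ≠ t ∧ Disjoint x F.1) ∧
    LocOk (hh M) (i0 M) (c.J M) (F.1.card + F.2.2.2.2) (c.Rf M F) ∧
    Start (c.Rf M F) (F.1.card + F.2.2.2.2) (c.J M) ∧
    c.X0f M F ≤ pd x ∧ pd x ≤ 3 * c.X0f M F ∧
    u ∈ R29.win (lo (hh M) F.2.1) ∧ t ∈ R29.win (lo (hh M) F.2.2.1) ∧
    ∀ X : ℤ, c.remN M X (nd4 F.1 x u t) = ∑ T ∈ (Pr (hh M) 0 (c.J M)).powerset,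
      loc (hh M) (i0 M) (c.J M) (F.1.card + F.2.2.2.2) (c.Rf M F) T *
        rem M X (pd F.1 * pd x * u * t * pd T) :=
  FAa_fam_mem h hF hx hu ht

theorem famb_inter {h i : ℕ} (hh : 0 < h) (g x : Finset ℕ) {u t : ℕ} (ht : sz h t < i) :
    nd4 g x u t ∩ Pr h i (sz h u) = (g ∪ x) ∩ Pr h i (sz h u) := by
  unfold nd4
  rw [insert_inter_of_notMem fun h1 => lt_irrefl _ ((mem_Pr hh).1 h1).2.2,
    insert_inter_of_notMem fun h1 => not_le.2 ht ((mem_Pr hh).1 h1).2.1]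

theorem famb_sum {g x : Finset ℕ} {u t : ℕ} (h1 : u ∉ g) (h2 : u ∉ x) (h3 : t ∉ g) (h4 : t ∉ x) (h5 : u ≠ t)
    (h6 : Disjoint x g) (f : ℕ → ℤ) :
    ∑ p ∈ nd4 g x u t, f p = ∑ p ∈ g, f p + ∑ p ∈ x, f p + f u + f t := by
  unfold nd4
  rw [sum_insert (by simp [h1, h2, h5]), sum_insert (by simp [h3, h4]), sum_union h6.symm]
  ring

/-- the data of a family member are determined by the node -/
theorem Cst.Ord.famb_char {c : Cst} {M : ℝ} (h : c.Ord M) {F : Fam} (hF : F ∈ c.fams M)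
    {x : Finset ℕ} (hx : x ∈ c.FX M F) {u t : ℕ} (hu : u ∈ c.FU M F) (ht : t ∈ c.FT M F) :
    (u ∈ nd4 F.1 x u t ∧ sz (hh M) u < c.u2 M ∧ ∀ p ∈ nd4 F.1 x u t, sz (hh M) p < c.u2 M → p ≤ u) ∧
    (t ∈ nd4 F.1 x u t ∧ sz (hh M) t < c.t2 M ∧ ∀ p ∈ nd4 F.1 x u t, sz (hh M) p < c.t2 M → p ≤ t) ∧
    x = c.sp M (sz (hh M) u) (nd4 F.1 x u t ∩ Pr (hh M) (c.ix M) (sz (hh M) u)) ∧
    F = (nd4 F.1 x u t \ insert u (insert t x), sz (hh M) u, sz (hh M) t,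
      (tot (sz (hh M)) x).toNat, x.card % 2) := by
  have h0 : 0 < hh M := by have := h.h_ge; omega
  obtain ⟨-, -, -, -, -, ⟨d1, d2, d3, d4, d5, d6⟩, -⟩ := h.fam_mem hF hx hu ht
  obtain ⟨g, iu, it, s, e⟩ := F
  simp only [Cst.fams, mem_product, mem_Ico] at hF
  obtain ⟨-, ⟨a1, a2⟩, ⟨a3, a4⟩, -⟩ := hF
  simp only [Cst.FU, Cst.FT, mem_filter, mem_Pr h0] at hu ht
  obtain ⟨⟨-, u1, u2⟩, u3⟩ := hu
  obtain ⟨⟨-, t1, t2⟩, t3⟩ := ht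
  obtain rfl : iu = sz (hh M) u := by omega
  obtain rfl : it = sz (hh M) t := by omega
  simp only [Cst.FX, mem_filter, mem_powerset] at hx
  obtain ⟨x1, -, -, x2, x3, x4, -⟩ := hx
  have o1 := h.t2_le
  have o2 := h.ix_le
  have hlt : ∀ {p q : ℕ}, sz (hh M) p < sz (hh M) q → p ≤ q := fun hpq =>
    le_of_lt (lt_of_not_ge fun h' => not_le.2 hpq (sz_mono _ h'))
  dsimp only at *
  refine ⟨⟨mem_insert_self _ _, a2, fun p hp hp' => ?_⟩,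
    ⟨mem_insert_of_mem (mem_insert_self _ _), a4, fun p hp hp' => ?_⟩, ?_, ?_⟩
  · simp only [nd4, mem_insert, mem_union] at hp
    rcases hp with rfl | rfl | hp | hp
    · exact le_rfl
    · exact hlt (by omega)
    · exact (u3 p hp hp').le
    · exact hlt ((mem_Pr h0).1 (x1 hp)).2.2
  · simp only [nd4, mem_insert, mem_union] at hp
    rcases hp with rfl | rfl | hp | hp
    · omega
    · exact le_rfl
    · exact (t3 p hp hp').le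
    · have := ((mem_Pr h0).1 (x1 hp)).2.1
      omega
  · rw [famb_inter h0 _ _ (by omega)]
    exact x2
  · rw [x3, x4, Int.toNat_natCast]
    congr 1
    ext p
    simp only [nd4, Finset.mem_sdiff, mem_insert, mem_union, not_or]
    constructor
    · intro hp
      exact ⟨Or.inr (Or.inr (Or.inl hp)), fun e => d1 (e ▸ hp), fun e => d3 (e ▸ hp),
        fun e => disjoint_left.1 d6 e hp⟩
    · tauto

/-- every regular node belongs to a family -/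
theorem Cst.Ord.famb_surj {c : Cst} {M : ℝ} (h : c.Ord M) {τ : Finset ℕ}
    (hτ : τ ∈ nodes (sz (hh M)) (c.R M) 0 (c.U0 M)) (hr : c.Reg M τ) :
    ∃ F ∈ c.fams M, ∃ x ∈ c.FX M F, ∃ u ∈ c.FU M F, ∃ t ∈ c.FT M F, nd4 F.1 x u t = τ := by
  have h0 : 0 < hh M := by have := h.h_ge; omega
  obtain ⟨h1, h2⟩ := mem_filter.1 hτ
  rw [mem_powerset] at h1
  have hp : ∀ p ∈ τ, p.Prime := fun p hp => ((mem_Pr h0).1 (h1 hp)).1
  obtain ⟨r1, r2, ⟨t₀, r3, r4, r5⟩, u, r6, r7, r8, r9, hex⟩ := hr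
  obtain ⟨t, ht, ht'⟩ := exists_max_image (τ.filter fun p => sz (hh M) p < c.t2 M) id
    ⟨t₀, mem_filter.2 ⟨r3, r5⟩⟩
  obtain ⟨t1, t2⟩ := mem_filter.1 ht
  have t3 : c.t1 M ≤ sz (hh M) t := r4.trans (sz_mono _ (ht' t₀ (mem_filter.2 ⟨r3, r5⟩)))
  have o1 := h.t2_le
  have o2 := h.ix_le
  obtain ⟨x, hx, x1, x2⟩ : ∃ x, x = c.sp M (sz (hh M) u) (τ ∩ Pr (hh M) (c.ix M) (sz (hh M) u)) ∧
      x ⊆ τ ∩ Pr (hh M) (c.ix M) (sz (hh M) u) ∧ c.Spl M (sz (hh M) u) x := by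
    refine ⟨_, rfl, ?_⟩
    rw [Cst.sp, dif_pos hex]
    exact Classical.choose_spec hex
  have x3 : x ⊆ Pr (hh M) (c.ix M) (sz (hh M) u) := x1.trans inter_subset_right
  have x4 : x ⊆ τ := x1.trans inter_subset_left
  obtain ⟨g, hg⟩ : ∃ g, g = τ \ insert u (insert t x) := ⟨_, rfl⟩
  have g1 : ∀ p, p ∈ g ↔ p ∈ τ ∧ p ≠ u ∧ p ≠ t ∧ p ∉ x := by
    intro p
    simp only [hg, Finset.mem_sdiff, mem_insert, not_or, ne_eq]
  have e1 : nd4 g x u t = τ := by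
    ext p
    simp only [nd4, mem_insert, mem_union, g1]
    constructor
    · rintro (rfl | rfl | h3 | h3)
      exacts [r6, t1, h3.1, x4 h3]
    · tauto
  have d1 : u ∉ g := fun h3 => ((g1 u).1 h3).2.1 rfl
  have d2 : u ∉ x := fun h3 => lt_irrefl _ ((mem_Pr h0).1 (x3 h3)).2.2
  have d3 : t ∉ g := fun h3 => ((g1 t).1 h3).2.2.1 rfl
  have d4 : t ∉ x := fun h3 => by
    have := ((mem_Pr h0).1 (x3 h3)).2.1
    omega
  have d5 : u ≠ t := by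
    rintro rfl
    omega
  have d6 : Disjoint x g := disjoint_left.2 fun p h3 h4 => ((g1 p).1 h4).2.2.2 h3
  have e2 := famb_sum d1 d2 d3 d4 d5 d6 fun p => (sz (hh M) p : ℤ)
  have e3 := famb_sum d1 d2 d3 d4 d5 d6 fun _ => 1
  rw [e1] at e2 e3
  simp only [sum_const, nsmul_eq_mul, mul_one] at e3
  have e4 : 0 ≤ tot (sz (hh M)) x := sum_nonneg fun _ _ => Nat.cast_nonneg _
  have e5 := x2.2
  have hu : u ∈ c.FU M (g, sz (hh M) u, sz (hh M) t, (tot (sz (hh M)) x).toNat, x.card % 2) :=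
    mem_filter.2 ⟨(mem_Pr h0).2 ⟨hp u r6, le_rfl, Nat.lt_succ_self _⟩, fun p h3 h4 =>
      lt_of_le_of_ne (r9 p ((g1 p).1 h3).1 h4) ((g1 p).1 h3).2.1⟩
  have ht : t ∈ c.FT M (g, sz (hh M) u, sz (hh M) t, (tot (sz (hh M)) x).toNat, x.card % 2) :=
    mem_filter.2 ⟨(mem_Pr h0).2 ⟨hp t t1, le_rfl, Nat.lt_succ_self _⟩, fun p h3 h4 =>
      lt_of_le_of_ne (ht' p (mem_filter.2 ⟨((g1 p).1 h3).1, h4⟩)) ((g1 p).1 h3).2.2.1⟩
  refine ⟨(g, sz (hh M) u, sz (hh M) t, (tot (sz (hh M)) x).toNat, x.card % 2), ?_, x, ?_, u, hu, t, ht, e1⟩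
  · simp only [Cst.fams, mem_product, mem_powerset, mem_Ico, mem_range]
    exact ⟨fun p h3 => h1 ((g1 p).1 h3).1, ⟨r7, r8⟩, ⟨t3, t2⟩, by omega, by omega⟩
  · refine mem_filter.2 ⟨mem_powerset.2 x3, d6, x2, ?_, (Int.toNat_of_nonneg e4).symm, rfl, ?_, ?_,
      u, hu, t, ht, e1.symm ▸ h2⟩
    · dsimp only
      rw [← famb_inter (u := u) (t := t) h0 _ _ (by omega), e1]
      exact hx
    · dsimp only
      omega
    · unfold Cst.Rf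
      dsimp only
      rw [Int.toNat_of_nonneg e4]
      unfold tot at r1 ⊢
      rw [← e2]
      exact r1

/-- every regular node lies in exactly one family: `u` is the prime given by `Reg`, `t` the largest
prime of size `< t2`, `x = sp (sz u) (τ ∩ Pr ix (sz u))`, `g` the rest -/
theorem Cst.Ord.fam_sum {c : Cst} {M : ℝ} (h : c.Ord M) (Φ : Finset ℕ → ℝ) :
    ∑ τ ∈ (nodes (sz (hh M)) (c.R M) 0 (c.U0 M)).filter (c.Reg M), Φ τ =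
      ∑ F ∈ c.fams M, ∑ w ∈ c.FX M F ×ˢ c.FU M F ×ˢ c.FT M F, Φ (nd4 F.1 w.1 w.2.1 w.2.2) := by
  rw [sum_sigma']
  symm
  refine sum_bij (fun z _ => nd4 z.1.1 z.2.1 z.2.2.1 z.2.2.2) ?_ ?_ ?_ fun _ _ => rfl
  · intro z hz
    simp only [mem_sigma, mem_product] at hz
    obtain ⟨h1, h2, -⟩ := h.fam_mem hz.1 hz.2.1 hz.2.2.1 hz.2.2.2
    exact mem_filter.2 ⟨h1, h2⟩
  · rintro ⟨F, x, u, t⟩ hz ⟨F', x', u', t'⟩ hz' e
    simp only [mem_sigma, mem_product] at hz hz' e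
    obtain ⟨⟨a1, a2, a3⟩, ⟨a4, a5, a6⟩, a7, a8⟩ := h.famb_char hz.1 hz.2.1 hz.2.2.1 hz.2.2.2
    obtain ⟨⟨b1, b2, b3⟩, ⟨b4, b5, b6⟩, b7, b8⟩ := h.famb_char hz'.1 hz'.2.1 hz'.2.2.1 hz'.2.2.2
    rw [e] at a1 a3 a4 a6 a7 a8
    obtain rfl : u = u' := le_antisymm (b3 u a1 a2) (a3 u' b1 b2)
    obtain rfl : t = t' := le_antisymm (b6 t a4 a5) (a6 t' b4 b5)
    obtain rfl : x = x' := a7.trans b7.symm
    obtain rfl : F = F' := a8.trans b8.symm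
    rfl
  · intro τ hτ
    obtain ⟨F, hF, x, hx, u, hu, t, ht, e⟩ := h.famb_surj (mem_filter.1 hτ).1 (mem_filter.1 hτ).2
    exact ⟨⟨F, x, u, t⟩, mem_sigma.2 ⟨hF, mem_product.2 ⟨hx, mem_product.2 ⟨hu, ht⟩⟩⟩, e⟩

end Crest.Agent.R1
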