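import Crest.Agent.R1.Ew

/-!
# R1 / MixA: the large sieve inequality with inverses
-/

set_option autoImplicit false

namespace Crest.Agent.R1

open Finset Filter
open scoped Classical

theorem mixA_ee (x : ℕ) [NeZero x] (k : ℤ) :
    R29.ee ((k : ℝ) / (x : ℝ)) = ZMod.stdAddChar (k : ZMod x) := by
  rw [ZMod.stdAddChar_coe, R29.ee]
  congr 1
  push_cast
  ring

theorem mixA_expand {x : ℕ} [NeZero x] (R : Finset (ZMod x)) (UU : Finset ℕ) (w : ℕ → ℂ)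
    (t : ℕ → ZMod x) :
    ((∑ a ∈ R, ‖∑ u ∈ UU, w u * ZMod.stdAddChar (a * t u)‖ ^ 2 : ℝ) : ℂ) =
      ∑ u ∈ UU, ∑ u' ∈ UU, w u * (starRingEnd ℂ) (w u') *
        ∑ a ∈ R, ZMod.stdAddChar (a * (t u - t u')) := by
  simp only [mul_sum]
  rw [Complex.ofReal_sum]
  symm
  rw [sum_congr rfl fun u _ => sum_comm, sum_comm]
  refine sum_congr rfl fun a _ => ?_
  rw [Complex.ofReal_pow, ← Complex.mul_conj', map_sum, sum_mul_sum]
  refine sum_congr rfl fun u _ => sum_congr rfl fun u' _ => ?_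
  rw [map_mul (starRingEnd ℂ), ← AddChar.map_neg_eq_conj, mul_sub, sub_eq_add_neg, AddChar.map_add_eq_mul]
  ring

theorem mixA_units {x : ℕ} [NeZero x] (F : ZMod x → ℂ) {t : ZMod x} (ht : IsUnit t) :
    ∑ a ∈ univ.filter (fun a : ZMod x => IsUnit a), F (a * t) =
      ∑ a ∈ univ.filter (fun a : ZMod x => IsUnit a), F a := by
  obtain ⟨t, rfl⟩ := ht
  refine sum_equiv t.mulRight (fun a => ?_) fun _ _ => rfl
  simp

theorem mixA_one {x : ℕ} (hx : 1 < x) (UU : Finset ℕ) {α : ℤ} {ub : ℕ → ℤ}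
    (hα : IsCoprime α (x : ℤ)) (hub : ∀ u ∈ UU, (u : ℤ) * ub u ≡ 1 [ZMOD x]) (w : ℕ → ℂ) :
    ‖∑ u ∈ UU, w u * R29.ee ((α * ub u : ℤ) / (x : ℝ))‖ ^ 2 ≤
      ∑ a ∈ (range x).filter (fun a => Nat.Coprime a x),
        ‖∑ u ∈ UU, w u * R29.ee ((u : ℝ) * (-((a : ℝ) / x)))‖ ^ 2 := by
  have : NeZero x := ⟨by omega⟩
  have hinv : ∀ u ∈ UU, (u : ZMod x) * (ub u : ZMod x) = 1 := by
    intro u hu
    have := (ZMod.intCast_eq_intCast_iff _ _ _).2 (hub u hu)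
    push_cast at this
    exact this
  have hαu : IsUnit (α : ZMod x) := (ZMod.coe_int_isUnit_iff_isCoprime α x).2 hα.symm
  set R := univ.filter (fun a : ZMod x => IsUnit a) with hR
  have h1 : ‖∑ u ∈ UU, w u * R29.ee ((α * ub u : ℤ) / (x : ℝ))‖ ^ 2 ≤
      ∑ a ∈ R, ‖∑ u ∈ UU, w u * ZMod.stdAddChar (a * (ub u : ZMod x))‖ ^ 2 := by
    refine le_trans (le_of_eq ?_) (single_le_sum
      (f := fun a : ZMod x => ‖∑ u ∈ UU, w u * ZMod.stdAddChar (a * (ub u : ZMod x))‖ ^ 2)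
      (fun _ _ => sq_nonneg _) (mem_filter.2 ⟨mem_univ _, hαu⟩))
    simp only [mixA_ee]
    simp only [Int.cast_mul]
  have h2 : ∑ a ∈ R, ‖∑ u ∈ UU, w u * ZMod.stdAddChar (a * (ub u : ZMod x))‖ ^ 2 =
      ∑ a ∈ R, ‖∑ u ∈ UU, w u * ZMod.stdAddChar (a * (-(u : ZMod x)))‖ ^ 2 := by
    apply Complex.ofReal_injective
    rw [mixA_expand, mixA_expand]
    refine sum_congr rfl fun u hu => sum_congr rfl fun u' hu' => ?_
    congr 1
    have h3 : IsUnit ((u : ZMod x) * (u' : ZMod x)) :=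
      (IsUnit.of_mul_eq_one _ (hinv u hu)).mul (IsUnit.of_mul_eq_one _ (hinv u' hu'))
    rw [← mixA_units (fun a => ZMod.stdAddChar (a * ((ub u : ZMod x) - (ub u' : ZMod x)))) h3]
    refine sum_congr rfl fun a _ => ?_
    congr 1
    linear_combination (a * u') * hinv u hu - (a * u) * hinv u' hu'
  refine h1.trans (h2.le.trans (le_of_eq ?_))
  symm
  refine sum_nbij' (fun a : ℕ => (a : ZMod x)) (fun a => a.val) (fun a ha => ?_) (fun a ha => ?_)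
    (fun a ha => ?_) (fun a _ => ?_) fun a _ => ?_
  · exact mem_filter.2 ⟨mem_univ _, (ZMod.isUnit_iff_coprime a x).2 (mem_filter.1 ha).2⟩
  · refine mem_filter.2 ⟨mem_range.2 (ZMod.val_lt a), (ZMod.isUnit_iff_coprime _ x).1 ?_⟩
    rw [ZMod.natCast_zmod_val]
    exact (mem_filter.1 ha).2
  · exact ZMod.val_cast_of_lt (mem_range.1 (mem_filter.1 ha).1)
  · exact ZMod.natCast_zmod_val a
  · congr 2
    refine sum_congr rfl fun u _ => ?_
    have h4 := mixA_ee x ((a : ℤ) * (-(u : ℤ)))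
    push_cast at h4
    rw [← h4]
    congr 2
    ring

theorem mixA_farey {Y : ℝ} {x x' a a' : ℕ} (hx : a < x) (hx' : a' < x') (hY : (x : ℝ) ≤ Y)
    (hY' : (x' : ℝ) ≤ Y) (hc : Nat.Coprime a x) (hc' : Nat.Coprime a' x')
    (hne : ¬ (x = x' ∧ a = a')) : 1 / Y ^ 2 ≤ R29.nd (-((a : ℝ) / x) - -((a' : ℝ) / x')) := by
  have h0 : (0 : ℝ) < x := Nat.cast_pos.2 (by omega)
  have h0' : (0 : ℝ) < x' := Nat.cast_pos.2 (by omega)
  rw [R29.nd]
  generalize round (-((a : ℝ) / x) - -((a' : ℝ) / x')) = k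
  have hk : (a' : ℤ) * x - a * x' - k * (x * x') ≠ 0 := by
    intro h
    have d1 : (x : ℤ) ∣ (a : ℤ) * x' := ⟨a' - k * x', by linear_combination -h⟩
    have d2 : (x' : ℤ) ∣ (a' : ℤ) * x := ⟨a + k * x, by linear_combination h⟩
    have d3 : x ∣ x' := hc.symm.dvd_of_dvd_mul_left (by exact_mod_cast d1)
    have d4 : x' ∣ x := hc'.symm.dvd_of_dvd_mul_left (by exact_mod_cast d2)
    obtain rfl := Nat.dvd_antisymm d3 d4
    have hx0 : (x : ℤ) ≠ 0 := by omega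
    have h1 : (a' : ℤ) - a = x * k := mul_right_cancel₀ hx0 (by linear_combination h)
    have h2 : (a' : ℤ) - a = 0 := Int.eq_zero_of_abs_lt_dvd ⟨k, h1⟩ (abs_lt.2 ⟨by omega, by omega⟩)
    exact hne ⟨rfl, by omega⟩
  have h1 : (1 : ℝ) ≤ |(((a' : ℤ) * x - a * x' - k * (x * x') : ℤ) : ℝ)| := by
    exact_mod_cast Int.one_le_abs hk
  have e : -((a : ℝ) / x) - -((a' : ℝ) / x') - k
      = (((a' : ℤ) * x - a * x' - k * (x * x') : ℤ) : ℝ) / (x * x') := by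
    push_cast
    field_simp
    ring
  rw [e, abs_div, abs_of_pos (mul_pos h0 h0')]
  have h2 : (x : ℝ) * x' ≤ Y ^ 2 := by
    rw [sq]
    exact mul_le_mul hY hY' h0'.le (h0.le.trans hY)
  exact div_le_div₀ (abs_nonneg _) h1 (mul_pos h0 h0') h2

theorem mixA_inv_large_sieve {N Y : ℝ} (hN : 1 ≤ N) (hY : 1 ≤ Y) (XX UU : Finset ℕ)
    (hX : ∀ x ∈ XX, 1 < x ∧ (x : ℝ) ≤ Y) (hU : ∀ u ∈ UU, (u : ℝ) ≤ N) (α : ℕ → ℤ) (ub : ℕ → ℕ → ℤ)
    (hα : ∀ x ∈ XX, IsCoprime (α x) (x : ℤ))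
    (hub : ∀ x ∈ XX, ∀ u ∈ UU, (u : ℤ) * ub x u ≡ 1 [ZMOD x]) (w : ℕ → ℂ) :
    ∑ x ∈ XX, ‖∑ u ∈ UU, w u * R29.ee ((α x * ub x u : ℤ) / (x : ℝ))‖ ^ 2 ≤
      5 * (N + Y ^ 2) * ∑ u ∈ UU, ‖w u‖ ^ 2 := by
  have h := R29.large_sieve hN
    (XX.sigma fun x => (range x).filter (fun a => Nat.Coprime a x))
    (fun i => -((i.2 : ℝ) / i.1)) (δ := 1 / Y ^ 2) (by positivity) (fun i hi j hj hij => ?_)
    (UU.map ⟨(Nat.cast : ℕ → ℤ), Nat.cast_injective⟩) (fun a ha => ?_) fun a => w a.toNat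
  · simp only [sum_map, Function.Embedding.coeFn_mk, Int.toNat_natCast, Int.cast_natCast,
      sum_sigma] at h
    refine (sum_le_sum fun x hx => mixA_one (hX x hx).1 UU (hα x hx) (hub x hx) w).trans
      (h.trans (le_of_eq ?_))
    congr 1
    field_simp
  · obtain ⟨x, a⟩ := i
    obtain ⟨x', a'⟩ := j
    simp only [mem_sigma, mem_filter, mem_range] at hi hj
    refine mixA_farey hi.2.1 hj.2.1 (hX x hi.1).2 (hX x' hj.1).2 hi.2.2 hj.2.2 ?_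
    rintro ⟨rfl, rfl⟩
    exact hij rfl
  · obtain ⟨u, hu, rfl⟩ := mem_map.1 ha
    simp only [Function.Embedding.coeFn_mk, Int.cast_natCast, Nat.abs_cast]
    exact hU u hu

end Crest.Agent.R1
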