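import Crest.Agent.R1.Ew
import Crest.Agent.R1.MixA

/-!
# R1 / Mix: moduli with a structured part and an unstructured part cancel by the large sieve
-/

set_option autoImplicit false

namespace Crest.Agent.R1

open Finset Filter
open scoped Classical

/-- For each `x` bound the term by the sum over all reduced residues `α mod x`; expanding the square,
`∑_{α ⊥ x} e(α (ū - ū')/x) = ∑_{α ⊥ x} e(α (u' - u)/x)` (substitute `α ↦ α u u'`), so the inverses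
can be dropped; then `R29.large_sieve` for the Farey fractions `α/x`, which are `1/Y²`-spaced. -/
theorem inv_large_sieve {N Y : ℝ} (hN : 1 ≤ N) (hY : 1 ≤ Y) (XX UU : Finset ℕ)
    (hX : ∀ x ∈ XX, 1 < x ∧ (x : ℝ) ≤ Y) (hU : ∀ u ∈ UU, (u : ℝ) ≤ N) (α : ℕ → ℤ) (ub : ℕ → ℕ → ℤ)
    (hα : ∀ x ∈ XX, IsCoprime (α x) (x : ℤ))
    (hub : ∀ x ∈ XX, ∀ u ∈ UU, (u : ℤ) * ub x u ≡ 1 [ZMOD x]) (w : ℕ → ℂ) :
    ∑ x ∈ XX, ‖∑ u ∈ UU, w u * R29.ee ((α x * ub x u : ℤ) / (x : ℝ))‖ ^ 2 ≤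
      5 * (N + Y ^ 2) * ∑ u ∈ UU, ‖w u‖ ^ 2 :=
  mixA_inv_large_sieve hN hY XX UU hX hU α ub hα hub w

/-- the smooth factor -/
noncomputable def mxφ (M : ℝ) (k : ℤ) (β q : ℝ) : ℂ :=
  ((M / q : ℝ) : ℂ) * (R29.tri (M / 2) k q : ℂ) * R29.ee (β / q)

theorem mx_tri {M q : ℝ} (hM : 0 ≤ M) (hq : 0 < q) (k : ℤ) : |R29.tri (M / 2) k q| ≤ 1 := by
  rw [R29.tri, abs_of_nonneg (le_max_left _ _)]
  refine max_le zero_le_one ?_
  have : 0 ≤ 2 * (M / 2) * |(k : ℝ)| / q := by positivity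
  linarith

theorem mx_norm {M β q Q : ℝ} {k : ℤ} (hM : 0 ≤ M) (hQ : 0 < Q) (hq : Q ≤ q) :
    ‖mxφ M k β q‖ ≤ M / Q := by
  have hq0 : 0 < q := hQ.trans_le hq
  rw [mxφ, norm_mul, norm_mul, R29.norm_ee, mul_one, Complex.norm_real, Complex.norm_real,
    Real.norm_of_nonneg (by positivity), Real.norm_eq_abs]
  calc _ ≤ M / Q * 1 := by gcongr; exact mx_tri hM hq0 k
    _ = _ := mul_one _

theorem mx_lip {M β q q₀ Q δ : ℝ} {k : ℤ} (hM : 0 ≤ M) (hQ : 0 < Q) (hq : Q ≤ q) (hq₀ : Q ≤ q₀)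
    (hδ : |1 / q - 1 / q₀| ≤ δ / Q) : ‖mxφ M k β q - mxφ M k β q₀‖ ≤
      M / Q * δ * (1 + M * |(k : ℝ)| / Q + 7 * |β| / Q) := by
  have h1 : 0 < q := hQ.trans_le hq
  have h2 : 0 < q₀ := hQ.trans_le hq₀
  have hδ0 : 0 ≤ δ / Q := (abs_nonneg _).trans hδ
  have e : mxφ M k β q - mxφ M k β q₀ =
      ((M / q - M / q₀ : ℝ) : ℂ) * (R29.tri (M / 2) k q : ℂ) * R29.ee (β / q) +
      ((M / q₀ : ℝ) : ℂ) * ((R29.tri (M / 2) k q - R29.tri (M / 2) k q₀ : ℝ) : ℂ) * R29.ee (β / q) +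
      ((M / q₀ : ℝ) : ℂ) * (R29.tri (M / 2) k q₀ : ℂ) * (R29.ee (β / q) - R29.ee (β / q₀)) := by
    simp only [mxφ]
    push_cast
    ring
  have a1 : |M / q - M / q₀| ≤ M * (δ / Q) := by
    rw [show M / q - M / q₀ = M * (1 / q - 1 / q₀) by ring, abs_mul, abs_of_nonneg hM]
    gcongr
  have a2 : |R29.tri (M / 2) k q - R29.tri (M / 2) k q₀| ≤ M * |(k : ℝ)| * (δ / Q) := by
    rw [R29.tri, R29.tri, max_comm 0, max_comm 0]
    refine (abs_max_sub_max_le_abs _ _ _).trans ?_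
    rw [show 1 - 2 * (M / 2) * |(k : ℝ)| / q - (1 - 2 * (M / 2) * |(k : ℝ)| / q₀) =
      -(M * |(k : ℝ)| * (1 / q - 1 / q₀)) by ring, abs_neg, abs_mul,
      abs_of_nonneg (by positivity : 0 ≤ M * |(k : ℝ)|)]
    gcongr
  have a3 : ‖R29.ee (β / q) - R29.ee (β / q₀)‖ ≤ 7 * (|β| * (δ / Q)) := by
    refine (R29.norm_ee_sub_le _ _).trans ?_
    rw [show β / q - β / q₀ = β * (1 / q - 1 / q₀) by ring, abs_mul]
    gcongr
  have a4 : |M / q₀| ≤ M / Q := by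
    rw [abs_of_nonneg (by positivity)]
    gcongr
  have t1 := mx_tri hM h1 k
  have t2 := mx_tri hM h2 k
  rw [e]
  refine norm_add₃_le.trans ?_
  simp only [norm_mul, R29.norm_ee, mul_one, Complex.norm_real, Real.norm_eq_abs]
  calc _ ≤ M * (δ / Q) * 1 + M / Q * (M * |(k : ℝ)| * (δ / Q)) +
        M / Q * 1 * (7 * (|β| * (δ / Q))) := by gcongr
    _ = _ := by ring

theorem mx_coprime {x : ℕ} {z : ℤ} (h : ∀ p : ℕ, p.Prime → p ∣ x → ¬ (p : ℤ) ∣ z) :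
    IsCoprime z (x : ℤ) := by
  rw [isCoprime_comm, Int.isCoprime_iff_gcd_eq_one]
  exact Nat.coprime_of_dvd fun p hp hpx hpz => h p hp hpx (Int.natCast_dvd.2 hpz)

theorem mx_card {Y : ℝ} (hY : 0 < Y) {XX : Finset ℕ} (hX : ∀ x ∈ XX, Y ≤ x ∧ (x : ℝ) ≤ 3 * Y) :
    (XX.card : ℝ) ≤ 3 * Y := by
  have h : XX ⊆ Icc 1 ⌊3 * Y⌋₊ := fun x hx => mem_Icc.2
    ⟨by exact_mod_cast (hY.trans_le (hX x hx).1 : (0 : ℝ) < x), Nat.le_floor (hX x hx).2⟩
  have h2 := card_le_card h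
  rw [Nat.card_Icc, Nat.add_sub_cancel] at h2
  exact le_trans (by exact_mod_cast h2) (Nat.floor_le (by positivity))

/-- one class and one cell -/
theorem mx_block {Y Λ W : ℝ} {U : ℕ} {XX UU : Finset ℕ} (hY : 1 < Y) (hΛ : 0 < Λ)
    (h1 : Λ ^ 2 ≤ Y) (h2 : Y * Λ ^ 2 ≤ U) (hW : 0 ≤ W) (hX : ∀ x ∈ XX, Y ≤ x ∧ (x : ℝ) ≤ 3 * Y)
    (hU : UU ⊆ Ico U (2 * U)) (α : ℕ → ℤ) (ub : ℕ → ℕ → ℤ)
    (hα : ∀ x ∈ XX, IsCoprime (α x) (x : ℤ))
    (hub : ∀ x ∈ XX, ∀ u ∈ UU, (u : ℤ) * ub x u ≡ 1 [ZMOD x]) (w : ℕ → ℂ)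
    (hw : ∀ u ∈ UU, ‖w u‖ ≤ W) :
    ‖∑ x ∈ XX, ∑ u ∈ UU, w u * R29.ee ((α x * ub x u : ℤ) / (x : ℝ))‖ ≤ W * (13 * Y * U / Λ) := by
  have hY0 : 0 < Y := by linarith
  have hU0 : (0 : ℝ) < U := lt_of_lt_of_le (by positivity) h2
  have hU1 : (1 : ℝ) ≤ U := by exact_mod_cast (by exact_mod_cast hU0 : 0 < U)
  have hls := inv_large_sieve (N := 2 * U) (Y := 3 * Y) (by linarith) (by linarith) XX UU
    (fun x hx => ⟨by exact_mod_cast hY.trans_le (hX x hx).1, (hX x hx).2⟩)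
    (fun u hu => by exact_mod_cast (mem_Ico.1 (hU hu)).2.le) α ub hα hub w
  have hc : (UU.card : ℝ) ≤ U := by
    have := card_le_card hU
    rw [Nat.card_Ico] at this
    exact_mod_cast (by omega : UU.card ≤ U)
  have hw2 : ∑ u ∈ UU, ‖w u‖ ^ 2 ≤ U * W ^ 2 := by
    refine (sum_le_card_nsmul _ _ (W ^ 2) fun u hu => ?_).trans ?_
    · gcongr
      exact hw u hu
    · rw [nsmul_eq_mul]
      gcongr
  refine (norm_sum_le _ _).trans (abs_le_of_sq_le_sq' ?_ (by positivity)).2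
  refine sq_sum_le_card_mul_sum_sq.trans ?_
  have h3 : Λ ^ 2 * (2 * U + (3 * Y) ^ 2) ≤ 11 * (Y * U) := by nlinarith
  calc _ ≤ 3 * Y * (5 * (2 * U + (3 * Y) ^ 2) * (U * W ^ 2)) := by
        gcongr
        · exact mx_card hY0 hX
        · exact hls.trans (by gcongr)
    _ = 15 * Y * U * W ^ 2 / Λ ^ 2 * (Λ ^ 2 * (2 * U + (3 * Y) ^ 2)) := by
        field_simp
        ring
    _ ≤ 15 * Y * U * W ^ 2 / Λ ^ 2 * (11 * (Y * U)) := by gcongr
    _ = 165 * (W * Y * U / Λ) ^ 2 := by ring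
    _ ≤ 169 * (W * Y * U / Λ) ^ 2 := by gcongr; norm_num
    _ = _ := by ring

/-- one frequency -/
theorem mx_fixed {Y Λ W W' : ℝ} {U m T : ℕ} {XX UU : Finset ℕ} {k Y' : ℤ} {n : ℕ → ℤ}
    {g : ℝ → ℕ → ℂ} (hY : 1 < Y) (hΛ : 0 < Λ) (h1 : Λ ^ 2 ≤ Y) (h2 : Y * Λ ^ 2 ≤ U) (hm : 0 < m)
    (hT : (0 : ℝ) < T) (hW : 0 ≤ W) (hW' : 0 ≤ W')
    (hX : ∀ x ∈ XX, Y ≤ x ∧ (x : ℝ) ≤ 3 * Y ∧ (∀ u ∈ UU, Nat.Coprime x u) ∧ Nat.Coprime x m ∧
      IsCoprime (k * Y') (x : ℤ))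
    (hU : ∀ u ∈ UU, u ∈ Ico U (2 * U) ∧ u * n u = Y')
    (hg : ∀ y, Y ≤ y → ∀ u ∈ UU, ‖g y u‖ ≤ W)
    (hg' : ∀ y y', Y ≤ y' → y' ≤ y → y ≤ y' + 2 * Y / T → ∀ u ∈ UU, ‖g y u - g y' u‖ ≤ W') :
    ‖∑ x ∈ XX, ∑ u ∈ UU, g x u * R29.ee ((k * n u : ℤ) / (m * x : ℝ))‖ ≤
      m * (T + 1) * (W * (13 * Y * U / Λ)) + 3 * Y * U * W' := by
  have hY0 : 0 < Y := by linarith
  have hm0 : (0 : ℝ) < m := by exact_mod_cast hm
  set cl : ℕ → ℕ := fun x => ⌊((x : ℝ) - Y) * T / (2 * Y)⌋₊ with hcl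
  set pt : ℕ → ℝ := fun j => Y + 2 * Y / T * j with hpt
  have hpt1 : ∀ j, Y ≤ pt j := fun j => le_add_of_nonneg_right (by positivity)
  have hcl1 : ∀ x ∈ XX, cl x ≤ T ∧ pt (cl x) ≤ x ∧ (x : ℝ) ≤ pt (cl x) + 2 * Y / T := fun x hx => by
    have h3 := (hX x hx).1
    have h4 := (hX x hx).2.1
    have h0 : 0 ≤ (x : ℝ) - Y := by linarith
    have h5 : (cl x : ℝ) ≤ ((x : ℝ) - Y) * T / (2 * Y) := Nat.floor_le (by positivity)
    have h6 : ((x : ℝ) - Y) * T / (2 * Y) < cl x + 1 := Nat.lt_floor_add_one _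
    rw [le_div_iff₀ (by positivity)] at h5
    rw [div_lt_iff₀ (by positivity)] at h6
    refine ⟨?_, ?_, ?_⟩
    · have : (cl x : ℝ) * (2 * Y) ≤ T * (2 * Y) := by nlinarith
      exact_mod_cast le_of_mul_le_mul_right this (by positivity)
    · have : 2 * Y / T * cl x ≤ x - Y := by
        rw [div_mul_eq_mul_div, div_le_iff₀ hT]
        linarith
      simp only [hpt]
      linarith
    · have : (x : ℝ) - Y ≤ 2 * Y / T * (cl x + 1) := by
        rw [div_mul_eq_mul_div, le_div_iff₀ hT]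
        linarith
      simp only [hpt]
      linarith
  set mb : ℕ → ℤ := fun x => Nat.gcdB (x % m) m - (x / m : ℕ) * Nat.gcdA (x % m) m with hmb
  have hbez : ∀ x ∈ XX, (x : ℤ) * Nat.gcdA (x % m) m + m * mb x = 1 := fun x hx => by
    have h3 := Nat.gcd_eq_gcd_ab (x % m) m
    rw [← Nat.gcd_rec, (hX x hx).2.2.2.1.symm, Nat.cast_one] at h3
    have h4 : (x : ℤ) = m * (x / m : ℕ) + (x % m : ℕ) := by exact_mod_cast (Nat.div_add_mod x m).symm
    simp only [hmb]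
    linear_combination Nat.gcdA (x % m) m * h4 - h3
  have hub : ∀ x ∈ XX, ∀ u ∈ UU, (u : ℤ) * Nat.gcdA u x + x * Nat.gcdB u x = 1 :=
    fun x hx u hu => by
      have h3 := Nat.gcd_eq_gcd_ab u x
      rw [((hX x hx).2.2.1 u hu).symm, Nat.cast_one] at h3
      exact h3.symm
  have hee : ∀ x ∈ XX, ∀ u ∈ UU, R29.ee ((k * n u : ℤ) / (m * x : ℝ)) =
      R29.ee ((k * n u * Nat.gcdA (x % m) m : ℤ) / (m : ℝ)) *
        R29.ee ((k * Y' * mb x * Nat.gcdA u x : ℤ) / (x : ℝ)) := fun x hx u hu => by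
    have hx0 : (0 : ℝ) < x := hY0.trans_le (hX x hx).1
    have h3 : (k * n u : ℤ) = k * n u * Nat.gcdA (x % m) m * x + k * Y' * mb x * Nat.gcdA u x * m +
        k * n u * mb x * Nat.gcdB u x * (m * x) := by
      rw [← (hU u hu).2]
      linear_combination -(k * n u) * hbez x hx - k * n u * mb x * m * hub x hx u hu
    rw [← R29.ee_add, ← R29.ee_add_int (_ + _) (k * n u * mb x * Nat.gcdB u x)]
    congr 1
    have h4 := congrArg (Int.cast : ℤ → ℝ) h3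
    push_cast at h4 ⊢
    field_simp
    linear_combination h4
  have hsplit : ∑ x ∈ XX, ∑ u ∈ UU, g x u * R29.ee ((k * n u : ℤ) / (m * x : ℝ)) =
      ∑ κ ∈ range m ×ˢ range (T + 1), ∑ x ∈ XX.filter (fun x => (x % m, cl x) = κ), ∑ u ∈ UU,
        g (pt κ.2) u * R29.ee ((k * n u * Nat.gcdA κ.1 m : ℤ) / (m : ℝ)) *
          R29.ee ((k * Y' * mb x * Nat.gcdA u x : ℤ) / (x : ℝ)) +
      ∑ x ∈ XX, ∑ u ∈ UU, (g x u - g (pt (cl x)) u) * R29.ee ((k * n u : ℤ) / (m * x : ℝ)) := by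
    rw [← sub_eq_iff_eq_add, ← sum_sub_distrib, ← sum_fiberwise_of_maps_to
      (t := range m ×ˢ range (T + 1)) (g := fun x => (x % m, cl x)) fun x hx => mem_product.2
        ⟨mem_range.2 (Nat.mod_lt _ hm), mem_range.2 (Nat.lt_succ_of_le (hcl1 x hx).1)⟩]
    refine sum_congr rfl fun κ _ => sum_congr rfl fun x hx => ?_
    obtain ⟨hx', rfl⟩ := mem_filter.1 hx
    rw [← sum_sub_distrib]
    refine sum_congr rfl fun u hu => ?_
    rw [hee x hx' u hu]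
    ring
  rw [hsplit]
  refine (norm_add_le _ _).trans (add_le_add ?_ ?_)
  · refine (norm_sum_le _ _).trans ((sum_le_card_nsmul _ _ (W * (13 * Y * U / Λ))
      fun κ _ => ?_).trans (le_of_eq ?_))
    · refine mx_block hY hΛ h1 h2 hW
        (fun x hx => ⟨(hX x (mem_filter.1 hx).1).1, (hX x (mem_filter.1 hx).1).2.1⟩)
        (fun u hu => (hU u hu).1) (fun x => k * Y' * mb x) (fun x u => Nat.gcdA u x)
        (fun x hx => ?_) (fun x hx u hu => ?_) _ fun u hu => ?_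
      · have hx' := (mem_filter.1 hx).1
        exact (hX x hx').2.2.2.2.mul_left ⟨m, Nat.gcdA (x % m) m, by linear_combination hbez x hx'⟩
      · refine Int.modEq_iff_dvd.2 ⟨Nat.gcdB u x, ?_⟩
        linear_combination -hub x (mem_filter.1 hx).1 u hu
      · rw [norm_mul, R29.norm_ee, mul_one]
        exact hg _ (hpt1 _) u hu
    · rw [card_product, card_range, card_range, nsmul_eq_mul]
      push_cast
      ring
  · have hc : (UU.card : ℝ) ≤ U := by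
      have := card_le_card (fun u hu => (hU u hu).1 : UU ⊆ Ico U (2 * U))
      rw [Nat.card_Ico] at this
      exact_mod_cast (by omega : UU.card ≤ U)
    refine (norm_sum_le _ _).trans ((sum_le_card_nsmul _ _ (U * W') fun x hx => ?_).trans ?_)
    · refine (norm_sum_le _ _).trans ((sum_le_card_nsmul _ _ W' fun u hu => ?_).trans ?_)
      · rw [norm_mul, R29.norm_ee, mul_one]
        exact hg' _ _ (hpt1 _) (hcl1 x hx).2.1 (hcl1 x hx).2.2 u hu
      · rw [nsmul_eq_mul]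
        gcongr
    · rw [nsmul_eq_mul, mul_assoc (3 * Y)]
      gcongr
      exact mx_card hY0 fun x hx => ⟨(hX x hx).1, (hX x hx).2.1⟩

/-- `rem_eq` with `|k| ≤ 6 e`.  Write `c X - d = f Y'`, `u ∣ Y'`; for `q = f x u e`:
`k X/q = k d/(c q) + k (Y'/u)/(c e x)` and
`e(k (Y'/u)/(c e x)) = e(k (Y'/u) x̄/(c e)) e(α_x ū/x)` with `α_x = k Y' (c e)⁻¹` coprime to `x`.
Sort `x` by its class mod `c e` and into `⌈L^{4B+4}⌉` cells, freeze the smooth factor
`(x u)⁻¹ tri e(k d/(c q))` at the left end of the cell, and apply `inv_large_sieve` in each class and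
cell; Cauchy-Schwarz in `x`. -/
theorem mixed (B : ℕ) : ∃ B' : ℕ, ∀ᶠ M : ℝ in atTop,
    ∀ (X c d : ℤ) (f e U : ℕ) (Y : ℝ) (XX UU : Finset ℕ),
      1 ≤ c → (c : ℝ) ≤ LL M ^ B → |(d : ℝ)| ≤ M * LL M ^ B → 1 ≤ e → (e : ℝ) ≤ LL M ^ B → 0 < f →
      f * Y * U ≤ M → LL M ^ B' ≤ Y → Y * LL M ^ B' ≤ U →
      (∀ u ∈ UU, u ∈ R29.win U ∧ ((f * u : ℕ) : ℤ) ∣ c * X - d) →
      (∀ x ∈ XX, Y ≤ x ∧ (x : ℝ) ≤ 3 * Y ∧ (∀ u ∈ UU, Nat.Coprime x u) ∧
        ∀ p : ℕ, p.Prime → p ∣ x → ¬ Str X c d p ∧ 6 * LL M ^ B < p) →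
      |∑ x ∈ XX, ∑ u ∈ UU, rem M X (f * x * u * e)| ≤ M / f / LL M ^ B := by
  refine ⟨12 * B + 4, ?_⟩
  filter_upwards [ev_basic 100000] with M hM X c d f e U Y XX UU hc1 hc hd he1 he hf hfYU hY hYU
    hU hX
  obtain ⟨-, hL, hM, -⟩ := hM
  set L := LL M with hLdef
  have hL1 : 1 ≤ L := by linarith
  have hLB : 1 ≤ L ^ B := one_le_pow₀ hL1
  have hM0 : 0 < M := by linarith
  have hf0 : (0 : ℝ) < f := by exact_mod_cast hf
  have he0 : (0 : ℝ) < e := by exact_mod_cast he1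
  have hY1 : 1 < Y := lt_of_lt_of_le (one_lt_pow₀ (by linarith) (by omega)) hY
  have hY0 : 0 < Y := by linarith
  have hU0 : (0 : ℝ) < U := lt_of_lt_of_le (by positivity) hYU
  have hUb : ∀ u ∈ UU, (U : ℝ) ≤ u ∧ (u : ℝ) ≤ 2 * U := fun u hu => by
    have := mem_Ico.1 (mem_filter.1 (hU u hu).1).1
    exact ⟨by exact_mod_cast this.1, by exact_mod_cast this.2.le⟩
  have hqb : ∀ x ∈ XX, ∀ u ∈ UU, 0 < f * x * u * e ∧
      ((f * x * u * e : ℕ) : ℝ) ≤ 6 * (f * Y * U * e) := fun x hx u hu => by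
    have h1 := (hX x hx).1
    have h2 := (hX x hx).2.1
    have h3 := hUb u hu
    have h4 : (0 : ℝ) < x := by linarith
    have h5 : (0 : ℝ) < u := by linarith [h3.1]
    constructor
    · have : (0 : ℝ) < f * x * u * e := by positivity
      exact_mod_cast this
    · push_cast
      calc (f : ℝ) * x * u * e ≤ f * (3 * Y) * (2 * U) * e := by gcongr; exact h3.2
        _ = _ := by ring
  rcases le_or_gt (6 * (f * Y * U * e)) M with hsm | hsm
  · rw [sum_eq_zero fun x hx => sum_eq_zero fun u hu => rem_eq_zero (by linarith)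
      (hqb x hx u hu).1 ((hqb x hx u hu).2.trans hsm), abs_zero]
    positivity
  rcases UU.eq_empty_or_nonempty with rfl | ⟨u₀, hu₀⟩
  · simp only [sum_empty, sum_const_zero, abs_zero]
    positivity
  lift c to ℕ using (by omega)
  have hc1' : 1 ≤ c := by exact_mod_cast hc1
  rw [Int.cast_natCast] at hc
  have hc0 : (1 : ℝ) ≤ c := by exact_mod_cast hc1'
  obtain ⟨Y', hY'⟩ : (f : ℤ) ∣ c * X - d :=
    Dvd.dvd.trans (by push_cast; exact dvd_mul_right _ _) (hU u₀ hu₀).2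
  have hn : ∀ u ∈ UU, ∃ n : ℤ, u * n = Y' := fun u hu => by
    obtain ⟨n, hn⟩ := (hU u hu).2
    refine ⟨n, mul_left_cancel₀ (a := (f : ℤ)) (by exact_mod_cast hf.ne') ?_⟩
    rw [← hY', hn]
    push_cast
    ring
  choose! n hn using hn
  set Q : ℝ := f * Y * U * e with hQ
  have hQ0 : 0 < Q := by positivity
  have hMQ : M / Q ≤ 6 := by
    rw [div_le_iff₀ hQ0]
    linarith
  set T := ⌈L ^ (3 * B + 1)⌉₊ with hT
  have hT1 : L ^ (3 * B + 1) ≤ T := Nat.le_ceil _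
  have hT0 : 1 ≤ L ^ (3 * B + 1) := one_le_pow₀ hL1
  have hT2 : (T : ℝ) + 1 ≤ 3 * L ^ (3 * B + 1) := by
    have := Nat.ceil_lt_add_one (a := L ^ (3 * B + 1)) (by positivity)
    linarith
  have hTpos : (0 : ℝ) < T := by linarith
  have hΛ : (L ^ (6 * B + 2)) ^ 2 = L ^ (12 * B + 4) := by ring
  have hexp : ((∑ x ∈ XX, ∑ u ∈ UU, rem M X (f * x * u * e) : ℝ) : ℂ) =
      ∑ k ∈ R29.Ibar (6 * e), ∑ x ∈ XX, ∑ u ∈ UU, mxφ M k (k * d / c) (f * x * u * e) *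
        R29.ee ((k * n u : ℤ) / ((c * e : ℕ) * x : ℝ)) := by
    rw [sum_comm (s := R29.Ibar (6 * e)), Complex.ofReal_sum]
    refine sum_congr rfl fun x hx => ?_
    rw [sum_comm (s := R29.Ibar (6 * e)), Complex.ofReal_sum]
    refine sum_congr rfl fun u hu => ?_
    have h4 : (0 : ℝ) < x := by linarith [(hX x hx).1]
    have h5 : (0 : ℝ) < u := by linarith [(hUb u hu).1]
    rw [rem_eq (by linarith) (hqb x hx u hu).1 (Z := 6 * e) ((hqb x hx u hu).2.trans (by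
      push_cast
      calc 6 * Q = f * Y * U * (6 * e) := by ring
        _ ≤ _ := by gcongr)), mul_sum]
    refine sum_congr rfl fun k _ => ?_
    have h6 : (X : ℝ) = (d + f * u * n u) / c := by
      have : (c : ℝ) * X - d = f * (u * n u) := by exact_mod_cast (hn u hu) ▸ hY'
      field_simp
      linarith
    have h7 : (k : ℝ) * X / (f * x * u * e : ℕ) = k * d / c / (f * x * u * e) +
        (k * n u : ℤ) / ((c * e : ℕ) * x : ℝ) := by
      rw [h6]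
      push_cast
      field_simp
    rw [h7, R29.ee_add, mxφ]
    push_cast
    ring
  have hk : ∀ k ∈ R29.Ibar (6 * e), ‖∑ x ∈ XX, ∑ u ∈ UU, mxφ M k (k * d / c) (f * x * u * e) *
      R29.ee ((k * n u : ℤ) / ((c * e : ℕ) * x : ℝ))‖ ≤
      (c * e : ℕ) * (T + 1) * (M / Q * (13 * Y * U / L ^ (6 * B + 2))) +
        3 * Y * U * (M / Q * (2 / T) * (289 * (L ^ B) ^ 2)) := fun k hk => by
    have hk0 : k ≠ 0 := ne_of_mem_erase hk
    have hk1 : |k| ≤ 6 * e := by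
      have := mem_Icc.1 (mem_of_mem_erase hk)
      push_cast at this
      exact abs_le.2 this
    have hk2 : |(k : ℝ)| ≤ 6 * L ^ B := by
      have : |(k : ℝ)| ≤ 6 * e := by exact_mod_cast hk1
      linarith
    have hnd : ∀ x ∈ XX, ∀ p : ℕ, p.Prime → p ∣ x → ∀ z : ℤ, z ≠ 0 → |(z : ℝ)| ≤ 6 * L ^ B →
        ¬ (p : ℤ) ∣ z := fun x hx p hp hpx z hz hz' hpz => by
      have h1 := ((hX x hx).2.2.2 p hp hpx).2
      have h2 : ((p : ℤ) : ℝ) ≤ ((|z| : ℤ) : ℝ) :=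
        Int.cast_le.2 (Int.le_of_dvd (abs_pos.2 hz) ((dvd_abs _ _).2 hpz))
      push_cast at h2
      linarith
    refine mx_fixed (g := fun y u => mxφ M k (k * d / c) (f * y * u * e)) (Y' := Y') hY1
      (by positivity) (hΛ ▸ hY) (hΛ ▸ hYU) (Nat.mul_pos hc1' he1) hTpos (by positivity)
      (by positivity) (fun x hx => ⟨(hX x hx).1, (hX x hx).2.1, (hX x hx).2.2.1, ?_, ?_⟩)
      (fun u hu => ⟨(mem_filter.1 (hU u hu).1).1, hn u hu⟩) (fun y hy u hu => ?_)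
      fun y y' hy hy' hy'' u hu => ?_
    · refine Nat.coprime_of_dvd fun p hp hpx hpm => ?_
      rcases (Nat.Prime.dvd_mul hp).1 hpm with h1 | h1
      · refine hnd x hx p hp hpx c (by omega) ?_ (Int.natCast_dvd_natCast.2 h1)
        rw [Int.cast_natCast, Nat.abs_cast]
        linarith
      · refine hnd x hx p hp hpx e (by omega) ?_ (Int.natCast_dvd_natCast.2 h1)
        rw [Int.cast_natCast, Nat.abs_cast]
        linarith
    · refine mx_coprime fun p hp hpx hpm => ?_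
      rcases (Nat.prime_iff_prime_int.1 hp).dvd_or_dvd hpm with h1 | h1
      · exact hnd x hx p hp hpx k hk0 hk2 h1
      · refine ((hX x hx).2.2.2 p hp hpx).1 ?_
        rw [Str, hY']
        exact h1.mul_left _
    · refine mx_norm hM0.le hQ0 ?_
      have hu1 := (hUb u hu).1
      have hy1 : 0 < y := by linarith
      rw [hQ]
      gcongr
    · have hu1 := (hUb u hu).1
      have hu0 : (0 : ℝ) < u := by linarith
      have hy0 : 0 < y' := by linarith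
      have hy1 : 0 < y := by linarith
      have q1 : Q ≤ f * y' * u * e := by rw [hQ]; gcongr
      have q2 : Q ≤ f * y * u * e := by rw [hQ]; gcongr; linarith
      refine (mx_lip (δ := 2 / T) hM0.le hQ0 q2 q1 ?_).trans ?_
      · have e1 : 1 / (f * y * u * e) - 1 / (f * y' * u * e) =
            -((y - y') / y * (1 / (f * y' * u * e))) := by
          field_simp
          ring
        rw [e1, abs_neg, abs_of_nonneg (by have : 0 ≤ y - y' := by linarith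
                                           positivity), div_eq_mul_one_div (2 / (T : ℝ))]
        gcongr ?_ * ?_
        swap
        · gcongr
        rw [div_le_iff₀ hy1]
        calc y - y' ≤ 2 * Y / T := by linarith
          _ = 2 / T * Y := by ring
          _ ≤ _ := by gcongr; linarith
      · gcongr
        have h1 : M * |(k : ℝ)| / Q ≤ 6 * (6 * L ^ B) := by
          rw [mul_div_right_comm]
          gcongr
        have h2 : |(k : ℝ) * d / c| / Q ≤ 6 * L ^ B * (6 * L ^ B) := by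
          rw [abs_div, abs_mul, Nat.abs_cast]
          calc |(k : ℝ)| * |(d : ℝ)| / c / Q ≤ 6 * L ^ B * (M * L ^ B) / 1 / Q := by gcongr
            _ = 6 * L ^ B * (M / Q * L ^ B) := by ring
            _ ≤ _ := by gcongr
        rw [mul_div_assoc 7]
        nlinarith
  have hcard : ((R29.Ibar (6 * e)).card : ℝ) = 12 * e := by
    have : (R29.Ibar (6 * e)).card = 12 * e := by
      rw [R29.Ibar, card_erase_of_mem (by simp), Int.card_Icc]
      omega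
    rw [this]
    push_cast
    ring
  rw [← Real.norm_eq_abs, ← Complex.norm_real, hexp]
  refine (norm_sum_le _ _).trans ((sum_le_card_nsmul _ _ _ hk).trans ?_)
  rw [nsmul_eq_mul, hcard]
  have hA0 : 0 < L ^ B := by positivity
  have p1 : L ^ (3 * B + 1) = (L ^ B) ^ 3 * L := by ring
  have p2 : L ^ (6 * B + 2) = (L ^ B) ^ 6 * L ^ 2 := by ring
  rw [p1] at hT1 hT2
  rw [p2]
  set A := L ^ B with hA
  have hL0 : 0 < L := by linarith
  calc _ ≤ 12 * e * ((A * A) * (3 * (A ^ 3 * L)) * (M / Q * (13 * Y * U / (A ^ 6 * L ^ 2))) +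
        3 * Y * U * (M / Q * (2 / (A ^ 3 * L)) * (289 * A ^ 2))) := by
        push_cast
        gcongr
    _ = M / f / A * (21276 / L) := by
        rw [hQ]
        field_simp
        norm_num
    _ ≤ _ := by
        refine mul_le_of_le_one_right (by positivity) ?_
        rw [div_le_one hL0]
        linarith

end Crest.Agent.R1
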