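import Crest.Agent.R1.FamA
import Crest.Agent.R1.Mix

/-!
# R1 / FamBb: the proof of `fam_mix`
-/

set_option autoImplicit false

namespace Crest.Agent.R1

open Finset Filter
open scoped Classical

theorem fbb_card {h i J e : ℕ} {R : ℤ} (H : LocOk h i J e R) :
    (((Pr h 0 J).powerset.filter (fun T => loc h i J e R T ≠ 0)).card : ℝ) ≤
      Real.exp ((R : ℝ) / h) := by
  have hp : ∀ T ∈ (Pr h 0 J).powerset.filter (fun T => loc h i J e R T ≠ 0), ∀ p ∈ T, p.Prime :=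
    fun T hT p hp => ((mem_Pr H.h_pos).1 (mem_powerset.1 (mem_filter.1 hT).1 hp)).1
  have h1 := card_le_card_of_injOn
    (s := (Pr h 0 J).powerset.filter (fun T => loc h i J e R T ≠ 0))
    (t := Icc 1 ⌊Real.exp ((R : ℝ) / h)⌋₊) pd (fun T hT => ?_) (fun T hT T' hT' e => ?_)
  · rw [Nat.card_Icc, Nat.add_sub_cancel] at h1
    exact le_trans (by exact_mod_cast h1) (Nat.floor_le (Real.exp_pos _).le)
  · exact mem_coe.2 (mem_Icc.2 ⟨pd_pos (hp T hT), Nat.le_floor (H.supp (mem_filter.1 hT).2).2⟩)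
  · rw [← primeFactors_pd (hp T hT), e, primeFactors_pd (hp T' hT')]

theorem fbb_wt (P : Finset ℕ) : ∑ x ∈ P.powerset, wt iv x ≤ Real.exp (∑ p ∈ P, iv p) := by
  unfold wt
  rw [← prod_one_add, Real.exp_sum]
  refine prod_le_prod (fun p _ => ?_) fun p _ => ?_
  · unfold iv
    positivity
  · linarith [Real.add_one_le_exp (iv p)]

theorem fbb_exp {M : ℝ} (hL : 0 < LL M) (κ : ℕ) : Real.exp (κ * ll M) = LL M ^ κ := by
  rw [Real.exp_nat_mul]
  congr 1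
  exact Real.exp_log hL

theorem fbb_un_ge {M : ℝ} (hL : 0 < LL M) (hl : 1 ≤ ll M) (h0 : 0 < hh M) {κ κ' : ℕ}
    (h : κ + 1 ≤ κ') : LL M ^ κ ≤ Real.exp (((un M κ' : ℝ) - 1) / hh M) := by
  rw [← fbb_exp hL, Real.exp_le_exp]
  have h1 : (1 : ℝ) ≤ hh M := by exact_mod_cast h0
  have h2 := (un_spec (M := M) (κ := κ') (Nat.cast_nonneg _) (by linarith)).1
  have h3 : (κ : ℝ) + 1 ≤ κ' := by exact_mod_cast h
  rw [le_div_iff₀ (by linarith)]
  have h4 : 1 ≤ (hh M : ℝ) * ll M := by nlinarith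
  nlinarith

theorem fbb_un_le {M : ℝ} (hL : 0 < LL M) (h0 : 0 < hh M) {s κ : ℕ} (hl : (s : ℝ) ≤ ll M) :
    Real.exp (((s * un M κ : ℕ) : ℝ) / hh M) ≤ LL M ^ (s * κ + 1) := by
  rw [← fbb_exp hL, Real.exp_le_exp]
  have h1 : (1 : ℝ) ≤ hh M := by exact_mod_cast h0
  have hs : (0 : ℝ) ≤ s := Nat.cast_nonneg _
  have h2 := (un_spec (M := M) (κ := κ) (Nat.cast_nonneg _) (by linarith)).2
  rw [div_le_iff₀ (by linarith)]
  push_cast
  have h3 := mul_le_mul_of_nonneg_left h2 hs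
  nlinarith

/-- the sum over one fibre -/
theorem fbb_fibre {M L : ℝ} {B B' : ℕ} {X z d : ℤ}
    (hmix : ∀ (f e U : ℕ) (Y : ℝ) (XX UU : Finset ℕ), 1 ≤ e → (e : ℝ) ≤ L ^ B → 0 < f →
      f * Y * U ≤ M → L ^ B' ≤ Y → Y * L ^ B' ≤ U →
      (∀ u ∈ UU, u ∈ R29.win U ∧ ((f * u : ℕ) : ℤ) ∣ z * X - d) →
      (∀ x ∈ XX, Y ≤ x ∧ (x : ℝ) ≤ 3 * Y ∧ (∀ u ∈ UU, Nat.Coprime x u) ∧
        ∀ p : ℕ, p.Prime → p ∣ x → ¬ Str X z d p ∧ 6 * L ^ B < p) →
      |∑ x ∈ XX, ∑ u ∈ UU, rem M X (f * x * u * e)| ≤ M / f / L ^ B)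
    (hM : 0 ≤ M) (hL : 0 < L) {g xs UU : Finset ℕ} {S : Finset (Finset ℕ)} {t e U X0 : ℕ}
    (he1 : 1 ≤ e) (he : (e : ℝ) ≤ L ^ B) (hg : ∀ p ∈ g, p.Prime ∧ Str X z d p)
    (ht : t.Prime ∧ Str X z d t) (hU : ∀ u ∈ UU, u.Prime ∧ Str X z d u ∧ u ∈ R29.win U)
    (hS : ∀ x ∈ S, x.filter (Str X z d) = xs ∧ (¬ ∀ p ∈ x, Str X z d p) ∧
      (∀ p ∈ x, p.Prime ∧ 6 * L ^ B < p ∧ 3 * L ^ B' ≤ p) ∧ X0 ≤ pd x ∧ pd x ≤ 3 * X0 ∧
      (pd x : ℝ) * L ^ B' ≤ U ∧ ∀ u ∈ UU, (u ∉ g ∧ u ∉ x ∧ t ∉ g ∧ t ∉ x ∧ u ≠ t ∧ Disjoint x g) ∧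
        ((pd g * pd x * u * t : ℕ) : ℝ) ≤ M) :
    |∑ x ∈ S, ∑ u ∈ UU, rem M X (pd g * pd x * u * t * e)| ≤
      M * wt iv g * iv t / L ^ B * wt iv xs := by
  have hpos : 0 ≤ M * wt iv g * iv t / L ^ B * wt iv xs := by
    rw [wt_iv, wt_iv, iv]
    positivity
  rcases S.eq_empty_or_nonempty with rfl | ⟨x₀, hx₀⟩
  · simpa using hpos
  rcases UU.eq_empty_or_nonempty with rfl | ⟨u₀, hu₀⟩
  · simpa using hpos
  set r : Finset ℕ → Finset ℕ := fun x => x.filter (fun p => ¬ Str X z d p) with hr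
  have hsplit : ∀ x ∈ S, pd x = pd xs * pd (r x) := fun x hx => by
    rw [← (hS x hx).1]
    exact (prod_filter_mul_prod_filter_not x (Str X z d) fun p => p).symm
  have hrp : ∀ x ∈ S, ∀ p ∈ r x, p.Prime := fun x hx p hp =>
    ((hS x hx).2.2.1 p (mem_filter.1 hp).1).1
  have hxs : ∀ p ∈ xs, p ∈ x₀ ∧ Str X z d p := fun p hp => by
    rw [← (hS x₀ hx₀).1] at hp
    exact mem_filter.1 hp
  have hxsp : ∀ p ∈ xs, p.Prime := fun p hp => ((hS x₀ hx₀).2.2.1 p (hxs p hp).1).1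
  have hg0 : 0 < pd g := pd_pos fun p hp => (hg p hp).1
  have hxs0 : 0 < pd xs := pd_pos hxsp
  have hxs1 : (1 : ℝ) ≤ pd xs := by exact_mod_cast hxs0
  have hinj : Set.InjOn (fun x => pd (r x)) S := by
    intro x hx x' hx' e
    have e1 : r x = r x' := by
      rw [← primeFactors_pd (hrp x hx), ← primeFactors_pd (hrp x' hx')]
      exact congrArg Nat.primeFactors e
    rw [← filter_union_filter_not_eq (Str X z d) x, ← filter_union_filter_not_eq (Str X z d) x',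
      (hS x hx).1, (hS x' hx').1]
    exact congrArg (xs ∪ ·) e1
  have hY : ∀ x ∈ S, (X0 : ℝ) / pd xs ≤ pd (r x) ∧ (pd (r x) : ℝ) ≤ 3 * ((X0 : ℝ) / pd xs) := by
    intro x hx
    obtain ⟨-, -, -, a1, a2, -⟩ := hS x hx
    rw [hsplit x hx] at a1 a2
    rw [div_le_iff₀ (by linarith), ← mul_div_assoc, le_div_iff₀ (by linarith), mul_comm]
    exact ⟨by exact_mod_cast a1, by exact_mod_cast a2⟩
  have key := hmix (pd g * t * pd xs) e U ((X0 : ℝ) / pd xs) (S.image fun x => pd (r x)) UU he1 he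
    (by have := ht.1.pos; positivity) ?_ ?_ ?_ ?_ ?_
  · rw [sum_image hinj] at key
    refine le_trans (le_of_eq ?_) (key.trans (le_of_eq ?_))
    · congr 1
      refine sum_congr rfl fun x hx => sum_congr rfl fun u _ => ?_
      rw [hsplit x hx]
      congr 1
      ring
    · rw [wt_iv, wt_iv, iv]
      push_cast
      ring
  · obtain ⟨-, -, -, a1, -, -, a2⟩ := hS x₀ hx₀
    refine le_trans ?_ (a2 u₀ hu₀).2
    have b1 : (X0 : ℝ) ≤ pd x₀ := by exact_mod_cast a1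
    have b2 : (U : ℝ) ≤ u₀ := by
      exact_mod_cast (mem_Ico.1 (mem_filter.1 (hU u₀ hu₀).2.2).1).1
    push_cast
    calc (pd g : ℝ) * t * pd xs * (X0 / pd xs) * U = pd g * X0 * U * t := by field_simp
      _ ≤ _ := by gcongr
  · obtain ⟨-, a1, a2, -⟩ := hS x₀ hx₀
    push Not at a1
    obtain ⟨p, b1, b2⟩ := a1
    have b3 : p ≤ pd (r x₀) := Nat.le_of_dvd (pd_pos (hrp x₀ hx₀))
      (dvd_prod_of_mem (fun p : ℕ => p) (mem_filter.2 ⟨b1, b2⟩))
    have b4 : (p : ℝ) ≤ pd (r x₀) := by exact_mod_cast b3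
    linarith [(hY x₀ hx₀).2, (a2 p b1).2.2]
  · obtain ⟨-, -, -, a1, -, a2, -⟩ := hS x₀ hx₀
    refine le_trans ?_ a2
    have b1 : (X0 : ℝ) ≤ pd x₀ := by exact_mod_cast a1
    gcongr
    exact (div_le_self (Nat.cast_nonneg _) hxs1).trans b1
  · intro u hu
    refine ⟨(hU u hu).2.2, ?_⟩
    obtain ⟨d1, d2, d3, d4, d5, d6⟩ := ((hS x₀ hx₀).2.2.2.2.2.2 u hu).1
    have e1 : pd (nd4 g xs u t) = pd g * t * pd xs * u := by
      have d7 : u ∉ xs := fun h => d2 (hxs u h).1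
      have d8 : t ∉ xs := fun h => d4 (hxs t h).1
      unfold nd4 pd
      rw [prod_insert (by simp [d1, d5, d7]), prod_insert (by simp [d3, d8]),
        prod_union (disjoint_left.2 fun p h1 h2 => disjoint_left.1 d6 (hxs p h2).1 h1)]
      ring
    rw [← e1, pd_dvd_iff] <;> intro p hp <;> simp only [nd4, mem_insert, mem_union] at hp <;>
      rcases hp with rfl | rfl | hp | hp
    exacts [(hU p hu).2.1, ht.2, (hg p hp).2, (hxs p hp).2, (hU p hu).1, ht.1, (hg p hp).1,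
      hxsp p hp]
  · intro y hy
    obtain ⟨x, hx, rfl⟩ := mem_image.1 hy
    have hm : ∀ p : ℕ, p.Prime → p ∣ pd (r x) → p ∈ r x := fun p hp hd => by
      rw [← primeFactors_pd (hrp x hx)]
      exact Nat.mem_primeFactors.2 ⟨hp, hd, (pd_pos (hrp x hx)).ne'⟩
    refine ⟨(hY x hx).1, (hY x hx).2, fun u hu => ?_, fun p hp hd => ?_⟩
    · exact ((Nat.Prime.coprime_iff_not_dvd (hU u hu).1).2 fun hd =>
        (mem_filter.1 (hm u (hU u hu).1 hd)).2 (hU u hu).2.1).symm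
    · have := mem_filter.1 (hm p hp hd)
      exact ⟨this.2, ((hS x hx).2.2.1 p this.1).2.1⟩

theorem fam_mix_aux (a C₂ K s₁ Kt ρ : ℕ) (h1 : a + 20 ≤ K) (h2 : K ≤ Kt) (h3 : 1 ≤ ρ) :
    ∃ Kx₀ : ℕ, ∀ c : Cst, c.a = a → c.C₂ = C₂ → c.K = K → c.s₁ = s₁ → c.Kt = Kt → c.ρ = ρ →
      Kx₀ ≤ c.Kx → ∀ᶠ M : ℝ in atTop, ∀ X : ℤ, ∀ F ∈ c.fams M, ∀ z ∈ c.Cen M X,
        (∀ p ∈ F.1, Str X z.1 z.2 p) → ∀ t ∈ c.FT M F, Str X z.1 z.2 t →
        ∀ UU ⊆ c.FU M F, (∀ u ∈ UU, Str X z.1 z.2 u) →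
        |∑ x ∈ (c.FX M F).filter (fun x => ¬ ∀ p ∈ x, Str X z.1 z.2 p), ∑ u ∈ UU,
          c.remN M X (nd4 F.1 x u t)| ≤ M * wt iv F.1 * iv t / LL M ^ (C₂ + 13) := by
  obtain ⟨B, hB⟩ : ∃ B, B = ρ * Kt + C₂ + 2 + (s₁ * K + 1) + 1 + (C₂ + 13) := ⟨_, rfl⟩
  obtain ⟨B', hmix⟩ := mixed B
  refine ⟨B + B' + 3, fun c ha hC hK hs hKt hρ hKx => ?_⟩
  subst ha hC hK hs hKt hρ
  filter_upwards [hmix, c.ev_ord (by omega) h2 h3 (by omega), ev_R0 c.a (Nat.cast_nonneg _),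
    ev_basic 7, ev_basic c.s₁, ev_top, ev_range] with M hmix hO hR hb hb' htop hrange X F hF z hz
    hg t ht hts UU hUU hUs
  obtain ⟨hl, hL, hM, h0, -, -⟩ := hb
  have hL0 : 0 < LL M := by linarith
  have hL1 : 1 ≤ LL M := by linarith
  have hh0 : (0 : ℝ) < hh M := Nat.cast_pos.2 h0
  have hw0 : 0 ≤ M * wt iv F.1 * iv t := by
    rw [wt_iv, iv]
    have : 0 ≤ M := by linarith
    positivity
  rcases ((c.FX M F).filter (fun x => ¬ ∀ p ∈ x, Str X z.1 z.2 p)).eq_empty_or_nonempty with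
    he | ⟨x₀, hx₀⟩
  · rw [he, sum_empty, abs_zero]
    positivity
  rcases UU.eq_empty_or_nonempty with rfl | ⟨u₀, hu₀⟩
  · simp only [sum_empty, sum_const_zero, abs_zero]
    positivity
  obtain ⟨-, -, -, -, -, -, hloc, hst, -⟩ := hO.fam_mem hF (mem_filter.1 hx₀).1 (hUU hu₀) ht
  have hRf : c.Rf M F ≤ c.r M := (mem_filter.1 (mem_filter.1 hx₀).1).2.2.2.2.2.2.2.1
  have hD : Real.exp ((c.Rf M F : ℝ) / hh M) ≤ LL M ^ (c.s₁ * c.K + 1) := by
    refine le_trans (Real.exp_le_exp.2 ?_) (fbb_un_le hL0 h0 hb'.1)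
    gcongr
    exact_mod_cast hRf
  have hF' := hF
  simp only [Cst.fams, mem_product, mem_powerset, mem_Ico] at hF'
  obtain ⟨f1, ⟨f2, f3⟩, -⟩ := hF'
  obtain ⟨z1, z2⟩ := mem_product.1 (mem_filter.1 hz).1
  rw [mem_Icc] at z1 z2
  have hix : ∀ κ : ℕ, κ + 1 ≤ c.Kx → LL M ^ κ ≤ Real.exp (((c.ix M : ℝ) - 1) / hh M) :=
    fun κ hκ => fbb_un_ge hL0 (by linarith) h0 hκ
  have hz1 : (z.1 : ℝ) ≤ LL M ^ B := ((Int.le_floor.1 z1.2).trans
    (pow_le_pow_right₀ hL1 (by omega)))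
  have hz2 : |(z.2 : ℝ)| ≤ M * LL M ^ B := by
    have e1 : |z.2| ≤ ⌊M * LL M ^ c.C₁⌋ := abs_le.2 z2
    have e2 := Int.le_floor.1 e1
    push_cast at e2
    refine e2.trans (mul_le_mul_of_nonneg_left (pow_le_pow_right₀ hL1 ?_) (by linarith))
    unfold Cst.C₁
    omega
  set P := Pr (hh M) (c.ix M) F.2.1 with hP
  set S := (c.FX M F).filter (fun x => ¬ ∀ p ∈ x, Str X z.1 z.2 p) with hS
  set lam := loc (hh M) (i0 M) (c.J M) (F.1.card + F.2.2.2.2) (c.Rf M F) with hlam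
  have hSP : ∀ x ∈ S, x ⊆ P := fun x hx => mem_powerset.1 (mem_filter.1 (mem_filter.1 hx).1).1
  have key : ∀ T, lam T ≠ 0 → ∀ xs : Finset ℕ,
      |∑ x ∈ S.filter (fun x => x.filter (Str X z.1 z.2) = xs), ∑ u ∈ UU,
        rem M X (pd F.1 * pd x * u * t * pd T)| ≤
        M * wt iv F.1 * iv t / LL M ^ B * wt iv xs := by
    intro T hT xs
    obtain ⟨T1, T2⟩ := hloc.supp hT
    refine fbb_fibre (B' := B') (U := lo (hh M) F.2.1) (X0 := c.X0f M F)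
      (fun f e U Y XX UU a1 a2 a3 a4 a5 a6 a7 a8 =>
        hmix X z.1 z.2 f e U Y XX UU z1.1 hz1 hz2 a1 a2 a3 a4 a5 a6 a7 a8) (by linarith) hL0
      (pd_pos fun p hp => ((mem_Pr h0).1 (T1 hp)).1)
      (T2.trans (hD.trans (pow_le_pow_right₀ hL1 (by omega))))
      (fun p hp => ⟨((mem_Pr h0).1 (f1 hp)).1, hg p hp⟩)
      ⟨((mem_Pr h0).1 (mem_filter.1 ht).1).1, hts⟩ (fun u hu => ?_) fun x hx => ?_
    · obtain ⟨-, -, -, -, -, -, -, -, -, -, a1, -⟩ :=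
        hO.fam_mem hF (mem_filter.1 hx₀).1 (hUU hu) ht
      exact ⟨((mem_Pr h0).1 (mem_filter.1 (hUU hu)).1).1, hUs u hu, a1⟩
    obtain ⟨x1, x2⟩ := mem_filter.1 hx
    obtain ⟨x3, x4⟩ := mem_filter.1 x1
    have xp : ∀ p ∈ x, p.Prime := fun p hp => ((mem_Pr h0).1 (hSP x x1 hp)).1
    obtain ⟨-, -, -, -, -, -, -, -, a1, a2, -⟩ := hO.fam_mem hF x3 (hUU hu₀) ht
    refine ⟨x2, x4, fun p hp => ?_, a1, a2, ?_, fun u hu => ?_⟩
    · have b1 : (c.ix M : ℝ) ≤ sz (hh M) p := by exact_mod_cast ((mem_Pr h0).1 (hSP x x1 hp)).2.1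
      have b2 : Real.exp (((c.ix M : ℝ) - 1) / hh M) ≤ p := by
        rw [← Real.le_log_iff_exp_le (Nat.cast_pos.2 (xp p hp).pos)]
        refine le_trans ?_ (sz_le_log h0 p)
        gcongr
      have b3 := (hix (B + 1) (by omega)).trans b2
      have b4 := (hix (B' + 1) (by omega)).trans b2
      rw [pow_succ] at b3 b4
      have b5 : 0 < LL M ^ B := by positivity
      have b6 : 0 < LL M ^ B' := by positivity
      exact ⟨xp p hp, by nlinarith, by nlinarith⟩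
    · have b1 : tot (sz (hh M)) x ≤ (F.2.1 : ℤ) - c.ix M := (mem_filter.1 x3).2.2.1.2
      have b2 : (tot (sz (hh M)) x : ℝ) ≤ (F.2.1 : ℝ) - c.ix M := by exact_mod_cast b1
      refine le_trans ?_ (Nat.le_ceil _)
      refine (mul_le_mul (pd_le_exp h0 xp) (hix B' (by omega)) (by positivity)
        (Real.exp_pos _).le).trans ?_
      rw [← Real.exp_add, Real.exp_le_exp, ← add_div]
      gcongr
      linarith
    · obtain ⟨n1, -, n2, -, n3, n4, -⟩ := hO.fam_mem hF x3 (hUU hu) ht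
      refine ⟨n4, ?_⟩
      rw [← n3]
      refine (pd_le_exp h0 fun p hp =>
        ((mem_Pr h0).1 (mem_powerset.1 (mem_filter.1 n1).1 hp)).1).trans ?_
      have b1 : tot (sz (hh M)) (nd4 F.1 x u t) ≤ R0 M c.a - (un M c.K : ℤ) + 1 := by
        have := hst.2
        unfold Cst.R at n2
        unfold Cst.J at this
        omega
      have b2 : (tot (sz (hh M)) (nd4 F.1 x u t) : ℝ) ≤ R0 M c.a - (un M c.K : ℝ) + 1 := by
        exact_mod_cast b1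
      have b3 := fbb_un_ge hL0 (by linarith) h0 (κ := c.a + 13) (κ' := c.K) (by omega)
      have b4 := hR.2.1
      rw [show (c.a : ℝ) + 13 = ((c.a + 13 : ℕ) : ℝ) by push_cast; ring, Real.rpow_natCast] at b4
      refine le_of_mul_le_mul_right ?_ (Real.exp_pos (((un M c.K : ℝ) - 1) / hh M))
      refine le_trans ?_ (b4.trans (mul_le_mul_of_nonneg_left b3 (by linarith)))
      rw [← Real.exp_add, Real.exp_le_exp, ← add_div]
      gcongr
      linarith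
  have hwt : ∑ xs ∈ P.powerset, wt iv xs ≤ LL M := by
    have b0 : c.ix M ≤ F.2.1 := hO.ix_le.trans f2
    have b1 : un M 1 ≤ c.ix M := by
      refine Nat.ceil_le_ceil ?_
      have : (1 : ℝ) ≤ c.Kx := by exact_mod_cast (by omega : 1 ≤ c.Kx)
      gcongr
    have b2 : (hh M : ℝ) * ll M ≤ c.ix M := by
      have := (un_spec (M := M) zero_le_one (by linarith)).1
      have b : (un M 1 : ℝ) ≤ c.ix M := by exact_mod_cast b1
      linarith
    have b3 : (F.2.1 : ℝ) ≤ hh M * LL M :=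
      le_trans (by exact_mod_cast f3.le.trans hO.u2_le) htop.2.1
    have b4 : (0 : ℝ) < c.ix M := lt_of_lt_of_le (by nlinarith) b2
    have b5 : (0 : ℝ) < F.2.1 := b4.trans_le (by exact_mod_cast b0)
    refine (fbb_wt P).trans ((Real.exp_le_exp.2 (hrange _ _ b1 b0).2).trans ?_)
    rw [Real.exp_add, Real.exp_log (by positivity), div_mul_eq_mul_div, div_le_iff₀ b4]
    have b6 := Real.exp_one_lt_three
    calc (F.2.1 : ℝ) * Real.exp 1 ≤ hh M * LL M * ll M := by gcongr; linarith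
      _ = LL M * (hh M * ll M) := by ring
      _ ≤ _ := by gcongr
  have hT : ∀ T, lam T ≠ 0 → |∑ x ∈ S, ∑ u ∈ UU, rem M X (pd F.1 * pd x * u * t * pd T)| ≤
      M * wt iv F.1 * iv t / LL M ^ B * LL M := by
    intro T hT
    rw [← sum_fiberwise_of_maps_to (t := P.powerset) (g := fun x => x.filter (Str X z.1 z.2))
      fun x hx => mem_powerset.2 ((filter_subset _ _).trans (hSP x hx))]
    refine (abs_sum_le_sum_abs _ _).trans ((sum_le_sum fun xs _ => key T hT xs).trans ?_)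
    rw [← mul_sum]
    gcongr
  have hexp : ∑ x ∈ S, ∑ u ∈ UU, c.remN M X (nd4 F.1 x u t) =
      ∑ T ∈ (Pr (hh M) 0 (c.J M)).powerset.filter (fun T => lam T ≠ 0),
        lam T * ∑ x ∈ S, ∑ u ∈ UU, rem M X (pd F.1 * pd x * u * t * pd T) := by
    rw [sum_filter_of_ne fun T _ h => left_ne_zero_of_mul h]
    simp only [mul_sum]
    rw [sum_comm (t := S)]
    refine sum_congr rfl fun x hx => ?_
    rw [sum_comm (t := UU)]
    refine sum_congr rfl fun u hu => ?_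
    exact (hO.fam_mem hF (mem_filter.1 hx).1 (hUU hu) ht).2.2.2.2.2.2.2.2.2.2.2.2 X
  rw [hexp]
  refine (abs_sum_le_sum_abs _ _).trans ((sum_le_card_nsmul _ _
    (M * wt iv F.1 * iv t / LL M ^ B * LL M) fun T hT' => ?_).trans ?_)
  · rw [abs_mul]
    exact (mul_le_of_le_one_left (abs_nonneg _) (hloc.abs_le T)).trans (hT T (mem_filter.1 hT').2)
  · rw [nsmul_eq_mul]
    calc _ ≤ LL M ^ (c.s₁ * c.K + 1) * (M * wt iv F.1 * iv t / LL M ^ B * LL M) := by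
          gcongr
          exact (fbb_card hloc).trans hD
      _ = M * wt iv F.1 * iv t / (LL M ^ (c.ρ * c.Kt + c.C₂ + 2) * LL M ^ (c.C₂ + 13)) := by
          rw [hB]
          field_simp
          ring
      _ ≤ _ := by
          gcongr
          exact le_mul_of_one_le_left (by positivity) (one_le_pow₀ hL1)

end Crest.Agent.R1
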