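import Crest.Agent.R1.Cen

/-!
# R1 / FamBc: the abstract splitting behind `fam_bound`
-/

set_option autoImplicit false

namespace Crest.Agent.R1

open Finset Filter
open scoped Classical

theorem FamBc_abs {α β γ ζ : Type} (A : Finset α) (U : Finset β) (T : Finset γ) (Z : Finset ζ)
    (P : ζ → β → γ → Prop) (Q : ζ → α → Prop) (f : α → β → γ → ℝ) (B₁ : ℝ) (b : γ → ℝ)
    (h1 : ∀ VV ⊆ U ×ˢ T, (∀ v ∈ VV, ∀ z ∈ Z, ¬ P z v.1 v.2) →
      |∑ x ∈ A, ∑ v ∈ VV, f x v.1 v.2| ≤ B₁)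
    (h2 : ∀ z ∈ Z, ∀ t ∈ T, ∀ UU ⊆ U, (∀ u ∈ UU, P z u t) →
      |∑ x ∈ A.filter (fun x => ¬ Q z x), ∑ u ∈ UU, f x u t| ≤ b t) :
    ∃ W ⊆ A ×ˢ U ×ˢ T, (∀ w ∈ A ×ˢ U ×ˢ T, w ∉ W → ∃ z ∈ Z, P z w.2.1 w.2.2 ∧ Q z w.1) ∧
      |∑ w ∈ W, f w.1 w.2.1 w.2.2| ≤ B₁ + Z.card * ∑ t ∈ T, b t := by
  -- `S z u t`: `z` is the chosen centre of `(u, t)`
  obtain ⟨S, hS1, hS2, hS3⟩ : ∃ S : ζ → β → γ → Prop, (∀ z u t, S z u t → z ∈ Z ∧ P z u t) ∧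
      (∀ u t, (∃ z ∈ Z, P z u t) → ∃ z, S z u t) ∧ ∀ z z' u t, S z u t → S z' u t → z = z' := by
    refine ⟨fun z u t => ∃ h : ∃ z ∈ Z, P z u t, z = Classical.choose h, ?_, ?_, ?_⟩
    · rintro z u t ⟨h, rfl⟩
      exact Classical.choose_spec h
    · intro u t h
      exact ⟨_, h, rfl⟩
    · rintro z z' u t ⟨h, rfl⟩ ⟨h', rfl⟩
      rfl
  set VV := (U ×ˢ T).filter (fun v => ∀ z ∈ Z, ¬ P z v.1 v.2) with hVV
  refine ⟨(A ×ˢ U ×ˢ T).filter (fun w => (∀ z ∈ Z, ¬ P z w.2.1 w.2.2) ∨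
    ∃ z, S z w.2.1 w.2.2 ∧ ¬ Q z w.1), filter_subset _ _, fun w hw hW => ?_, ?_⟩
  · rw [mem_filter, not_and, not_or] at hW
    obtain ⟨e1, e2⟩ := hW hw
    push Not at e1 e2
    obtain ⟨z, hz⟩ := hS2 _ _ e1
    exact ⟨z, (hS1 _ _ _ hz).1, (hS1 _ _ _ hz).2, e2 z hz⟩
  have key : ∑ w ∈ (A ×ˢ U ×ˢ T).filter (fun w => (∀ z ∈ Z, ¬ P z w.2.1 w.2.2) ∨
      ∃ z, S z w.2.1 w.2.2 ∧ ¬ Q z w.1), f w.1 w.2.1 w.2.2 =
      (∑ x ∈ A, ∑ v ∈ VV, f x v.1 v.2) + ∑ z ∈ Z, ∑ t ∈ T,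
        ∑ x ∈ A.filter (fun x => ¬ Q z x), ∑ u ∈ U.filter (fun u => S z u t), f x u t := by
    have e1 : ∀ z t, ∑ x ∈ A.filter (fun x => ¬ Q z x), ∑ u ∈ U.filter (fun u => S z u t), f x u t =
        ∑ x ∈ A, ∑ u ∈ U, if S z u t ∧ ¬ Q z x then f x u t else 0 := by
      intro z t
      rw [sum_filter]
      refine sum_congr rfl fun x _ => ?_
      rw [sum_filter]
      by_cases hq : Q z x <;> simp [hq]
    have e2 : ∑ z ∈ Z, ∑ t ∈ T, ∑ x ∈ A, ∑ u ∈ U, (if S z u t ∧ ¬ Q z x then f x u t else 0) =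
        ∑ x ∈ A, ∑ v ∈ U ×ˢ T, ∑ z ∈ Z, if S z v.1 v.2 ∧ ¬ Q z x then f x v.1 v.2 else 0 := by
      calc _ = ∑ z ∈ Z, ∑ x ∈ A, ∑ v ∈ U ×ˢ T,
            (if S z v.1 v.2 ∧ ¬ Q z x then f x v.1 v.2 else 0) := by
            refine sum_congr rfl fun z _ => ?_
            rw [sum_comm]
            refine sum_congr rfl fun x _ => ?_
            rw [sum_product_right]
        _ = _ := by
            rw [sum_comm]
            exact sum_congr rfl fun x _ => sum_comm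
    simp only [e1]
    rw [e2, ← sum_add_distrib, sum_filter, sum_product]
    refine sum_congr rfl fun x _ => ?_
    rw [hVV, sum_filter, ← sum_add_distrib]
    refine sum_congr rfl fun v _ => ?_
    by_cases hv : ∀ z ∈ Z, ¬ P z v.1 v.2
    · rw [if_pos (Or.inl hv), if_pos hv, sum_eq_zero, add_zero]
      intro z hz
      rw [if_neg]
      exact fun h => hv z hz (hS1 _ _ _ h.1).2
    rw [if_neg hv, zero_add]
    by_cases hw : ∃ z, S z v.1 v.2 ∧ ¬ Q z x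
    · rw [if_pos (Or.inr hw)]
      obtain ⟨z, hz⟩ := hw
      rw [sum_eq_single_of_mem z (hS1 _ _ _ hz.1).1, if_pos hz]
      intro z' _ hne
      rw [if_neg]
      exact fun h => hne (hS3 _ _ _ _ h.1 hz.1)
    · rw [if_neg (not_or.2 ⟨hv, hw⟩), sum_eq_zero]
      intro z _
      rw [if_neg]
      exact fun h => hw ⟨z, h⟩
  rw [key]
  refine (abs_add_le _ _).trans (add_le_add (h1 VV (filter_subset _ _) fun v hv =>
    (mem_filter.1 hv).2) ?_)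
  refine (abs_sum_le_sum_abs _ _).trans ?_
  rw [← nsmul_eq_mul]
  refine sum_le_card_nsmul _ _ _ fun z hz => (abs_sum_le_sum_abs _ _).trans ?_
  exact sum_le_sum fun t ht => h2 z hz t ht _ (filter_subset _ _) fun u hu =>
    (hS1 _ _ _ (mem_filter.1 hu).2).2

/-- the primes of one size have reciprocal sum at most `2` -/
theorem FamBc_FT (c : Cst) (h : 1 ≤ c.Kt) : ∀ᶠ M : ℝ in atTop, ∀ F ∈ c.fams M,
    ∑ t ∈ c.FT M F, iv t ≤ 2 := by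
  filter_upwards [ev_range, pfa_block, ev_basic 1] with M hr hb ⟨a, _⟩ F hF
  have h1 : c.t1 M ≤ F.2.2.1 := by
    simp only [Cst.fams, mem_product, mem_Ico] at hF
    exact hF.2.2.1.1
  have h2 : un M 1 ≤ F.2.2.1 :=
    (CenB_un_mono (by linarith) (by exact_mod_cast h : (1 : ℝ) ≤ c.Kt)).trans h1
  have h3 : (1000 : ℝ) ≤ F.2.2.1 := by exact_mod_cast (hb _ h2).1
  have h4 := (hr _ (F.2.2.1 + 1) h2 (Nat.le_succ _)).2
  have h5 : Real.log (((F.2.2.1 + 1 : ℕ) : ℝ) / F.2.2.1) ≤ 1 := by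
    refine (Real.log_le_sub_one_of_pos (by positivity)).trans ?_
    rw [sub_le_iff_le_add, div_le_iff₀ (by linarith)]
    push_cast
    linarith
  refine (sum_le_sum_of_subset_of_nonneg (filter_subset _ _) fun p _ _ => by
    unfold iv; positivity).trans ?_
  linarith

theorem FamBc_num {L y n s : ℝ} {k : ℕ} (hL : 2 ≤ L) (hy : 0 ≤ y) (hn : n ≤ L ^ (k + 2))
    (hs0 : 0 ≤ s) (hs : s ≤ 2) : y / L ^ 10 + n * (y * s / L ^ (k + 13)) ≤ y / L ^ 9 := by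
  have h0 : 0 < L := by linarith
  have h1 : n * (y * s / L ^ (k + 13)) ≤ L ^ (k + 2) * (y * 2 / L ^ (k + 13)) := by gcongr
  have h2 : L ^ (k + 2) * (y * 2 / L ^ (k + 13)) = y / L ^ 9 * (2 / L ^ 2) := by
    field_simp
    ring
  have h3 : y / L ^ 10 = y / L ^ 9 * (1 / L) := by
    field_simp
  have h4 : 1 / L ≤ 1 / 2 := by gcongr
  have h5 : 2 / L ^ 2 ≤ 1 / 2 := by
    rw [div_le_iff₀ (by positivity)]
    nlinarith
  have h6 : 0 ≤ y / L ^ 9 := by positivity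
  nlinarith

end Crest.Agent.R1
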