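import Crest.Agent.R1.GlueC

/-!
# R1 / GlueD: the main part of the off-diagonal sum produces a rational centre
-/

set_option autoImplicit false

namespace Crest.Agent.R1

open Finset Filter
open scoped Classical

/-- `R29.rational_extract` with the congruence modulo `N'` kept (copy the proof: `h5`, `h7`) -/
theorem rational_extract' {T Q N' : ℕ} (hN : 0 < N') (hQ : 21 * T ^ 2 ≤ Q) {𝒯 : Finset ℕ}
    (h𝒯 : 𝒯 ⊆ Ico T (2 * T)) (hc : 2 ≤ 𝒯.card) (X m : ℤ) (φ : ℝ)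
    (hφ : ∀ t ∈ 𝒯, R29.nd (m * ((X : ℝ) / ((t * N' : ℕ) : ℝ)) - φ) ≤ 1 / Q) :
    ∃ (d : ℕ) (b : ℤ), 0 < d ∧ d * (𝒯.card - 1) ≤ T ∧ |(b : ℝ)| ≤ 10 * (T : ℝ) ^ 2 * N' / Q ∧
      (N' : ℤ) ∣ d * m * X - b ∧ ∀ t ∈ 𝒯, (t : ℤ) ∣ d * m * X - b := by
  obtain ⟨t₀, ht₀, d, hd, ht₁, hdT⟩ := R29.gmt_gap h𝒯 hc
  have hT : 0 < T := by have := mem_Ico.1 (h𝒯 ht₀); omega
  have hT' : (0 : ℝ) < T := by exact_mod_cast hT
  have hQ' : 21 * (T : ℝ) ^ 2 ≤ Q := by exact_mod_cast hQ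
  have hQ0 : (0 : ℝ) < Q := lt_of_lt_of_le (by positivity) hQ'
  have hN' : (0 : ℝ) < N' := by exact_mod_cast hN
  have hlo : ∀ t ∈ 𝒯, (0 : ℝ) < t := fun t ht => by
    have := mem_Ico.1 (h𝒯 ht); exact_mod_cast (by omega : 0 < t)
  have hhi : ∀ t ∈ 𝒯, (t : ℝ) ≤ 2 * T := fun t ht => by
    exact_mod_cast (mem_Ico.1 (h𝒯 ht)).2.le
  have h1 : ∀ t ∈ 𝒯, R29.nd (m * X / N' - t * φ) ≤ 2 * T / Q := by
    intro t ht
    have h0 := hlo t ht
    have e : m * X / N' - t * φ =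
        ((t : ℤ) : ℝ) * (m * ((X : ℝ) / ((t * N' : ℕ) : ℝ)) - φ) := by
      push_cast
      field_simp
    rw [e]
    refine (R29.nd_int_mul_le _ _).trans ?_
    rw [Int.cast_natCast, abs_of_pos h0, div_eq_mul_one_div (2 * (T : ℝ))]
    exact mul_le_mul (hhi t ht) (hφ t ht) (R29.nd_nonneg _) (by positivity)
  have h2 : R29.nd (d * φ) ≤ 4 * T / Q := by
    have e : d * φ = (m * X / N' - t₀ * φ) + -(m * X / N' - ((t₀ + d : ℕ) : ℝ) * φ) := by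
      push_cast; ring
    rw [e]
    refine (R29.nd_add_le _ _).trans ?_
    rw [R29.nd_neg]
    refine (add_le_add (h1 _ ht₀) (h1 _ ht₁)).trans (le_of_eq ?_)
    ring
  have hdT' : (d : ℝ) ≤ T := by
    have : d * 1 ≤ d * (𝒯.card - 1) := Nat.mul_le_mul_left _ (by omega)
    exact_mod_cast (by omega : d ≤ T)
  have h3 : ∀ t ∈ 𝒯, R29.nd (d * (m * ((X : ℝ) / ((t * N' : ℕ) : ℝ)))) ≤ 5 * T / Q := by
    intro t ht
    have e : d * (m * ((X : ℝ) / ((t * N' : ℕ) : ℝ))) =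
        ((d : ℤ) : ℝ) * (m * ((X : ℝ) / ((t * N' : ℕ) : ℝ)) - φ) + d * φ := by
      rw [Int.cast_natCast]; ring
    rw [e]
    refine (R29.nd_add_le _ _).trans ?_
    have h4 := R29.nd_int_mul_le d (m * ((X : ℝ) / ((t * N' : ℕ) : ℝ)) - φ)
    have h5 : |((d : ℤ) : ℝ)| * R29.nd (m * ((X : ℝ) / ((t * N' : ℕ) : ℝ)) - φ) ≤ T * (1 / Q) := by
      rw [Int.cast_natCast, abs_of_nonneg (Nat.cast_nonneg _)]
      exact mul_le_mul hdT' (hφ t ht) (R29.nd_nonneg _) hT'.le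
    refine (add_le_add (h4.trans h5) h2).trans (le_of_eq ?_)
    ring
  let hh : ℕ → ℤ := fun t =>
    d * m * X - round (d * (m * ((X : ℝ) / ((t * N' : ℕ) : ℝ)))) * t * N'
  have h4 : ∀ t ∈ 𝒯, |(hh t : ℝ)| ≤ 10 * (T : ℝ) ^ 2 * N' / Q := by
    intro t ht
    have h0 := hlo t ht
    have e : (hh t : ℝ) = (d * (m * ((X : ℝ) / ((t * N' : ℕ) : ℝ))) -
        round (d * (m * ((X : ℝ) / ((t * N' : ℕ) : ℝ))))) * (t * N') := by
      simp only [hh]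
      generalize round (d * (m * ((X : ℝ) / ((t * N' : ℕ) : ℝ)))) = r
      push_cast
      field_simp
    rw [e, abs_mul, abs_of_pos (mul_pos h0 hN')]
    refine (mul_le_mul (h3 t ht) (mul_le_mul_of_nonneg_right (hhi t ht) hN'.le) (by positivity)
      (by positivity)).trans (le_of_eq ?_)
    ring
  have h5 : ∀ t, (N' : ℤ) ∣ d * m * X - hh t := by
    intro t
    refine ⟨round (d * (m * ((X : ℝ) / ((t * N' : ℕ) : ℝ)))) * t, ?_⟩
    simp only [hh]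
    ring
  have h6 : 10 * (T : ℝ) ^ 2 * N' / Q * 2 < N' := by
    rw [div_mul_eq_mul_div, div_lt_iff₀ hQ0]
    nlinarith [mul_pos hN' (pow_pos hT' 2), mul_le_mul_of_nonneg_left hQ' hN'.le]
  have h7 : ∀ t ∈ 𝒯, hh t = hh t₀ := by
    intro t ht
    have hdv : (N' : ℤ) ∣ hh t₀ - hh t := by
      have := dvd_sub (h5 t) (h5 t₀)
      rwa [show d * m * X - hh t - (d * m * X - hh t₀) = hh t₀ - hh t by ring] at this
    have hlt : |hh t₀ - hh t| < N' := by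
      have : |(hh t₀ : ℝ) - hh t| < N' :=
        lt_of_le_of_lt (abs_sub _ _) (by linarith [h4 t ht, h4 t₀ ht₀])
      exact_mod_cast this
    have := Int.eq_zero_of_abs_lt_dvd hdv hlt
    linarith
  refine ⟨d, hh t₀, hd, hdT, h4 t₀ ht₀, h5 t₀, fun t ht => ?_⟩
  rw [← h7 t ht]
  refine ⟨round (d * (m * ((X : ℝ) / ((t * N' : ℕ) : ℝ)))) * N', ?_⟩
  simp only [hh]
  ring

lemma glueD_hmass (T : ℕ) : ∑ p ∈ R29.win T, 1 / (p : ℝ) ≤ 1 := by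
  rcases Nat.eq_zero_or_pos T with rfl | hT
  · simp [R29.win]
  have hT' : (0 : ℝ) < T := by exact_mod_cast hT
  have hc : ((R29.win T).card : ℝ) ≤ T := by
    have : (R29.win T).card ≤ (Ico T (2 * T)).card := Finset.card_filter_le _ _
    rw [Nat.card_Ico] at this
    exact_mod_cast (show (R29.win T).card ≤ T by omega)
  calc ∑ p ∈ R29.win T, 1 / (p : ℝ) ≤ ∑ _p ∈ R29.win T, 1 / (T : ℝ) :=
        Finset.sum_le_sum fun p hp =>
          one_div_le_one_div_of_le hT' (by exact_mod_cast (mem_Ico.1 (mem_filter.1 hp).1).1)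
    _ ≤ 1 := by rw [sum_const, nsmul_eq_mul, mul_one_div, div_le_one hT']; exact hc

lemma glueD_exists {P : Type*} (s : Finset P) (w S : P → ℝ) (hw0 : ∀ p ∈ s, 0 ≤ w p)
    (hw1 : ∑ p ∈ s, w p ≤ 1) (hS : ∀ p ∈ s, 0 ≤ S p) {η : ℝ} (hη : 0 < η)
    (h : η ≤ ∑ p ∈ s, w p * S p) : ∃ p ∈ s, η ≤ S p := by
  rcases s.eq_empty_or_nonempty with rfl | hne
  · simp only [sum_empty] at h
    exact absurd h (not_le.2 hη)
  obtain ⟨p, hp, hmax⟩ := exists_max_image s S hne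
  refine ⟨p, hp, h.trans ?_⟩
  calc ∑ q ∈ s, w q * S q ≤ ∑ q ∈ s, w q * S p :=
        sum_le_sum fun q hq => mul_le_mul_of_nonneg_left (hmax q hq) (hw0 q hq)
    _ = (∑ q ∈ s, w q) * S p := by rw [sum_mul]
    _ ≤ S p := mul_le_of_le_one_left (hS p hp) hw1

lemma glueD_avg {P : Type*} (s : Finset P) (w : P → ℝ) (hw1 : ∑ p ∈ s, w p ≤ 1) (nc : ℕ)
    (Φ : ℕ → Finset ℝ) (I : P → ℝ → ℝ) {A δ η K : ℝ} (hA : 0 ≤ A) (hδ : 0 ≤ δ) (hη : 0 ≤ η)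
    (hΦ : ∀ j, ((Φ j).card : ℝ) ≤ K) (hI : ∀ φ, ∑ p ∈ s, w p * I p φ ≤ η) :
    ∑ p ∈ s, w p * (A + ∑ j ∈ range nc, (δ + ∑ φ ∈ Φ j, I p φ)) ≤ A + nc * (δ + K * η) := by
  have e : ∑ p ∈ s, w p * (A + ∑ j ∈ range nc, (δ + ∑ φ ∈ Φ j, I p φ)) =
      (∑ p ∈ s, w p) * A + ∑ j ∈ range nc, ((∑ p ∈ s, w p) * δ +
        ∑ φ ∈ Φ j, ∑ p ∈ s, w p * I p φ) := by
    simp only [mul_add, sum_add_distrib, mul_sum, sum_mul]
    congr 2
    · exact sum_comm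
    · rw [sum_comm]
      exact sum_congr rfl fun j _ => sum_comm
  rw [e]
  refine add_le_add (mul_le_of_le_one_left hA hw1) ?_
  refine (sum_le_card_nsmul _ _ (δ + K * η) fun j _ => ?_).trans (le_of_eq ?_)
  · refine add_le_add (mul_le_of_le_one_left hδ hw1) ?_
    refine (sum_le_card_nsmul _ _ η fun φ _ => hI φ).trans ?_
    rw [nsmul_eq_mul]
    exact mul_le_mul_of_nonneg_right (hΦ j) hη
  · rw [card_range, nsmul_eq_mul]

/-- lowest terms -/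
lemma glueD_reduce {c₀ : ℤ} (hc : c₀ ≠ 0) (b₀ X : ℤ) :
    ∃ c b : ℤ, IsCoprime c b ∧ 1 ≤ c ∧ c ≤ |c₀| ∧ |b| ≤ |b₀| ∧
      ∀ n : ℕ, (∀ p : ℕ, p.Prime → p ∣ n → |c₀| < p) → (n : ℤ) ∣ c₀ * X - b₀ →
        (n : ℤ) ∣ c * X - b := by
  have hpos : 0 < |c₀| := abs_pos.2 hc
  have hg : 0 < Int.gcd |c₀| (Int.sign c₀ * b₀) := Int.gcd_pos_of_ne_zero_left _ hpos.ne'
  obtain ⟨c, b, h1, h2, h3⟩ := Int.exists_gcd_one hg
  generalize Int.gcd |c₀| (Int.sign c₀ * b₀) = γ at hg h2 h3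
  have hγ : (1 : ℤ) ≤ γ := by exact_mod_cast hg
  have hc1 : 1 ≤ c := by
    by_contra hno
    have : c * γ ≤ 0 := mul_nonpos_of_nonpos_of_nonneg (by omega) (by omega)
    omega
  have hb : |b₀| = |b| * γ := by
    have := congrArg abs h3
    rw [abs_mul, abs_mul, Int.abs_sign_of_ne_zero hc, one_mul, abs_of_nonneg (by omega : (0 : ℤ) ≤ γ)]
      at this
    exact this
  refine ⟨c, b, Int.isCoprime_iff_gcd_eq_one.2 h1, hc1, by nlinarith, by nlinarith [abs_nonneg b],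
    fun n hn hd => ?_⟩
  have hcop : Nat.Coprime n γ := by
    refine Nat.coprime_of_dvd fun p hp hpn hpγ => ?_
    have a1 := hn p hp hpn
    have a2 : (p : ℤ) ≤ γ := by exact_mod_cast Nat.le_of_dvd hg hpγ
    nlinarith
  have hd' : (n : ℤ) ∣ (c * X - b) * γ := by
    have e : (c * X - b) * γ = Int.sign c₀ * (c₀ * X - b₀) := by
      rw [sub_mul, ← h3, mul_right_comm, ← h2, ← Int.sign_mul_self_eq_abs]
      ring
    rw [e]
    exact Dvd.dvd.mul_left hd _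
  exact (Nat.isCoprime_iff_coprime.2 hcop).dvd_of_dvd_mul_right hd'

lemma glueD_lip (D : GD) (hM : 0 ≤ D.M) (hX : 0 < D.X0) (v : ℕ × ℕ) (i : ℤ × ℕ) (v' : ℕ × ℕ)
    (i' : ℤ × ℕ) (c : ℝ) {Q p p' : ℝ} (hQ : 0 < Q) (hp : Q ≤ p) (hp' : Q ≤ p') :
    |D.Wf v i v' i' (c / p) - D.Wf v i v' i' (c / p')| ≤ 6400 * |p - p'| / Q := by
  have hX' : (0 : ℝ) < D.X0 := by exact_mod_cast hX
  have aux : ∀ p p' : ℝ, Q ≤ p → Q ≤ p' → R29.cut (c / p / D.X0) ≠ 0 →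
      |D.Wf v i v' i' (c / p) - D.Wf v i v' i' (c / p')| ≤ 6400 * |p - p'| / Q := by
    intro p p' hp hp' hcut
    obtain ⟨h1, h2⟩ := R29.cut_ne_zero hcut
    have hp0 : 0 < p := hQ.trans_le hp
    have hp0' : 0 < p' := hQ.trans_le hp'
    refine (D.Wf_lip hM hX v i v' i' _ _).trans ?_
    have e : 200 * |c / p - c / p'| / D.X0 = 200 * (c / p / D.X0) * |p - p'| / p' := by
      have e1 : c / p - c / p' = -((c / p / D.X0) * D.X0 / p' * (p - p')) := by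
        field_simp
        ring
      rw [e1, abs_neg, abs_mul, abs_of_nonneg (by
        have : 0 ≤ c / p / D.X0 := by linarith
        positivity)]
      generalize c / p / D.X0 = y
      field_simp
    rw [e]
    refine div_le_div₀ (by positivity) ?_ hQ hp'
    exact mul_le_mul_of_nonneg_right (by linarith) (abs_nonneg _)
  by_cases h1 : R29.cut (c / p / D.X0) = 0
  · by_cases h2 : R29.cut (c / p' / D.X0) = 0
    · simp only [GD.Wf, h1, h2, zero_mul, sub_self, abs_zero]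
      positivity
    · rw [abs_sub_comm, abs_sub_comm p]
      exact aux p' p hp' hp h2
  · exact aux p p' hp hp' h1

lemma glueD_G {D : GD} (h : D.Ok) : (1000000000 : ℝ) ≤ D.G := by
  refine le_trans ?_ h.G_ge
  calc (1000000000 : ℝ) ≤ 200 ^ 4 := by norm_num
    _ ≤ D.L ^ 4 := pow_le_pow_left₀ (by norm_num) h.L_ge 4

lemma glueD_T0 {D : GD} (h : D.Ok) : 0 < D.T0 := by
  have hG : 0 < D.G := by
    have := glueD_G h
    exact_mod_cast (by linarith : (0 : ℝ) < D.G)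
  exact lt_of_lt_of_le (by positivity) h.T0_ge

lemma glueD_Q {D : GD} (h : D.Ok) : 0 < D.Q := by
  have := glueD_T0 h
  exact lt_of_lt_of_le (by positivity) h.Q_ge

lemma glueD_PP {D : GD} (h : D.Ok) : 0 < D.PP.card := by
  have h1 := glueD_Q h
  have h2 := h.PP_card
  rcases Nat.eq_zero_or_pos D.PP.card with e | e
  · rw [e] at h2; omega
  · exact e

/-- the pointwise bound -/
lemma glueD_point {D : GD} (h : D.Ok) {nc : ℕ} (hnc : 0 < nc) {δ : ℝ} (hδ : 0 < δ)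
    (Φ : ℕ → Finset ℝ)
    (hΦ : ∀ j, ∀ φ : ℝ, δ * D.PP.card ≤
      ‖∑ π ∈ D.PP.filter (fun π => (π - D.Q) * nc / D.Q = j), (1 : ℂ) * R29.ee (-(π * φ))‖ →
        ∃ φ₀ ∈ Φ j, R29.nd (φ - φ₀) ≤ 1 / D.Q)
    (v : ℕ × ℕ) (i : ℤ × ℕ) (v' : ℕ × ℕ) (i' : ℤ × ℕ) (c θ : ℝ) :
    ‖(∑ π ∈ D.PP, (D.Wf v i v' i' (c / π) : ℂ) * R29.ee (π * θ)) / D.PP.card‖ ≤
      32 * (200 / nc + ∑ j ∈ range nc, (δ + ∑ φ₀ ∈ Φ j,
        if R29.nd (θ + φ₀) ≤ 1 / D.Q then (1 : ℝ) else 0)) := by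
  have hc : (0 : ℝ) < D.PP.card := by exact_mod_cast glueD_PP h
  have hsub : D.PP ⊆ Ico D.Q (2 * D.Q) := filter_subset _ _
  have hM : 0 ≤ D.M := by linarith [h.M_ge]
  have hQ : (0 : ℝ) < D.Q := by exact_mod_cast glueD_Q h
  have e : ∑ π ∈ D.PP, (D.Wf v i v' i' (c / π) : ℂ) * R29.ee (π * θ) =
      32 * ∑ π ∈ D.PP, R29.ee (π * θ) * ((D.Wf v i v' i' (c / π) / 32 : ℝ) : ℂ) := by
    rw [mul_sum]
    refine sum_congr rfl fun π _ => ?_
    push_cast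
    ring
  have h1 := R29.cell_bound hsub hnc (fun π => R29.ee (π * θ))
    (fun π _ => (R29.norm_ee _).le) (fun π => D.Wf v i v' i' (c / π) / 32) (Λ := 200) (by norm_num)
    (fun π _ => by
      obtain ⟨a1, a2⟩ := D.Wf_mem hM h.X0_pos v i v' i' (c / π)
      rw [abs_le]
      constructor <;> linarith)
    (fun π hπ π' hπ' => by
      have := glueD_lip D hM h.X0_pos v i v' i' c (p := π) (p' := π') hQ
        (by exact_mod_cast (mem_Ico.1 (hsub hπ)).1) (by exact_mod_cast (mem_Ico.1 (hsub hπ')).1)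
      rw [← sub_div, abs_div, abs_of_pos (by norm_num : (0 : ℝ) < 32), div_le_iff₀ (by norm_num)]
      refine this.trans (le_of_eq ?_)
      ring)
  rw [norm_div, Complex.norm_natCast, e, norm_mul, div_le_iff₀ hc, mul_assoc]
  refine mul_le_mul (by simp) ?_ (norm_nonneg _) (by norm_num)
  rw [add_mul, add_comm, sum_mul]
  refine h1.trans (add_le_add (sum_le_sum fun j _ => ?_) le_rfl)
  have h3 : 0 ≤ ∑ φ₀ ∈ Φ j, (if R29.nd (θ + φ₀) ≤ 1 / D.Q then (1 : ℝ) else 0) :=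
    sum_nonneg fun _ _ => by positivity
  by_cases hs : δ * D.PP.card ≤ ‖∑ π ∈ D.PP.filter (fun π => (π - D.Q) * nc / D.Q = j),
    R29.ee (π * θ)‖
  · obtain ⟨φ₀, hφ₀, hle⟩ := hΦ j (-θ) (by simpa only [one_mul, mul_neg, neg_neg] using hs)
    rw [show -θ - φ₀ = -(θ + φ₀) by ring, R29.nd_neg] at hle
    have h4 : 1 ≤ ∑ φ₀ ∈ Φ j, (if R29.nd (θ + φ₀) ≤ 1 / D.Q then (1 : ℝ) else 0) := by
      have := single_le_sum (f := fun φ₀ => if R29.nd (θ + φ₀) ≤ 1 / D.Q then (1 : ℝ) else 0)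
        (fun _ _ => by positivity) hφ₀
      simpa only [if_pos hle] using this
    have h5 : ‖∑ π ∈ D.PP.filter (fun π => (π - D.Q) * nc / D.Q = j), R29.ee (π * θ)‖ ≤
        D.PP.card := by
      refine (norm_sum_le _ _).trans
        ((sum_le_card_nsmul _ _ 1 fun π _ => (R29.norm_ee _).le).trans ?_)
      rw [nsmul_eq_mul, mul_one]
      exact_mod_cast card_filter_le _ _
    exact h5.trans (le_mul_of_one_le_left hc.le (by linarith))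
  · exact (not_le.1 hs).le.trans (mul_le_mul_of_nonneg_right (by linarith) hc.le)

lemma glueD_VV {D : GD} (h : D.Ok) (F : ℕ × ℕ → ℝ) (hF : ∀ v, 0 ≤ F v) :
    ∑ v ∈ D.VV, F v ≤ ∑ u ∈ R29.win D.U, ∑ t ∈ R29.win D.T0, F (u, t) := by
  rw [← sum_product']
  exact sum_le_sum_of_subset_of_nonneg (fun v hv => mem_product.2 (h.VV_spec v hv))
    fun v _ _ => hF v

lemma glueD_wVV {D : GD} (h : D.Ok) : ∑ v ∈ D.VV, 1 / (v.1 : ℝ) * (1 / (v.2 : ℝ)) ≤ 1 := by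
  refine (glueD_VV h (fun v => 1 / (v.1 : ℝ) * (1 / (v.2 : ℝ))) fun v => by positivity).trans ?_
  simp only [← mul_sum, ← sum_mul]
  exact mul_le_one₀ (glueD_hmass _) (sum_nonneg fun _ _ => by positivity) (glueD_hmass _)

lemma glueD_num {G : ℝ} (hG : 1000000000 ≤ G) :
    2 * G * (2 * G) * (2 * (3 * G ^ 4) * (32 * (200 / G ^ 8 + G ^ 8 * (1 / G ^ 16 +
      15 * G / (1 / G ^ 16) ^ 2 * (1 / G ^ 52))))) < 1 / G := by
  have hG0 : 0 < G := by linarith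
  have e : 2 * G * (2 * G) * (2 * (3 * G ^ 4) * (32 * (200 / G ^ 8 + G ^ 8 * (1 / G ^ 16 +
      15 * G / (1 / G ^ 16) ^ 2 * (1 / G ^ 52))))) =
      1 / G * (768 * (201 + 15 * (1 / G ^ 3)) / G) := by
    field_simp
    ring
  rw [e]
  refine mul_lt_of_lt_one_right (by positivity) ?_
  rw [div_lt_one hG0]
  have : 1 / G ^ 3 ≤ 1 := by
    rw [div_le_one (by positivity)]
    exact one_le_pow₀ (by linarith)
  linarith

/-- the large spectrum -/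
lemma glueD_main {D : GD} (h : D.Ok)
    (hS : 1 / (D.G : ℝ) ≤ ‖D.Off D.a0 D.a0 (fun _ _ => 1)‖) :
    ∃ i ∈ D.II, ∃ i' ∈ D.II, ∃ m ∈ R29.Ibar D.Z, ∃ φ : ℝ, 1 / (D.G : ℝ) ^ 52 ≤
      ∑ p ∈ D.VV ×ˢ D.VV, (1 / (p.1.1 : ℝ) * (1 / (p.1.2 : ℝ))) * (1 / (p.2.1 : ℝ) * (1 / (p.2.2 : ℝ))) *
        (if R29.nd (m * ((D.X : ℝ) / ((D.g : ℝ) * nn p.1 i * nn p.2 i')) + φ) ≤ 1 / D.Q
          then (1 : ℝ) else 0) := by
  by_contra hno
  push Not at hno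
  have hG := glueD_G h
  have hG0 : (0 : ℝ) < D.G := by linarith
  have hGn : 0 < D.G := by exact_mod_cast hG0
  have hcn := glueD_PP h
  have hc : (0 : ℝ) < D.PP.card := by exact_mod_cast hcn
  have hsub : D.PP ⊆ Ico D.Q (2 * D.Q) := filter_subset _ _
  have hQ := glueD_Q h
  have hnc : 0 < D.G ^ 8 := by positivity
  have hδ : 0 < 1 / (D.G : ℝ) ^ 16 := by positivity
  have key : ∀ j : ℕ, ∃ Φ : Finset ℝ,
      (Φ.card : ℝ) ≤ 15 * D.G / (1 / (D.G : ℝ) ^ 16) ^ 2 ∧ ∀ φ : ℝ,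
        1 / (D.G : ℝ) ^ 16 * D.PP.card ≤ ‖∑ π ∈ D.PP.filter
          (fun π => (π - D.Q) * D.G ^ 8 / D.Q = j), (1 : ℂ) * R29.ee (-(π * φ))‖ →
          ∃ φ₀ ∈ Φ, R29.nd (φ - φ₀) ≤ 1 / D.Q := by
    intro j
    obtain ⟨Φ, h1, h2⟩ := R29.spectrum hQ ((filter_subset (fun π => (π - D.Q) * D.G ^ 8 / D.Q = j)
      D.PP).trans hsub) (card_filter_le _ _) hcn (fun _ => 1) (fun π _ => by simp) hδ
    refine ⟨Φ, h1.trans ?_, h2⟩
    have h3 : (D.Q : ℝ) ≤ D.G * D.PP.card := by exact_mod_cast h.PP_card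
    generalize (1 / (D.G : ℝ) ^ 16) = δ at hδ ⊢
    rw [div_le_div_iff₀ (by positivity) (by positivity)]
    nlinarith [mul_le_mul_of_nonneg_left h3 (sq_nonneg δ)]
  choose Φ hΦ1 hΦ2 using key
  obtain ⟨w, hw⟩ : ∃ w : (ℕ × ℕ) × (ℕ × ℕ) → ℝ, w = fun p =>
    (1 / (p.1.1 : ℝ) * (1 / (p.1.2 : ℝ))) * (1 / (p.2.1 : ℝ) * (1 / (p.2.2 : ℝ))) := ⟨_, rfl⟩
  have hw0 : ∀ p, 0 ≤ w p := fun p => by rw [hw]; positivity
  have hw1 : ∑ p ∈ D.VV ×ˢ D.VV, w p ≤ 1 := by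
    rw [hw, sum_product]
    simp only [← mul_sum, ← sum_mul]
    exact mul_le_one₀ (glueD_wVV h) (sum_nonneg fun _ _ => by positivity) (glueD_wVV h)
  obtain ⟨B, hB⟩ : ∃ B : (ℕ × ℕ) × (ℕ × ℕ) → ℤ × ℕ → ℤ × ℕ → ℤ → ℝ, B =
      fun (p : (ℕ × ℕ) × (ℕ × ℕ)) (i i' : ℤ × ℕ) (m : ℤ) =>
    200 / ((D.G ^ 8 : ℕ) : ℝ) + ∑ j ∈ range (D.G ^ 8), (1 / (D.G : ℝ) ^ 16 + ∑ φ₀ ∈ Φ j,
        if R29.nd (m * ((D.X : ℝ) / ((D.g : ℝ) * nn p.1 i * nn p.2 i')) + φ₀) ≤ 1 / D.Q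
          then (1 : ℝ) else 0) := ⟨_, rfl⟩
  have hB0 : ∀ p i i' m, 0 ≤ B p i i' m := fun p i i' m => by
    rw [hB]
    exact add_nonneg (by positivity) (sum_nonneg fun _ _ =>
      add_nonneg hδ.le (sum_nonneg fun _ _ => by positivity))
  have h1 : ‖D.Off D.a0 D.a0 (fun _ _ => 1)‖ ≤ ∑ p ∈ D.VV ×ˢ D.VV, w p *
      ∑ i ∈ D.II, ∑ i' ∈ D.II, (|D.a0 i| * |D.a0 i'|) * ∑ m ∈ R29.Ibar D.Z, 32 * B p i i' m := by
    rw [sum_product, GD.Off]
    refine (norm_sum_le _ _).trans (sum_le_sum fun v _ => ?_)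
    refine (norm_sum_le _ _).trans (le_trans (sum_le_sum fun v' _ => ?_)
      (sum_le_sum_of_subset_of_nonneg (filter_subset _ _) fun v' _ _ => mul_nonneg (hw0 _)
        (sum_nonneg fun _ _ => sum_nonneg fun _ _ => mul_nonneg (by positivity)
          (sum_nonneg fun _ _ => mul_nonneg (by norm_num) (hB0 _ _ _ _)))))
    rw [norm_mul, Complex.norm_real, Real.norm_eq_abs, abs_of_nonneg (by positivity)]
    refine mul_le_mul (le_of_eq ?_) ?_ (norm_nonneg _) (hw0 _)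
    · rw [hw]
      simp only [one_div, mul_inv]
      ring
    refine (norm_sum_le _ _).trans (sum_le_sum fun i _ => ?_)
    refine (norm_sum_le _ _).trans (sum_le_sum fun i' _ => ?_)
    rw [norm_mul, Complex.norm_real, Real.norm_eq_abs, abs_mul]
    refine mul_le_mul_of_nonneg_left ?_ (by positivity)
    refine (norm_sum_le _ _).trans (sum_le_sum fun m _ => ?_)
    split_ifs with hd
    · have := glueD_point h hnc hδ Φ hΦ2 v i v' i' ((Dl v i v' i' : ℝ) / m)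
        (m * ((D.X : ℝ) / ((D.g : ℝ) * nn v i * nn v' i')))
      rw [hB]
      refine le_trans (le_of_eq ?_) this
      congr 2
      refine sum_congr rfl fun π _ => ?_
      rw [one_mul, div_div, mul_comm (m : ℝ) π]
      congr 2
      ring
    · rw [norm_zero]
      exact mul_nonneg (by norm_num) (hB0 _ _ _ _)
  have h2 : ∑ p ∈ D.VV ×ˢ D.VV, w p *
      ∑ i ∈ D.II, ∑ i' ∈ D.II, (|D.a0 i| * |D.a0 i'|) * ∑ m ∈ R29.Ibar D.Z, 32 * B p i i' m =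
      ∑ i ∈ D.II, ∑ i' ∈ D.II, (|D.a0 i| * |D.a0 i'|) * ∑ m ∈ R29.Ibar D.Z,
        32 * ∑ p ∈ D.VV ×ˢ D.VV, w p * B p i i' m := by
    simp only [mul_sum]
    rw [sum_comm]
    refine sum_congr rfl fun i _ => ?_
    rw [sum_comm]
    refine sum_congr rfl fun i' _ => ?_
    rw [sum_comm]
    refine sum_congr rfl fun m _ => sum_congr rfl fun p _ => ?_
    ring
  obtain ⟨K, hK⟩ : ∃ K : ℝ, K = 200 / (D.G : ℝ) ^ 8 + (D.G : ℝ) ^ 8 * (1 / (D.G : ℝ) ^ 16 +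
      15 * D.G / (1 / (D.G : ℝ) ^ 16) ^ 2 * (1 / (D.G : ℝ) ^ 52)) := ⟨_, rfl⟩
  have hK0 : 0 ≤ K := by rw [hK]; positivity
  have h3 : ∀ i ∈ D.II, ∀ i' ∈ D.II, ∀ m ∈ R29.Ibar D.Z,
      ∑ p ∈ D.VV ×ˢ D.VV, w p * B p i i' m ≤ K := by
    intro i hi i' hi' m hm
    rw [hB, hK, ← Nat.cast_pow D.G 8]
    exact glueD_avg _ w hw1 _ Φ (fun p φ₀ =>
      if R29.nd (m * ((D.X : ℝ) / ((D.g : ℝ) * nn p.1 i * nn p.2 i')) + φ₀) ≤ 1 / D.Q
        then (1 : ℝ) else 0) (by positivity) hδ.le (by positivity) hΦ1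
      fun φ => by rw [hw]; exact (hno i hi i' hi' m hm φ).le
  have h4 : ∑ i ∈ D.II, ∑ i' ∈ D.II, (|D.a0 i| * |D.a0 i'|) * ∑ m ∈ R29.Ibar D.Z,
      32 * ∑ p ∈ D.VV ×ˢ D.VV, w p * B p i i' m ≤
      D.w1 D.a0 * D.w1 D.a0 * (2 * (3 * (D.G : ℝ) ^ 4) * (32 * K)) := by
    rw [GD.w1, sum_mul_sum, sum_mul]
    refine sum_le_sum fun i hi => ?_
    rw [sum_mul]
    refine sum_le_sum fun i' hi' => mul_le_mul_of_nonneg_left ?_ (by positivity)
    refine (sum_le_card_nsmul _ _ (32 * K) fun m hm =>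
      mul_le_mul_of_nonneg_left (h3 i hi i' hi' m hm) (by norm_num)).trans (le_of_eq ?_)
    rw [R29.card_Ibar, nsmul_eq_mul, GD.Z]
    push_cast
    ring
  have h5 := h.w1_le
  have h6 : 0 ≤ D.w1 D.a0 := sum_nonneg fun _ _ => abs_nonneg _
  have h7 := glueD_num hG
  rw [← hK] at h7
  refine absurd (hS.trans (h1.trans (h2.le.trans (h4.trans ?_)))) (not_le.2 h7)
  exact mul_le_mul_of_nonneg_right (mul_le_mul h5 h5 h6 (by positivity)) (by positivity)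

lemma glueD_size {M G g X0 U T E Q Tp N : ℝ} (hM : 0 < M) (hG : 1000000000 ≤ G) (hg : 0 < g)
    (hX : 0 < X0) (hU : 0 < U) (hT : 0 < T) (hE : 0 ≤ E) (hQ : 0 < Q)
    (hTp : Tp = M / (g * X0 * U * T)) (h1 : 12 * E ≤ Tp * G) (h2 : U * T * Tp ≤ 2 * Q * X0 * G ^ 2)
    (hN : N ≤ g * (E * (2 * U)) * (E * (2 * U) * (2 * T))) :
    10 * T ^ 2 * N / Q ≤ M * T * G ^ 60 := by
  have hG0 : 0 < G := by linarith
  have hTp0 : 0 < Tp := by rw [hTp]; positivity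
  have hM' : M = Tp * (g * X0 * U * T) := by rw [hTp]; field_simp
  have a1 : E ^ 2 ≤ (Tp * G / 12) ^ 2 := pow_le_pow_left₀ hE (by linarith) 2
  have a2 : G ^ 4 * 2 ≤ G ^ 60 := by
    rw [show G ^ 60 = G ^ 4 * G ^ 56 by ring]
    refine mul_le_mul_of_nonneg_left ?_ (by positivity)
    exact le_trans (by linarith) (le_self_pow₀ (by linarith : 1 ≤ G) (by norm_num))
  rw [div_le_iff₀ hQ]
  calc 10 * T ^ 2 * N ≤ 10 * T ^ 2 * (g * (E * (2 * U)) * (E * (2 * U) * (2 * T))) :=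
        mul_le_mul_of_nonneg_left hN (by positivity)
    _ = 80 * T ^ 3 * g * U ^ 2 * E ^ 2 := by ring
    _ ≤ 80 * T ^ 3 * g * U ^ 2 * (Tp * G / 12) ^ 2 := mul_le_mul_of_nonneg_left a1 (by positivity)
    _ = (80 / 144 * T ^ 2 * g * U * Tp * G ^ 2) * (U * T * Tp) := by ring
    _ ≤ (80 / 144 * T ^ 2 * g * U * Tp * G ^ 2) * (2 * Q * X0 * G ^ 2) :=
        mul_le_mul_of_nonneg_left h2 (by positivity)
    _ = (80 / 144) * (M * T * Q * (G ^ 4 * 2)) := by rw [hM']; ring_nf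
    _ ≤ 1 * (M * T * Q * G ^ 60) := by
        refine mul_le_mul (by norm_num) (mul_le_mul_of_nonneg_left a2 (by positivity))
          (by positivity) (by norm_num)
    _ = M * T * G ^ 60 * Q := by ring

/-- Pigeonhole gives `(i, i', m)` with `∑_{v,v'} (1/v v') ‖avg_π Wf · e(θ m π)‖ ≥ 1/(24 G^7)`.
`R29.cell_bound` (`W = Wf/32`, `Λ = 400`: as a function of `π`, `x/X0 = Δ/(π m X0)` changes by at most
`64 |π - π'|/Q` wherever one of the cutoffs is nonzero; `nc = G^8`) and `R29.spectrum` (`b = 1`,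
`δ = G^{-16}`) give a real `φ` such that the pairs `(v,v')` with `nd (m θ - φ) ≤ 1/Q`,
`θ = X/(g n n')`, have weight `≥ G^{-52}`.  Fix `u, u', t'`; `rational_extract'` in the variable `t`
with `N' = g e e' u u' t'`; divide `(|d m|, ± b)` by its gcd, which is `≤ G^60`, hence coprime to `g`
and to all primes `t ≥ T0`, `u ≥ U`. -/
theorem GD.Ok.main_part {D : GD} (h : D.Ok)
    (hS : 1 / (D.G : ℝ) ≤ ‖D.Off D.a0 D.a0 (fun _ _ => 1)‖) : D.Centre := by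
  obtain ⟨i, hi, i', hi', m, hm, φ, h1⟩ := glueD_main h hS
  have hG := glueD_G h
  have hG0 : (0 : ℝ) < D.G := by linarith
  have hG1 : (1 : ℝ) ≤ D.G := by linarith
  have hη : 0 < 1 / (D.G : ℝ) ^ 52 := by positivity
  have hT := glueD_T0 h
  have hT' : (0 : ℝ) < D.T0 := by exact_mod_cast hT
  have hQ := glueD_Q h
  have hTG : (D.G : ℝ) ^ 70 ≤ D.T0 := by exact_mod_cast h.T0_ge
  have hTU : D.T0 ≤ D.U := by
    have a1 := h.Q_ge
    have a2 := h.U_ge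
    nlinarith
  -- fix `v'`
  rw [sum_product_right] at h1
  obtain ⟨v', hv', h2⟩ := glueD_exists D.VV (fun v' => 1 / (v'.1 : ℝ) * (1 / (v'.2 : ℝ)))
    (fun v' => ∑ v ∈ D.VV, 1 / (v.1 : ℝ) * (1 / (v.2 : ℝ)) *
      (if R29.nd (m * ((D.X : ℝ) / ((D.g : ℝ) * nn v i * nn v' i')) + φ) ≤ 1 / D.Q
        then (1 : ℝ) else 0)) (fun _ _ => by positivity) (glueD_wVV h)
    (fun _ _ => sum_nonneg fun _ _ => by positivity) hη (h1.trans (le_of_eq (by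
      refine sum_congr rfl fun v' _ => ?_
      rw [mul_sum]
      refine sum_congr rfl fun v _ => ?_
      ring)))
  -- fix `u`
  replace h2 := h2.trans (glueD_VV h _ fun v => by positivity)
  obtain ⟨u, hu, h3⟩ := glueD_exists (R29.win D.U) (fun u => 1 / (u : ℝ))
    (fun u => ∑ t ∈ R29.win D.T0, 1 / (t : ℝ) *
      (if R29.nd (m * ((D.X : ℝ) / ((D.g : ℝ) * nn (u, t) i * nn v' i')) + φ) ≤ 1 / D.Q
        then (1 : ℝ) else 0)) (fun _ _ => by positivity) (glueD_hmass _)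
    (fun _ _ => sum_nonneg fun _ _ => by positivity) hη (h2.trans (le_of_eq (by
      refine sum_congr rfl fun u _ => ?_
      rw [mul_sum]
      refine sum_congr rfl fun t _ => ?_
      ring)))
  clear h1 h2
  obtain ⟨𝒯, h𝒯⟩ : ∃ 𝒯, 𝒯 = (R29.win D.T0).filter (fun t =>
    R29.nd (m * ((D.X : ℝ) / ((D.g : ℝ) * nn (u, t) i * nn v' i')) + φ) ≤ 1 / D.Q) := ⟨_, rfl⟩
  have hmem : ∀ t ∈ 𝒯, t ∈ R29.win D.T0 ∧
      R29.nd (m * ((D.X : ℝ) / ((D.g : ℝ) * nn (u, t) i * nn v' i')) + φ) ≤ 1 / D.Q :=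
    fun t ht => by rw [h𝒯] at ht; exact mem_filter.1 ht
  have hc1 : (D.T0 : ℝ) / (D.G : ℝ) ^ 52 ≤ 𝒯.card := by
    have a1 : 1 / (D.G : ℝ) ^ 52 ≤ 𝒯.card * (1 / (D.T0 : ℝ)) := by
      refine h3.trans ?_
      simp only [mul_ite, mul_one, mul_zero]
      rw [← sum_filter, ← h𝒯, ← nsmul_eq_mul]
      exact sum_le_card_nsmul _ _ _ fun t ht => one_div_le_one_div_of_le hT'
        (by exact_mod_cast (R29.mem_win.1 (hmem t ht).1).2.1)
    rw [mul_one_div, le_div_iff₀ hT'] at a1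
    refine le_trans (le_of_eq ?_) a1
    ring
  have hc2 : 2 ≤ 𝒯.card := by
    have : (2 : ℝ) ≤ 𝒯.card := by
      refine le_trans ?_ hc1
      rw [le_div_iff₀ (by positivity)]
      calc 2 * (D.G : ℝ) ^ 52 ≤ D.G * D.G ^ 52 := by gcongr; linarith
        _ = (D.G : ℝ) ^ 53 := (pow_succ' _ _).symm
        _ ≤ (D.G : ℝ) ^ 70 := pow_le_pow_right₀ hG1 (by norm_num)
        _ ≤ _ := hTG
    exact_mod_cast this
  obtain ⟨e1, e2, -⟩ := h.EE_spec _ (mem_product.1 (mem_filter.1 hi).1).2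
  obtain ⟨e1', e2', -⟩ := h.EE_spec _ (mem_product.1 (mem_filter.1 hi').1).2
  obtain ⟨u1, u2, u3⟩ := R29.mem_win.1 hu
  obtain ⟨p1, p2, p3⟩ := R29.mem_win.1 (h.VV_spec v' hv').1
  obtain ⟨q1, q2, q3⟩ := R29.mem_win.1 (h.VV_spec v' hv').2
  obtain ⟨N', hN'⟩ : ∃ N' : ℕ, N' = D.g * (i.2 * u) * (i'.2 * v'.1 * v'.2) := ⟨_, rfl⟩
  have hN0 : 0 < N' := by
    rw [hN']
    exact Nat.mul_pos (Nat.mul_pos h.g_pos (Nat.mul_pos (Nat.pos_of_ne_zero e1.ne_zero) u1.pos))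
      (Nat.mul_pos (Nat.mul_pos (Nat.pos_of_ne_zero e1'.ne_zero) p1.pos) q1.pos)
  obtain ⟨d, b₀, hd, hdT, hb₀, hN, hdv⟩ := rational_extract' (T := D.T0) hN0 h.Q_ge (𝒯 := 𝒯)
    (fun t ht => (mem_filter.1 (hmem t ht).1).1) hc2 D.X m (-φ) (fun t ht => by
      refine le_trans (le_of_eq ?_) (hmem t ht).2
      rw [sub_neg_eq_add, hN']
      congr 4
      simp only [nn]
      push_cast
      ring)
  obtain ⟨hm0, hmZ⟩ := R29.mem_Ibar.1 hm
  have hdm : |((d * m : ℤ) : ℝ)| ≤ (D.G : ℝ) ^ 60 := by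
    have a1 : d * 𝒯.card ≤ 2 * D.T0 := by
      have : d * 𝒯.card ≤ d * (2 * (𝒯.card - 1)) := Nat.mul_le_mul_left _ (by omega)
      rw [mul_left_comm] at this
      omega
    have a2 : (d : ℝ) * 𝒯.card ≤ 2 * D.T0 := by exact_mod_cast a1
    have a3 : (d : ℝ) ≤ 2 * D.G ^ 52 := by
      have a4 := (mul_le_mul_of_nonneg_left hc1 (Nat.cast_nonneg d)).trans a2
      rw [← mul_div_assoc, div_le_iff₀ (by positivity)] at a4
      refine le_of_mul_le_mul_right (a4.trans (le_of_eq ?_)) hT'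
      ring
    have a5 : |(m : ℝ)| ≤ 3 * (D.G : ℝ) ^ 4 := by
      rw [GD.Z] at hmZ
      exact_mod_cast hmZ
    rw [Int.cast_mul, Int.cast_natCast, abs_mul, abs_of_nonneg (Nat.cast_nonneg d)]
    calc (d : ℝ) * |(m : ℝ)| ≤ 2 * D.G ^ 52 * (3 * (D.G : ℝ) ^ 4) := by gcongr
      _ = 6 * (D.G : ℝ) ^ 56 := by ring
      _ ≤ D.G * (D.G : ℝ) ^ 56 := by gcongr; linarith
      _ = (D.G : ℝ) ^ 57 := (pow_succ' _ _).symm
      _ ≤ (D.G : ℝ) ^ 60 := pow_le_pow_right₀ hG1 (by norm_num)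
  have hdm' : |(d * m : ℤ)| ≤ ((D.G ^ 60 : ℕ) : ℤ) := by exact_mod_cast hdm
  have hlt : D.G ^ 60 < D.T0 :=
    lt_of_lt_of_le (Nat.pow_lt_pow_right (by exact_mod_cast (by linarith : (1 : ℝ) < D.G))
      (by norm_num)) h.T0_ge
  obtain ⟨c, b, c1, c2, c3, c4, c5⟩ := glueD_reduce (c₀ := d * m)
    (mul_ne_zero (by exact_mod_cast hd.ne') hm0) b₀ D.X
  have hprime : ∀ p : ℕ, p.Prime → D.T0 ≤ p → (p : ℤ) ∣ d * m * D.X - b₀ → Str D.X c b p := by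
    intro p hp hTp hdvd
    refine c5 p (fun q hq hqp => ?_) hdvd
    rw [(Nat.prime_dvd_prime_iff_eq hq hp).1 hqp]
    exact lt_of_le_of_lt hdm' (by exact_mod_cast hlt.trans_le hTp)
  have hdN : ∀ n : ℕ, n ∣ N' → (n : ℤ) ∣ d * m * D.X - b₀ := fun n hn =>
    (Int.natCast_dvd_natCast.2 hn).trans hN
  refine ⟨c, b, c1, c2, le_trans (by exact_mod_cast c3) hdm, ?_, ?_, ⟨v', hv', ?_, ?_⟩, ?_⟩
  · refine le_trans (by exact_mod_cast c4) (hb₀.trans ?_)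
    refine glueD_size (by linarith [h.M_ge]) hG (g := D.g) (by exact_mod_cast h.g_pos)
      (X0 := D.X0) (by exact_mod_cast h.X0_pos) (U := D.U) (by exact_mod_cast hT.trans_le hTU) hT'
      (E := D.E) (Nat.cast_nonneg _) (by exact_mod_cast hQ) (Tp := D.Tp) rfl h.E_le' h.Q_lo ?_
    have : N' ≤ D.g * (D.E * (2 * D.U)) * (D.E * (2 * D.U) * (2 * D.T0)) := by
      rw [hN']
      gcongr
    exact_mod_cast this
  · refine c5 D.g (fun p hp hpg => ?_) (hdN _ ?_)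
    · exact lt_of_le_of_lt hdm' (by exact_mod_cast h.g_rough p hp hpg)
    · rw [hN', mul_assoc]; exact dvd_mul_right _ _
  · refine hprime _ p1 (hTU.trans p2) (hdN _ ?_)
    rw [hN']
    exact Dvd.dvd.mul_left (Dvd.dvd.mul_right (dvd_mul_left _ _) _) _
  · refine hprime _ q1 q2 (hdN _ ?_)
    rw [hN']
    exact Dvd.dvd.mul_left (dvd_mul_left _ _) _
  · have a1 : 𝒯 ⊆ (R29.win D.T0).filter (Str D.X c b) := fun t ht =>
      mem_filter.2 ⟨(hmem t ht).1, hprime t (R29.mem_win.1 (hmem t ht).1).1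
        (R29.mem_win.1 (hmem t ht).1).2.1 (hdv t ht)⟩
    refine le_trans ?_ (hc1.trans (by exact_mod_cast card_le_card a1))
    exact div_le_div_of_nonneg_left hT'.le (by positivity) (pow_le_pow_right₀ hG1 (by norm_num))

end Crest.Agent.R1
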