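import Crest.Agent.R1.GlueB

/-!
# R1 / GlueF: subsampling the small primes
-/

set_option autoImplicit false

namespace Crest.Agent.R1

open Finset Filter
open scoped Classical

theorem GD.pp_le_one (D : GD) (l : ℕ) : D.pp l ≤ 1 := min_le_left _ _

theorem GD.Ok.pp_nonneg {D : GD} (h : D.Ok) (l : ℕ) : 0 ≤ D.pp l :=
  le_min zero_le_one (div_nonneg (by linarith [h.y_ge]) (Nat.cast_nonneg l))

theorem GD.Ok.pp_mul {D : GD} {l : ℕ} (hl : 0 < l) : D.pp l * l = min (l : ℝ) D.y := by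
  have h0 : (0 : ℝ) < l := by exact_mod_cast hl
  rw [GD.pp, min_mul_of_nonneg _ _ h0.le, one_mul, div_mul_cancel₀ _ h0.ne']

theorem GD.Ok.pp_pos {D : GD} (h : D.Ok) {l : ℕ} (hl : 0 < l) : 0 < D.pp l :=
  lt_min zero_lt_one (div_pos (by linarith [h.y_ge]) (by exact_mod_cast hl))

theorem GD.Ok.ppf_pos {D : GD} (h : D.Ok) (e : ℕ) : 0 < ∏ l ∈ e.primeFactors, D.pp l :=
  prod_pos fun _ hl => h.pp_pos (Nat.prime_of_mem_primeFactors hl).pos

theorem GD.Ok.ppf_mul {D : GD} {e : ℕ} (he : Squarefree e) :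
    (∏ l ∈ e.primeFactors, D.pp l) * e = ∏ l ∈ e.primeFactors, min (l : ℝ) D.y := by
  conv_lhs => rw [← Nat.prod_primeFactors_of_squarefree he]
  rw [Nat.primeFactors_prod fun p hp => Nat.prime_of_mem_primeFactors hp, Nat.cast_prod, ← prod_mul_distrib]
  exact prod_congr rfl fun l hl => GD.Ok.pp_mul (Nat.prime_of_mem_primeFactors hl).pos

theorem GD.mem_II {D : GD} {i : ℤ × ℕ} (hi : i ∈ D.II) :
    i.1 ∈ R29.Ibar D.G ∧ i.2 ∈ D.EE ∧ |(i.1 : ℝ)| * D.Tp ≤ 12 * i.2 := by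
  obtain ⟨h1, h2⟩ := mem_filter.1 hi
  exact ⟨(mem_product.1 h1).1, (mem_product.1 h1).2, h2⟩

theorem GD.Ok.pf_subset {D : GD} (h : D.Ok) {i : ℤ × ℕ} (hi : i ∈ D.II) : i.2.primeFactors ⊆ D.PE := by
  intro l hl
  have h1 := (h.EE_spec _ (GD.mem_II hi).2.1).2.1
  have h2 := Nat.le_of_mem_primeFactors hl
  exact mem_filter.2 ⟨mem_range.2 (by omega), Nat.prime_of_mem_primeFactors hl⟩

theorem GD.Ok.abs_asub {D : GD} (h : D.Ok) (A : Finset ℕ) (i : ℤ × ℕ) :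
    |D.asub A i| = |D.a0 i| / (∏ l ∈ i.2.primeFactors, D.pp l) * if i.2.primeFactors ⊆ A then 1 else 0 := by
  unfold GD.asub
  split_ifs
  · rw [abs_div, abs_of_pos (h.ppf_pos _), mul_one]
  · simp

theorem GD.Ok.G_big {D : GD} (h : D.Ok) : (4 : ℝ) ≤ D.G := by
  have h1 : (200 : ℝ) ^ 4 ≤ D.L ^ 4 := pow_le_pow_left₀ (by norm_num) h.L_ge 4
  linarith [h.G_ge]

theorem GD.Ok.om_nonneg {D : GD} (h : D.Ok) (A : Finset ℕ) : 0 ≤ D.om A := by
  exact mul_nonneg (prod_nonneg fun l _ => h.pp_nonneg l) (prod_nonneg fun l _ => sub_nonneg.2 (D.pp_le_one l))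

/-- `P(S ⊆ A) = ∏_{l ∈ S} pp l` (`Finset.prod_add`) -/
theorem GD.om_sup (D : GD) {S : Finset ℕ} (hS : S ⊆ D.PE) :
    ∑ A ∈ D.PE.powerset, D.om A * (if S ⊆ A then 1 else 0) = ∏ l ∈ S, D.pp l := by
  have h1 := prod_add D.pp (fun l => if l ∈ S then 0 else 1 - D.pp l) D.PE
  have h2 : ∏ l ∈ D.PE, (D.pp l + if l ∈ S then 0 else 1 - D.pp l) = ∏ l ∈ S, D.pp l := by
    rw [← prod_subset hS fun l _ hl => by rw [if_neg hl]; ring]
    exact prod_congr rfl fun l hl => by rw [if_pos hl, add_zero]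
  rw [← h2, h1]
  refine sum_congr rfl fun A _ => ?_
  unfold GD.om
  rw [mul_assoc]
  congr 1
  split_ifs with hA
  · rw [mul_one]
    exact prod_congr rfl fun l hl => by rw [if_neg fun h => (mem_sdiff.1 hl).2 (hA h)]
  · obtain ⟨l, h3, h4⟩ := not_subset.1 hA
    rw [mul_zero]
    symm
    exact prod_eq_zero (mem_sdiff.2 ⟨hS h3, h4⟩) (by rw [if_pos h3])

theorem GD.Ok.asub_mean {D : GD} (h : D.Ok) {i : ℤ × ℕ} (hi : i ∈ D.II) :
    ∑ A ∈ D.PE.powerset, D.om A * D.asub A i = D.a0 i := by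
  have h1 : ∀ A, D.om A * D.asub A i =
      D.a0 i / (∏ l ∈ i.2.primeFactors, D.pp l) * (D.om A * if i.2.primeFactors ⊆ A then 1 else 0) := by
    intro A
    unfold GD.asub
    split_ifs <;> ring
  simp only [h1]
  rw [← mul_sum, D.om_sup (h.pf_subset hi), div_mul_cancel₀ _ (h.ppf_pos _).ne']

theorem GD.Ok.w1_mean {D : GD} (h : D.Ok) :
    ∑ A ∈ D.PE.powerset, D.om A * D.w1 (D.asub A) ≤ 2 * D.G := by
  refine le_trans (le_of_eq ?_) h.w1_le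
  simp only [GD.w1, mul_sum]
  rw [sum_comm]
  refine sum_congr rfl fun i hi => ?_
  simp only [h.abs_asub, mul_left_comm (D.om _)]
  rw [← mul_sum, D.om_sup (h.pf_subset hi), div_mul_cancel₀ _ (h.ppf_pos _).ne']

theorem GD.Ok.w1_asub {D : GD} (h : D.Ok) (A : Finset ℕ) : D.w1 (D.asub A) ≤ 2 * D.G * D.E := by
  refine le_trans ?_ (mul_le_mul_of_nonneg_right h.w1_le (Nat.cast_nonneg D.E))
  simp only [GD.w1, sum_mul]
  refine sum_le_sum fun i hi => ?_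
  obtain ⟨h1, h2, -⟩ := h.EE_spec _ (GD.mem_II hi).2.1
  have h3 : (1 : ℝ) ≤ (∏ l ∈ i.2.primeFactors, D.pp l) * i.2 := by
    rw [GD.Ok.ppf_mul h1]
    exact Finset.one_le_prod fun l hl =>
      le_min (by exact_mod_cast (Nat.prime_of_mem_primeFactors hl).one_le) h.y_ge
  have h4 : (i.2 : ℝ) ≤ D.E := by exact_mod_cast h2
  have h5 := h.ppf_pos i.2
  have h6 : |D.a0 i| / (∏ l ∈ i.2.primeFactors, D.pp l) ≤ |D.a0 i| * D.E := by
    rw [div_le_iff₀ h5, mul_assoc]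
    refine le_mul_of_one_le_right (abs_nonneg _) ?_
    nlinarith
  rw [h.abs_asub]
  split_ifs
  · rwa [mul_one]
  · rw [mul_zero]
    positivity

theorem GD.Ok.pair_mean {D : GD} (h : D.Ok) {i i' : ℤ × ℕ} (hi : i ∈ D.II) (hi' : i' ∈ D.II) :
    ∑ A ∈ D.PE.powerset, D.om A * (|D.asub A i| * |D.asub A i'|) ≤ |D.a0 i| / (D.G : ℝ) ^ 20 := by
  have hG := h.G_big
  have h1 : ∀ A, D.om A * (|D.asub A i| * |D.asub A i'|) =
      |D.a0 i| / (∏ l ∈ i.2.primeFactors, D.pp l) * (|D.a0 i'| / (∏ l ∈ i'.2.primeFactors, D.pp l)) *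
        (D.om A * if i.2.primeFactors ∪ i'.2.primeFactors ⊆ A then 1 else 0) := by
    intro A
    rw [h.abs_asub, h.abs_asub]
    simp only [union_subset_iff]
    by_cases h2 : i.2.primeFactors ⊆ A <;> by_cases h3 : i'.2.primeFactors ⊆ A <;> simp [h2, h3]
    ring
  simp only [h1]
  rw [← mul_sum, D.om_sup (union_subset (h.pf_subset hi) (h.pf_subset hi'))]
  have h2 : ∏ l ∈ i.2.primeFactors ∪ i'.2.primeFactors, D.pp l ≤ ∏ l ∈ i.2.primeFactors, D.pp l :=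
    prod_le_prod_of_subset_of_le_one subset_union_left (fun l _ => h.pp_nonneg l) fun l _ _ => D.pp_le_one l
  obtain ⟨h3, h4, h5⟩ := GD.mem_II hi'
  obtain ⟨h6, -, h7⟩ := h.EE_spec _ h4
  have h8 : (1 : ℝ) ≤ |(i'.1 : ℝ)| := by
    exact_mod_cast Int.one_le_abs (R29.mem_Ibar.1 h3).1
  have h9 := h.many _ h4 (by nlinarith [h.Tp_ge])
  rw [← GD.Ok.ppf_mul h6] at h9
  have he : (0 : ℝ) < i'.2 := by exact_mod_cast Nat.pos_of_ne_zero h6.ne_zero
  have hp := h.ppf_pos i.2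
  have hp' := h.ppf_pos i'.2
  have h10 : |D.a0 i'| / (∏ l ∈ i'.2.primeFactors, D.pp l) ≤ 1 / (D.G : ℝ) ^ 20 := by
    rw [GD.a0, abs_div, Nat.abs_cast, div_div, mul_comm]
    gcongr
  calc _ ≤ |D.a0 i| / (∏ l ∈ i.2.primeFactors, D.pp l) * (1 / (D.G : ℝ) ^ 20) *
        ∏ l ∈ i.2.primeFactors, D.pp l := by
        gcongr
        exact prod_nonneg fun l _ => h.pp_nonneg l
    _ = _ := by field_simp

/-- the mean of `|a_A i| |a_A i'|` is `|a i| |a i'| / pp (gcd e e')`.  With `e = c₀ b`, `e' = c₀ b'`,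
`b, b' ≤ G`: `1/pp(c₀) = c₀/∏_{l ∣ c₀} min l y ≤ c₀ G/G^20` (from `many`), `1/pp(gcd b b') ≤ gcd b b'`,
`∑_{b,b' ≤ G} gcd/(b b') ≤ (1 + log G)^3`. -/
theorem GD.Ok.kap_mean {D : GD} (h : D.Ok) :
    ∑ A ∈ D.PE.powerset, D.om A * D.kap (D.asub A) ≤ 1 / (D.G : ℝ) ^ 17 := by
  have hG := h.G_big
  have hG0 : (0 : ℝ) < D.G := by linarith
  simp only [GD.kap, mul_sum]
  rw [sum_comm]
  have h1 : ∀ i ∈ D.II, ∑ A ∈ D.PE.powerset, ∑ i' ∈ D.II,
      D.om A * (if i.1 * i'.2 = i'.1 * i.2 then |D.asub A i| * |D.asub A i'| else 0) ≤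
      |D.a0 i| / (D.G : ℝ) ^ 20 * (2 * D.G) := by
    intro i hi
    rw [sum_comm]
    have h2 : ∀ i' ∈ D.II, ∑ A ∈ D.PE.powerset,
        D.om A * (if i.1 * i'.2 = i'.1 * i.2 then |D.asub A i| * |D.asub A i'| else 0) ≤
        |D.a0 i| / (D.G : ℝ) ^ 20 * if i.1 * i'.2 = i'.1 * i.2 then 1 else 0 := by
      intro i' hi'
      split_ifs
      · rw [mul_one]
        exact h.pair_mean hi hi'
      · simp
    refine (sum_le_sum h2).trans ?_
    rw [← mul_sum, sum_boole]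
    refine mul_le_mul_of_nonneg_left ?_ (by positivity)
    have h3 : (D.II.filter fun i' : ℤ × ℕ => i.1 * i'.2 = i'.1 * i.2).card ≤ (R29.Ibar D.G).card := by
      refine card_le_card_of_injOn Prod.fst (fun i' hi' => (GD.mem_II (mem_filter.1 hi').1).1) ?_
      intro a ha b hb hab
      have h4 := (mem_filter.1 ha).2
      have h5 := (mem_filter.1 hb).2
      have h6 : i.1 ≠ 0 := (R29.mem_Ibar.1 (GD.mem_II hi).1).1
      have h7 : a.1 = b.1 := hab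
      refine Prod.ext h7 ?_
      have h8 : (a.2 : ℤ) = b.2 := mul_left_cancel₀ h6 (by rw [h4, h5, h7])
      exact_mod_cast h8
    rw [R29.card_Ibar] at h3
    exact_mod_cast h3
  refine (sum_le_sum h1).trans ?_
  rw [← sum_mul, ← sum_div]
  have h9 : ∑ i ∈ D.II, |D.a0 i| ≤ 2 * D.G := h.w1_le
  calc _ ≤ 2 * D.G / (D.G : ℝ) ^ 20 * (2 * D.G) := by gcongr
    _ = 4 / D.G * (1 / (D.G : ℝ) ^ 17) := by field_simp; ring
    _ ≤ 1 * (1 / (D.G : ℝ) ^ 17) := by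
      gcongr
      rwa [div_le_one hG0]
    _ = _ := one_mul _

/-- `E 2^{|A|} ≤ exp (∑ pp l) ≤ exp (y (1 + log E))` -/
theorem GD.Ok.large_dev {D : GD} (h : D.Ok) :
    (∑ A ∈ D.PE.powerset.filter (fun A => D.n0 < A.card), D.om A) *
      ((D.E : ℝ) ^ 2 * (D.G : ℝ) ^ 12) ≤ 1 := by
  have h1 : ∑ A ∈ D.PE.powerset, 2 ^ A.card * D.om A = ∏ l ∈ D.PE, (1 + D.pp l) := by
    have h2 := prod_add (fun l => 2 * D.pp l) (fun l => 1 - D.pp l) D.PE
    rw [prod_congr rfl (g := fun l => 2 * D.pp l + (1 - D.pp l)) fun l _ => by ring, h2]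
    refine sum_congr rfl fun A _ => ?_
    rw [prod_mul_distrib, prod_const, GD.om, mul_assoc]
  have h2 : ∑ l ∈ D.PE, D.pp l ≤ D.y * (1 + Real.log D.E) := by
    have h3 : D.PE ⊆ Icc 1 D.E := by
      intro l hl
      obtain ⟨h4, h5⟩ := mem_filter.1 hl
      have := mem_range.1 h4
      exact mem_Icc.2 ⟨h5.one_le, by omega⟩
    have h4 := harmonic_le_one_add_log D.E
    rw [harmonic_eq_sum_Icc] at h4
    push_cast at h4
    have hy : 0 ≤ D.y := by linarith [h.y_ge]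
    calc _ ≤ ∑ l ∈ D.PE, D.y * (l : ℝ)⁻¹ := sum_le_sum fun l _ => min_le_right _ _
      _ ≤ ∑ l ∈ Icc 1 D.E, D.y * (l : ℝ)⁻¹ := sum_le_sum_of_subset_of_nonneg h3 fun l _ _ => by positivity
      _ ≤ _ := by
        rw [← mul_sum]
        exact mul_le_mul_of_nonneg_left h4 hy
  have h3 : (∑ A ∈ D.PE.powerset.filter (fun A => D.n0 < A.card), D.om A) * 2 ^ D.n0 ≤
      Real.exp (D.y * (1 + Real.log D.E)) := by
    refine le_trans ?_ ((Real.prod_one_add_le_exp_sum _ h.pp_nonneg).trans (Real.exp_le_exp.2 h2))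
    rw [← h1, sum_mul]
    refine le_trans (sum_le_sum fun A hA => ?_) (sum_le_sum_of_subset_of_nonneg (filter_subset _ _)
      fun A _ _ => mul_nonneg (by positivity) (h.om_nonneg A))
    rw [mul_comm]
    exact mul_le_mul_of_nonneg_right (pow_le_pow_right₀ (by norm_num) (mem_filter.1 hA).2.le) (h.om_nonneg A)
  refine le_of_mul_le_mul_right ?_ (show (0 : ℝ) < 2 ^ D.n0 by positivity)
  rw [one_mul, mul_right_comm]
  refine le_trans (mul_le_mul_of_nonneg_right h3 (by positivity)) ?_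
  rw [← mul_assoc]
  exact h.sub

theorem sum_comm_four {α β γ δ : Type} (s : Finset α) (t : α → Finset β) (u : Finset γ) (v : Finset δ)
    (F : α → β → γ → δ → ℂ) :
    ∑ a ∈ s, ∑ b ∈ t a, ∑ c ∈ u, ∑ d ∈ v, F a b c d = ∑ c ∈ u, ∑ d ∈ v, ∑ a ∈ s, ∑ b ∈ t a, F a b c d := by
  rw [sum_congr rfl fun a _ => sum_comm, sum_comm]
  refine sum_congr rfl fun c _ => ?_
  rw [sum_congr rfl fun a _ => sum_comm, sum_comm]

theorem GD.off_bilin (D : GD) (ψ : ℕ → ℤ → ℂ) : ∃ K : ℤ × ℕ → ℤ × ℕ → ℂ, ∀ a a' : ℤ × ℕ → ℝ,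
    D.Off a a' ψ = ∑ i ∈ D.II, ∑ i' ∈ D.II, ((a i * a' i' : ℝ) : ℂ) * K i i' := by
  refine ⟨fun i i' => ∑ v ∈ D.VV, ∑ v' ∈ D.VV.filter (fun v' => v.1 ≠ v'.1 ∧ v.2 ≠ v'.2),
    ((1 / ((v.1 : ℝ) * v.2 * v'.1 * v'.2) : ℝ) : ℂ) *
        ∑ m ∈ R29.Ibar D.Z,
          if m ∣ Dl v i v' i' ∧ IsCoprime (Dl v i v' i' / m) ((i.2 * i'.2 : ℕ) : ℤ) then
            (∑ π ∈ D.PP, ψ π (Dl v i v' i') *
              (D.Wf v i v' i' ((Dl v i v' i' : ℝ) / (π * m)) : ℂ) *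
                R29.ee ((D.X : ℝ) * π * m / ((D.g : ℝ) * nn v i * nn v' i'))) / D.PP.card
          else 0, fun a a' => ?_⟩
  unfold GD.Off
  rw [sum_congr rfl fun v _ => sum_congr rfl fun v' _ => by
    rw [mul_sum, sum_congr rfl fun i _ => mul_sum _ _ _], sum_comm_four]
  refine sum_congr rfl fun i _ => sum_congr rfl fun i' _ => ?_
  rw [mul_sum]
  refine sum_congr rfl fun v _ => ?_
  rw [mul_sum]
  exact sum_congr rfl fun v' _ => mul_left_comm _ _ _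

/-- bilinearity -/
theorem GD.Ok.off_mean {D : GD} (h : D.Ok) (ψ : ℕ → ℤ → ℂ) :
    D.Off D.a0 D.a0 ψ = ∑ A ∈ D.PE.powerset, ∑ A' ∈ D.PE.powerset,
      ((D.om A * D.om A' : ℝ) : ℂ) * D.Off (D.asub A) (D.asub A') ψ := by
  obtain ⟨K, hK⟩ := D.off_bilin ψ
  simp only [hK, mul_sum]
  symm
  rw [sum_comm_four]
  refine sum_congr rfl fun i hi => sum_congr rfl fun i' hi' => ?_
  rw [← h.asub_mean hi, ← h.asub_mean hi', sum_mul_sum]
  push_cast
  simp only [sum_mul]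
  exact sum_congr rfl fun A _ => sum_congr rfl fun A' _ => by ring

end Crest.Agent.R1
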