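import Crest.Agent.R1.GDefs

/-!
# R1 / GlueE: high moments and a union bound over a net
-/

set_option autoImplicit false

namespace Crest.Agent.R1

open Finset Filter
open scoped Classical

/-- one residue class: the mean over a full period -/
lemma glueE_mean {J K : Type} (S : Finset J) (a : J → ℝ) (A B : J → ℤ) (cls : J → K)
    (c : J → ℕ → ℂ) {Q G s : ℕ} {κ w : ℝ}
    (ha : ∀ j ∈ S, 0 ≤ a j) (hw : ∑ j ∈ S, a j ≤ w)
    (hκ : ∑ j ∈ S, ∑ j' ∈ S, (if cls j = cls j' then a j * a j' else 0) ≤ κ)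
    (hQ : 3 ≤ Q) (hG : 2 ≤ G) (hcard : Q ≤ G * (R29.win Q).card)
    (hB : ∀ j ∈ S, ∀ π ∈ R29.win Q, ¬ (π : ℤ) ∣ B j)
    (hcls : ∀ j ∈ S, ∀ j' ∈ S, ∀ π ∈ R29.win Q, ∀ x : ℤ, (π : ℤ) ∣ A j + B j * x →
      (π : ℤ) ∣ A j' + B j' * x → cls j = cls j')
    (hc : ∀ j ∈ S, ∀ π ∈ R29.win Q, ‖c j π‖ ≤ 1) (hs : 1 ≤ s) :
    ‖R29.mn (∏ π ∈ R29.win Q, π) (fun x => ((‖(∑ π ∈ R29.win Q, ∑ j ∈ S,
        (a j : ℂ) * c j π * R29.psi0 π (A j + B j * x)) / (R29.win Q).card‖ ^ (2 * s) : ℝ) : ℂ))‖ ≤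
      16 * (8 * (s : ℝ) ^ 2 * (8 * (G : ℝ) ^ 2 * κ + 2 * w ^ 2 / (R29.win Q).card)) ^ s := by
  set PP := R29.win Q with hPP
  have hκ0 : 0 ≤ κ := le_trans (sum_nonneg fun j hj => sum_nonneg fun j' hj' => by
    have := mul_nonneg (ha j hj) (ha j' hj'); split_ifs <;> linarith) hκ
  have hcpos : 0 < PP.card := Nat.pos_of_ne_zero fun h => by rw [h] at hcard; omega
  have hc0 : (0 : ℝ) < PP.card := by exact_mod_cast hcpos
  have hc1 : (1 : ℝ) ≤ PP.card := by exact_mod_cast hcpos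
  have hE : (Q : ℝ) ≤ G * PP.card := by exact_mod_cast hcard
  have hG1 : (2 : ℝ) ≤ G := by exact_mod_cast hG
  have hpr : ∀ π ∈ PP, π.Prime ∧ Q ≤ π ∧ π < 2 * Q := fun π hπ => by
    obtain ⟨h1, hp⟩ := mem_filter.1 hπ
    exact ⟨hp, mem_Ico.1 h1⟩
  set Y : ℕ → ℤ → ℂ := fun π x =>
    (∑ j ∈ S, ((a j : ℂ) * c j π) * R29.psi0 π (A j + B j * x)) / PP.card with hY
  have hD : ∀ x : ℤ, (∑ π ∈ PP, ∑ j ∈ S,
        (a j : ℂ) * c j π * R29.psi0 π (A j + B j * x)) / PP.card = ∑ π ∈ PP, Y π x := by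
    intro x
    rw [hY, sum_div]
  have hwn : ∀ π ∈ PP, ∀ j ∈ S, ‖(a j : ℂ) * c j π‖ ≤ a j := by
    intro π hπ j hj
    rw [norm_mul, Complex.norm_real, Real.norm_of_nonneg (ha j hj)]
    exact mul_le_of_le_one_right (ha j hj) (hc j hj π hπ)
  have hone : ∀ π ∈ PP,
      (∑ x ∈ range π, ∑ j ∈ S, ((a j : ℂ) * c j π) * R29.psi0 π (A j + B j * x) = 0) ∧
      (∑ x ∈ range π, ‖∑ j ∈ S, ((a j : ℂ) * c j π) * R29.psi0 π (A j + B j * x)‖ ^ 2 ≤
        (π : ℝ) ^ 2 * κ) ∧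
      ∀ x : ℤ, ‖∑ j ∈ S, ((a j : ℂ) * c j π) * R29.psi0 π (A j + B j * x)‖ ^ 2 ≤
        2 * (π : ℝ) ^ 2 * κ + 2 * w ^ 2 := by
    intro π hπ
    refine R29.gmom_one_prime S (hpr π hπ).1 (fun j => (a j : ℂ) * c j π) A B
      (fun j hj => hB j hj π hπ) (fun j j' => cls j = cls j')
      (fun j hj j' hj' x h h' => hcls j hj j' hj' π hπ x h h') ?_ ?_
    · refine le_trans (sum_le_sum fun j hj => sum_le_sum fun j' hj' => ?_) hκ
      split_ifs
      · exact mul_le_mul (hwn π hπ j hj) (hwn π hπ j' hj') (norm_nonneg _) (ha j hj)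
      · exact le_rfl
    · exact (sum_le_sum fun j hj => hwn π hπ j hj).trans hw
  have hπE : ∀ π ∈ PP, (π : ℝ) / PP.card ≤ 2 * G := fun π hπ => by
    have : (π : ℝ) ≤ 2 * Q := by exact_mod_cast (hpr π hπ).2.2.le
    rw [div_le_iff₀ hc0]; linarith
  set W : ℝ := 8 * (G : ℝ) ^ 2 * κ + 2 * w ^ 2 / PP.card with hW
  have hW0 : 0 ≤ W := by positivity
  have key := R29.moment_bound PP (fun π => π) (fun π hπ => (hpr π hπ).1.pos)
    (fun π hπ π' hπ' h => (Nat.coprime_primes (hpr π hπ).1 (hpr π' hπ').1).2 h) Y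
    (fun π _ x x' h => by
      simp only [hY]
      congr 1
      refine sum_congr rfl fun j _ => ?_
      have : (π : ℤ) ∣ A j + B j * x ↔ (π : ℤ) ∣ A j + B j * x' :=
        ((h.mul_left _).add_left _).dvd_iff
      simp only [R29.psi0, this])
    (fun π hπ => by
      simp only [R29.mn, hY]
      rw [← sum_div, (hone π hπ).1]; simp)
    (M := √W) (V := W)
    (fun π hπ x => by
      refine Real.le_sqrt_of_sq_le ?_
      simp only [hY]
      rw [norm_div, Complex.norm_natCast, div_pow]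
      refine (div_le_div_of_nonneg_right ((hone π hπ).2.2 x) (by positivity)).trans ?_
      have e : (2 * (π : ℝ) ^ 2 * κ + 2 * w ^ 2) / (PP.card : ℝ) ^ 2 =
          2 * ((π : ℝ) / PP.card) ^ 2 * κ + 2 * w ^ 2 / PP.card / PP.card := by
        field_simp
      have h1 : ((π : ℝ) / PP.card) ^ 2 ≤ (2 * G) ^ 2 :=
        pow_le_pow_left₀ (by positivity) (hπE π hπ) 2
      have h2 := mul_le_mul_of_nonneg_right h1 hκ0
      have h3 : 2 * w ^ 2 / PP.card / PP.card ≤ 2 * w ^ 2 / PP.card :=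
        div_le_self (by positivity) hc1
      rw [e, hW]
      nlinarith)
    (by
      calc _ ≤ ∑ _π ∈ PP, 2 * G * κ / PP.card := by
            refine sum_le_sum fun π hπ => ?_
            have hπ0 : (0 : ℝ) < π := by exact_mod_cast (hpr π hπ).1.pos
            simp only [hY, norm_div, Complex.norm_natCast, div_pow]
            rw [← sum_div]
            calc _ ≤ (π : ℝ) ^ 2 * κ / (PP.card : ℝ) ^ 2 / π := by
                  gcongr
                  exact (hone π hπ).2.1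
              _ = (π : ℝ) / PP.card * κ / PP.card := by field_simp
              _ ≤ _ := by gcongr; exact hπE π hπ
        _ = 2 * G * κ := by rw [sum_const, nsmul_eq_mul]; field_simp
        _ ≤ W := by
            have h1 : (G : ℝ) ≤ (G : ℝ) ^ 2 := by nlinarith
            have h2 := mul_le_mul_of_nonneg_right h1 hκ0
            have h3 : 0 ≤ (G : ℝ) ^ 2 * κ := by positivity
            have h4 : 0 ≤ 2 * w ^ 2 / PP.card := by positivity
            rw [hW]; nlinarith) s hs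
  rw [Real.sq_sqrt hW0, max_self] at key
  simp only [hD]
  exact key

/-- one residue class: an interval -/
lemma glueE_class {J K : Type} (S : Finset J) (a : J → ℝ) (A B : J → ℤ) (cls : J → K)
    (c : J → ℕ → ℂ) {Q G s : ℕ} {κ w : ℝ}
    (ha : ∀ j ∈ S, 0 ≤ a j) (hw : ∑ j ∈ S, a j ≤ w)
    (hκ : ∑ j ∈ S, ∑ j' ∈ S, (if cls j = cls j' then a j * a j' else 0) ≤ κ)
    (hQ : 3 ≤ Q) (hG : 2 ≤ G) (hcard : Q ≤ G * (R29.win Q).card)
    (hB : ∀ j ∈ S, ∀ π ∈ R29.win Q, ¬ (π : ℤ) ∣ B j)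
    (hcls : ∀ j ∈ S, ∀ j' ∈ S, ∀ π ∈ R29.win Q, ∀ x : ℤ, (π : ℤ) ∣ A j + B j * x →
      (π : ℤ) ∣ A j' + B j' * x → cls j = cls j')
    (hc : ∀ j ∈ S, ∀ π ∈ R29.win Q, ‖c j π‖ ≤ 1) (hs : 1 ≤ s) (len : ℕ) :
    ∑ x ∈ Ico (0 : ℤ) (0 + len), ‖(∑ π ∈ R29.win Q, ∑ j ∈ S,
        (a j : ℂ) * c j π * R29.psi0 π (A j + B j * x)) / (R29.win Q).card‖ ^ (2 * s) ≤
      len * (16 * (8 * (s : ℝ) ^ 2 * (8 * (G : ℝ) ^ 2 * κ + 2 * w ^ 2 / (R29.win Q).card)) ^ s) +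
        2 * (2 * (Q : ℝ)) ^ (2 * s) * (2 * Q * w) ^ (2 * s) := by
  have hmean := glueE_mean S a A B cls c ha hw hκ hQ hG hcard hB hcls hc hs
  set PP := R29.win Q with hPP
  have hcpos : 0 < PP.card := Nat.pos_of_ne_zero fun h => by rw [h] at hcard; omega
  have hc0 : (0 : ℝ) < PP.card := by exact_mod_cast hcpos
  have hpr : ∀ π ∈ PP, π.Prime ∧ Q ≤ π ∧ π < 2 * Q := fun π hπ => by
    obtain ⟨h1, hp⟩ := mem_filter.1 hπ
    exact ⟨hp, mem_Ico.1 h1⟩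
  have hP0 : 0 < ∏ π ∈ PP, π := prod_pos fun π hπ => (hpr π hπ).1.pos
  set ψ : ℕ × J → ℤ → ℂ := fun i x => c i.2 i.1 * R29.psi0 i.1 (A i.2 + B i.2 * x) with hψ
  have hD : ∀ x : ℤ, (∑ π ∈ PP, ∑ j ∈ S,
        (a j : ℂ) * c j π * R29.psi0 π (A j + B j * x)) / PP.card =
      ∑ i ∈ PP ×ˢ S, ((a i.2 / PP.card : ℝ) : ℂ) * ψ i x := by
    intro x
    rw [sum_product, sum_div]
    refine sum_congr rfl fun π _ => ?_
    rw [sum_div]
    refine sum_congr rfl fun j _ => ?_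
    simp only [hψ]
    push_cast; ring
  have h1 := R29.moment_Ico_sub_mn (PP ×ˢ S) (fun i => ((a i.2 / PP.card : ℝ) : ℂ)) ψ
    (fun i => i.1) (q := 2 * Q) (Q := ∏ π ∈ PP, π) hP0
    (fun i hi => by
      obtain ⟨hπ, hj⟩ := mem_product.1 hi
      obtain ⟨hp, hp1, hp2⟩ := hpr _ hπ
      refine ⟨fun x x' h => ?_, hp.pos, hp2.le, dvd_prod_of_mem _ hπ⟩
      have : (i.1 : ℤ) ∣ A i.2 + B i.2 * x ↔ (i.1 : ℤ) ∣ A i.2 + B i.2 * x' :=
        ((h.mul_left _).add_left _).dvd_iff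
      simp only [hψ, R29.psi0, this])
    (M := 2 * Q)
    (fun i hi x => by
      obtain ⟨hπ, hj⟩ := mem_product.1 hi
      obtain ⟨hp, hp1, hp2⟩ := hpr _ hπ
      have h2 : (i.1 : ℝ) ≤ 2 * Q := by exact_mod_cast hp2.le
      simp only [hψ]
      rw [norm_mul]
      exact (mul_le_of_le_one_left (norm_nonneg _) (hc _ hj _ hπ)).trans
        ((R29.gmom_norm_psi0' hp.one_lt.le _).trans h2)) s 0 len
  simp only [← hD] at h1
  refine h1.trans (add_le_add (mul_le_mul_of_nonneg_left hmean (Nat.cast_nonneg _)) ?_)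
  have h2 : ∑ i ∈ PP ×ˢ S, ‖((a i.2 / PP.card : ℝ) : ℂ)‖ = ∑ j ∈ S, a j := by
    rw [sum_product, sum_congr rfl (g := fun _ => (∑ j ∈ S, a j) / PP.card)]
    · rw [sum_const, nsmul_eq_mul]; field_simp
    · intro π _
      rw [sum_div]
      refine sum_congr rfl fun j hj => ?_
      simp only [Complex.norm_real, Real.norm_of_nonneg (div_nonneg (ha j hj) hc0.le)]
  rw [h2]
  push_cast
  have h3 : 0 ≤ ∑ j ∈ S, a j := sum_nonneg ha
  gcongr

/-- covering an interval by residue classes -/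
lemma glueE_cover (F : ℤ → ℝ) (hF : ∀ u, 0 ≤ F u) {U q₀ : ℕ} (hq₀ : 0 < q₀) :
    ∑ u ∈ Ico (U : ℤ) (2 * U), F u ≤
      ∑ r ∈ range q₀, ∑ z ∈ Ico (0 : ℤ) (0 + (U / q₀ + 1 : ℕ)), F ((U + r : ℤ) + q₀ * z) := by
  rw [← sum_product' (f := fun (r : ℕ) (z : ℤ) => F ((U + r : ℤ) + q₀ * z))]
  have hq : (0 : ℤ) < q₀ := by exact_mod_cast hq₀
  have hsub : Ico (U : ℤ) (2 * U) ⊆ (range q₀ ×ˢ Ico (0 : ℤ) (0 + (U / q₀ + 1 : ℕ))).image
      (fun p : ℕ × ℤ => (U + p.1 : ℤ) + q₀ * p.2) := by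
    intro u hu
    obtain ⟨h1, h2⟩ := mem_Ico.1 hu
    have h3 := Int.emod_nonneg (u - U) hq.ne'
    have h4 := Int.emod_lt_of_pos (u - U) hq
    have h5 := Int.emod_add_mul_ediv (u - U) q₀
    refine mem_image.2 ⟨(((u - U) % q₀).toNat, (u - U) / q₀), mem_product.2 ⟨?_, ?_⟩, ?_⟩
    · simp only [mem_range]; omega
    · simp only [mem_Ico]
      refine ⟨Int.ediv_nonneg (by omega) hq.le, ?_⟩
      have h6 : (u - U) / q₀ ≤ (U : ℤ) / q₀ := Int.ediv_le_ediv hq (by omega)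
      push_cast
      omega
    · simp only [Int.toNat_of_nonneg h3]; omega
  refine (sum_le_sum_of_subset_of_nonneg hsub fun _ _ _ => hF _).trans ?_
  exact sum_image_le_of_nonneg fun _ _ => hF _

/-- Fix `ξ` and the class `r` of `u` mod `q₀`, `u = r + q₀ z`.  The terms `Y_π(z)` have coprime
periods `π` and mean zero; `∑ E‖Y_π‖² ≤ 2 G κ + w²/|PP|`, `‖Y_π‖ ≤ 2 G √κ + w/|PP|` (forms with a common
root mod `π` lie in one class, and a class has weight `≤ √κ`).  `R29.moment_bound`,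
`R29.moment_Ico_sub_mn` (terms `(π, j)`, period `≤ 2Q`), sum over `r` and `ξ ∈ N`, Hölder.
Compare `R29.gmom_fixed`, `R29.moment_good`, `R29.net_moment`. -/
theorem net_mom {J Ξ K : Type} (S : Finset J) (a : J → ℝ) (α β : J → ℤ) (cls : J → K)
    (N : Finset Ξ) (c : Ξ → J → ℕ → ℤ → ℂ) {Q G U q₀ s : ℕ} {κ w : ℝ}
    (ha : ∀ j ∈ S, 0 ≤ a j) (hw : ∑ j ∈ S, a j ≤ w)
    (hκ : ∑ j ∈ S, ∑ j' ∈ S, (if cls j = cls j' then a j * a j' else 0) ≤ κ)
    (hQ : 3 ≤ Q) (hG : 2 ≤ G) (hcard : Q ≤ G * (R29.win Q).card) (hq₀ : 0 < q₀)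
    (hcop : ∀ π ∈ R29.win Q, Nat.Coprime q₀ π)
    (hβ : ∀ j ∈ S, ∀ π ∈ R29.win Q, ¬ (π : ℤ) ∣ β j)
    (hcls : ∀ j ∈ S, ∀ j' ∈ S, ∀ π ∈ R29.win Q, (π : ℤ) ∣ α j * β j' - α j' * β j → cls j = cls j')
    (hc : ∀ ξ ∈ N, ∀ j ∈ S, ∀ π ∈ R29.win Q, (∀ u, ‖c ξ j π u‖ ≤ 1) ∧ R29.Per q₀ (c ξ j π))
    (hs : 1 ≤ s) (hN : N.card ≤ 2 ^ s) (hU : q₀ * (Q * G) ^ (20 * s) ≤ U)
    (ξ : ℤ → Ξ) (hξ : ∀ u, ξ u ∈ N) :
    ∑ u ∈ Ico (U : ℤ) (2 * U), ‖(∑ π ∈ R29.win Q, ∑ j ∈ S,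
        (a j : ℂ) * c (ξ u) j π u * R29.psi0 π (α j + β j * u)) / (R29.win Q).card‖ ≤
      U * (1000 * s * (G * Real.sqrt κ + w / Real.sqrt (R29.win Q).card) + w / (G : ℝ) ^ 10) := by
  have hcpos : 0 < (R29.win Q).card := Nat.pos_of_ne_zero fun h => by rw [h] at hcard; omega
  have hc0 : (0 : ℝ) < (R29.win Q).card := by exact_mod_cast hcpos
  have hκ0 : 0 ≤ κ := le_trans (sum_nonneg fun j hj => sum_nonneg fun j' hj' => by
    have := mul_nonneg (ha j hj) (ha j' hj'); split_ifs <;> linarith) hκ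
  have hw0 : 0 ≤ w := (sum_nonneg ha).trans hw
  have hQG : 1 ≤ (Q * G) ^ (20 * s) := Nat.one_le_pow _ _ (Nat.mul_pos (by omega) (by omega))
  have hq₀U : q₀ ≤ U := le_trans (Nat.le_mul_of_pos_right _ hQG) hU
  have hU0 : (0 : ℝ) < U := by
    have : 0 < U := by omega
    exact_mod_cast this
  set D : Ξ → ℤ → ℝ := fun η u => ‖(∑ π ∈ R29.win Q, ∑ j ∈ S,
        (a j : ℂ) * c η j π u * R29.psi0 π (α j + β j * u)) / (R29.win Q).card‖ with hD
  set T : ℝ := 16 * (8 * (s : ℝ) ^ 2 * (8 * (G : ℝ) ^ 2 * κ + 2 * w ^ 2 / (R29.win Q).card)) ^ s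
    with hT
  have hT0 : 0 ≤ T := by positivity
  set E : ℝ := 2 * (2 * (Q : ℝ)) ^ (2 * s) * (2 * Q * w) ^ (2 * s) with hE
  have hone : ∀ η ∈ N, ∑ u ∈ Ico (U : ℤ) (2 * U), D η u ^ (2 * s) ≤ 2 * U * T + q₀ * E := by
    intro η hη
    refine (glueE_cover (fun u => D η u ^ (2 * s)) (fun u => by positivity) hq₀).trans ?_
    have hlen : (q₀ : ℝ) * (U / q₀ + 1 : ℕ) ≤ 2 * U := by
      have h1 : q₀ * (U / q₀ + 1) ≤ 2 * U := by
        have := Nat.mul_div_le U q₀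
        rw [mul_add]; omega
      exact_mod_cast h1
    calc _ ≤ ∑ _r ∈ range q₀, ((U / q₀ + 1 : ℕ) * T + E) := by
          refine sum_le_sum fun r _ => ?_
          have h := glueE_class S a (fun j => α j + β j * (U + r : ℤ)) (fun j => β j * q₀) cls
            (fun j π => c η j π (U + r : ℤ)) ha hw hκ hQ hG hcard
            (fun j hj π hπ h => by
              have hp : π.Prime := (mem_filter.1 hπ).2
              rcases (Nat.prime_iff_prime_int.1 hp).dvd_or_dvd h with h | h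
              · exact hβ j hj π hπ h
              · have h' : π ∣ q₀ := by exact_mod_cast h
                have := Nat.Coprime.eq_one_of_dvd (hcop π hπ).symm h'
                exact hp.one_lt.ne' this)
            (fun j hj j' hj' π hπ x h h' => by
              refine hcls j hj j' hj' π hπ ?_
              have := dvd_sub (h.mul_left (β j')) (h'.mul_left (β j))
              rwa [show β j' * (α j + β j * (U + r : ℤ) + β j * q₀ * x) -
                β j * (α j' + β j' * (U + r : ℤ) + β j' * q₀ * x) =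
                α j * β j' - α j' * β j by ring] at this)
            (fun j hj π hπ => (hc η hη j hj π hπ).1 _) hs (U / q₀ + 1)
          refine le_trans (le_of_eq (sum_congr rfl fun z _ => ?_)) h
          simp only [hD]
          congr 3
          refine sum_congr rfl fun π hπ => sum_congr rfl fun j hj => ?_
          rw [(hc η hη j hj π hπ).2.means_add_mul]
          congr 2
          ring
      _ = q₀ * (U / q₀ + 1 : ℕ) * T + q₀ * E := by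
          rw [sum_const, card_range, nsmul_eq_mul]; ring
      _ ≤ _ := by gcongr
  set B₁ : ℝ := 1000 * s * (G * Real.sqrt κ + w / Real.sqrt (R29.win Q).card) with hB₁
  set B₂ : ℝ := w / (G : ℝ) ^ 10 with hB₂
  have hB₁0 : 0 ≤ B₁ := by positivity
  have hB₂0 : 0 ≤ B₂ := by positivity
  have hN' : (N.card : ℝ) ≤ 2 ^ s := by exact_mod_cast hN
  have hm1 : (2 : ℝ) ^ s * (2 * T) ≤ B₁ ^ (2 * s) := by
    set X : ℝ := 8 * (s : ℝ) ^ 2 * (8 * (G : ℝ) ^ 2 * κ + 2 * w ^ 2 / (R29.win Q).card) with hX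
    have hX0 : 0 ≤ X := by positivity
    have h1 : (32 : ℝ) ≤ 32 ^ s := le_self_pow₀ (by norm_num) (by omega)
    have h2 : 64 * X ≤ B₁ ^ 2 := by
      have e1 : (G * Real.sqrt κ) ^ 2 = (G : ℝ) ^ 2 * κ := by rw [mul_pow, Real.sq_sqrt hκ0]
      have e2 : (w / Real.sqrt (R29.win Q).card) ^ 2 = w ^ 2 / (R29.win Q).card := by
        rw [div_pow, Real.sq_sqrt hc0.le]
      have e3 : (G * Real.sqrt κ) ^ 2 + (w / Real.sqrt (R29.win Q).card) ^ 2 ≤
          (G * Real.sqrt κ + w / Real.sqrt (R29.win Q).card) ^ 2 := by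
        have : 0 ≤ (G * Real.sqrt κ) * (w / Real.sqrt (R29.win Q).card) := by positivity
        nlinarith
      rw [e1, e2] at e3
      have e4 : 0 ≤ (G : ℝ) ^ 2 * κ := by positivity
      have e5 : 0 ≤ w ^ 2 / (R29.win Q).card := by positivity
      have e6 : 64 * X = (s : ℝ) ^ 2 * (4096 * ((G : ℝ) ^ 2 * κ) +
          1024 * (w ^ 2 / (R29.win Q).card)) := by rw [hX]; ring
      have e7 : B₁ ^ 2 = (s : ℝ) ^ 2 *
          (1000000 * (G * Real.sqrt κ + w / Real.sqrt (R29.win Q).card) ^ 2) := by rw [hB₁]; ring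
      rw [e6, e7]
      refine mul_le_mul_of_nonneg_left ?_ (by positivity)
      linarith
    calc (2 : ℝ) ^ s * (2 * T) = 2 ^ s * 32 * X ^ s := by rw [hT]; ring
      _ ≤ 2 ^ s * 32 ^ s * X ^ s := by gcongr
      _ = (64 * X) ^ s := by rw [← mul_pow, ← mul_pow]; norm_num
      _ ≤ (B₁ ^ 2) ^ s := pow_le_pow_left₀ (by positivity) h2 s
      _ = _ := by rw [pow_mul]
  have hm2 : (2 : ℝ) ^ s * (q₀ * E) ≤ U * B₂ ^ (2 * s) := by
    have hG0 : (0 : ℝ) < G := by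
      have : 0 < G := by omega
      exact_mod_cast this
    have hQ3 : (3 : ℝ) ≤ Q := by exact_mod_cast hQ
    have hU' : (q₀ : ℝ) * ((Q : ℝ) * G) ^ (20 * s) ≤ U := by exact_mod_cast hU
    have h1 : (2 : ℝ) ≤ 2 ^ s := le_self_pow₀ (by norm_num) (by omega)
    have h2 : (64 : ℝ) ≤ (Q : ℝ) ^ 16 :=
      le_trans (by norm_num) (pow_le_pow_left₀ (by norm_num) hQ3 16)
    have h3 : (2 : ℝ) ^ s * 2 * 16 ^ s ≤ ((Q : ℝ) ^ 16) ^ s :=
      calc (2 : ℝ) ^ s * 2 * 16 ^ s ≤ 2 ^ s * 2 ^ s * 16 ^ s := by gcongr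
        _ = 64 ^ s := by rw [← mul_pow, ← mul_pow]; norm_num
        _ ≤ _ := pow_le_pow_left₀ (by norm_num) h2 s
    have e1 : (2 : ℝ) ^ s * (q₀ * E) =
        (2 ^ s * 2 * 16 ^ s) * (q₀ * ((Q : ℝ) ^ 4) ^ s * (w ^ 2) ^ s) := by
      rw [hE, mul_assoc 2, ← mul_pow, pow_mul,
        show (2 * (Q : ℝ) * (2 * Q * w)) ^ 2 = 16 * (Q : ℝ) ^ 4 * w ^ 2 by ring, mul_pow, mul_pow]
      ring
    have e2 : (q₀ : ℝ) * ((Q : ℝ) * G) ^ (20 * s) * B₂ ^ (2 * s) =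
        ((Q : ℝ) ^ 16) ^ s * (q₀ * ((Q : ℝ) ^ 4) ^ s * (w ^ 2) ^ s) := by
      rw [pow_mul, pow_mul, mul_assoc, ← mul_pow,
        show ((Q : ℝ) * G) ^ 20 * B₂ ^ 2 = (Q : ℝ) ^ 16 * (Q : ℝ) ^ 4 * w ^ 2 by
          rw [hB₂]; field_simp, mul_pow, mul_pow]
      ring
    calc _ ≤ ((Q : ℝ) ^ 16) ^ s * (q₀ * ((Q : ℝ) ^ 4) ^ s * (w ^ 2) ^ s) := by
          rw [e1]; gcongr
      _ ≤ _ := by rw [← e2]; gcongr
  have hcU : ((Ico (U : ℤ) (2 * U)).card : ℝ) = U := by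
    rw [Int.card_Ico]; congr 1; omega
  have h1 : ∑ u ∈ Ico (U : ℤ) (2 * U), D (ξ u) u ^ (2 * s) ≤ U * (B₁ + B₂) ^ (2 * s) := by
    calc _ ≤ ∑ u ∈ Ico (U : ℤ) (2 * U), ∑ η ∈ N, D η u ^ (2 * s) :=
          sum_le_sum fun u _ => single_le_sum (f := fun η => D η u ^ (2 * s))
            (fun _ _ => by positivity) (hξ u)
      _ ≤ N.card * (2 * U * T + q₀ * E) := by
          rw [sum_comm, ← nsmul_eq_mul]
          exact sum_le_card_nsmul _ _ _ hone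
      _ ≤ 2 ^ s * (2 * U * T + q₀ * E) := by gcongr
      _ = U * (2 ^ s * (2 * T)) + 2 ^ s * (q₀ * E) := by ring
      _ ≤ U * B₁ ^ (2 * s) + U * B₂ ^ (2 * s) := by gcongr
      _ ≤ _ := by
          rw [← mul_add]
          exact mul_le_mul_of_nonneg_left (pow_add_pow_le hB₁0 hB₂0 (by omega)) hU0.le
  obtain ⟨n, hn⟩ : ∃ n, 2 * s = n + 1 := ⟨2 * s - 1, by omega⟩
  rw [hn] at h1
  have h2 := pow_sum_le_card_mul_sum_pow (s := Ico (U : ℤ) (2 * U))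
    (f := fun u => D (ξ u) u) (fun _ _ => norm_nonneg _) n
  rw [hcU] at h2
  refine (pow_le_pow_iff_left₀ (sum_nonneg fun _ _ => norm_nonneg _) (by positivity)
    (Nat.succ_ne_zero n)).1 (h2.trans ?_)
  calc _ ≤ (U : ℝ) ^ n * (U * (B₁ + B₂) ^ (n + 1)) :=
        mul_le_mul_of_nonneg_left h1 (by positivity)
    _ = _ := by rw [Nat.succ_eq_add_one, mul_pow]; ring

end Crest.Agent.R1
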