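import Crest.Agent.R1.GlueGX

/-!
# R1 / GlueGY: the net for `GD.Ok.off_fixed`
-/

set_option autoImplicit false

namespace Crest.Agent.R1

open Finset Filter
open scoped Classical

/-- natural number consequences of `Ok` -/
structure GGNum (D : GD) : Prop where
  G_big : 1600000000 ≤ D.G
  T_pos : 0 < D.T0
  G_lt : D.G < D.Q
  E_lt : D.E < D.Q
  T_lt : 2 * D.T0 < D.Q
  Z_lt : D.Z < D.Q
  GE_lt : 2 * (D.G * D.E) ^ 2 < D.Q
  M_le : D.G ^ 15 ≤ D.U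
  PP_ge : D.G ^ 20 ≤ D.PP.card
  L_le : 8000000 * D.L ≤ D.G

lemma GD.Ok.GG_num {D : GD} (h : D.Ok) : GGNum D := by
  have hL := h.L_ge
  have hG : 1600000000 ≤ D.G := by
    have h1 : (200 : ℝ) ^ 4 ≤ D.L ^ 4 := by gcongr
    have h2 : (1600000000 : ℝ) ≤ D.G := by
      have := h.G_ge
      norm_num at h1
      linarith
    exact_mod_cast h2
  have hT := h.T0_ge
  have hE := h.E_le
  have hQ := h.Q_ge
  have hU := h.U_ge
  have p1 : ∀ n ≤ 70, D.G ^ n ≤ D.T0 := fun n hn =>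
    (Nat.pow_le_pow_right (by omega) hn).trans hT
  have t1 : D.G ≤ D.T0 := by simpa using p1 1 (by norm_num)
  have t2 : 21 * D.T0 ≤ D.Q := le_trans (Nat.mul_le_mul_left _ (Nat.le_self_pow (by norm_num) _)) hQ
  have t3 : D.E ≤ D.T0 := le_trans (Nat.le_mul_of_pos_left _ (by omega)) hE
  have t4 := p1 4 (by norm_num)
  have t5 := p1 15 (by norm_num)
  have t6 := p1 21 (by norm_num)
  refine ⟨hG, by omega, by omega, by omega, by omega, ?_, ?_, by omega, ?_, ?_⟩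
  · unfold GD.Z
    omega
  · have h1 : (D.G * D.E) ^ 2 ≤ D.T0 ^ 2 := Nat.pow_le_pow_left hE 2
    have h2 : 0 < D.T0 ^ 2 := pow_pos (by omega) 2
    omega
  · have h1 := h.PP_card
    have h2 : D.G * D.G ^ 20 ≤ D.G * D.PP.card := by
      calc D.G * D.G ^ 20 = D.G ^ 21 := by ring
        _ ≤ _ := by omega
    exact Nat.le_of_mul_le_mul_left h2 (by omega)
  · have h1 : (200 : ℝ) ^ 3 ≤ D.L ^ 3 := by gcongr
    have h2 := h.G_ge
    have h3 : D.L ^ 4 = D.L ^ 3 * D.L := by ring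
    norm_num at h1
    nlinarith

/-- constant term of the determinant as a function of `u'` -/
def GGal (v : ℕ × ℕ) (j : (ℤ × ℕ) × (ℤ × ℕ)) : ℤ := -(j.2.1 * nn v j.1)

/-- slope of the determinant as a function of `u'` -/
def GGbe (t' : ℕ) (j : (ℤ × ℕ) × (ℤ × ℕ)) : ℤ := j.1.1 * (j.2.2 * t')

lemma GG_Dl (v : ℕ × ℕ) (u' t' : ℕ) (j : (ℤ × ℕ) × (ℤ × ℕ)) :
    Dl v j.1 (u', t') j.2 = GGal v j + GGbe t' j * u' := by
  unfold Dl GGal GGbe nn
  push_cast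
  ring

/-- the true coefficient -/
noncomputable def GD.GGc (D : GD) (v v' : ℕ × ℕ) (m : ℤ) (j : (ℤ × ℕ) × (ℤ × ℕ)) (π : ℕ) : ℂ :=
  if m ∣ Dl v j.1 v' j.2 ∧ IsCoprime (Dl v j.1 v' j.2 / m) ((j.1.2 * j.2.2 : ℕ) : ℤ) then
    (D.Wf v j.1 v' j.2 ((Dl v j.1 v' j.2 : ℝ) / (π * m)) : ℂ) *
      R29.ee ((D.X : ℝ) * π * m / ((D.g : ℝ) * nn v j.1 * nn v' j.2))
  else 0

/-- left end of a block -/
def GD.GGu (D : GD) (b : ℕ) : ℕ := D.U + b * D.U / D.G ^ 15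

/-- the net coefficient -/
noncomputable def GD.GGn (D : GD) (f : ℕ) (v : ℕ × ℕ) (t' : ℕ) (m : ℤ) (ξ : ℕ × ℕ)
    (j : (ℤ × ℕ) × (ℤ × ℕ)) (π : ℕ) (u : ℤ) : ℂ :=
  if m ∣ GGal v j + GGbe t' j * u ∧
      IsCoprime ((GGal v j + GGbe t' j * u) / m) ((j.1.2 * j.2.2 : ℕ) : ℤ) then
    (D.Wf v j.1 (D.GGu ξ.2, t') j.2 ((Dl v j.1 (D.GGu ξ.2, t') j.2 : ℝ) / (π * m)) : ℂ) *
      R29.ee ((ξ.1 : ℝ) / ((f * D.Q * D.G ^ 15 : ℕ) : ℝ) *
        (((f / (j.1.2 * j.2.2) : ℕ) * π * m : ℤ) : ℝ))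
  else 0

/-- the net point attached to `u` -/
noncomputable def GD.GGx (D : GD) (f : ℕ) (v : ℕ × ℕ) (t' : ℕ) (u : ℤ) : ℕ × ℕ :=
  (⌊Int.fract ((D.X : ℝ) / ((D.g : ℝ) * f * v.1 * v.2 * t' * u)) * ((f * D.Q * D.G ^ 15 : ℕ) : ℝ)⌋₊,
    ((u.toNat - D.U) * D.G ^ 15 / D.U) % D.G ^ 15)

lemma GD.Ok.GG_close {D : GD} (h : D.Ok) {f : ℕ} (hf : 0 < f) {v v' : ℕ × ℕ} (hv : v ∈ D.VV)
    (hv' : v' ∈ D.VV) {m : ℤ} (hm : m ∈ R29.Ibar D.Z) {j : (ℤ × ℕ) × (ℤ × ℕ)} (h1 : j.1 ∈ D.II)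
    (h2 : j.2 ∈ D.II) (hd : j.1.2 * j.2.2 ∣ f) {π : ℕ} (hπ : π ∈ R29.win D.Q) :
    ‖D.GGc v v' m j π - D.GGn f v v'.2 m (D.GGx f v v'.2 v'.1) j π v'.1‖ ≤
      2000 / (D.G : ℝ) ^ 11 := by
  obtain ⟨u', t'⟩ := v'
  have n := h.GG_num
  have nG := n.G_big
  have hM : 0 ≤ D.M := by linarith [h.M_ge]
  have hX := h.X0_pos
  have hu := R29.mem_win.1 (h.VV_spec _ hv).1
  have ht := R29.mem_win.1 (h.VV_spec _ hv).2
  have hu' := R29.mem_win.1 (h.VV_spec _ hv').1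
  have ht' := R29.mem_win.1 (h.VV_spec _ hv').2
  have hp := R29.mem_win.1 hπ
  have hm' := R29.mem_Ibar.1 hm
  simp only at hu' ht' ⊢
  have rG : (1 : ℝ) ≤ D.G := by exact_mod_cast (by omega : 1 ≤ D.G)
  have hG15 : 0 < D.G ^ 15 := pow_pos (by omega) _
  have hU : 0 < D.U := lt_of_lt_of_le hG15 n.M_le
  have rU : (0 : ℝ) < D.U := by exact_mod_cast hU
  have rX : (0 : ℝ) < D.X0 := by exact_mod_cast hX
  have hQ : 0 < D.Q := by have := n.G_lt; omega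
  have rQ : (0 : ℝ) < D.Q := by exact_mod_cast hQ
  have rπ : (D.Q : ℝ) ≤ π := by exact_mod_cast hp.2.1
  have rπ' : (π : ℝ) ≤ 2 * D.Q := by exact_mod_cast hp.2.2.le
  have rm : (1 : ℝ) ≤ |(m : ℝ)| := by exact_mod_cast Int.one_le_abs hm'.1
  have rm' : |(m : ℝ)| ≤ 3 * (D.G : ℝ) ^ 4 := by
    have := hm'.2
    unfold GD.Z at this
    exact_mod_cast this
  unfold GD.GGc GD.GGn
  rw [← GG_Dl]
  split_ifs with hc
  swap
  · rw [sub_zero, norm_zero]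
    positivity
  have hb := GG_block hG15 n.M_le hu'.2.1 hu'.2.2
  have e2 : (D.GGx f v t' u').2 = (u' - D.U) * D.G ^ 15 / D.U := by
    unfold GD.GGx
    simp only [Int.toNat_natCast]
    exact Nat.mod_eq_of_lt hb.1
  rw [e2]
  set u₀ := D.GGu ((u' - D.U) * D.G ^ 15 / D.U) with hu₀
  have hu₀' : |(u' : ℝ) - u₀| ≤ 2 * D.U / (D.G : ℝ) ^ 15 := by
    have := hb.2
    rw [Nat.cast_pow] at this
    exact this
  have hu₀U : D.U ≤ u₀ := Nat.le_add_right _ _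
  set x : ℝ := (Dl v j.1 (u', t') j.2 : ℝ) / (π * m) with hx
  set x₀ : ℝ := (Dl v j.1 (u₀, t') j.2 : ℝ) / (π * m) with hx₀
  -- the weight
  have w1 := D.Wf_lip' hM hX v j.1 j.2 hU hu'.2.1 hu₀U t' x
  have w2 := D.Wf_lip hM hX v j.1 (u₀, t') j.2 x x₀
  have w3 := D.Wf_mem hM hX v j.1 (u₀, t') j.2 x₀
  have d1 := h.Dl_le (v := (D.U, t')) ⟨by simp only; omega, ht'.2.2.le⟩ h2 h1
  have d2 : |(GGbe t' j : ℝ)| * D.U ≤ 3 * (D.G : ℝ) ^ 4 * D.Q * D.X0 / 4 := by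
    have e : |(GGbe t' j : ℝ)| * D.U = |(j.1.1 : ℝ)| * nn (D.U, t') j.2 := by
      unfold GGbe nn
      push_cast
      rw [abs_mul, abs_of_nonneg (by positivity : (0 : ℝ) ≤ (j.2.2 : ℝ) * t')]
      ring
    rw [e]
    unfold GD.Z at d1
    exact_mod_cast d1
  have d3 : |x - x₀| ≤ 3 / 2 * D.X0 / (D.G : ℝ) ^ 11 := by
    have e : x - x₀ = (GGbe t' j : ℝ) * ((u' : ℝ) - u₀) / (π * m) := by
      rw [hx, hx₀, GG_Dl, GG_Dl, ← sub_div]
      push_cast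
      ring
    rw [e, abs_div, abs_mul, abs_mul, Nat.abs_cast]
    calc _ ≤ |(GGbe t' j : ℝ)| * (2 * D.U / (D.G : ℝ) ^ 15) / (D.Q * 1) := by gcongr
      _ = |(GGbe t' j : ℝ)| * D.U * (2 / ((D.G : ℝ) ^ 15 * D.Q)) := by field_simp
      _ ≤ 3 * (D.G : ℝ) ^ 4 * D.Q * D.X0 / 4 * (2 / ((D.G : ℝ) ^ 15 * D.Q)) := by gcongr
      _ = _ := by
          field_simp
          norm_num
  have w4 : |D.Wf v j.1 (u', t') j.2 x - D.Wf v j.1 (u₀, t') j.2 x₀| ≤ 364 / (D.G : ℝ) ^ 11 := by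
    have a1 : 32 * |(u' : ℝ) - u₀| / D.U ≤ 64 / (D.G : ℝ) ^ 11 := by
      calc _ ≤ 32 * (2 * D.U / (D.G : ℝ) ^ 15) / D.U := by gcongr
        _ = 64 / (D.G : ℝ) ^ 15 := by
            field_simp
            norm_num
        _ ≤ _ := by
            gcongr
            norm_num
    have a2 : 200 * |x - x₀| / D.X0 ≤ 300 / (D.G : ℝ) ^ 11 := by
      calc _ ≤ 200 * (3 / 2 * D.X0 / (D.G : ℝ) ^ 11) / D.X0 := by gcongr
        _ = _ := by
            field_simp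
            norm_num
    calc _ ≤ _ := abs_sub_le _ (D.Wf v j.1 (u₀, t') j.2 x) _
      _ ≤ 64 / (D.G : ℝ) ^ 11 + 300 / (D.G : ℝ) ^ 11 := add_le_add (w1.trans a1) (w2.trans a2)
      _ = _ := by ring
  -- the phase
  obtain ⟨f', hf'⟩ := hd
  have he : 0 < j.1.2 * j.2.2 := Nat.pos_of_mul_pos_right (hf' ▸ hf)
  have hf'' : f / (j.1.2 * j.2.2) = f' := by rw [hf', Nat.mul_div_cancel_left _ he]
  have hf'0 : 0 < f' := Nat.pos_of_mul_pos_left (hf' ▸ hf)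
  have e3 : (D.X : ℝ) * π * m / ((D.g : ℝ) * nn v j.1 * nn (u', t') j.2) =
      (D.X : ℝ) / ((D.g : ℝ) * f * v.1 * v.2 * t' * (u' : ℤ)) * ((f' * π * m : ℤ) : ℝ) := by
    have r1 : (0 : ℝ) < f' := by exact_mod_cast hf'0
    unfold nn
    rw [hf']
    push_cast
    rw [div_mul_eq_mul_div, eq_comm]
    have e4 : (D.g : ℝ) * (j.1.2 * j.2.2 * f') * v.1 * v.2 * t' * u' =
        f' * (D.g * (j.1.2 * v.1 * v.2) * (j.2.2 * u' * t')) := by ring
    have e5 : (D.X : ℝ) * (f' * π * m) = f' * (D.X * π * m) := by ring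
    rw [e4, e5, mul_div_mul_left _ _ r1.ne']
  have rN : (0 : ℝ) < ((f * D.Q * D.G ^ 15 : ℕ) : ℝ) := by positivity
  have p1 := GG_ee_net (f' * π * m) ((D.X : ℝ) / ((D.g : ℝ) * f * v.1 * v.2 * t' * (u' : ℤ))) rN
  have p2 : 7 * (|((f' * π * m : ℤ) : ℝ)| / ((f * D.Q * D.G ^ 15 : ℕ) : ℝ)) ≤
      42 / (D.G : ℝ) ^ 11 := by
    have r1 : (f' : ℝ) ≤ f := by
      exact_mod_cast Nat.le_of_dvd hf ⟨_, hf'.trans (mul_comm _ _)⟩
    have r2 : (0 : ℝ) < f := by exact_mod_cast hf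
    push_cast
    rw [abs_mul, abs_mul, Nat.abs_cast, Nat.abs_cast]
    calc _ ≤ 7 * ((f : ℝ) * (2 * D.Q) * (3 * (D.G : ℝ) ^ 4) / (f * D.Q * (D.G : ℝ) ^ 15)) := by
          gcongr
      _ = _ := by
          field_simp
          norm_num
  rw [hf'', e3]
  have e6 : ((D.GGx f v t' u').1 : ℝ) = (⌊Int.fract ((D.X : ℝ) /
      ((D.g : ℝ) * f * v.1 * v.2 * t' * (u' : ℤ))) * ((f * D.Q * D.G ^ 15 : ℕ) : ℝ)⌋₊ : ℝ) := rfl
  rw [e6]
  set e := R29.ee ((D.X : ℝ) / ((D.g : ℝ) * f * v.1 * v.2 * t' * (u' : ℤ)) *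
    ((f' * π * m : ℤ) : ℝ)) with he1
  set e' := R29.ee ((⌊Int.fract ((D.X : ℝ) /
      ((D.g : ℝ) * f * v.1 * v.2 * t' * (u' : ℤ))) * ((f * D.Q * D.G ^ 15 : ℕ) : ℝ)⌋₊ : ℝ) /
      ((f * D.Q * D.G ^ 15 : ℕ) : ℝ) * ((f' * π * m : ℤ) : ℝ)) with he2
  set W := D.Wf v j.1 (u', t') j.2 x
  set W' := D.Wf v j.1 (u₀, t') j.2 x₀
  have e7 : (W : ℂ) * e - (W' : ℂ) * e' = ((W - W' : ℝ) : ℂ) * e + (W' : ℂ) * (e - e') := by
    push_cast
    ring
  rw [e7]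
  refine (norm_add_le _ _).trans ?_
  rw [norm_mul, norm_mul, he1, R29.norm_ee, mul_one, Complex.norm_real, Complex.norm_real,
    Real.norm_eq_abs, Real.norm_eq_abs, abs_of_nonneg w3.1, ← he1]
  have p3 : W' * ‖e - e'‖ ≤ 32 * (42 / (D.G : ℝ) ^ 11) :=
    mul_le_mul w3.2 (p1.trans p2) (norm_nonneg _) (by norm_num)
  calc _ ≤ 364 / (D.G : ℝ) ^ 11 + 32 * (42 / (D.G : ℝ) ^ 11) := add_le_add w4 p3
    _ = 1708 / (D.G : ℝ) ^ 11 := by ring
    _ ≤ _ := by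
        gcongr
        norm_num

/-- the pairs with nonzero coefficients -/
noncomputable def GD.GGS (D : GD) (a a' : ℤ × ℕ → ℝ) : Finset ((ℤ × ℕ) × (ℤ × ℕ)) :=
  (D.II ×ˢ D.II).filter (fun j => a j.1 ≠ 0 ∧ a' j.2 ≠ 0)

lemma GD.GG_memS (D : GD) {a a' : ℤ × ℕ → ℝ} {j : (ℤ × ℕ) × (ℤ × ℕ)} (hj : j ∈ D.GGS a a') :
    j.1 ∈ D.II ∧ j.2 ∈ D.II ∧ a j.1 ≠ 0 ∧ a' j.2 ≠ 0 := by
  unfold GD.GGS at hj
  rw [Finset.mem_filter, Finset.mem_product] at hj
  exact ⟨hj.1.1, hj.1.2, hj.2⟩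

lemma GD.GG_w (D : GD) (a a' : ℤ × ℕ → ℝ) :
    ∑ j ∈ D.GGS a a', |a j.1| * |a' j.2| ≤ D.w1 a * D.w1 a' := by
  unfold GD.w1 GD.GGS
  rw [Finset.sum_mul_sum, ← Finset.sum_product']
  exact Finset.sum_le_sum_of_subset_of_nonneg (Finset.filter_subset _ _)
    fun _ _ _ => by positivity

lemma GG_not_dvd {π Q : ℕ} (hπ : π ∈ R29.win Q) {k : ℤ} (hk : k ≠ 0) (hk' : |k| < Q) :
    ¬ (π : ℤ) ∣ k := by
  intro hd
  have h1 := Int.le_of_dvd (abs_pos.2 hk) ((dvd_abs _ _).2 hd)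
  have h2 : (Q : ℤ) ≤ π := by exact_mod_cast (R29.mem_win.1 hπ).2.1
  omega

lemma GD.Ok.GG_net {D : GD} (h : D.Ok) (a a' : ℤ × ℕ → ℝ) {f₁ f₂ : ℕ} (h1 : 0 < f₁) (h2 : 0 < f₂)
    (hf : f₁ * f₂ ≤ D.E ^ (2 * D.n0)) (hp : ∀ p : ℕ, p.Prime → p ∣ f₁ * f₂ → p ≤ D.E)
    (ha : ∀ i ∈ D.II, a i ≠ 0 → i.2 ∣ f₁) (ha' : ∀ i ∈ D.II, a' i ≠ 0 → i.2 ∣ f₂)
    {v : ℕ × ℕ} (hv : v ∈ D.VV) {t' : ℕ} (ht' : t' ∈ R29.win D.T0) {m : ℤ}
    (hm : m ∈ R29.Ibar D.Z) :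
    ∑ u ∈ Ico (D.U : ℤ) (2 * D.U), ‖(∑ π ∈ R29.win D.Q, ∑ j ∈ D.GGS a a',
        ((a j.1 * a' j.2 : ℝ) : ℂ) * D.GGn (f₁ * f₂) v t' m (D.GGx (f₁ * f₂) v t' u) j π u *
          R29.psi0 π (GGal v j + GGbe t' j * u)) / (R29.win D.Q).card‖ ≤
      32 * (D.U * (1000 * D.s * (D.G * (Real.sqrt (D.kap a) * D.w1 a') +
        D.w1 a * D.w1 a' / Real.sqrt (R29.win D.Q).card) + D.w1 a * D.w1 a' / (D.G : ℝ) ^ 10)) := by
  have n := h.GG_num
  have nG := n.G_big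
  have n1 := n.G_lt
  have n2 := n.E_lt
  have n3 := n.T_lt
  have n4 := n.Z_lt
  have hM : 0 ≤ D.M := by linarith [h.M_ge]
  have hX := h.X0_pos
  have hu := R29.mem_win.1 (h.VV_spec _ hv).1
  have ht := R29.mem_win.1 (h.VV_spec _ hv).2
  have ht2 := R29.mem_win.1 ht'
  have hm' := R29.mem_Ibar.1 hm
  have hE : ∀ e ∈ D.EE, 0 < e := fun e he => Nat.pos_of_ne_zero (h.EE_spec e he).1.ne_zero
  have hG15 : 0 < D.G ^ 15 := pow_pos (by omega) _
  set f := f₁ * f₂ with hfdef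
  have hf0 : 0 < f := Nat.mul_pos h1 h2
  have hN0 : 0 < f * D.Q * D.G ^ 15 := Nat.mul_pos (Nat.mul_pos hf0 (by omega)) hG15
  have hw0 : 0 ≤ D.w1 a' := Finset.sum_nonneg fun _ _ => abs_nonneg _
  have hsq : Real.sqrt (D.kap a * D.w1 a' ^ 2) = Real.sqrt (D.kap a) * D.w1 a' := by
    rw [Real.sqrt_mul' _ (sq_nonneg _), Real.sqrt_sq hw0]
  have hnat : ∀ π ∈ R29.win D.Q, ∀ k : ℕ, 0 < k → k < D.Q → ¬ (π : ℤ) ∣ (k : ℤ) :=
    fun π hπ k hk hk' => GG_not_dvd hπ (by exact_mod_cast hk.ne') (by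
      rw [Nat.abs_cast]
      exact_mod_cast hk')
  have main := net_mom (D.GGS a a') (fun j => |a j.1| * |a' j.2|) (GGal v) (GGbe t')
    (fun j => ((j.1.1 * j.2.2 : ℤ) : ℚ) / ((j.2.1 * j.1.2 : ℤ) : ℚ))
    (range (f * D.Q * D.G ^ 15) ×ˢ range (D.G ^ 15))
    (fun ξ j π u => ((a j.1 * a' j.2 / (|a j.1| * |a' j.2|) / 32 : ℝ) : ℂ) *
      D.GGn f v t' m ξ j π u)
    (Q := D.Q) (G := D.G) (U := D.U) (q₀ := m.natAbs * f) (s := D.s)
    (κ := D.kap a * D.w1 a' ^ 2) (w := D.w1 a * D.w1 a')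
    (fun j _ => by positivity) (D.GG_w a a')
    (by
      refine le_trans ?_ (D.GG_kap_pair a a' hE)
      refine le_trans (Finset.sum_le_sum fun j _ => ?_)
        (Finset.sum_le_sum_of_subset_of_nonneg (Finset.filter_subset _ _) fun j _ _ =>
          Finset.sum_nonneg fun j' _ => by positivity)
      refine le_trans (le_of_eq (Finset.sum_congr rfl fun j' _ => ?_))
        (Finset.sum_le_sum_of_subset_of_nonneg (Finset.filter_subset _ _) fun j' _ _ => by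
          positivity)
      congr)
    (by omega) (by omega) h.PP_card
    (Nat.mul_pos (Int.natAbs_pos.2 hm'.1) hf0)
    (fun π hπ => by
      have hπ' := R29.mem_win.1 hπ
      rw [Nat.coprime_comm, hπ'.1.coprime_iff_not_dvd]
      intro hd
      rcases (hπ'.1.dvd_mul).1 hd with hd | hd
      · exact GG_not_dvd hπ hm'.1 (by omega) (Int.natCast_dvd.2 hd)
      · have := hp π hπ'.1 hd
        omega)
    (fun j hj π hπ hd => by
      obtain ⟨j1, j2, -, -⟩ := D.GG_memS hj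
      have k1 := D.GG_mem_II j1
      have k2 := D.GG_mem_II j2
      have hπ' := Nat.prime_iff_prime_int.1 (R29.mem_win.1 hπ).1
      unfold GGbe at hd
      rcases hπ'.dvd_or_dvd hd with hd | hd
      · exact GG_not_dvd hπ k1.1 (by omega) hd
      · rcases hπ'.dvd_or_dvd hd with hd | hd
        · exact hnat π hπ _ (hE _ k2.2.2) (by have := (h.EE_spec _ k2.2.2).2.1; omega) hd
        · exact hnat π hπ _ ht2.1.pos (by omega) hd)
    (fun j hj j' hj' π hπ hd => by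
      obtain ⟨j1, j2, -, -⟩ := D.GG_memS hj
      obtain ⟨j3, j4, -, -⟩ := D.GG_memS hj'
      have k1 := D.GG_mem_II j1
      have k2 := D.GG_mem_II j2
      have k3 := D.GG_mem_II j3
      have k4 := D.GG_mem_II j4
      have hw := R29.mem_win.1 hπ
      have hπ' := Nat.prime_iff_prime_int.1 hw.1
      have e : GGal v j * GGbe t' j' - GGal v j' * GGbe t' j =
          (v.1 : ℤ) * (v.2 * (t' * (j.1.1 * j.2.2 * (j'.2.1 * j'.1.2) -
            j'.1.1 * j'.2.2 * (j.2.1 * j.1.2)))) := by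
        unfold GGal GGbe nn
        push_cast
        ring
      rw [e] at hd
      have hd' : (π : ℤ) ∣ j.1.1 * j.2.2 * (j'.2.1 * j'.1.2) -
          j'.1.1 * j'.2.2 * (j.2.1 * j.1.2) := by
        rcases hπ'.dvd_or_dvd hd with hd | hd
        · have := (Nat.prime_dvd_prime_iff_eq hw.1 hu.1).1 (Int.natCast_dvd_natCast.1 hd)
          have := h.U_ge
          omega
        · rcases hπ'.dvd_or_dvd hd with hd | hd
          · exact absurd hd (hnat π hπ _ ht.1.pos (by omega))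
          · rcases hπ'.dvd_or_dvd hd with hd | hd
            · exact absurd hd (hnat π hπ _ ht2.1.pos (by omega))
            · exact hd
      have hb : ∀ i₁ ∈ D.II, ∀ i₂ ∈ D.II, |i₁.1 * (i₂.2 : ℤ)| ≤ D.G * D.E := by
        intro i₁ l1 i₂ l2
        have l3 : (i₂.2 : ℤ) ≤ D.E := by exact_mod_cast (h.EE_spec _ (D.GG_mem_II l2).2.2).2.1
        rw [abs_mul, Nat.abs_cast]
        exact mul_le_mul (D.GG_mem_II l1).2.1 l3 (by positivity) (by positivity)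
      have h0 : j.1.1 * j.2.2 * (j'.2.1 * j'.1.2) - j'.1.1 * j'.2.2 * (j.2.1 * j.1.2) = 0 := by
        by_contra hne
        refine GG_not_dvd hπ hne ?_ hd'
        have b1 : |j.1.1 * j.2.2 * (j'.2.1 * (j'.1.2 : ℤ))| ≤ (D.G * D.E) * (D.G * D.E) := by
          rw [abs_mul]
          exact mul_le_mul (hb _ j1 _ j2) (hb _ j4 _ j3) (abs_nonneg _) (by positivity)
        have b2 : |j'.1.1 * j'.2.2 * (j.2.1 * (j.1.2 : ℤ))| ≤ (D.G * D.E) * (D.G * D.E) := by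
          rw [abs_mul]
          exact mul_le_mul (hb _ j3 _ j4) (hb _ j2 _ j1) (abs_nonneg _) (by positivity)
        have b3 : 2 * ((D.G : ℤ) * D.E) ^ 2 < D.Q := by exact_mod_cast n.GE_lt
        refine (abs_sub _ _).trans_lt ?_
        nlinarith
      have z1 : ((j.2.1 * j.1.2 : ℤ) : ℚ) ≠ 0 := by
        exact_mod_cast mul_ne_zero k2.1 (by exact_mod_cast (hE _ k1.2.2).ne')
      have z2 : ((j'.2.1 * j'.1.2 : ℤ) : ℚ) ≠ 0 := by
        exact_mod_cast mul_ne_zero k4.1 (by exact_mod_cast (hE _ k3.2.2).ne')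
      rw [div_eq_div_iff z1 z2]
      exact_mod_cast sub_eq_zero.1 h0)
    (fun ξ _ j hj π _ => by
      obtain ⟨j1, j2, j3, j4⟩ := D.GG_memS hj
      refine ⟨fun u => ?_, fun x y hxy => ?_⟩
      · have b1 : ‖((a j.1 * a' j.2 / (|a j.1| * |a' j.2|) / 32 : ℝ) : ℂ)‖ = 1 / 32 := by
          rw [Complex.norm_real, Real.norm_eq_abs, abs_div, abs_div, abs_mul, abs_mul, abs_abs,
            abs_abs, div_self (mul_ne_zero (abs_ne_zero.2 j3) (abs_ne_zero.2 j4))]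
          norm_num
        have b2 : ‖D.GGn f v t' m ξ j π u‖ ≤ 32 := by
          unfold GD.GGn
          split_ifs
          · rw [norm_mul, R29.norm_ee, mul_one, Complex.norm_real, Real.norm_eq_abs,
              abs_of_nonneg (D.Wf_mem hM hX _ _ _ _ _).1]
            exact (D.Wf_mem hM hX _ _ _ _ _).2
          · simp
        rw [norm_mul, b1]
        linarith
      · have hd : j.1.2 * j.2.2 ∣ f := Nat.mul_dvd_mul (ha _ j1 j3) (ha' _ j2 j4)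
        simp only [GD.GGn]
        congr 1
        exact if_congr ⟨GG_cond_per hm'.1 hd hxy, GG_cond_per hm'.1 hd hxy.symm⟩ rfl rfl)
    h.s_pos
    (by
      rw [Finset.card_product, Finset.card_range, Finset.card_range]
      refine le_trans ?_ h.net
      calc f * D.Q * D.G ^ 15 * D.G ^ 15 = f * D.Q * D.G ^ 30 := by ring
        _ ≤ _ := by gcongr)
    (by
      refine le_trans ?_ h.U_big
      have : m.natAbs ≤ D.Z := by
        have h3 := hm'.2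
        rw [← Int.natCast_natAbs] at h3
        exact_mod_cast h3
      gcongr)
    (D.GGx f v t')
    (fun u => by
      have rN : (0 : ℝ) < ((f * D.Q * D.G ^ 15 : ℕ) : ℝ) := by exact_mod_cast hN0
      rw [Finset.mem_product, Finset.mem_range, Finset.mem_range]
      refine ⟨?_, Nat.mod_lt _ hG15⟩
      unfold GD.GGx
      simp only
      rw [Nat.floor_lt (mul_nonneg (Int.fract_nonneg _) rN.le)]
      exact mul_lt_of_lt_one_left rN (Int.fract_lt_one _))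
  rw [hsq] at main
  refine le_trans (le_of_eq ?_) (mul_le_mul_of_nonneg_left main (by norm_num))
  rw [Finset.mul_sum]
  refine Finset.sum_congr rfl fun u _ => ?_
  have e32 : ∀ z : ℂ, 32 * ‖z‖ = ‖32 * z‖ := fun z => by simp
  rw [e32, ← mul_div_assoc, Finset.mul_sum]
  congr 2
  refine Finset.sum_congr rfl fun π _ => ?_
  rw [Finset.mul_sum]
  refine Finset.sum_congr rfl fun j hj => ?_
  obtain ⟨-, -, j3, j4⟩ := D.GG_memS hj
  have e : a j.1 * a' j.2 =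
      32 * (|a j.1| * |a' j.2| * (a j.1 * a' j.2 / (|a j.1| * |a' j.2|) / 32)) := by
    have := abs_ne_zero.2 j3
    have := abs_ne_zero.2 j4
    field_simp
  have e' : ((a j.1 * a' j.2 : ℝ) : ℂ) = 32 * (((|a j.1| * |a' j.2| : ℝ) : ℂ) *
      ((a j.1 * a' j.2 / (|a j.1| * |a' j.2|) / 32 : ℝ) : ℂ)) := by
    conv_lhs => rw [e]
    rw [Complex.ofReal_mul, Complex.ofReal_mul (|a j.1| * |a' j.2|)]
    simp
  rw [e']
  ring

lemma GD.GG_Off_eq (D : GD) (a a' : ℤ × ℕ → ℝ) :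
    D.Off a a' R29.psi0 = ∑ v ∈ D.VV, ∑ v' ∈ D.VV.filter (fun v' => v.1 ≠ v'.1 ∧ v.2 ≠ v'.2),
      ((1 / ((v.1 : ℝ) * v.2 * v'.1 * v'.2) : ℝ) : ℂ) * ∑ m ∈ R29.Ibar D.Z,
        (∑ π ∈ R29.win D.Q, ∑ j ∈ D.GGS a a', ((a j.1 * a' j.2 : ℝ) : ℂ) * D.GGc v v' m j π *
          R29.psi0 π (Dl v j.1 v' j.2)) / (R29.win D.Q).card := by
  unfold GD.Off
  refine Finset.sum_congr rfl fun v _ => Finset.sum_congr rfl fun v' _ => ?_
  congr 1
  rw [← Finset.sum_product']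
  simp only [Finset.mul_sum]
  rw [Finset.sum_comm]
  refine Finset.sum_congr rfl fun m _ => ?_
  rw [Finset.sum_comm (s := R29.win D.Q), Finset.sum_div, GD.GGS, Finset.sum_filter]
  refine Finset.sum_congr rfl fun j _ => ?_
  by_cases hj : a j.1 ≠ 0 ∧ a' j.2 ≠ 0
  · rw [if_pos hj]
    unfold GD.GGc GD.PP
    split_ifs
    · rw [← mul_div_assoc, Finset.mul_sum]
      congr 1
      refine Finset.sum_congr rfl fun π _ => ?_
      ring
    · simp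
  · rw [if_neg hj]
    have : a j.1 * a' j.2 = 0 := by
      rw [mul_eq_zero]
      tauto
    rw [this]
    simp

lemma GG_numer {G L s P k w : ℝ} (hG : 1600000000 ≤ G) (hL : 200 ≤ L) (hLG : 8000000 * L ≤ G)
    (hs : s ≤ L) (hP : G ^ 20 ≤ P) (hk : 0 ≤ k) (hw : 0 ≤ w) :
    6 * G ^ 4 * (32 * (1000 * s * (G * k + w / Real.sqrt P) + w / G ^ 10) +
      2000 / G ^ 11 * (2 * G * L + 1) * w) ≤ G ^ 6 * k + w / G ^ 5 := by
  have hG0 : 0 < G := by linarith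
  have h1 : G ^ 10 ≤ Real.sqrt P := by
    rw [Real.le_sqrt (by positivity) ((by positivity : (0 : ℝ) ≤ G ^ 20).trans hP)]
    calc (G ^ 10) ^ 2 = G ^ 20 := by ring
      _ ≤ P := hP
  have h2 : w / Real.sqrt P ≤ w / G ^ 10 := by gcongr
  have h3 : 2 * G * L + 1 ≤ 3 * G * L := by nlinarith
  calc _ ≤ 6 * G ^ 4 * (32 * (1000 * L * (G * k + w / G ^ 10) + w / G ^ 10) +
        2000 / G ^ 11 * (3 * G * L) * w) := by gcongr
    _ = (192000 * L) * (G ^ 5 * k) + (228000 * L + 192) * (w / G ^ 6) := by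
        field_simp
        ring
    _ ≤ G * (G ^ 5 * k) + G * (w / G ^ 6) := by
        gcongr <;> linarith
    _ = _ := by
        field_simp

lemma GD.Ok.GG_off_fixed {D : GD} (h : D.Ok) (a a' : ℤ × ℕ → ℝ) {f₁ f₂ : ℕ} (h1 : 0 < f₁)
    (h2 : 0 < f₂) (hf : f₁ * f₂ ≤ D.E ^ (2 * D.n0))
    (hp : ∀ p : ℕ, p.Prime → p ∣ f₁ * f₂ → p ≤ D.E)
    (ha : ∀ i ∈ D.II, a i ≠ 0 → i.2 ∣ f₁) (ha' : ∀ i ∈ D.II, a' i ≠ 0 → i.2 ∣ f₂) :
    ‖D.Off a a' R29.psi0‖ ≤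
      (D.G : ℝ) ^ 6 * Real.sqrt (D.kap a) * D.w1 a' + D.w1 a * D.w1 a' / (D.G : ℝ) ^ 5 := by
  have n := h.GG_num
  have nG := n.G_big
  have n1 := n.G_lt
  have hT := n.T_pos
  have hU : 0 < D.U := by have := h.U_ge; omega
  have rU : (0 : ℝ) < D.U := by exact_mod_cast hU
  have rT : (0 : ℝ) < D.T0 := by exact_mod_cast hT
  have hL : (0 : ℝ) ≤ D.L := by linarith [h.L_ge]
  have hw : 0 ≤ D.w1 a := Finset.sum_nonneg fun _ _ => abs_nonneg _
  have hw' : 0 ≤ D.w1 a' := Finset.sum_nonneg fun _ _ => abs_nonneg _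
  set f := f₁ * f₂ with hfdef
  set B : ℝ := 32 * (1000 * D.s * (D.G * (Real.sqrt (D.kap a) * D.w1 a') +
    D.w1 a * D.w1 a' / Real.sqrt (R29.win D.Q).card) + D.w1 a * D.w1 a' / (D.G : ℝ) ^ 10) with hB
  set δ : ℝ := 2000 / (D.G : ℝ) ^ 11 * (2 * D.G * D.L + 1) * (D.w1 a * D.w1 a') with hδ
  have hB0 : 0 ≤ B := by positivity
  have hδ0 : 0 ≤ δ := by positivity
  set F : ℕ × ℕ → ℕ → ℤ → ℤ → ℝ := fun v t' m u => ‖(∑ π ∈ R29.win D.Q, ∑ j ∈ D.GGS a a',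
    ((a j.1 * a' j.2 : ℝ) : ℂ) * D.GGn f v t' m (D.GGx f v t' u) j π u *
      R29.psi0 π (GGal v j + GGbe t' j * u)) / (R29.win D.Q).card‖ with hF
  have hF0 : ∀ v t' m u, 0 ≤ F v t' m u := fun _ _ _ _ => norm_nonneg _
  have hsub : D.VV ⊆ Ico D.U (2 * D.U) ×ˢ R29.win D.T0 := fun v hv => by
    have := R29.mem_win.1 (h.VV_spec _ hv).1
    rw [Finset.mem_product, Finset.mem_Ico]
    exact ⟨this.2, (h.VV_spec _ hv).2⟩
  have hTc : ((R29.win D.T0).card : ℝ) ≤ D.T0 := by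
    have : (R29.win D.T0).card ≤ D.T0 := by
      refine (Finset.card_filter_le _ _).trans ?_
      rw [Nat.card_Ico]
      omega
    exact_mod_cast this
  have hVc : (D.VV.card : ℝ) ≤ D.U * D.T0 := by
    have h3 := Finset.card_le_card hsub
    rw [Finset.card_product, Nat.card_Ico, show 2 * D.U - D.U = D.U by omega] at h3
    have h4 : (D.VV.card : ℝ) ≤ D.U * (R29.win D.T0).card := by exact_mod_cast h3
    exact h4.trans (by gcongr)
  -- one term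
  have step1 : ∀ v ∈ D.VV, ∀ v' ∈ D.VV, v.1 ≠ v'.1 → ∀ m ∈ R29.Ibar D.Z,
      ‖(∑ π ∈ R29.win D.Q, ∑ j ∈ D.GGS a a', ((a j.1 * a' j.2 : ℝ) : ℂ) * D.GGc v v' m j π *
          R29.psi0 π (Dl v j.1 v' j.2)) / (R29.win D.Q).card‖ ≤ F v v'.2 m v'.1 + δ := by
    intro v hv v' hv' hne m hm
    have hu := R29.mem_win.1 (h.VV_spec _ hv).1
    have ht := R29.mem_win.1 (h.VV_spec _ hv).2
    have hu' := R29.mem_win.1 (h.VV_spec _ hv').1
    have ht' := R29.mem_win.1 (h.VV_spec _ hv').2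
    have hd := GG_diff (D.GGS a a') (fun j => a j.1 * a' j.2) (fun j π => D.GGc v v' m j π)
      (fun j π => D.GGn f v v'.2 m (D.GGx f v v'.2 v'.1) j π v'.1) (fun j => Dl v j.1 v' j.2)
      (Q := D.Q) (G := D.G) (L := D.L) (δ := 2000 / (D.G : ℝ) ^ 11) (by positivity) hL (by omega)
      h.PP_card
      (fun j hj π hπ => by
        obtain ⟨j1, j2, j3, j4⟩ := D.GG_memS hj
        exact h.GG_close (Nat.mul_pos h1 h2) hv hv' hm j1 j2
          (Nat.mul_dvd_mul (ha _ j1 j3) (ha' _ j2 j4)) hπ)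
      (fun j hj => by
        obtain ⟨j1, j2, -, -⟩ := D.GG_memS hj
        exact h.card_dvd ⟨hu.2.2, ht.2.2⟩ ⟨hu'.2.2, ht'.2.2⟩ j1 j2
          (h.Dl_ne_zero hv hv' hne j1 j2))
    have e : F v v'.2 m v'.1 = ‖(∑ π ∈ R29.win D.Q, ∑ j ∈ D.GGS a a',
        ((a j.1 * a' j.2 : ℝ) : ℂ) * D.GGn f v v'.2 m (D.GGx f v v'.2 v'.1) j π v'.1 *
          R29.psi0 π (Dl v j.1 v' j.2)) / (R29.win D.Q).card‖ := by
      simp only [hF, ← GG_Dl]
    rw [e]
    refine (norm_le_insert' _ _).trans (add_le_add le_rfl (hd.trans ?_))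
    rw [hδ]
    simp only [abs_mul]
    exact mul_le_mul_of_nonneg_left (D.GG_w a a') (by positivity)
  -- the sum over `v'`
  have step2 : ∀ v ∈ D.VV, ∀ m ∈ R29.Ibar D.Z,
      ∑ v' ∈ D.VV, (F v v'.2 m v'.1 + δ) ≤ D.U * D.T0 * (B + δ) := by
    intro v hv m hm
    rw [Finset.sum_add_distrib, Finset.sum_const, nsmul_eq_mul, mul_add]
    refine add_le_add ?_ (by gcongr)
    calc _ ≤ ∑ v' ∈ Ico D.U (2 * D.U) ×ˢ R29.win D.T0, F v v'.2 m v'.1 :=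
          Finset.sum_le_sum_of_subset_of_nonneg hsub fun _ _ _ => hF0 _ _ _ _
      _ = ∑ t' ∈ R29.win D.T0, ∑ u ∈ Ico (D.U : ℤ) (2 * D.U), F v t' m u := by
          rw [Finset.sum_product_right]
          refine Finset.sum_congr rfl fun t' _ => ?_
          refine Finset.sum_bij' (fun u _ => (u : ℤ)) (fun u _ => u.toNat) ?_ ?_ ?_ ?_ ?_
          · intro u hu
            rw [Finset.mem_Ico] at hu ⊢
            omega
          · intro u hu
            rw [Finset.mem_Ico] at hu ⊢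
            omega
          · intro u _
            simp
          · intro u hu
            rw [Finset.mem_Ico] at hu
            omega
          · intro u _
            rfl
      _ ≤ ∑ t' ∈ R29.win D.T0, D.U * B := by
          refine Finset.sum_le_sum fun t' ht' => ?_
          refine (h.GG_net a a' h1 h2 hf hp ha ha' hv ht' hm).trans (le_of_eq ?_)
          rw [hB]
          ring
      _ ≤ _ := by
          rw [Finset.sum_const, nsmul_eq_mul]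
          calc ((R29.win D.T0).card : ℝ) * (D.U * B) ≤ D.T0 * (D.U * B) := by gcongr
            _ = _ := by ring
  have hinv : ∀ v ∈ D.VV, ∀ v' ∈ D.VV, ‖((1 / ((v.1 : ℝ) * v.2 * v'.1 * v'.2) : ℝ) : ℂ)‖ ≤
      1 / ((D.U : ℝ) * D.T0 * D.U * D.T0) := by
    intro v hv v' hv'
    have hu : (D.U : ℝ) ≤ v.1 := by exact_mod_cast (R29.mem_win.1 (h.VV_spec _ hv).1).2.1
    have ht : (D.T0 : ℝ) ≤ v.2 := by exact_mod_cast (R29.mem_win.1 (h.VV_spec _ hv).2).2.1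
    have hu' : (D.U : ℝ) ≤ v'.1 := by exact_mod_cast (R29.mem_win.1 (h.VV_spec _ hv').1).2.1
    have ht' : (D.T0 : ℝ) ≤ v'.2 := by exact_mod_cast (R29.mem_win.1 (h.VV_spec _ hv').2).2.1
    rw [Complex.norm_real, Real.norm_eq_abs, abs_of_nonneg (by positivity)]
    gcongr
  rw [D.GG_Off_eq]
  calc _ ≤ ∑ v ∈ D.VV, ∑ v' ∈ D.VV, 1 / ((D.U : ℝ) * D.T0 * D.U * D.T0) *
        ∑ m ∈ R29.Ibar D.Z, (F v v'.2 m v'.1 + δ) := by
        refine (norm_sum_le _ _).trans (Finset.sum_le_sum fun v hv => ?_)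
        refine (norm_sum_le _ _).trans (le_trans (Finset.sum_le_sum fun v' hv' => ?_)
          (Finset.sum_le_sum_of_subset_of_nonneg (Finset.filter_subset
            (fun v' : ℕ × ℕ => v.1 ≠ v'.1 ∧ v.2 ≠ v'.2) _) fun v' _ _ =>
            mul_nonneg (by positivity) (Finset.sum_nonneg fun m _ => add_nonneg (hF0 _ _ _ _) hδ0)))
        rw [Finset.mem_filter] at hv'
        rw [norm_mul]
        refine mul_le_mul (hinv v hv v' hv'.1) ?_ (norm_nonneg _) (by positivity)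
        exact (norm_sum_le _ _).trans
          (Finset.sum_le_sum fun m hm => step1 v hv v' hv'.1 hv'.2.1 m hm)
    _ ≤ ∑ v ∈ D.VV, 1 / ((D.U : ℝ) * D.T0 * D.U * D.T0) *
        (2 * D.Z * (D.U * D.T0 * (B + δ))) := by
        refine Finset.sum_le_sum fun v hv => ?_
        rw [← Finset.mul_sum, Finset.sum_comm]
        refine mul_le_mul_of_nonneg_left ?_ (by positivity)
        refine (Finset.sum_le_sum fun m hm => step2 v hv m hm).trans (le_of_eq ?_)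
        rw [Finset.sum_const, nsmul_eq_mul, R29.card_Ibar]
        push_cast
        ring
    _ ≤ D.U * D.T0 * (1 / ((D.U : ℝ) * D.T0 * D.U * D.T0) *
        (2 * D.Z * (D.U * D.T0 * (B + δ)))) := by
        rw [Finset.sum_const, nsmul_eq_mul]
        gcongr
    _ = 6 * (D.G : ℝ) ^ 4 * (B + δ) := by
        unfold GD.Z
        push_cast
        field_simp
        ring
    _ ≤ _ := by
        rw [mul_assoc ((D.G : ℝ) ^ 6)]
        exact GG_numer (by exact_mod_cast nG) h.L_ge n.L_le h.s_le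
          (by exact_mod_cast n.PP_ge) (by positivity) (by positivity)

end Crest.Agent.R1
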