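import Crest.Agent.R1.GlueC
import Crest.Agent.R1.GlueE
import Crest.Agent.R1.GlueGY

/-!
# R1 / GlueG: the error part for coefficients supported on divisors of a fixed small number
-/

set_option autoImplicit false

namespace Crest.Agent.R1

open Finset Filter
open scoped Classical

/-- Young's inequality on the multiplicative group of `ℚ` -/
theorem GD.kap_pair (D : GD) (a a' : ℤ × ℕ → ℝ) (hE : ∀ e ∈ D.EE, 0 < e) :
    ∑ j ∈ D.II ×ˢ D.II, ∑ j' ∈ D.II ×ˢ D.II,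
      (if ((j.1.1 * j.2.2 : ℤ) : ℚ) / ((j.2.1 * j.1.2 : ℤ) : ℚ) =
          ((j'.1.1 * j'.2.2 : ℤ) : ℚ) / ((j'.2.1 * j'.1.2 : ℤ) : ℚ) then
        |a j.1| * |a' j.2| * (|a j'.1| * |a' j'.2|) else 0) ≤ D.kap a * D.w1 a' ^ 2 :=
  D.GG_kap_pair a a' hE

/-- Fix `m, u, t, t'` and sum over `u'`: `Δ = α + β u'`, `α = -k' e u t`, `β = k e' t'`.  Put `f = f₁ f₂`,
`Θ = X/(g f u t t' u')`; the phase is `e(Θ (f/(e e')) π m)`.  Replace `Θ` by a point of the net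
`j/(f Q G^15)` and, inside `Wf`, `u'` by the left end `u₀ = U + ⌊(u'-U) G^15/U⌋ U/G^15` (natural
division) of its block (`Wf_lip`, `Wf_lip'`, `Dl_le`; `U ≥ G^15`): the cost is at most
`2000 G^{-11} (2 G L + 1) w w'` for each `m` by `card_dvd`.  Then `net_mom` with `q₀ = |m| f`, `cls = k e'/(k' e)`
(`|k e' k₂' e₂ - k₂ e₂' k' e| ≤ 2 G² E² < Q`), restricted to the pairs with `a i * a' i' ≠ 0`. -/
theorem GD.Ok.off_fixed {D : GD} (h : D.Ok) (a a' : ℤ × ℕ → ℝ) {f₁ f₂ : ℕ} (h1 : 0 < f₁) (h2 : 0 < f₂)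
    (hf : f₁ * f₂ ≤ D.E ^ (2 * D.n0)) (hp : ∀ p : ℕ, p.Prime → p ∣ f₁ * f₂ → p ≤ D.E)
    (ha : ∀ i ∈ D.II, a i ≠ 0 → i.2 ∣ f₁) (ha' : ∀ i ∈ D.II, a' i ≠ 0 → i.2 ∣ f₂) :
    ‖D.Off a a' R29.psi0‖ ≤
      (D.G : ℝ) ^ 6 * Real.sqrt (D.kap a) * D.w1 a' + D.w1 a * D.w1 a' / (D.G : ℝ) ^ 5 :=
  h.GG_off_fixed a a' h1 h2 hf hp ha ha'

end Crest.Agent.R1
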