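import Crest.Agent.R1.GlueA
import Crest.Agent.R1.GlueD
import Crest.Agent.R1.GlueF
import Crest.Agent.R1.GlueG

/-!
# R1 / Glue: the inverse theorem for remainder terms
-/

set_option autoImplicit false

namespace Crest.Agent.R1

open Finset Filter
open scoped Classical

theorem glue_w1_nonneg (D : GD) (a : ℤ × ℕ → ℝ) : 0 ≤ D.w1 a :=
  sum_nonneg fun _ _ => abs_nonneg _

theorem glue_kap_nonneg (D : GD) (a : ℤ × ℕ → ℝ) : 0 ≤ D.kap a :=
  sum_nonneg fun _ _ => sum_nonneg fun _ _ => by split_ifs <;> positivity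

theorem glue_mem_PE {D : GD} {A : Finset ℕ} (hA : A ∈ D.PE.powerset) {l : ℕ} (hl : l ∈ A) :
    l.Prime ∧ l ≤ D.E := by
  have := mem_filter.1 (mem_powerset.1 hA hl)
  exact ⟨this.2, Nat.lt_succ_iff.1 (mem_range.1 this.1)⟩

theorem glue_pd_le {D : GD} (hE : 1 ≤ D.E) {A : Finset ℕ} (hA : A ∈ D.PE.powerset)
    (hc : A.card ≤ D.n0) : pd A ≤ D.E ^ D.n0 :=
  (prod_le_pow_card A _ D.E fun _ hl => (glue_mem_PE hA hl).2).trans
    (Nat.pow_le_pow_right hE hc)

theorem glue_dvd_pd {D : GD} (h : D.Ok) (A : Finset ℕ) {i : ℤ × ℕ} (hi : i ∈ D.II)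
    (h0 : D.asub A i ≠ 0) : i.2 ∣ pd A := by
  have h1 : i.2 ∈ D.EE := (mem_product.1 (mem_filter.1 hi).1).2
  have h2 : i.2.primeFactors ⊆ A := by
    by_contra h2
    exact h0 (if_neg h2)
  rw [← Nat.prod_primeFactors_of_squarefree (h.EE_spec _ h1).1]
  exact prod_dvd_prod_of_subset _ _ _ h2

theorem glue_sqrt_le {k t : ℝ} (hk : 0 ≤ k) (ht : 0 < t) : Real.sqrt k ≤ (k * t + 1 / t) / 2 := by
  have h1 := Real.sq_sqrt hk
  have h2 : 0 ≤ (Real.sqrt k * t - 1) ^ 2 / t := by positivity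
  have h3 : (Real.sqrt k * t - 1) ^ 2 / t = Real.sqrt k ^ 2 * t + 1 / t - 2 * Real.sqrt k := by
    field_simp
    ring
  rw [h3, h1] at h2
  linarith

/-- `off_mean`; `off_fixed` (`f₁ = pd A`, `f₂ = pd A'`) when `|A|, |A'| ≤ n0`, `off_triv` otherwise;
`E √kap ≤ √(E kap)`.  (If `E = 0` then `II` is empty.) -/
theorem GD.Ok.err {D : GD} (h : D.Ok) : ‖D.Off D.a0 D.a0 R29.psi0‖ ≤ 1 / D.G := by
  have hL := h.L_ge
  have hG : (200 : ℝ) ≤ D.G := by
    have h1 : D.L ^ 1 ≤ D.L ^ 4 := pow_le_pow_right₀ (by linarith) (by norm_num)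
    linarith [h.G_ge]
  have hG0 : (0 : ℝ) < D.G := by linarith
  rcases Nat.eq_zero_or_pos D.E with hE | hE
  · have h1 : D.II = ∅ := by
      refine eq_empty_of_forall_notMem fun i hi => ?_
      have h2 := h.EE_spec _ (mem_product.1 (mem_filter.1 hi).1).2
      exact h2.1.ne_zero (by omega)
    simp only [GD.Off, h1, sum_empty, mul_zero, sum_const_zero, norm_zero]
    positivity
  have hE' : (1 : ℝ) ≤ D.E := by exact_mod_cast hE
  set G : ℝ := (D.G : ℝ) with hGdef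
  set t : ℝ := 8 * G ^ 8 with ht
  have ht0 : 0 < t := by positivity
  set lg : Finset ℕ → ℝ := fun A => if D.n0 < A.card then 1 else 0 with hlg
  set u : Finset ℕ → ℝ := fun A => G ^ 6 * ((D.kap (D.asub A) * t + 1 / t) / 2)
    + D.w1 (D.asub A) / G ^ 5 + G ^ 6 * (2 * G * D.E) * lg A with hu
  have hw0 := fun A => glue_w1_nonneg D (D.asub A)
  have hk0 := fun A => glue_kap_nonneg D (D.asub A)
  have hlg0 : ∀ A, 0 ≤ lg A := fun A => by simp only [hlg]; split_ifs <;> norm_num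
  have key : ∀ A ∈ D.PE.powerset, ∀ A' ∈ D.PE.powerset,
      ‖D.Off (D.asub A) (D.asub A') R29.psi0‖ ≤ u A * D.w1 (D.asub A')
        + D.w1 (D.asub A) * (G ^ 6 * (2 * G * D.E) * lg A') := by
    intro A hA A' hA'
    have a1 := hw0 A
    have a2 := hw0 A'
    have a3 := hk0 A
    have a4 := hlg0 A
    have a5 := hlg0 A'
    have b1 : 0 ≤ G ^ 6 * ((D.kap (D.asub A) * t + 1 / t) / 2) * D.w1 (D.asub A') := by positivity
    have b2 : 0 ≤ D.w1 (D.asub A) / G ^ 5 * D.w1 (D.asub A') := by positivity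
    have b3 : 0 ≤ G ^ 6 * (2 * G * D.E) * lg A * D.w1 (D.asub A') := by positivity
    have b4 : 0 ≤ D.w1 (D.asub A) * (G ^ 6 * (2 * G * D.E) * lg A') := by positivity
    simp only [hu, add_mul]
    by_cases c1 : D.n0 < A.card
    · have e1 : lg A = 1 := if_pos c1
      have e2 := h.off_triv (D.asub A) (D.asub A')
      have e3 : G ^ 6 * D.w1 (D.asub A) * D.w1 (D.asub A')
          ≤ G ^ 6 * (2 * G * D.E) * lg A * D.w1 (D.asub A') := by
        rw [e1, mul_one]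
        have := h.w1_asub A
        gcongr
      linarith
    by_cases c2 : D.n0 < A'.card
    · have e1 : lg A' = 1 := if_pos c2
      have e2 := h.off_triv (D.asub A) (D.asub A')
      have e3 : G ^ 6 * D.w1 (D.asub A) * D.w1 (D.asub A')
          ≤ D.w1 (D.asub A) * (G ^ 6 * (2 * G * D.E) * lg A') := by
        rw [e1, mul_one, mul_comm (G ^ 6), mul_assoc]
        have := h.w1_asub A'
        gcongr
      linarith
    have e1 := h.off_fixed (D.asub A) (D.asub A') (f₁ := pd A) (f₂ := pd A')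
      (pd_pos fun l hl => (glue_mem_PE hA hl).1) (pd_pos fun l hl => (glue_mem_PE hA' hl).1)
      (by
        rw [two_mul, pow_add]
        exact Nat.mul_le_mul (glue_pd_le hE hA (not_lt.1 c1)) (glue_pd_le hE hA' (not_lt.1 c2)))
      (fun p hp hd => by
        rcases (Nat.Prime.dvd_mul hp).1 hd with h1 | h1
        · obtain ⟨l, hl, h2⟩ := (Prime.dvd_finsetProd_iff hp.prime _).1 h1
          exact (Nat.le_of_dvd (glue_mem_PE hA hl).1.pos h2).trans (glue_mem_PE hA hl).2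
        · obtain ⟨l, hl, h2⟩ := (Prime.dvd_finsetProd_iff hp.prime _).1 h1
          exact (Nat.le_of_dvd (glue_mem_PE hA' hl).1.pos h2).trans (glue_mem_PE hA' hl).2)
      (fun i hi h0 => glue_dvd_pd h A hi h0) (fun i hi h0 => glue_dvd_pd h A' hi h0)
    have e2 : G ^ 6 * Real.sqrt (D.kap (D.asub A)) * D.w1 (D.asub A')
        ≤ G ^ 6 * ((D.kap (D.asub A) * t + 1 / t) / 2) * D.w1 (D.asub A') := by
      have := glue_sqrt_le a3 ht0
      gcongr
    have e3 : D.w1 (D.asub A) * D.w1 (D.asub A') / G ^ 5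
        = D.w1 (D.asub A) / G ^ 5 * D.w1 (D.asub A') := by ring
    linarith
  have s1 : ∑ A ∈ D.PE.powerset, D.om A = 1 := by
    simpa using D.om_sup (empty_subset D.PE)
  have s2 : _ ≤ 2 * G := h.w1_mean
  have s3 : _ ≤ 1 / G ^ 17 := h.kap_mean
  have s4 : ∑ A ∈ D.PE.powerset, D.om A * (G ^ 6 * (2 * G * D.E) * lg A) ≤ 2 / G ^ 5 := by
    have e1 : ∑ A ∈ D.PE.powerset, D.om A * (G ^ 6 * (2 * G * D.E) * lg A)
        = G ^ 6 * (2 * G * D.E) * ∑ A ∈ D.PE.powerset.filter (fun A => D.n0 < A.card), D.om A := by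
      rw [sum_filter, mul_sum]
      refine sum_congr rfl fun A _ => ?_
      simp only [hlg]
      split_ifs <;> ring
    have e2 := h.large_dev
    have e3 : 0 ≤ ∑ A ∈ D.PE.powerset.filter (fun A => D.n0 < A.card), D.om A :=
      sum_nonneg fun A _ => h.om_nonneg A
    rw [e1, le_div_iff₀ (by positivity)]
    set S := ∑ A ∈ D.PE.powerset.filter (fun A => D.n0 < A.card), D.om A
    have e4 : S * (D.E * G ^ 12) ≤ S * ((D.E : ℝ) ^ 2 * G ^ 12) := by
      gcongr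
      nlinarith
    calc G ^ 6 * (2 * G * D.E) * S * G ^ 5 = 2 * (S * (D.E * G ^ 12)) := by ring
      _ ≤ 2 := by linarith
  have s5 : ∑ A ∈ D.PE.powerset, D.om A * u A ≤ 1 / (8 * G ^ 2) := by
    have e1 : ∑ A ∈ D.PE.powerset, D.om A * u A
        = G ^ 6 * t / 2 * ∑ A ∈ D.PE.powerset, D.om A * D.kap (D.asub A)
          + G ^ 6 / (2 * t) * ∑ A ∈ D.PE.powerset, D.om A
          + 1 / G ^ 5 * ∑ A ∈ D.PE.powerset, D.om A * D.w1 (D.asub A)
          + ∑ A ∈ D.PE.powerset, D.om A * (G ^ 6 * (2 * G * D.E) * lg A) := by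
      rw [mul_sum, mul_sum, mul_sum, ← sum_add_distrib, ← sum_add_distrib, ← sum_add_distrib]
      refine sum_congr rfl fun A _ => ?_
      simp only [hu]
      ring
    have e2 : G ^ 6 * t / 2 * ∑ A ∈ D.PE.powerset, D.om A * D.kap (D.asub A) ≤ 4 / G ^ 3 :=
      (mul_le_mul_of_nonneg_left s3 (by positivity)).trans (le_of_eq (by
        rw [ht]; field_simp; norm_num))
    have e3 : G ^ 6 / (2 * t) = 1 / (16 * G ^ 2) := by rw [ht]; field_simp; norm_num
    have e4 : 1 / G ^ 5 * ∑ A ∈ D.PE.powerset, D.om A * D.w1 (D.asub A) ≤ 2 / G ^ 4 :=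
      (mul_le_mul_of_nonneg_left s2 (by positivity)).trans (le_of_eq (by field_simp))
    have e5 : 4 / G ^ 3 + 2 / G ^ 4 + 2 / G ^ 5 ≤ 1 / (16 * G ^ 2) := by
      have c1 : G ^ 3 ≤ G ^ 4 := pow_le_pow_right₀ (by linarith) (by norm_num)
      have c2 : G ^ 3 ≤ G ^ 5 := pow_le_pow_right₀ (by linarith) (by norm_num)
      have c3 : 2 / G ^ 4 ≤ 2 / G ^ 3 := by gcongr
      have c4 : 2 / G ^ 5 ≤ 2 / G ^ 3 := by gcongr
      have c5 : 8 / G ^ 3 ≤ 1 / (16 * G ^ 2) := by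
        rw [div_le_div_iff₀ (by positivity) (by positivity)]
        have : 0 < G ^ 2 := by positivity
        nlinarith
      have c6 : 8 / G ^ 3 = 4 / G ^ 3 + 2 / G ^ 3 + 2 / G ^ 3 := by ring
      linarith
    have e6 : 1 / (8 * G ^ 2) = 1 / (16 * G ^ 2) + 1 / (16 * G ^ 2) := by ring
    rw [e1, s1, e3]
    linarith
  have s6 : 0 ≤ ∑ A ∈ D.PE.powerset, D.om A * D.w1 (D.asub A) :=
    sum_nonneg fun A _ => mul_nonneg (h.om_nonneg A) (hw0 A)
  have s7 : 0 ≤ ∑ A ∈ D.PE.powerset, D.om A * (G ^ 6 * (2 * G * D.E) * lg A) :=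
    sum_nonneg fun A _ => mul_nonneg (h.om_nonneg A) (mul_nonneg (by positivity) (hlg0 A))
  rw [h.off_mean]
  calc ‖∑ A ∈ D.PE.powerset, ∑ A' ∈ D.PE.powerset,
        ((D.om A * D.om A' : ℝ) : ℂ) * D.Off (D.asub A) (D.asub A') R29.psi0‖
      ≤ ∑ A ∈ D.PE.powerset, ∑ A' ∈ D.PE.powerset, (D.om A * u A * (D.om A' * D.w1 (D.asub A'))
        + D.om A * D.w1 (D.asub A) * (D.om A' * (G ^ 6 * (2 * G * D.E) * lg A'))) := by
        refine (norm_sum_le _ _).trans (sum_le_sum fun A hA => (norm_sum_le _ _).trans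
          (sum_le_sum fun A' hA' => ?_))
        have c1 : 0 ≤ D.om A * D.om A' := mul_nonneg (h.om_nonneg A) (h.om_nonneg A')
        rw [norm_mul, Complex.norm_real, Real.norm_of_nonneg c1]
        refine (mul_le_mul_of_nonneg_left (key A hA A' hA') c1).trans (le_of_eq ?_)
        ring
    _ = (∑ A ∈ D.PE.powerset, D.om A * u A) * ∑ A ∈ D.PE.powerset, D.om A * D.w1 (D.asub A)
        + (∑ A ∈ D.PE.powerset, D.om A * D.w1 (D.asub A))
          * ∑ A ∈ D.PE.powerset, D.om A * (G ^ 6 * (2 * G * D.E) * lg A) := by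
        rw [sum_mul_sum, sum_mul_sum, ← sum_add_distrib]
        exact sum_congr rfl fun A _ => sum_add_distrib
    _ ≤ 1 / (8 * G ^ 2) * (2 * G) + 2 * G * (2 / G ^ 5) :=
        add_le_add (mul_le_mul s5 s2 s6 (by positivity)) (mul_le_mul s2 s4 s7 (by positivity))
    _ ≤ 1 / G := by
        have c1 : 1 / (8 * G ^ 2) * (2 * G) + 2 * G * (2 / G ^ 5) = (1 / 4 + 4 / G ^ 3) / G := by
          field_simp; ring
        have c2 : G ^ 1 ≤ G ^ 3 := pow_le_pow_right₀ (by linarith) (by norm_num)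
        have c3 : 4 / G ^ 3 ≤ 3 / 4 := by
          rw [div_le_iff₀ (by positivity)]; linarith
        rw [c1]
        gcongr
        linarith

theorem GD.Ok.glue {D : GD} (h : D.Ok) :
    |∑ x ∈ D.XX, ∑ v ∈ D.VV, ∑ e ∈ D.EE, D.lam e * rem D.M D.X (D.g * x * v.1 * v.2 * e)| ≤
      D.M / D.g * (200 / Real.sqrt D.G) ∨ D.Centre := by
  by_cases hS : 1 / (D.G : ℝ) ≤ ‖D.Off D.a0 D.a0 (fun _ _ => 1)‖
  · exact Or.inr (h.main_part hS)
  left
  have hL := h.L_ge
  have hG0 : (0 : ℝ) < D.G := lt_of_lt_of_le (by positivity) h.G_ge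
  have hX : (1 : ℝ) ≤ D.X0 := by exact_mod_cast h.X0_pos
  have hg : (0 : ℝ) < D.g := by exact_mod_cast h.g_pos
  have hM := h.M_ge
  have h1 : ‖D.Off D.a0 D.a0 psi1‖ ≤ 2 / D.G := by
    rw [D.Off_split]
    have := h.err
    have e : (2 : ℝ) / D.G = 1 / D.G + 1 / D.G := by ring
    linarith [norm_add_le (D.Off D.a0 D.a0 fun _ _ => 1) (D.Off D.a0 D.a0 R29.psi0), not_le.1 hS]
  have h2 : ∑ x ∈ D.XX, ‖D.Sx x‖ ^ 2 ≤ 2051 * D.X0 / D.G := by
    refine h.cs.trans ((Complex.re_le_norm _).trans ?_)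
    rw [D.Tot_split, h.off]
    refine (norm_add₃_le).trans ?_
    rw [norm_mul, Complex.norm_natCast]
    have e1 := mul_le_mul_of_nonneg_left h1 (by linarith : (0 : ℝ) ≤ D.X0)
    have e2 : (2051 : ℝ) * D.X0 / D.G
        = 2048 * D.X0 / D.G + D.X0 / D.G + D.X0 * (2 / D.G) := by ring
    linarith [h.diag, h.degen]
  have h3 : (D.XX.card : ℝ) ≤ 3 * D.X0 := by
    have e1 : D.XX ⊆ Icc 1 (3 * D.X0) := fun x hx =>
      mem_Icc.2 ⟨h.X0_pos.trans_le (h.XX_spec x hx).1, (h.XX_spec x hx).2.1⟩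
    have e2 := card_le_card e1
    rw [Nat.card_Icc] at e2
    exact_mod_cast (show D.XX.card ≤ 3 * D.X0 by omega)
  have h4 : ∑ x ∈ D.XX, ‖D.Sx x‖ ≤ D.X0 * (200 / Real.sqrt D.G) := by
    refine (pow_le_pow_iff_left₀ (sum_nonneg fun _ _ => norm_nonneg _) (by positivity)
      two_ne_zero).1 ?_
    refine sq_sum_le_card_mul_sum_sq.trans ((mul_le_mul h3 h2
      (sum_nonneg fun _ _ => sq_nonneg _) (by positivity)).trans ?_)
    rw [mul_pow, div_pow, Real.sq_sqrt hG0.le]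
    have e : 3 * (D.X0 : ℝ) * (2051 * D.X0 / D.G) = (D.X0 : ℝ) ^ 2 * (6153 / D.G) := by ring
    rw [e]
    gcongr
    norm_num
  have h5 : ‖∑ x ∈ D.XX, D.Sx x / x‖ ≤ 200 / Real.sqrt D.G := by
    refine (norm_sum_le _ _).trans ?_
    have e1 : ∑ x ∈ D.XX, ‖D.Sx x / x‖ ≤ ∑ x ∈ D.XX, ‖D.Sx x‖ / D.X0 := by
      refine sum_le_sum fun x hx => ?_
      have e2 : (D.X0 : ℝ) ≤ x := by exact_mod_cast (h.XX_spec x hx).1
      rw [norm_div, Complex.norm_natCast]
      gcongr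
    rw [← sum_div] at e1
    refine e1.trans ?_
    rw [div_le_iff₀ (by linarith), mul_comm]
    exact h4
  rw [← Real.norm_eq_abs, ← Complex.norm_real, h.rem_sum, norm_mul, Complex.norm_real,
    Real.norm_of_nonneg (by positivity)]
  exact mul_le_mul_of_nonneg_left h5 (by positivity)

theorem glue_exp_le_two_pow {x : ℝ} {n : ℕ} (h : 2 * x ≤ n) : Real.exp x ≤ 2 ^ n := by
  have h1 : Real.exp x ≤ Real.exp (n * Real.log 2) := by
    apply Real.exp_le_exp.2
    have := Real.log_two_gt_d9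
    have h0 : (0 : ℝ) ≤ n := Nat.cast_nonneg n
    nlinarith
  rwa [Real.exp_nat_mul, Real.exp_log two_pos] at h1

theorem glue_ev (K : ℕ) : ∀ᶠ M : ℝ in atTop, ∃ w : ℝ, 1000 ≤ w ∧ w ^ 20 = LL M ∧
    LL M ^ (7 / 10 : ℝ) = w ^ 14 ∧ LL M ^ (8 / 10 : ℝ) = w ^ 16 ∧ Real.sqrt (LL M) = w ^ 10 ∧
    1000 * (K * Real.log (LL M)) ≤ w := by
  have h1 : Tendsto LL atTop atTop := Real.tendsto_log_atTop
  have h2 := (isLittleO_log_rpow_atTop (by norm_num : (0 : ℝ) < 1 / 20)).bound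
    (by positivity : (0 : ℝ) < 1 / (1000 * (K + 1)))
  have h3 := (tendsto_rpow_atTop (by norm_num : (0 : ℝ) < 1 / 20)).eventually_ge_atTop 1000
  filter_upwards [h1.eventually h2, h1.eventually h3, h1.eventually_ge_atTop 1] with M a b c
  have h0 : 0 ≤ LL M := by linarith
  have hp : ∀ n : ℕ, (LL M ^ (1 / 20 : ℝ)) ^ n = LL M ^ ((n : ℝ) / 20) := fun n => by
    rw [← Real.rpow_natCast, ← Real.rpow_mul h0]
    congr 1
    ring
  refine ⟨_, b, ?_, ?_, ?_, ?_, ?_⟩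
  · rw [hp]; norm_num
  · rw [hp]; norm_num
  · rw [hp]; norm_num
  · rw [hp, Real.sqrt_eq_rpow]; norm_num
  · have hl : 0 ≤ Real.log (LL M) := Real.log_nonneg c
    rw [Real.norm_of_nonneg hl, Real.norm_of_nonneg (by positivity), one_div_mul_eq_div,
      le_div_iff₀ (by positivity)] at a
    nlinarith

/-- **Inverse theorem**, asymptotic form: `G = ⌈L^{b+30}⌉`, `Q = ⌊U T0 T'/(X0 G²)⌋`, `y = √L`,
`n0 = ⌈L^{0.55}⌉`, `s = ⌈L^{0.6}⌉`, `A = 20 (b+31)`, `C₂ = 70 (b+31)`. -/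
theorem glue (b : ℕ) : ∃ A C₂ : ℕ, ∀ B : ℕ, ∀ᶠ M : ℝ in atTop,
    ∀ (X : ℤ) (g X0 U T0 E : ℕ) (EE XX : Finset ℕ) (lam : ℕ → ℝ) (VV : Finset (ℕ × ℕ)),
      0 < g → 0 < X0 → (g : ℝ) * X0 * U * T0 ≤ M → M ≤ LL M ^ B * (g * X0 * U * T0) →
      (E : ℝ) * (g * X0 * U * T0) ≤ M * LL M ^ b →
      LL M ^ C₂ ≤ T0 → E * LL M ^ C₂ ≤ T0 → (T0 : ℝ) ≤ LL M ^ B →
      T0 * LL M ^ C₂ * X0 ≤ U → (U : ℝ) ≤ X0 * LL M ^ B →
      Real.exp (LL M ^ (7 / 10 : ℝ)) ≤ U → (U : ℝ) ≤ Real.exp (LL M ^ (8 / 10 : ℝ)) →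
      (∀ e ∈ EE, Squarefree e ∧ e ≤ E ∧ |lam e| ≤ 1) →
      (∀ e ∈ EE, M ≤ 12 * e * (g * X0 * U * T0) →
        LL M ^ A ≤ ∏ l ∈ e.primeFactors, min (l : ℝ) (Real.sqrt (LL M))) →
      (∀ x ∈ XX, X0 ≤ x ∧ x ≤ 3 * X0 ∧ (∀ e ∈ EE, Nat.Coprime x e) ∧
        ∀ v ∈ VV, Nat.Coprime x (v.1 * v.2)) →
      (∀ v ∈ VV, v.1 ∈ R29.win U ∧ v.2 ∈ R29.win T0) →
      (∀ p : ℕ, p.Prime → p ∣ g → LL M ^ C₂ < p) →
      |∑ x ∈ XX, ∑ v ∈ VV, ∑ e ∈ EE, lam e * rem M X (g * x * v.1 * v.2 * e)| ≤ M / g / LL M ^ 10 ∨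
      ∃ c d : ℤ, IsCoprime c d ∧ 1 ≤ c ∧ (c : ℝ) ≤ LL M ^ C₂ ∧ |(d : ℝ)| ≤ M * T0 * LL M ^ C₂ ∧
        (g : ℤ) ∣ c * X - d ∧ (∃ v ∈ VV, Str X c d v.1 ∧ Str X c d v.2) ∧
        (T0 : ℝ) / LL M ^ C₂ ≤ ((R29.win T0).filter (Str X c d)).card := by
  refine ⟨20 * (b + 31), 70 * (b + 31), fun B => ?_⟩
  obtain ⟨y₀, hy₀⟩ := primes_short
  filter_upwards [glue_ev (B + b + 31), ev_basic y₀, ev_basic 200] with M hw hy h200
  obtain ⟨w, hw, w20, w14, w16, w10, hκ⟩ := hw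
  intro X g X0 U T0 E EE XX lam VV hg hX0 hN1 hN2 hE1 hT1 hE2 hT2 hU1 hU2 hU3 hU4 hEE hmany hXX
    hVV hgr
  have hM : 200 ≤ M := h200.2.2.1
  have hyL : y₀ ≤ LL M := hy.2.1
  have hL : 200 ≤ LL M := h200.2.1
  have hll : 200 ≤ Real.log (LL M) := h200.1
  clear hy h200
  set L := LL M with hLdef
  rw [w14] at hU3
  rw [w16] at hU4
  set κ : ℝ := ((B + b + 31 : ℕ) : ℝ) * Real.log L with hκdef
  have hκ1 : 1 ≤ κ := by
    have : (1 : ℝ) ≤ ((B + b + 31 : ℕ) : ℝ) := by exact_mod_cast (by omega)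
    nlinarith
  have hP : L ^ (B + b + 31) = Real.exp κ := by
    rw [hκdef, Real.exp_nat_mul, Real.exp_log (by linarith)]
  have hL1 : 1 ≤ L := by linarith
  have mono : ∀ {m n : ℕ}, m ≤ n → L ^ m ≤ L ^ n := fun h => pow_le_pow_right₀ hL1 h
  have wmono : ∀ {m n : ℕ}, m ≤ n → w ^ m ≤ w ^ n :=
    fun h => pow_le_pow_right₀ (by linarith) h
  have wstep : ∀ m n : ℕ, n = m + 1 → 1000 * w ^ m ≤ w ^ n := fun m n hn => by
    rw [hn, pow_succ, mul_comm]
    exact mul_le_mul_of_nonneg_left hw (by positivity)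
  have κstep : ∀ m n : ℕ, n = m + 1 → 1000 * (κ * w ^ m) ≤ w ^ n := fun m n hn => by
    rw [hn, pow_succ', ← mul_assoc]
    exact mul_le_mul_of_nonneg_right hκ (by positivity)
  have w1 : ∀ m : ℕ, 1 ≤ w ^ m := fun m => one_le_pow₀ (by linarith)
  obtain ⟨G, hG1, hG2⟩ : ∃ G : ℕ, L ^ (b + 30) ≤ G ∧ (G : ℝ) ≤ L ^ (b + 31) := by
    refine ⟨⌈L ^ (b + 30)⌉₊, Nat.le_ceil _, (Nat.ceil_lt_add_one (by positivity)).le.trans ?_⟩
    have : 1 ≤ L ^ (b + 30) := one_le_pow₀ hL1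
    rw [pow_succ L (b + 30)]
    nlinarith
  obtain ⟨n0, hn1, hn2⟩ : ∃ n : ℕ, w ^ 11 ≤ n ∧ (n : ℝ) ≤ 2 * w ^ 11 :=
    ⟨⌈w ^ 11⌉₊, Nat.le_ceil _, (Nat.ceil_lt_add_one (by positivity)).le.trans
      (by linarith [w1 11])⟩
  obtain ⟨s, hs1, hs2⟩ : ∃ n : ℕ, w ^ 12 ≤ n ∧ (n : ℝ) ≤ 2 * w ^ 12 :=
    ⟨⌈w ^ 12⌉₊, Nat.le_ceil _, (Nat.ceil_lt_add_one (by positivity)).le.trans
      (by linarith [w1 12])⟩
  have hG0 : (1 : ℝ) ≤ G := (one_le_pow₀ hL1).trans hG1
  have hGpow : ∀ n : ℕ, (G : ℝ) ^ n ≤ L ^ (n * (b + 31)) := fun n => by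
    rw [pow_mul']
    exact pow_le_pow_left₀ (by positivity) hG2 n
  have hC1 : 1 ≤ L ^ (70 * (b + 31)) := one_le_pow₀ hL1
  have hT0 : (1 : ℝ) ≤ T0 := hC1.trans hT1
  have hX0' : (1 : ℝ) ≤ X0 := by exact_mod_cast hX0
  have hg' : (1 : ℝ) ≤ g := by exact_mod_cast hg
  have hU0 : (0 : ℝ) < U := (Real.exp_pos _).trans_le hU3
  have hN0 : (0 : ℝ) < g * X0 * U * T0 := by positivity
  set Tp : ℝ := M / (g * X0 * U * T0) with hTp
  have hTp1 : 1 ≤ Tp := by rwa [hTp, le_div_iff₀ hN0, one_mul]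
  have hTp2 : Tp ≤ L ^ B := by rwa [hTp, div_le_iff₀ hN0]
  have hBP : L ^ B ≤ Real.exp κ := hP ▸ mono (by omega)
  have hGP : (G : ℝ) ≤ Real.exp κ := hG2.trans (hP ▸ mono (by omega))
  have hTP : (T0 : ℝ) ≤ Real.exp κ := hT2.trans hBP
  have hEP : (E : ℝ) ≤ Real.exp κ :=
    ((le_mul_of_one_le_right (Nat.cast_nonneg _) hC1).trans hE2).trans hTP
  have hx : 21 * (T0 : ℝ) ^ 2 ≤ U * T0 * Tp / (X0 * G ^ 2) := by
    rw [le_div_iff₀ (by positivity)]
    have e1 : 21 * (G : ℝ) ^ 2 ≤ L ^ (70 * (b + 31)) := by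
      have e2 : L ^ (2 * (b + 31) + 1) ≤ L ^ (70 * (b + 31)) := mono (by omega)
      have e3 := hGpow 2
      have e4 : 0 ≤ L ^ (2 * (b + 31)) := by positivity
      rw [pow_succ] at e2
      nlinarith
    calc 21 * (T0 : ℝ) ^ 2 * (X0 * G ^ 2) = T0 * (21 * G ^ 2) * X0 * T0 * 1 := by ring
      _ ≤ T0 * L ^ (70 * (b + 31)) * X0 * T0 * Tp := by gcongr
      _ ≤ U * T0 * Tp := by gcongr
  obtain ⟨Q, hQ1, hQ2, hQ3⟩ : ∃ Q : ℕ, 21 * T0 ^ 2 ≤ Q ∧
      (Q : ℝ) ≤ U * T0 * Tp / (X0 * G ^ 2) ∧ U * T0 * Tp / (X0 * G ^ 2) < Q + 1 :=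
    ⟨⌊U * T0 * Tp / (X0 * G ^ 2)⌋₊, Nat.le_floor (by exact_mod_cast hx),
      Nat.floor_le (by positivity), Nat.lt_floor_add_one _⟩
  have hQL : L ≤ Q := by
    have e1 : 21 * (T0 : ℝ) ^ 2 ≤ Q := by exact_mod_cast hQ1
    have e2 : L ^ 1 ≤ L ^ (70 * (b + 31)) := mono (by omega)
    nlinarith
  have hQP : (Q : ℝ) ≤ Real.exp (3 * κ) := by
    refine hQ2.trans ?_
    rw [div_le_iff₀ (by positivity)]
    have e1 : Real.exp (3 * κ) = Real.exp κ * Real.exp κ * Real.exp κ := by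
      rw [← Real.exp_add, ← Real.exp_add]; congr 1; ring
    have e2 : (1 : ℝ) ≤ G ^ 2 := one_le_pow₀ hG0
    have e3 := hTp2.trans hBP
    calc (U : ℝ) * T0 * Tp ≤ X0 * L ^ B * Real.exp κ * Real.exp κ * 1 := by
          rw [mul_one]; gcongr
      _ ≤ X0 * Real.exp κ * Real.exp κ * Real.exp κ * G ^ 2 := by gcongr
      _ = _ := by rw [e1]; ring
  have h2e : (2 : ℝ) ≤ Real.exp 1 := by linarith [Real.add_one_le_exp (1 : ℝ)]
  have hQU : 2 * (Q : ℝ) ≤ U := by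
    calc 2 * (Q : ℝ) ≤ Real.exp 1 * Real.exp (3 * κ) := by gcongr
      _ = Real.exp (1 + 3 * κ) := (Real.exp_add _ _).symm
      _ ≤ Real.exp (w ^ 14) := by
          apply Real.exp_le_exp.2
          have e1 : w ^ 1 ≤ w ^ 14 := wmono (by norm_num)
          linarith
      _ ≤ U := hU3
  have hEn : (E : ℝ) ^ (2 * n0) ≤ Real.exp (4 * (κ * w ^ 11)) := by
    refine (pow_le_pow_left₀ (Nat.cast_nonneg _) hEP _).trans ?_
    rw [← Real.exp_nat_mul]
    apply Real.exp_le_exp.2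
    push_cast
    nlinarith
  have hGn : ∀ n : ℕ, (G : ℝ) ^ n ≤ Real.exp (n * κ) := fun n => by
    rw [Real.exp_nat_mul]
    exact pow_le_pow_left₀ (Nat.cast_nonneg _) hGP _
  have h : GD.Ok ⟨M, L, Real.sqrt L, X, g, X0, U, T0, E, Q, G, n0, s, EE, lam, XX, VV⟩ :=
    { M_ge := by show 2 ≤ M; linarith
      L_ge := hL
      G_ge := (mono (by omega)).trans hG1
      y_ge := by show 1 ≤ Real.sqrt L; rw [w10]; exact w1 10
      g_pos := hg
      X0_pos := hX0
      T0_ge := by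
        show G ^ 70 ≤ T0
        exact_mod_cast (hGpow 70).trans hT1
      E_le := by
        show G * E ≤ T0
        have e1 : (G : ℝ) * E ≤ E * L ^ (70 * (b + 31)) := by
          rw [mul_comm]
          exact mul_le_mul_of_nonneg_left (hG2.trans (mono (by omega))) (Nat.cast_nonneg _)
        exact_mod_cast e1.trans hE2
      Q_ge := hQ1
      U_ge := by
        show 2 * Q ≤ U
        exact_mod_cast hQU
      Tp_ge := hTp1
      E_le' := by
        show 12 * (E : ℝ) ≤ Tp * G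
        have e1 : (E : ℝ) ≤ Tp * L ^ b := by
          rwa [hTp, div_mul_eq_mul_div, le_div_iff₀ hN0]
        have e2 : L ^ (b + 1) ≤ L ^ (b + 30) := mono (by omega)
        have e3 : 12 * L ^ b ≤ G := by
          have : 0 ≤ L ^ b := by positivity
          rw [pow_succ] at e2
          nlinarith
        nlinarith
      Q_hi := by
        show (Q : ℝ) * X0 * (G : ℝ) ^ 2 ≤ U * T0 * Tp
        rwa [le_div_iff₀ (by positivity), ← mul_assoc] at hQ2
      Q_lo := by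
        show (U : ℝ) * T0 * Tp ≤ 2 * Q * X0 * (G : ℝ) ^ 2
        have e1 : U * T0 * Tp / (X0 * G ^ 2) ≤ 2 * Q := by linarith
        rwa [div_le_iff₀ (by positivity), ← mul_assoc] at e1
      PP_card := by
        show Q ≤ G * (R29.win Q).card
        have e1 : 1 ≤ Real.log Q := by
          have := Real.log_le_log (by linarith) hQL
          linarith
        have e2 := hy₀ Q 1 (hyL.trans hQL)
          (by rw [div_le_one (by positivity)]; exact one_le_pow₀ e1) le_rfl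
        have e3 : (Ioc ⌊(Q : ℝ)⌋₊ ⌊(Q : ℝ) * (1 + 1)⌋₊).filter Nat.Prime ⊆ R29.win Q := by
          intro p hp
          rw [show (Q : ℝ) * (1 + 1) = ((2 * Q : ℕ) : ℝ) by push_cast; ring, Nat.floor_natCast,
            Nat.floor_natCast, mem_filter, mem_Ioc] at hp
          refine R29.mem_win.2 ⟨hp.2, hp.1.1.le, lt_of_le_of_ne hp.1.2 fun h => ?_⟩
          have h2 : (2 : ℝ) ≤ Q := by linarith
          have h3 : 2 ≤ Q := by exact_mod_cast h2
          exact Nat.not_prime_mul (by norm_num) (by omega) (h ▸ hp.2)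
        have e4 : (((Ioc ⌊(Q : ℝ)⌋₊ ⌊(Q : ℝ) * (1 + 1)⌋₊).filter Nat.Prime).card : ℝ)
            ≤ (R29.win Q).card := by exact_mod_cast card_le_card e3
        have e5 : Real.log (2 * Q) ≤ w ^ 16 := by
          rw [Real.log_le_iff_le_exp (by linarith)]
          exact hQU.trans hU4
        have e6 : 0 < Real.log (2 * Q) := Real.log_pos (by linarith)
        have e7 : 2 * Real.log (2 * Q) ≤ G := by
          have c1 : L ^ 1 ≤ L ^ (b + 30) := mono (by omega)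
          have c2 : w ^ 17 ≤ w ^ 20 := wmono (by norm_num)
          linarith [wstep 16 17 rfl, w1 16]
        have e8 := e2.trans e4
        rw [one_mul, div_le_iff₀ (by positivity), mul_comm] at e8
        have e9 : (Q : ℝ) ≤ G * (R29.win Q).card :=
          e8.trans (mul_le_mul_of_nonneg_right e7 (Nat.cast_nonneg _))
        exact_mod_cast e9
      log_le := by
        show 8 * (G : ℝ) * E * U * T0 ≤ Real.exp L
        have e1 : (8 : ℝ) ≤ Real.exp 7 := by linarith [Real.add_one_le_exp (7 : ℝ)]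
        calc 8 * (G : ℝ) * E * U * T0
            ≤ Real.exp 7 * Real.exp κ * Real.exp κ * Real.exp (w ^ 16) * Real.exp κ := by gcongr
          _ ≤ Real.exp L := by
            simp only [← Real.exp_add]
            apply Real.exp_le_exp.2
            have c1 : w ^ 1 ≤ w ^ 16 := wmono (by norm_num)
            have c2 : w ^ 17 ≤ w ^ 20 := wmono (by norm_num)
            linarith [wstep 16 17 rfl, w1 16]
      EE_spec := hEE
      many := fun e he h => by
        have e1 : Tp ≤ 12 * (e : ℝ) := h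
        rw [hTp, div_le_iff₀ hN0] at e1
        exact (hGpow 20).trans (hmany e he e1)
      sub := by
        show Real.exp (Real.sqrt L * (1 + Real.log E)) * (E : ℝ) ^ 2 * (G : ℝ) ^ 12 ≤ 2 ^ n0
        have e1 : Real.log E ≤ κ := by
          rcases Nat.eq_zero_or_pos E with e | e
          · simp only [e, Nat.cast_zero, Real.log_zero]; linarith
          · rwa [Real.log_le_iff_le_exp (by exact_mod_cast e)]
        have e2 : (E : ℝ) ^ 2 ≤ Real.exp ((2 : ℕ) * κ) := by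
          rw [Real.exp_nat_mul]
          exact pow_le_pow_left₀ (Nat.cast_nonneg _) hEP _
        have e3 := hGn 12
        have e4 := w1 10
        rw [w10]
        calc Real.exp (w ^ 10 * (1 + Real.log E)) * (E : ℝ) ^ 2 * (G : ℝ) ^ 12
            ≤ Real.exp (w ^ 10 * (1 + κ)) * Real.exp ((2 : ℕ) * κ) * Real.exp ((12 : ℕ) * κ) := by
              gcongr
          _ ≤ 2 ^ n0 := by
            simp only [← Real.exp_add]
            apply glue_exp_le_two_pow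
            have c1 : w ^ 1 ≤ w ^ 11 := wmono (by norm_num)
            push_cast
            linarith [wstep 10 11 rfl, κstep 10 11 rfl]
      s_pos := by
        show 1 ≤ s
        exact_mod_cast (w1 12).trans hs1
      s_le := by
        show (s : ℝ) ≤ L
        have c2 : w ^ 13 ≤ w ^ 20 := wmono (by norm_num)
        linarith [wstep 12 13 rfl, w1 12]
      net := by
        show E ^ (2 * n0) * Q * G ^ 30 ≤ 2 ^ s
        have e3 := hGn 30
        have e1 : (E : ℝ) ^ (2 * n0) * Q * (G : ℝ) ^ 30 ≤ 2 ^ s := by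
          calc (E : ℝ) ^ (2 * n0) * Q * (G : ℝ) ^ 30
              ≤ Real.exp (4 * (κ * w ^ 11)) * Real.exp (3 * κ) * Real.exp ((30 : ℕ) * κ) := by
                gcongr
            _ ≤ 2 ^ s := by
              simp only [← Real.exp_add]
              apply glue_exp_le_two_pow
              have c1 : w ^ 1 ≤ w ^ 12 := wmono (by norm_num)
              push_cast
              linarith [κstep 11 12 rfl]
        exact_mod_cast e1
      U_big := by
        show 3 * G ^ 4 * E ^ (2 * n0) * (Q * G) ^ (20 * s) ≤ U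
        have e1 : (3 : ℝ) ≤ Real.exp 2 := by linarith [Real.add_one_le_exp (2 : ℝ)]
        have e2 := hGn 4
        have e3 : ((Q : ℝ) * G) ^ (20 * s) ≤ Real.exp (160 * (κ * w ^ 12)) := by
          have c1 : (Q : ℝ) * G ≤ Real.exp (3 * κ + κ) := by rw [Real.exp_add]; gcongr
          refine (pow_le_pow_left₀ (by positivity) c1 _).trans ?_
          rw [← Real.exp_nat_mul]
          apply Real.exp_le_exp.2
          push_cast
          nlinarith
        have e4 : 3 * (G : ℝ) ^ 4 * (E : ℝ) ^ (2 * n0) * ((Q : ℝ) * G) ^ (20 * s) ≤ U := by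
          calc 3 * (G : ℝ) ^ 4 * (E : ℝ) ^ (2 * n0) * ((Q : ℝ) * G) ^ (20 * s)
              ≤ Real.exp 2 * Real.exp ((4 : ℕ) * κ) * Real.exp (4 * (κ * w ^ 11))
                * Real.exp (160 * (κ * w ^ 12)) := by gcongr
            _ ≤ Real.exp (w ^ 14) := by
              simp only [← Real.exp_add]
              apply Real.exp_le_exp.2
              have c1 : w ^ 1 ≤ w ^ 13 := wmono (by norm_num)
              have c2 : w ^ 12 ≤ w ^ 13 := wmono (by norm_num)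
              push_cast
              linarith [κstep 11 12 rfl, κstep 12 13 rfl, wstep 13 14 rfl]
            _ ≤ U := hU3
        exact_mod_cast e4
      XX_spec := hXX
      VV_spec := hVV
      g_rough := fun p hp hd => by
        show G ^ 60 < p
        exact_mod_cast ((hGpow 60).trans (mono (by omega))).trans_lt (hgr p hp hd) }
  have h60 : (G : ℝ) ^ 60 ≤ L ^ (70 * (b + 31)) := (hGpow 60).trans (mono (by omega))
  rcases h.glue with h1 | ⟨c, d, h1, h2, h3, h4, h5, h6, h7⟩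
  · left
    refine h1.trans ?_
    show M / g * (200 / Real.sqrt G) ≤ _
    have e1 : L ^ 15 ≤ Real.sqrt G := by
      refine Real.le_sqrt_of_sq_le ?_
      rw [← pow_mul]
      exact (mono (by omega)).trans hG1
    have e2 : 200 * L ^ 10 ≤ Real.sqrt G := by
      have c1 : L ^ (10 + 1) ≤ L ^ 15 := mono (by norm_num)
      have c2 : 0 ≤ L ^ 10 := by positivity
      rw [pow_succ] at c1
      nlinarith
    rw [div_eq_mul_one_div (M / g)]
    refine mul_le_mul_of_nonneg_left ?_ (by positivity)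
    rw [div_le_div_iff₀ (by positivity) (by positivity)]
    linarith
  · refine Or.inr ⟨c, d, h1, h2, h3.trans h60, h4.trans ?_, h5, h6, le_trans ?_ h7⟩
    · exact mul_le_mul_of_nonneg_left h60 (by show 0 ≤ M * T0; positivity)
    · exact div_le_div_of_nonneg_left (Nat.cast_nonneg _) (by show 0 < (G : ℝ) ^ 60; positivity) h60

end Crest.Agent.R1
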