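import Crest.Agent.R1.Cen
import Crest.Agent.R1.Glue
import Crest.Agent.R1.Mix
import Crest.Agent.R1.FamBb
import Crest.Agent.R1.FamBc

/-!
# R1 / FamB: cancellation of the remainder terms in one family
-/

set_option autoImplicit false

namespace Crest.Agent.R1

open Finset Filter
open scoped Classical

/-- `glue` with `b = a + 14`, `g = pd F.1`, `X0 = X0f`, `U = lo i`, `T0 = lo i'`, `E = ⌊exp (Rf/h)⌋`,
`EE` = the `pd T` with `loc T ≠ 0`, `lam e = loc (primeFactors e)`, `XX` = image of `FX` under `pd`.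
`LocOk.many` with `b = (a + 16) h ℓ` gives `2^{|T ∩ Pr i0 J|} ≥ K/(2(a+16))`.  If `FX` or `VV` is
empty there is nothing to prove; otherwise `fam_mem` and `ev_R0` give the size conditions.  A centre
produced by `glue` lies in `Cen`. -/
theorem fam_glue (a : ℕ) : ∃ C₂ K₀ : ℕ, ∀ c : Cst, c.a = a → c.C₂ = C₂ → K₀ ≤ c.K → 1 ≤ c.s₁ →
    1 ≤ c.ρ → c.s₁ * c.K + C₂ + 2 ≤ c.Kt → c.ρ * c.Kt + C₂ + 2 ≤ c.Kx → ∀ᶠ M : ℝ in atTop,
      ∀ X : ℤ, ∀ F ∈ c.fams M, ∀ VV ⊆ c.FU M F ×ˢ c.FT M F,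
        (∀ v ∈ VV, ∀ z ∈ c.Cen M X,
          ¬ ((∀ p ∈ F.1, Str X z.1 z.2 p) ∧ Str X z.1 z.2 v.1 ∧ Str X z.1 z.2 v.2)) →
        |∑ x ∈ c.FX M F, ∑ v ∈ VV, c.remN M X (nd4 F.1 x v.1 v.2)| ≤ M * wt iv F.1 / LL M ^ 10 := by
  obtain ⟨A, C₂, hG⟩ := glue (a + 14)
  refine ⟨C₂, a + 22 + C₂ + 2 * (a + 14) * 2 ^ (2 * A), fun c hca hcC hK hs₁ hρ hKt hKx => ?_⟩
  subst hca hcC
  have hKK : c.K ≤ c.Kt := by nlinarith
  filter_upwards [hG (c.s₁ * c.K + 1 + (c.ρ * c.Kt + 1) + ((1 + c.s₂) * c.Kx + 1)),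
    c.ev_ord (by omega) hKK hρ (by omega), ev_R0 c.a (Nat.cast_nonneg _),
    ev_basic (c.s₁ + c.s₂ + 40 * c.ρ + 100)] with M hG ho hR hM X F hF VV hVV hno
  obtain ⟨hl, hL, hM, h0, -⟩ := hM
  obtain ⟨hR1, hR2, -⟩ := hR
  have s10 : (0 : ℝ) ≤ c.s₁ := Nat.cast_nonneg _
  have s20 : (0 : ℝ) ≤ c.s₂ := Nat.cast_nonneg _
  have ρ1 : (1 : ℝ) ≤ c.ρ := by exact_mod_cast hρ
  have hM0 : 0 < M := by linarith
  have hL0 : 0 < LL M := by linarith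
  have hl0 : 0 ≤ ll M := by linarith
  have hpos : 0 ≤ M * wt iv F.1 / LL M ^ 10 := by
    rw [wt_iv]
    positivity
  rcases (c.FX M F).eq_empty_or_nonempty with h1 | ⟨x₀, hx₀⟩
  · rwa [h1, sum_empty, abs_zero]
  rcases VV.eq_empty_or_nonempty with rfl | ⟨v₀, hv₀⟩
  · simpa only [sum_empty, sum_const_zero, abs_zero] using hpos
  have hV : ∀ v ∈ VV, v.1 ∈ c.FU M F ∧ v.2 ∈ c.FT M F := fun v hv => mem_product.1 (hVV hv)
  have mem := fun x hx v hv => ho.fam_mem hF (x := x) hx (hV v hv).1 (hV v hv).2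
  obtain ⟨-, -, -, -, -, -, H, hS, hX1, -, hu₀, ht₀, -⟩ := mem x₀ hx₀ v₀ hv₀
  obtain ⟨hF1, hF2⟩ := mem_product.1 hF
  obtain ⟨hF2, hF3⟩ := mem_product.1 hF2
  obtain ⟨hF3, -⟩ := mem_product.1 hF3
  have hgU : ∀ p ∈ F.1, p.Prime ∧ c.J M ≤ sz (hh M) p := fun p hp =>
    ⟨((mem_Pr h0).1 (mem_powerset.1 hF1 hp)).1, ((mem_Pr h0).1 (mem_powerset.1 hF1 hp)).2.1⟩
  have hxU : ∀ x ∈ c.FX M F, ∀ p ∈ x, p.Prime ∧ c.ix M ≤ sz (hh M) p := fun x hx p hp =>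
    ⟨((mem_Pr h0).1 (mem_powerset.1 (mem_filter.1 hx).1 hp)).1,
      ((mem_Pr h0).1 (mem_powerset.1 (mem_filter.1 hx).1 hp)).2.1⟩
  obtain ⟨-, -, ⟨hsp1, hsp2⟩, -, htot, -, hcard, hRf, -⟩ := mem_filter.1 hx₀
  rw [htot] at hsp1 hsp2
  -- logarithmic scale
  set h : ℝ := (hh M : ℝ) with hh'
  have hh1 : (1 : ℝ) ≤ h := by rw [hh']; exact_mod_cast h0
  have hh0 : 0 < h := by linarith
  have η1 : 1 / h ≤ 1 := (div_le_one hh0).2 hh1
  set l := ll M with hl'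
  have hLe : LL M = Real.exp l := (Real.exp_log hL0).symm
  have hLk : ∀ k : ℕ, LL M ^ k = Real.exp (k * l) := fun k => by rw [hLe, Real.exp_nat_mul]
  have hun : ∀ k : ℕ, k * l ≤ (un M k : ℝ) / h ∧ (un M k : ℝ) / h ≤ k * l + 1 := fun k => by
    obtain ⟨h1, h2⟩ := un_spec (M := M) (κ := k) (Nat.cast_nonneg _) hl0
    rw [le_div_iff₀ hh0, div_le_iff₀ hh0]
    constructor <;> linarith
  have hgpos : 0 < pd F.1 := pd_pos fun p hp => (hgU p hp).1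
  have hX0pos : 0 < c.X0f M F := Nat.ceil_pos.2 (Real.exp_pos _)
  have hlopos : ∀ i, 0 < lo (hh M) i := fun i => Nat.ceil_pos.2 (Real.exp_pos _)
  have ex : ∀ {n : ℕ}, 0 < n → ∃ γ : ℝ, (n : ℝ) = Real.exp γ := fun hn =>
    ⟨_, (Real.exp_log (Nat.cast_pos.2 hn)).symm⟩
  obtain ⟨γ, hγ⟩ := ex hgpos
  obtain ⟨ξ, hξ⟩ := ex hX0pos
  obtain ⟨υ, hυ⟩ := ex (hlopos F.2.1)
  obtain ⟨τ, hτ⟩ := ex (hlopos F.2.2.1)
  obtain ⟨m, hm⟩ : ∃ m : ℝ, M = Real.exp m := ⟨_, (Real.exp_log hM0).symm⟩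
  have γ1 : γ ≤ (tot (sz (hh M)) F.1 : ℝ) / h :=
    Real.exp_le_exp.1 (hγ ▸ pd_le_exp h0 fun p hp => (hgU p hp).1)
  have γ2 : (tot (sz (hh M)) F.1 : ℝ) / h - 1 ≤ γ := by
    have h1 := Real.exp_le_exp.1 (hγ ▸ exp_le_pd h0 fun p hp => (hgU p hp).1)
    have h2 : (F.1.card : ℝ) / h ≤ 1 := by
      rw [div_le_one hh0, hh']
      exact_mod_cast (by omega : F.1.card ≤ hh M)
    rw [sub_div] at h1
    linarith
  have ξ1 : ξ ≤ (F.2.2.2.1 : ℝ) / h := by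
    have h1 := pd_le_exp h0 fun p hp => (hxU x₀ hx₀ p hp).1
    rw [htot, Int.cast_natCast] at h1
    exact Real.exp_le_exp.1 (hξ ▸ (Nat.cast_le.2 hX1).trans h1)
  have ξ2 : (F.2.2.2.1 : ℝ) / h - 1 ≤ ξ := Real.exp_le_exp.1 (hξ ▸ Nat.le_ceil _)
  have lo12 : ∀ {i u : ℕ} {y : ℝ}, (lo (hh M) i : ℝ) = Real.exp y → u ∈ R29.win (lo (hh M) i) →
      u ∈ Pr (hh M) i (i + 1) → y ≤ (i : ℝ) / h ∧ (i : ℝ) / h - 1 ≤ y := fun {i u y} hy hu hu' => by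
    obtain ⟨h1, h2, h3⟩ := (mem_Pr h0).1 hu'
    have h4 := log_lt_sz h0 u
    rw [show sz (hh M) u = i by omega] at h4
    have h5 : (lo (hh M) i : ℝ) ≤ u := Nat.cast_le.2 (mem_Ico.1 (mem_filter.1 hu).1).1
    rw [hy, ← Real.le_log_iff_exp_le (Nat.cast_pos.2 h1.pos)] at h5
    have h6 : ((i : ℝ) - 1) / h ≤ y := Real.exp_le_exp.1 (hy ▸ Nat.le_ceil _)
    rw [sub_div] at h6
    exact ⟨h5.trans h4.le, by linarith⟩
  obtain ⟨υ1, υ2⟩ := lo12 hυ hu₀ (mem_filter.1 (hV v₀ hv₀).1).1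
  obtain ⟨τ1, τ2⟩ := lo12 hτ ht₀ (mem_filter.1 (hV v₀ hv₀).2).1
  have m1 : m ≤ (c.R M : ℝ) / h := Real.exp_le_exp.1 (hm ▸ hR1)
  have m2 : (c.R M : ℝ) / h ≤ m + (c.a + 13) * l := by
    rw [Real.rpow_def_of_pos hL0] at hR2
    refine Real.exp_le_exp.1 (hR2.trans (le_of_eq ?_))
    rw [Real.exp_add, ← hm, mul_comm (_ + 13 : ℝ)]
    rfl
  have hsum : (c.R M : ℝ) / h = (c.Rf M F : ℝ) / h + (tot (sz (hh M)) F.1 : ℝ) / h +
      (F.2.2.2.1 : ℝ) / h + (F.2.1 : ℝ) / h + (F.2.2.1 : ℝ) / h := by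
    rw [Cst.Rf]
    push_cast
    ring
  have J1 : c.K * l ≤ (c.J M : ℝ) / h := (hun c.K).1
  have f1 : c.K * l ≤ (c.Rf M F : ℝ) / h :=
    J1.trans (div_le_div_of_nonneg_right (by exact_mod_cast hS.2) hh0.le)
  have f2 : (c.Rf M F : ℝ) / h ≤ c.s₁ * (c.K * l + 1) := by
    have h1 : (c.Rf M F : ℝ) ≤ c.s₁ * (un M c.K : ℝ) := by exact_mod_cast hRf
    refine (div_le_div_of_nonneg_right h1 hh0.le).trans ?_
    rw [mul_div_assoc]
    exact mul_le_mul_of_nonneg_left (hun c.K).2 s10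
  have t1 : c.Kt * l ≤ (F.2.2.1 : ℝ) / h :=
    (hun c.Kt).1.trans (div_le_div_of_nonneg_right (Nat.cast_le.2 (mem_Ico.1 hF3).1) hh0.le)
  have t2 : (F.2.2.1 : ℝ) / h ≤ c.ρ * (c.Kt * l + 1) := by
    have h1 : (F.2.2.1 : ℝ) ≤ c.ρ * (un M c.Kt : ℝ) := by exact_mod_cast (mem_Ico.1 hF3).2.le
    refine (div_le_div_of_nonneg_right h1 hh0.le).trans ?_
    rw [mul_div_assoc]
    exact mul_le_mul_of_nonneg_left (hun c.Kt).2 (by linarith)
  have n1 : (F.2.2.2.1 : ℝ) / h ≤ (F.2.1 : ℝ) / h - c.Kx * l := by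
    have h1 : (F.2.2.2.1 : ℝ) ≤ F.2.1 - (un M c.Kx : ℝ) := by exact_mod_cast hsp2
    have h2 := div_le_div_of_nonneg_right h1 hh0.le
    rw [sub_div] at h2
    linarith [(hun c.Kx).1]
  have n2 : (F.2.1 : ℝ) / h - (1 + c.s₂) * (c.Kx * l + 1) ≤ (F.2.2.2.1 : ℝ) / h := by
    have h1 : (F.2.1 : ℝ) - (un M c.Kx : ℝ) - c.s₂ * (un M c.Kx : ℝ) ≤ F.2.2.2.1 := by
      exact_mod_cast hsp1
    have h2 := div_le_div_of_nonneg_right h1 hh0.le
    rw [sub_div, sub_div, mul_div_assoc] at h2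
    have h3 := mul_le_mul_of_nonneg_left (hun c.Kx).2 (by linarith : 0 ≤ 1 + (c.s₂ : ℝ))
    linarith
  have u1 : LL M ^ (3 / 4 : ℝ) ≤ (F.2.1 : ℝ) / h := by
    rw [le_div_iff₀ hh0, mul_comm]
    exact (Nat.le_ceil _).trans (Nat.cast_le.2 (mem_Ico.1 hF2).1)
  have u2 : (F.2.1 : ℝ) / h ≤ c.ρ * (LL M ^ (3 / 4 : ℝ) + 1) := by
    have h1 : (F.2.1 : ℝ) ≤ c.ρ * (c.u1 M : ℝ) := by exact_mod_cast (mem_Ico.1 hF2).2.le
    have h2 : (c.u1 M : ℝ) ≤ h * LL M ^ (3 / 4 : ℝ) + 1 := (Nat.ceil_lt_add_one (by positivity)).le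
    rw [div_le_iff₀ hh0]
    refine h1.trans ?_
    rw [mul_assoc]
    exact mul_le_mul_of_nonneg_left (by linarith) (by linarith)
  have w1 : 2 * c.ρ ≤ LL M ^ (1 / 20 : ℝ) := by
    rw [Real.rpow_def_of_pos hL0]
    refine le_trans ?_ (Real.add_one_le_exp _)
    change _ ≤ l * _ + 1
    linarith
  have w2 : ∀ y : ℝ, 0 ≤ y → 1 ≤ LL M ^ y := fun y hy => Real.one_le_rpow (by linarith) hy
  have k1 := mul_le_mul_of_nonneg_right
    (show (c.a : ℝ) + 22 + c.C₂ ≤ c.K by exact_mod_cast (by omega : c.a + 22 + c.C₂ ≤ c.K)) hl0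
  have k2 := mul_le_mul_of_nonneg_right
    (show (c.s₁ : ℝ) * c.K + c.C₂ + 2 ≤ c.Kt by exact_mod_cast hKt) hl0
  have k3 := mul_le_mul_of_nonneg_right
    (show (c.ρ : ℝ) * c.Kt + c.C₂ + 2 ≤ c.Kx by exact_mod_cast hKx) hl0
  have p1 : 0 ≤ (c.a : ℝ) * l := by positivity
  have p2 : 0 ≤ (c.C₂ : ℝ) * l := by positivity
  have p3 : 0 ≤ (c.s₁ : ℝ) * c.K * l := by positivity
  have p4 : 0 ≤ (c.ρ : ℝ) * c.Kt * l := by positivity
  have p5 : 0 ≤ (1 + c.s₂ : ℝ) * c.Kx * l := by positivity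
  have hE : (⌊Real.exp ((c.Rf M F : ℝ) / h)⌋₊ : ℝ) ≤ Real.exp ((c.Rf M F : ℝ) / h) :=
    Nat.floor_le (Real.exp_pos _).le
  set lc := loc (hh M) (i0 M) (c.J M) (F.1.card + F.2.2.2.2) (c.Rf M F) with hlc
  set TT := (Pr (hh M) 0 (c.J M)).powerset.filter (fun T => lc T ≠ 0) with hTT
  have hT : ∀ T ∈ TT, lc T ≠ 0 ∧ ∀ p ∈ T, p.Prime ∧ sz (hh M) p < c.J M := fun T hT =>
    ⟨(mem_filter.1 hT).2, fun p hp =>
      ⟨((mem_Pr h0).1 (mem_powerset.1 (mem_filter.1 hT).1 hp)).1,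
        ((mem_Pr h0).1 (mem_powerset.1 (mem_filter.1 hT).1 hp)).2.2⟩⟩
  have hpf : ∀ T ∈ TT, (pd T).primeFactors = T := fun T h1 =>
    primeFactors_pd fun p hp => ((hT T h1).2 p hp).1
  have key := hG X (pd F.1) (c.X0f M F) (lo (hh M) F.2.1) (lo (hh M) F.2.2.1)
    ⌊Real.exp ((c.Rf M F : ℝ) / h)⌋₊ (TT.image pd) ((c.FX M F).image pd)
    (fun e => lc e.primeFactors) VV hgpos hX0pos ?_ ?_ ?_ ?_ ?_ ?_ ?_ ?_ ?_ ?_ ?_ ?_ ?_
    (fun v hv => ⟨(mem x₀ hx₀ v hv).2.2.2.2.2.2.2.2.2.2.1, (mem x₀ hx₀ v hv).2.2.2.2.2.2.2.2.2.2.2.1⟩)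
    ?_
  · rcases key with key | ⟨c', d, h1, h2, h3, h4, h5, ⟨v, hv, h6⟩, h7⟩
    · rw [wt_iv, mul_one_div]
      refine le_trans (le_of_eq ?_) key
      congr 1
      rw [sum_image fun x hx x' hx' he => by
        rw [← primeFactors_pd fun p hp => (hxU x hx p hp).1, he,
          primeFactors_pd fun p hp => (hxU x' hx' p hp).1]]
      refine sum_congr rfl fun x hx => sum_congr rfl fun v hv => ?_
      rw [(mem x hx v hv).2.2.2.2.2.2.2.2.2.2.2.2 X,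
        sum_image fun T h1 T' h2 he => by rw [← hpf T h1, he, hpf T' h2],
        sum_congr (s₁ := TT) rfl (g := fun T => lc T * rem M X (pd F.1 * pd x * v.1 * v.2 * pd T))
          fun T h1 => by rw [hpf T h1], hTT, sum_filter]
      refine sum_congr rfl fun T _ => ?_
      split_ifs with h1
      · rfl
      · rw [not_not.1 h1, zero_mul]
    · refine absurd ⟨(pd_dvd_iff (fun p hp => (hgU p hp).1) _).1 h5, h6⟩ (hno v hv (c', d) ?_)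
      have h8 : |(d : ℝ)| ≤ M * LL M ^ c.C₁ := by
        refine h4.trans ?_
        rw [mul_assoc, hτ, hLk, hLk, ← Real.exp_add, Cst.C₁]
        refine mul_le_mul_of_nonneg_left (Real.exp_le_exp.2 ?_) hM0.le
        push_cast
        linarith
      refine mem_filter.2 ⟨mem_product.2 ⟨mem_Icc.2 ⟨h2, Int.le_floor.2 h3⟩, mem_Icc.2 ⟨?_,
        Int.le_floor.2 (abs_le.1 h8).2⟩⟩, h1, _, hF3, h7⟩
      rw [neg_le, Int.le_floor, Int.cast_neg, neg_le]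
      exact (abs_le.1 h8).1
  · rw [hγ, hξ, hυ, hτ, ← Real.exp_add, ← Real.exp_add, ← Real.exp_add]
    exact hm ▸ Real.exp_le_exp.2 (by linarith)
  · rw [hγ, hξ, hυ, hτ, hLk, ← Real.exp_add, ← Real.exp_add, ← Real.exp_add, ← Real.exp_add]
    refine hm.le.trans (Real.exp_le_exp.2 ?_)
    push_cast
    linarith
  · refine (mul_le_mul_of_nonneg_right hE (by positivity)).trans ?_
    rw [hγ, hξ, hυ, hτ, hLk, ← Real.exp_add, ← Real.exp_add, ← Real.exp_add, ← Real.exp_add]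
    refine le_trans ?_ (mul_le_mul_of_nonneg_right hm.ge (by positivity))
    rw [← Real.exp_add]
    refine Real.exp_le_exp.2 ?_
    push_cast
    linarith
  · rw [hτ, hLk]
    exact Real.exp_le_exp.2 (by linarith)
  · refine (mul_le_mul_of_nonneg_right hE (by positivity)).trans ?_
    rw [hτ, hLk, ← Real.exp_add]
    exact Real.exp_le_exp.2 (by linarith)
  · rw [hτ, hLk]
    refine Real.exp_le_exp.2 ?_
    push_cast
    linarith
  · rw [hτ, hLk, hξ, hυ, ← Real.exp_add, ← Real.exp_add]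
    exact Real.exp_le_exp.2 (by linarith)
  · rw [hLk, hξ, hυ, ← Real.exp_add]
    refine Real.exp_le_exp.2 ?_
    push_cast
    linarith
  · rw [hυ]
    refine Real.exp_le_exp.2 ?_
    rw [show (3 / 4 : ℝ) = 7 / 10 + 1 / 20 by norm_num, Real.rpow_add hL0] at u1
    have h1 := w2 (7 / 10) (by norm_num)
    have h2 := mul_le_mul_of_nonneg_left (show 2 ≤ LL M ^ (1 / 20 : ℝ) by linarith)
      (zero_le_one.trans h1)
    linarith
  · rw [hυ]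
    refine Real.exp_le_exp.2 ?_
    rw [show (8 / 10 : ℝ) = 3 / 4 + 1 / 20 by norm_num, Real.rpow_add hL0]
    have h1 := w2 (3 / 4) (by norm_num)
    have h2 := mul_le_mul_of_nonneg_left w1 (zero_le_one.trans h1)
    have h3 := mul_le_mul_of_nonneg_left h1 (zero_le_one.trans ρ1)
    linarith
  · intro e he
    obtain ⟨T, h1, rfl⟩ := mem_image.1 he
    exact ⟨pd_squarefree fun p hp => ((hT T h1).2 p hp).1, Nat.le_floor (H.supp (hT T h1).1).2,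
      H.abs_le _⟩
  · intro e he hbig
    obtain ⟨T, h1, rfl⟩ := mem_image.1 he
    obtain ⟨ε, hε⟩ := ex (pd_pos fun p hp => ((hT T h1).2 p hp).1)
    have h12 : (12 : ℝ) ≤ Real.exp l := by linarith
    have h2 : m ≤ l + ε + (γ + ξ + υ + τ) := by
      refine Real.exp_le_exp.1 (hm.ge.trans (hbig.trans ?_))
      rw [hε, hγ, hξ, hυ, hτ, Real.exp_add, Real.exp_add, Real.exp_add, Real.exp_add, Real.exp_add]
      gcongr
    have hlpos : 0 < l := by linarith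
    have h3 := H.many hS (hT T h1).1 (b := (c.a + 14) * l * h) (by
      rw [hε, sub_div, mul_div_assoc, div_self hh0.ne']
      exact Real.exp_le_exp.2 (by linarith))
    rw [le_div_iff₀ hh0] at f1
    have h4 : (c.K : ℝ) ≤ 2 ^ (T ∩ Pr (hh M) (i0 M) (c.J M)).card * (2 * (c.a + 14)) := by
      refine le_of_mul_le_mul_right ?_ (mul_pos hlpos hh0)
      linarith
    have h5 : 2 ^ (2 * A) * (2 * (c.a + 14)) ≤
        2 ^ (T ∩ Pr (hh M) (i0 M) (c.J M)).card * (2 * (c.a + 14)) := by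
      have : c.K ≤ 2 ^ (T ∩ Pr (hh M) (i0 M) (c.J M)).card * (2 * (c.a + 14)) := by
        exact_mod_cast h4
      rw [mul_comm]
      omega
    have h6 : 2 * A ≤ (T ∩ Pr (hh M) (i0 M) (c.J M)).card :=
      (Nat.pow_le_pow_iff_right one_lt_two).1 (Nat.le_of_mul_le_mul_right h5 (by omega))
    have h7 : 1 ≤ √(LL M) := Real.one_le_sqrt.2 (by linarith)
    rw [hpf T h1]
    calc LL M ^ A = √(LL M) ^ (2 * A) := by rw [pow_mul, Real.sq_sqrt hL0.le]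
      _ ≤ √(LL M) ^ (T ∩ Pr (hh M) (i0 M) (c.J M)).card := pow_le_pow_right₀ h7 h6
      _ = ∏ p ∈ T ∩ Pr (hh M) (i0 M) (c.J M), min (p : ℝ) √(LL M) := by
          rw [← prod_const]
          refine prod_congr rfl fun p hp => (min_eq_right ?_).symm
          obtain ⟨q1, q2, -⟩ := (mem_Pr h0).1 (mem_inter.1 hp).2
          have q3 := sz_le_log h0 p
          have q4 : (un M (20 : ℕ) : ℝ) / h ≤ (sz (hh M) p : ℝ) / h :=
            div_le_div_of_nonneg_right (Nat.cast_le.2 q2) hh0.le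
          have q5 := (hun 20).1
          rw [sub_div] at q3
          refine (Real.sqrt_le_self_iff.2 (Or.inr (by linarith))).trans ?_
          rw [hLe, ← Real.le_log_iff_exp_le (Nat.cast_pos.2 q1.pos)]
          push_cast at q4 q5
          linarith
      _ ≤ _ := by
          refine prod_le_prod_of_subset_of_one_le inter_subset_left (fun p _ => by positivity)
            fun p hp _ => le_min ?_ h7
          exact_mod_cast ((hT T h1).2 p hp).1.pos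
  · intro x' hx'
    obtain ⟨x, hx, rfl⟩ := mem_image.1 hx'
    refine ⟨(mem x hx v₀ hv₀).2.2.2.2.2.2.2.2.1, (mem x hx v₀ hv₀).2.2.2.2.2.2.2.2.2.1,
      fun e he => ?_, fun v hv => ?_⟩
    · obtain ⟨T, h1, rfl⟩ := mem_image.1 he
      refine Nat.Coprime.prod_left fun p hp => Nat.Coprime.prod_right fun q hq =>
        (Nat.coprime_primes (hxU x hx p hp).1 ((hT T h1).2 q hq).1).2 fun hpq => ?_
      have h2 := (hxU x hx p hp).2
      have h3 := ((hT T h1).2 q hq).2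
      have := ho.J_le
      have := ho.t_le
      have := ho.t2_le
      rw [hpq] at h2
      omega
    · obtain ⟨-, -, -, -, -, ⟨-, h2, -, h3, -⟩, -, -, -, -, h4, h5, -⟩ := mem x hx v hv
      refine Nat.Coprime.prod_left fun p hp => Nat.Coprime.mul_right
        ((Nat.coprime_primes (hxU x hx p hp).1 (mem_filter.1 h4).2).2 ?_)
        ((Nat.coprime_primes (hxU x hx p hp).1 (mem_filter.1 h5).2).2 ?_)
      · rintro rfl
        exact h2 hp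
      · rintro rfl
        exact h3 hp
  · intro p hp hpg
    have h1 : p ∈ F.1 := by
      rw [← primeFactors_pd fun p hp => (hgU p hp).1]
      exact Nat.mem_primeFactors.2 ⟨hp, hpg, hgpos.ne'⟩
    have q3 := sz_le_log h0 p
    have q4 : (c.J M : ℝ) / h ≤ (sz (hh M) p : ℝ) / h :=
      div_le_div_of_nonneg_right (Nat.cast_le.2 (hgU p h1).2) hh0.le
    rw [sub_div] at q3
    rw [hLk, ← Real.lt_log_iff_exp_lt (Nat.cast_pos.2 hp.pos)]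
    linarith

/-- Split `x` into its structured part `xs` and the nonempty rest `x'`; for each `xs` and each
`T` with `loc T ≠ 0` (at most `L^{s₁ K + 1}` of them) apply `mixed` with `f = pd g · t · pd xs`,
`Y = X0f / pd xs`, `B = C₁ + s₁ K + C₂ + 16`; `∑ wt iv xs ≤ L`. -/
theorem fam_mix (a C₂ K s₁ Kt ρ : ℕ) (h1 : a + 20 ≤ K) (h2 : K ≤ Kt) (h3 : 1 ≤ ρ) :
    ∃ Kx₀ : ℕ, ∀ c : Cst, c.a = a → c.C₂ = C₂ → c.K = K → c.s₁ = s₁ → c.Kt = Kt → c.ρ = ρ →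
      Kx₀ ≤ c.Kx → ∀ᶠ M : ℝ in atTop, ∀ X : ℤ, ∀ F ∈ c.fams M, ∀ z ∈ c.Cen M X,
        (∀ p ∈ F.1, Str X z.1 z.2 p) → ∀ t ∈ c.FT M F, Str X z.1 z.2 t →
        ∀ UU ⊆ c.FU M F, (∀ u ∈ UU, Str X z.1 z.2 u) →
        |∑ x ∈ (c.FX M F).filter (fun x => ¬ ∀ p ∈ x, Str X z.1 z.2 p), ∑ u ∈ UU,
          c.remN M X (nd4 F.1 x u t)| ≤ M * wt iv F.1 * iv t / LL M ^ (C₂ + 13) :=
  fam_mix_aux a C₂ K s₁ Kt ρ h1 h2 h3

/-- For `(u,t)` choose a centre `z(u,t) ∈ Cen` for which `g, u, t` are structured, if there is one.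
`W` = triples without such a centre, or with `x` not structured for `z(u,t)`. -/
theorem fam_bound (a : ℕ) : ∃ C₂ K₀ : ℕ, ∀ K s₁ Kt ρ : ℕ, K₀ ≤ K → 1 ≤ s₁ → 1 ≤ ρ →
    s₁ * K + 2 * C₂ + 10 ≤ Kt → ∃ Kx₀ : ℕ, ∀ c : Cst, c.a = a → c.C₂ = C₂ → c.K = K → c.s₁ = s₁ →
      c.Kt = Kt → c.ρ = ρ → Kx₀ ≤ c.Kx → ∀ᶠ M : ℝ in atTop, ∀ X : ℤ, ∀ F ∈ c.fams M,
        ∃ W ⊆ c.FX M F ×ˢ c.FU M F ×ˢ c.FT M F,
          (∀ w ∈ c.FX M F ×ˢ c.FU M F ×ˢ c.FT M F, w ∉ W →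
            ∃ z ∈ c.Cen M X, ∀ p ∈ nd4 F.1 w.1 w.2.1 w.2.2, Str X z.1 z.2 p) ∧
          |∑ w ∈ W, c.remN M X (nd4 F.1 w.1 w.2.1 w.2.2)| ≤ M * wt iv F.1 / LL M ^ 9 := by
  obtain ⟨C₂, K₀, hg⟩ := fam_glue a
  refine ⟨C₂, max K₀ (a + 20), fun K s₁ Kt ρ hK hs hρ hKt => ?_⟩
  have hKK : K ≤ s₁ * K := Nat.le_mul_of_pos_left _ hs
  obtain ⟨Kx₀, hm⟩ := fam_mix a C₂ K s₁ Kt ρ (le_of_max_le_right hK) (by omega) hρ
  refine ⟨max Kx₀ (ρ * Kt + C₂ + 2), ?_⟩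
  rintro c rfl hC rfl rfl rfl rfl hKx
  filter_upwards [hg c rfl hC (le_of_max_le_left hK) hs hρ (by omega) (le_of_max_le_right hKx),
    hm c rfl hC rfl rfl rfl rfl (le_of_max_le_left hKx), c.ev_card_Cen (by omega),
    FamBc_FT c (by omega), ev_basic 2] with M h1 h2 h3 h4 ⟨_, hL, hM, _⟩ X F hF
  have hw : 0 ≤ wt iv F.1 := mk_wt_nonneg (fun p => by unfold iv; positivity) _
  have hy : 0 ≤ M * wt iv F.1 := mul_nonneg (by linarith) hw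
  have hiv : ∀ t, 0 ≤ iv t := fun p => by unfold iv; positivity
  obtain ⟨W, hW, e1, e2⟩ := FamBc_abs (c.FX M F) (c.FU M F) (c.FT M F) (c.Cen M X)
    (fun z u t => (∀ p ∈ F.1, Str X z.1 z.2 p) ∧ Str X z.1 z.2 u ∧ Str X z.1 z.2 t)
    (fun z x => ∀ p ∈ x, Str X z.1 z.2 p) (fun x u t => c.remN M X (nd4 F.1 x u t)) _
    (fun t => M * wt iv F.1 * iv t / LL M ^ (C₂ + 13)) (h1 X F hF) (fun z hz t ht UU hU hP => by
      rcases UU.eq_empty_or_nonempty with rfl | ⟨u, hu⟩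
      · simp only [sum_empty, sum_const_zero, abs_zero]
        have := hiv t
        have : 0 < LL M := by linarith
        positivity
      · convert h2 X F hF z hz (hP u hu).1 t ht (hP u hu).2.2 UU hU fun v hv => (hP v hv).2.1)
  refine ⟨W, hW, fun w hw hw' => ?_, e2.trans ?_⟩
  · obtain ⟨z, hz, ⟨a1, a2, a3⟩, a4⟩ := e1 w hw hw'
    refine ⟨z, hz, fun p hp => ?_⟩
    simp only [nd4, mem_insert, mem_union] at hp
    rcases hp with rfl | rfl | hp | hp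
    exacts [a2, a3, a1 p hp, a4 p hp]
  · rw [← sum_div, ← mul_sum]
    exact FamBc_num hL hy (hC ▸ h3 X) (sum_nonneg fun t _ => hiv t) (h4 F hF)

end Crest.Agent.R1
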