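import Crest.Agent.R1.Ew
import Crest.Agent.R29.GMainT
import Crest.Agent.R29.GMom
import Crest.Agent.R29.GStep

/-!
# R1 / GDefs: data for the inverse theorem on remainder terms

A modulus is `g x u t e` (`g` fixed, `x ∈ XX`, `(u,t) ∈ VV` primes, `e ∈ EE` small).  Cauchy-Schwarz
in `x` over residue classes modulo `x π` (`π` an auxiliary prime of size `Q`).
-/

set_option autoImplicit false

namespace Crest.Agent.R1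

open Finset
open scoped Classical

noncomputable section

structure GD where
  M : ℝ
  L : ℝ
  y : ℝ
  X : ℤ
  g : ℕ
  X0 : ℕ
  U : ℕ
  T0 : ℕ
  E : ℕ
  Q : ℕ
  G : ℕ
  n0 : ℕ
  s : ℕ
  EE : Finset ℕ
  lam : ℕ → ℝ
  XX : Finset ℕ
  VV : Finset (ℕ × ℕ)

namespace GD

variable (D : GD)

def Tp : ℝ := D.M / (D.g * D.X0 * D.U * D.T0)
def Z : ℕ := 3 * D.G ^ 4
def PP : Finset ℕ := R29.win D.Q

/-- frequencies `k / e` -/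
def II : Finset (ℤ × ℕ) :=
  (R29.Ibar D.G ×ˢ D.EE).filter (fun i => |(i.1 : ℝ)| * D.Tp ≤ 12 * i.2)

/-- the true coefficients -/
def a0 (i : ℤ × ℕ) : ℝ := D.lam i.2 / i.2

structure Ok : Prop where
  M_ge : 2 ≤ D.M
  L_ge : 200 ≤ D.L
  G_ge : D.L ^ 4 ≤ D.G
  y_ge : 1 ≤ D.y
  g_pos : 0 < D.g
  X0_pos : 0 < D.X0
  T0_ge : D.G ^ 70 ≤ D.T0
  E_le : D.G * D.E ≤ D.T0
  Q_ge : 21 * D.T0 ^ 2 ≤ D.Q
  U_ge : 2 * D.Q ≤ D.U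
  Tp_ge : 1 ≤ D.Tp
  E_le' : 12 * (D.E : ℝ) ≤ D.Tp * D.G
  Q_hi : (D.Q : ℝ) * D.X0 * (D.G : ℝ) ^ 2 ≤ D.U * D.T0 * D.Tp
  Q_lo : (D.U : ℝ) * D.T0 * D.Tp ≤ 2 * D.Q * D.X0 * (D.G : ℝ) ^ 2
  PP_card : D.Q ≤ D.G * D.PP.card
  log_le : 8 * (D.G : ℝ) * D.E * D.U * D.T0 ≤ Real.exp D.L
  EE_spec : ∀ e ∈ D.EE, Squarefree e ∧ e ≤ D.E ∧ |D.lam e| ≤ 1
  many : ∀ e ∈ D.EE, D.Tp ≤ 12 * e → (D.G : ℝ) ^ 20 ≤ ∏ l ∈ e.primeFactors, min (l : ℝ) D.y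
  sub : Real.exp (D.y * (1 + Real.log D.E)) * (D.E : ℝ) ^ 2 * (D.G : ℝ) ^ 12 ≤ 2 ^ D.n0
  s_pos : 1 ≤ D.s
  s_le : (D.s : ℝ) ≤ D.L
  net : D.E ^ (2 * D.n0) * D.Q * D.G ^ 30 ≤ 2 ^ D.s
  U_big : D.Z * D.E ^ (2 * D.n0) * (D.Q * D.G) ^ (20 * D.s) ≤ D.U
  XX_spec : ∀ x ∈ D.XX, D.X0 ≤ x ∧ x ≤ 3 * D.X0 ∧ (∀ e ∈ D.EE, Nat.Coprime x e) ∧
    ∀ v ∈ D.VV, Nat.Coprime x (v.1 * v.2)
  VV_spec : ∀ v ∈ D.VV, v.1 ∈ R29.win D.U ∧ v.2 ∈ R29.win D.T0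
  g_rough : ∀ p : ℕ, p.Prime → p ∣ D.g → D.G ^ 60 < p

end GD

/-- `n = e u t` -/
def nn (v : ℕ × ℕ) (i : ℤ × ℕ) : ℕ := i.2 * v.1 * v.2

/-- the determinant `k n' - k' n` -/
def Dl (v : ℕ × ℕ) (i : ℤ × ℕ) (v' : ℕ × ℕ) (i' : ℤ × ℕ) : ℤ := i.1 * nn v' i' - i'.1 * nn v i

/-- the full factor `π [π ∣ ℓ]` -/
def psi1 (π : ℕ) (l : ℤ) : ℂ := if (π : ℤ) ∣ l then (π : ℂ) else 0

namespace GD

variable (D : GD)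

/-- one term -/
def bb (x : ℕ) (v : ℕ × ℕ) (i : ℤ × ℕ) : ℂ :=
  ((D.a0 i / (v.1 * v.2) * R29.tri (D.M / 2) i.1 ((D.g : ℝ) * x * nn v i) : ℝ) : ℂ) *
    R29.ee ((i.1 : ℝ) * D.X / ((D.g : ℝ) * x * nn v i))

/-- the inner sum -/
def Sx (x : ℕ) : ℂ := ∑ v ∈ D.VV, ∑ i ∈ D.II, D.bb x v i

/-- the expanded square restricted to the pairs with property `φ` -/
def Tot (φ : ℕ × ℕ → ℤ × ℕ → ℕ × ℕ → ℤ × ℕ → Prop) : ℂ :=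
  (∑ π ∈ D.PP, ∑ x ∈ Icc 1 (32 * D.X0), ((R29.cut ((x : ℝ) / D.X0) * x * π : ℝ) : ℂ) *
    ∑ v ∈ D.VV, ∑ i ∈ D.II, ∑ v' ∈ D.VV, ∑ i' ∈ D.II,
      if Nat.Coprime x (nn v i) ∧ Nat.Coprime x (nn v' i') ∧ ((x * π : ℕ) : ℤ) ∣ Dl v i v' i' ∧
          φ v i v' i' then
        D.bb x v i * (starRingEnd ℂ) (D.bb x v' i') else 0) / D.PP.card

/-- the smooth weight, with values in `[0, 32]` -/
def Wf (v : ℕ × ℕ) (i : ℤ × ℕ) (v' : ℕ × ℕ) (i' : ℤ × ℕ) (x : ℝ) : ℝ :=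
  R29.cut (x / D.X0) * (x / D.X0) * R29.tri (D.M / 2) i.1 (D.g * x * nn v i) *
    R29.tri (D.M / 2) i'.1 (D.g * x * nn v' i')

/-- the off-diagonal sum with coefficients `a`, `a'` and the factor `ψ π Δ` -/
def Off (a a' : ℤ × ℕ → ℝ) (ψ : ℕ → ℤ → ℂ) : ℂ :=
  ∑ v ∈ D.VV, ∑ v' ∈ D.VV.filter (fun v' => v.1 ≠ v'.1 ∧ v.2 ≠ v'.2),
    ((1 / ((v.1 : ℝ) * v.2 * v'.1 * v'.2) : ℝ) : ℂ) *
      ∑ i ∈ D.II, ∑ i' ∈ D.II, ((a i * a' i' : ℝ) : ℂ) *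
        ∑ m ∈ R29.Ibar D.Z,
          if m ∣ Dl v i v' i' ∧ IsCoprime (Dl v i v' i' / m) ((i.2 * i'.2 : ℕ) : ℤ) then
            (∑ π ∈ D.PP, ψ π (Dl v i v' i') *
              (D.Wf v i v' i' ((Dl v i v' i' : ℝ) / (π * m)) : ℂ) *
                R29.ee ((D.X : ℝ) * π * m / ((D.g : ℝ) * nn v i * nn v' i'))) / D.PP.card
          else 0

/-- `ℓ¹` norm -/
def w1 (a : ℤ × ℕ → ℝ) : ℝ := ∑ i ∈ D.II, |a i|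

/-- squared `ℓ²` norm after collecting equal fractions -/
def kap (a : ℤ × ℕ → ℝ) : ℝ :=
  ∑ i ∈ D.II, ∑ i' ∈ D.II, if i.1 * i'.2 = i'.1 * i.2 then |a i| * |a i'| else 0

/-- sampling probability of the prime `l` -/
def pp (l : ℕ) : ℝ := min 1 (D.y / l)

/-- the primes that are sampled -/
def PE : Finset ℕ := (range (D.E + 1)).filter Nat.Prime

/-- probability of the sample `A` -/
def om (A : Finset ℕ) : ℝ := (∏ l ∈ A, D.pp l) * ∏ l ∈ D.PE \ A, (1 - D.pp l)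

/-- subsampled coefficients -/
def asub (A : Finset ℕ) (i : ℤ × ℕ) : ℝ :=
  if i.2.primeFactors ⊆ A then D.a0 i / ∏ l ∈ i.2.primeFactors, D.pp l else 0

/-- the conclusion of the inverse theorem -/
def Centre : Prop :=
  ∃ c b : ℤ, IsCoprime c b ∧ 1 ≤ c ∧ (c : ℝ) ≤ (D.G : ℝ) ^ 60 ∧
    |(b : ℝ)| ≤ D.M * D.T0 * (D.G : ℝ) ^ 60 ∧ (D.g : ℤ) ∣ c * D.X - b ∧
    (∃ v ∈ D.VV, Str D.X c b v.1 ∧ Str D.X c b v.2) ∧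
    (D.T0 : ℝ) / (D.G : ℝ) ^ 60 ≤ ((R29.win D.T0).filter (Str D.X c b)).card

end GD

end

end Crest.Agent.R1
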