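import Crest.Agent.R1.VirtL
import Crest.Agent.R1.FamA

/-!
# R1 / Gain: the dead leaves below a structured node
-/

set_option autoImplicit false

namespace Crest.Agent.R1

open Finset Filter
open scoped Classical

theorem Gain_ev (K : ℕ) : ∀ᶠ M : ℝ in atTop, un M K ≤ v1 M ∧ v2 M ≤ top M := by
  have h1 : Tendsto LL atTop atTop := Real.tendsto_log_atTop
  have hK : (0 : ℝ) < 1 / (K + 1) := by positivity
  have h2 : ∀ᶠ x : ℝ in atTop, ‖Real.log x‖ ≤ 1 / (K + 1) * ‖x ^ (7 / 10 : ℝ)‖ :=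
    (isLittleO_log_rpow_atTop (by norm_num : (0 : ℝ) < 7 / 10)).bound hK
  have h3 : ∀ᶠ x : ℝ in atTop, 2 ≤ x ^ (2 / 10 : ℝ) :=
    (tendsto_rpow_atTop (by norm_num : (0 : ℝ) < 2 / 10)).eventually_ge_atTop 2
  filter_upwards [ev_basic 1, ev_top, h1.eventually h2, h1.eventually h3] with M ⟨a, b, _, d, _, _⟩
    ⟨t1, _, _⟩ hl hp
  have hL : 0 < LL M := by linarith
  have hd : (0 : ℝ) < hh M := by exact_mod_cast d
  constructor
  · refine Nat.ceil_mono ?_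
    rw [Real.norm_of_nonneg (Real.rpow_nonneg hL.le _)] at hl
    have h4 : ll M ≤ 1 / (K + 1) * LL M ^ (7 / 10 : ℝ) := (le_abs_self _).trans hl
    rw [one_div, ← div_eq_inv_mul, le_div_iff₀ (by positivity)] at h4
    have h5 : (K : ℝ) * ll M ≤ LL M ^ (7 / 10 : ℝ) := by nlinarith
    calc (K : ℝ) * hh M * ll M = hh M * (K * ll M) := by ring
      _ ≤ _ := by gcongr
  · refine Nat.ceil_le.2 (le_trans ?_ t1)
    have h4 : LL M ^ (8 / 10 : ℝ) * LL M ^ (2 / 10 : ℝ) = LL M := by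
      rw [← Real.rpow_add hL]
      norm_num
    have h5 : 0 ≤ LL M ^ (8 / 10 : ℝ) := Real.rpow_nonneg hL.le _
    rw [mul_div_assoc]
    gcongr
    nlinarith

theorem Gain_big {M κ : ℝ} (hh0 : 0 < hh M) (hl : 1 ≤ ll M) (hL : 0 < LL M) (hκ : 0 ≤ κ) {p : ℕ}
    (hp : 0 < p) (h : (κ + 2) * hh M * ll M ≤ sz (hh M) p) : LL M ^ κ < p := by
  have hd : (1 : ℝ) ≤ hh M := by exact_mod_cast hh0
  have h1 := sz_le_log hh0 p
  rw [div_le_iff₀ (by linarith)] at h1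
  have h2 : κ * ll M < Real.log p := by
    refine lt_of_mul_lt_mul_right (a := (hh M : ℝ)) ?_ (by linarith)
    nlinarith
  rw [Real.rpow_def_of_pos hL, mul_comm]
  exact (Real.lt_log_iff_exp_lt (by exact_mod_cast hp)).1 h2

theorem Gain_node {M : ℝ} (hM : 0 < M) {h i₀ J t e σ₁ : ℕ} {R X c b : ℤ} (hh0 : 0 < h)
    {τ : Finset ℕ} {u : ℕ} (hσ : σ₁ ≤ t)
    (hτ : ∀ p ∈ insert u τ, p ∈ Pr h 0 t ∧ Str X c b p ∧ ¬ (p : ℤ) ∣ c) (S : Finset (Finset ℕ))
    (hS : ∀ Q ∈ S, Q ∈ leaves (sz h) R e (Pr h i₀ J) ∧ Q.Nonempty ∧ Q ⊆ Pr h 0 σ₁) :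
    2 / 5 * ∑ Q ∈ S, ((An M X c b (pd τ * u) (Pr h 0 σ₁) Q).card : ℝ) ≤
      Ew M X (Pr h 0 t) (deadLoc h i₀ J e R (insert u τ)) := by
  have hnn : ∀ Q T, 0 ≤ ind (insert u τ) ∅ T * lind Q (Pr h 0 J) T := fun Q T =>
    mul_nonneg (by unfold ind; split_ifs <;> norm_num) (by unfold lind; split_ifs <;> norm_num)
  calc _ = ∑ Q ∈ S, 2 / 5 * ((An M X c b (pd τ * u) (Pr h 0 σ₁) Q).card : ℝ) := mul_sum _ _ _
    _ ≤ ∑ Q ∈ S, Ew M X (Pr h 0 t) (fun T => ind (insert u τ) ∅ T * lind Q (Pr h 0 J) T) := by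
        refine sum_le_sum fun Q hQ => card_le_Ew hM (fun T _ => hnn Q T) _ fun n hn => ?_
        obtain ⟨-, hne, hQ1⟩ := hS Q hQ
        obtain ⟨h1, h2, h3⟩ := mem_filter.1 hn
        rw [mem_Icc, Int.ceil_le, Int.le_floor] at h1
        refine ⟨abs_le.2 ⟨by linarith [h1.1], h1.2⟩, ?_⟩
        have h4 : insert u τ ⊆ hit (Pr h 0 t) X n := by
          intro p hp
          obtain ⟨h5, h6, h7⟩ := hτ p hp
          refine mem_filter.2 ⟨h5, ?_⟩
          have h8 : (p : ℤ) ∣ ((pd τ * u : ℕ) : ℤ) := by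
            refine Int.natCast_dvd_natCast.2 ?_
            rcases mem_insert.1 hp with rfl | hp'
            · exact Dvd.intro_left _ rfl
            · exact (dvd_prod_of_mem (fun p => p) hp').mul_right _
          have h9 : (p : ℤ) ∣ c * (n - X) := by
            have := (h8.trans h2).sub h6
            rwa [show c * n - b - (c * X - b) = c * (n - X) by ring] at this
          have hpp : Prime (p : ℤ) := Nat.prime_iff_prime_int.1 ((mem_Pr hh0).1 h5).1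
          exact (hpp.dvd_or_dvd h9).resolve_left h7
        have h5 : Q ⊆ hit (Pr h 0 t) X n := by
          intro q hq
          have h6 := (mem_Pr hh0).1 (hQ1 hq)
          exact mem_filter.2 ⟨(mem_Pr hh0).2 ⟨h6.1, Nat.zero_le _, h6.2.2.trans_le hσ⟩,
            (h3 q (hQ1 hq)).2 hq⟩
        have h6 : ∀ q ∈ hit (Pr h 0 t) X n ∩ Pr h 0 J, ∃ p ∈ Q, p ≤ q := by
          intro q hq
          obtain ⟨h7, h8⟩ := mem_filter.1 (mem_inter.1 hq).1
          by_cases h9 : sz h q < σ₁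
          · exact ⟨q, (h3 q ((mem_Pr hh0).2 ⟨((mem_Pr hh0).1 h7).1, Nat.zero_le _, h9⟩)).1 h8,
              le_rfl⟩
          · obtain ⟨p, hp⟩ := hne
            refine ⟨p, hp, le_of_not_gt fun hlt => ?_⟩
            have h10 := sz_mono h hlt.le
            have h11 := ((mem_Pr hh0).1 (hQ1 hp)).2.2
            omega
        simp only [ind, lind, h4, h5, disjoint_empty_right, and_self, if_true, true_and, one_mul]
        rw [if_pos h6]
    _ = Ew M X (Pr h 0 t) (fun T => ∑ Q ∈ S, ind (insert u τ) ∅ T * lind Q (Pr h 0 J) T) :=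
        (Ew_sum hM _ _).symm
    _ ≤ _ := Ew_mono hM fun T _ => sum_le_sum_of_subset_of_nonneg (fun Q hQ => (hS Q hQ).1)
        fun Q _ _ => hnn Q T

theorem Gain_par {s r J R B : ℕ} (hs : 1 ≤ s) (h1 : 2 * s ≤ r) (h2 : r ≤ 2 * s + 1) (h3 : J ≤ 2 * R)
    (h4 : R ≤ s * J) (h5 : (4 * s + 6) * B ≤ J) (h6 : 20 * (2 * s + 1) ≤ B) :
    ∃ σ₀ σ₁ : ℕ, B ≤ σ₀ ∧ σ₀ ≤ σ₁ ∧ 10 * σ₁ ≤ 11 * σ₀ ∧ σ₁ ≤ J ∧ R < (r + 2) * σ₀ ∧
      2 * (r * σ₁) + 3 * σ₀ ≤ 2 * R ∧ (20 * r + 1) * σ₀ ≤ 20 * r * σ₁ := by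
  set σ₀ := 5 * R / (5 * r + 8) with hσ₀
  set k := σ₀ / (10 * r) with hk
  have a1 : σ₀ * (5 * r + 8) ≤ 5 * R := Nat.div_mul_le_self _ _
  have a2 : 5 * R < (σ₀ + 1) * (5 * r + 8) := by
    rw [hσ₀, ← Nat.div_lt_iff_lt_mul (by omega)]
    omega
  have a3 : k * (10 * r) ≤ σ₀ := Nat.div_mul_le_self _ _
  have a4 : σ₀ < (k + 1) * (10 * r) := by
    rw [hk, ← Nat.div_lt_iff_lt_mul (by omega)]
    omega
  have a5 : B ≤ σ₀ := by
    by_contra hlt
    have : (σ₀ + 1) * (5 * r + 8) ≤ B * (10 * s + 13) := Nat.mul_le_mul (by omega) (by omega)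
    nlinarith
  have a6 : 2 * (r * (σ₀ + k)) + 3 * σ₀ ≤ 2 * R := by nlinarith
  refine ⟨σ₀, σ₀ + k, a5, Nat.le_add_right _ _, by nlinarith, ?_, by nlinarith, a6, by nlinarith⟩
  by_contra hlt
  have : 2 * s * J ≤ r * (σ₀ + k) := Nat.mul_le_mul h1 (by omega)
  nlinarith

theorem Gain_half (X c b : ℤ) (P : Finset ℕ) : ∃ I ⊆ P,
    ((∀ q ∈ I, Str X c b q) ∨ ∀ q ∈ I, ¬ Str X c b q) ∧ (∑ p ∈ P, iv p) / 2 ≤ ∑ p ∈ I, iv p := by
  have h := sum_filter_add_sum_filter_not P (Str X c b) iv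
  rcases le_total (∑ p ∈ P.filter (Str X c b), iv p) (∑ p ∈ P.filter (fun p => ¬ Str X c b p), iv p)
    with h1 | h1
  · exact ⟨_, filter_subset _ _, Or.inr fun q hq => (mem_filter.1 hq).2, by linarith⟩
  · exact ⟨_, filter_subset _ _, Or.inl fun q hq => (mem_filter.1 hq).2, by linarith⟩

theorem Gain_esymm {s r σ₀ σ₁ : ℕ} (h0 : 1 ≤ r) (h2 : r ≤ 2 * s + 1) (hσ : 0 < σ₀)
    (h3 : (20 * r + 1) * σ₀ ≤ 20 * r * σ₁) {I : Finset ℕ}
    (hI : Real.log ((σ₁ : ℝ) / σ₀) / 2 / 2 ≤ ∑ p ∈ I, iv p)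
    (hp : ∀ p ∈ I, 168 * (2 * (s : ℝ) + 1) ^ 2 ≤ p) :
    (1 / (168 * (2 * (s : ℝ) + 1))) ^ (2 * s + 1) / (2 * s + 1).factorial ≤
      ∑ Q ∈ powersetCard r I, wt iv Q := by
  have hr : (1 : ℝ) ≤ r := by exact_mod_cast h0
  have hr' : (r : ℝ) ≤ 2 * s + 1 := by exact_mod_cast h2
  have hσ' : (0 : ℝ) < σ₀ := by exact_mod_cast hσ
  have h3' : (20 * (r : ℝ) + 1) * σ₀ ≤ 20 * r * σ₁ := by exact_mod_cast h3
  have hσ1 : (0 : ℝ) < σ₁ := by
    by_contra hle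
    have : (σ₁ : ℝ) = 0 := le_antisymm (not_lt.1 hle) (Nat.cast_nonneg _)
    rw [this] at h3'
    nlinarith
  have h4 := Real.one_sub_inv_le_log_of_pos (div_pos hσ1 hσ')
  have h5 : 1 / (21 * (r : ℝ)) ≤ 1 - ((σ₁ : ℝ) / σ₀)⁻¹ := by
    rw [inv_div, le_sub_comm, div_le_iff₀ hσ1, one_sub_div (by positivity), div_mul_eq_mul_div,
      le_div_iff₀ (by positivity)]
    have h6 : (σ₀ : ℝ) * (21 * r) * (20 * r) ≤ (21 * r - 1) * σ₁ * (20 * r) := by
      have h7 : (21 * (r : ℝ) - 1) * ((20 * r + 1) * σ₀) ≤ (21 * r - 1) * (20 * r * σ₁) :=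
        mul_le_mul_of_nonneg_left h3' (by linarith)
      nlinarith [mul_nonneg (sub_nonneg.2 hr) hσ'.le]
    exact le_of_mul_le_mul_right h6 (by positivity)
  have h6 := esymm_ge I iv (ω := 1 / (168 * (r : ℝ) ^ 2)) (by positivity) (fun p hpI => by
    have := hp p hpI
    unfold iv
    refine ⟨by positivity, one_div_le_one_div_of_le (by positivity) (le_trans ?_ this)⟩
    gcongr) r
  refine le_trans ?_ h6
  have h7 : 1 / (168 * (2 * (s : ℝ) + 1)) ≤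
      max 0 (∑ p ∈ I, iv p - r * (1 / (168 * (r : ℝ) ^ 2))) := by
    refine le_max_of_le_right ?_
    have h8 : 1 / (168 * (2 * (s : ℝ) + 1)) ≤ 1 / (168 * r) :=
      one_div_le_one_div_of_le (by positivity) (by linarith)
    have h9 : (r : ℝ) * (1 / (168 * (r : ℝ) ^ 2)) = 1 / (168 * r) := by field_simp
    have h10 : 1 / (21 * (r : ℝ)) / 2 / 2 = 1 / (168 * r) + 1 / (168 * r) := by
      field_simp
      norm_num
    linarith
  have h8 : 1 / (168 * (2 * (s : ℝ) + 1)) ≤ 1 := by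
    rw [div_le_one (by positivity)]
    nlinarith [(Nat.cast_nonneg s : (0 : ℝ) ≤ s)]
  calc _ ≤ (1 / (168 * (2 * (s : ℝ) + 1))) ^ r / r.factorial := by
        refine div_le_div₀ (by positivity) (pow_le_pow_of_le_one (by positivity) h8 h2)
          (by positivity) ?_
        exact_mod_cast Nat.factorial_le h2
    _ ≤ _ := by gcongr

/-- Put `R = R0 - tot τ - i - ap ∈ [J/2, s J]` (`Alive.start` for `insert u τ`), `r ∈ {2s, 2s+1}` with
`|τ| + 1 + r` even, `σ₀ = 5 R/(5 r + 8)`, `σ₁ = σ₀ + σ₀/(10 r)`, and let `I` be the structured or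
the unstructured primes of `Pr h σ₀ σ₁`, whichever has at least half of the mass (`ev_range`).
Every `Q ∈ powersetCard r I` is a leaf (`path_leaf`); for structured `u` and `n ∈ An (pd τ · u) .. Q`
the term `Q` of `deadLoc` equals `1` at `hit P X n` (`card_le_Ew`, `Ew_sum`, `Ew_mono`).  Subtract
the unstructured `u` (mass `≤ δ · 2/i`) with `virt_upper` from `virt_lower` (`C₃ = 2s + 4`,
`K'' = K₃`); `esymm_ge`; `ev_R0`, `block_sum`. -/
theorem gain (s : ℕ) (hs : 1 ≤ s) : ∃ δ c₀ : ℝ, 0 < δ ∧ δ < 1 ∧ 0 < c₀ ∧ ∀ a C₁ : ℕ, ∃ K₀ : ℕ,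
    ∀ K₃ : ℕ, K₀ ≤ K₃ → ∀ᶠ M : ℝ in atTop, ∀ X c b : ℤ, IsCoprime c b → 1 ≤ c →
      (c : ℝ) ≤ LL M ^ C₁ → b ≤ 0 → |(b : ℝ)| ≤ M * LL M ^ C₁ →
      ∀ i ∈ Ico (v1 M) (v2 M), GoodB (hh M) (strw X c b) δ i →
      ∀ τ ∈ Tset M a (un M K₃) s (strw X c b) δ i, (∀ p ∈ τ, Str X c b p) →
        c₀ * M * wt iv τ * (∑ p ∈ Pr (hh M) i (i + 1), iv p) * (hh M / un M K₃) ≤
          ∑ u ∈ Pr (hh M) i (i + 1), Ew M X (Pr (hh M) 0 (top M))
            (deadLoc (hh M) (i0 M) (un M K₃) (insert u τ).card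
              (R0 M a - tot (sz (hh M)) (insert u τ) - ap M a) (insert u τ)) := by
  obtain ⟨c₁, hc₁, hlow⟩ := virt_lower (2 * s + 4)
  obtain ⟨C, hC, hup⟩ := virt_upper
  set E : ℝ := (1 / (168 * (2 * (s : ℝ) + 1))) ^ (2 * s + 1) / (2 * s + 1).factorial with hE
  have hE0 : 0 < E := by positivity
  set δ : ℝ := min (1 / 2) (c₁ / (4 * C)) with hδ
  have hδ0 : 0 < δ := lt_min (by norm_num) (by positivity)
  have hδC : C * δ ≤ c₁ / 4 := by
    have : δ ≤ c₁ / (4 * C) := min_le_right _ _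
    rw [le_div_iff₀ (by positivity)] at this
    linarith
  refine ⟨δ, c₁ * E / 10, hδ0, (min_le_left _ _).trans_lt (by norm_num), by positivity,
    fun a C₁ => ?_⟩
  obtain ⟨K', hlow⟩ := hlow C₁
  refine ⟨(4 * s + 6) * (K' + 21) + 2 * (a + 13) + (C₁ + 2), fun K₃ hK₃ => ?_⟩
  filter_upwards [hlow K₃, Gain_ev K₃, ev_R0 a (Nat.cast_nonneg a), ev_range, pfa_block,
    ev_basic (168 * (2 * (s : ℝ) + 1) ^ 2)] with M hlow ⟨hv1, hv2⟩ ⟨_, _, _, hap, hR1, hR2⟩ hrange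
    hblock ⟨hl, hL, hM, hh0, hh1, _⟩ X c b hcb hc1 hc2 hb1 hb2 i hi hgood τ hτ hstr
  have hs0 : (0 : ℝ) ≤ s := Nat.cast_nonneg s
  have hl1 : 1 ≤ ll M := by nlinarith
  have hL0 : 0 < LL M := by nlinarith
  have hM2 : 2 ≤ M := by nlinarith
  have hM0 : 0 < M := by linarith
  have hh1' : (1 : ℝ) ≤ hh M := by exact_mod_cast hh0
  have hh0' : (0 : ℝ) < hh M := by linarith
  have hhl : (1 : ℝ) ≤ hh M * ll M := by nlinarith
  set J := un M K₃ with hJ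
  set B := un M ((K' + 20 : ℕ) : ℝ) with hB
  have hJ1 : (K₃ : ℝ) * hh M * ll M ≤ J := (un_spec (Nat.cast_nonneg _) (by linarith)).1
  obtain ⟨hB1, hB2⟩ := un_spec (M := M) (κ := ((K' + 20 : ℕ) : ℝ)) (Nat.cast_nonneg _) (by linarith)
  rw [← hB] at hB1 hB2
  have hK₃' : (4 * (s : ℝ) + 6) * (K' + 21) + 2 * (a + 13) + (C₁ + 2) ≤ K₃ := by
    exact_mod_cast hK₃
  have hK0 : (0 : ℝ) ≤ K' := Nat.cast_nonneg _
  have ha0 : (0 : ℝ) ≤ a := Nat.cast_nonneg _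
  have hC0 : (0 : ℝ) ≤ C₁ := Nat.cast_nonneg _
  have hmono : ∀ κ : ℝ, κ ≤ K₃ → κ * hh M * ll M ≤ J := fun κ hκ =>
    le_trans (by gcongr) hJ1
  have hBJ : (4 * s + 6) * B ≤ J := by
    have h1 := hmono ((4 * s + 6) * (K' + 21)) (by linarith)
    have h2 : (B : ℝ) ≤ (K' + 21) * hh M * ll M := by
      push_cast at hB2
      linarith
    have h3 : (4 * (s : ℝ) + 6) * B ≤ J :=
      (mul_le_mul_of_nonneg_left h2 (by positivity)).trans (by linarith)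
    exact_mod_cast h3
  have hB3 : 20 * (hh M * ll M) ≤ (B : ℝ) := by
    push_cast at hB1
    nlinarith
  have hB4 : 20 * (2 * s + 1) ≤ B := by
    have h1 : 20 * (2 * (s : ℝ) + 1) ≤ B := by nlinarith
    exact_mod_cast h1
  have hB5 : 3 * hh M ≤ B := by
    have h1 : 3 * (hh M : ℝ) ≤ B := by nlinarith
    exact_mod_cast h1
  have hunB : ∀ κ : ℝ, κ ≤ K' + 20 → un M κ ≤ B := fun κ hκ =>
    Nat.ceil_mono (by push_cast; gcongr)
  have hapJ : 2 * ap M a ≤ J := by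
    have h1 := hmono (2 * (a + 13)) (by nlinarith)
    have h2 : 2 * (ap M a : ℝ) ≤ J := by linarith
    exact_mod_cast h2
  have hnd : ∀ p : ℕ, p.Prime → J ≤ sz (hh M) p → ¬ (p : ℤ) ∣ c := by
    intro p hp hsz hdvd
    have h1 : (J : ℝ) ≤ sz (hh M) p := by exact_mod_cast hsz
    have h2 := Gain_big hh0 hl1 hL0 hC0 hp.pos ((hmono (C₁ + 2) (by nlinarith)).trans h1)
    rw [Real.rpow_natCast] at h2
    have h3 : ((p : ℤ) : ℝ) ≤ c := by exact_mod_cast Int.le_of_dvd (by omega) hdvd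
    push_cast at h3
    linarith
  obtain ⟨hi1, hi2⟩ := mem_Ico.1 hi
  simp only [Tset, mem_filter, mem_powerset] at hτ
  obtain ⟨hτ1, hτ2, hτ3, hτ4, hτ5⟩ := hτ
  have hτp : ∀ p ∈ τ, p.Prime ∧ J ≤ sz (hh M) p ∧ sz (hh M) p < top M := fun p hp =>
    (mem_Pr hh0).1 (hτ1 hp)
  have hUp : ∀ u ∈ Pr (hh M) i (i + 1), u.Prime ∧ sz (hh M) u = i ∧ u ∉ τ := by
    intro u hu
    have h1 := (mem_Pr hh0).1 hu
    have h2 : sz (hh M) u = i := by omega
    exact ⟨h1.1, h2, fun h => (hτ2 u h).1 h2⟩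
  have hBJ' : B ≤ J := le_trans (Nat.le_mul_of_pos_left _ (by omega)) hBJ
  obtain ⟨hi3, hbl1, hbl2⟩ := hblock i ((hunB 1 (by linarith)).trans (by omega))
  have hi0 : (1000 : ℝ) ≤ i := by exact_mod_cast hi3
  have hbl3 : ∑ p ∈ Pr (hh M) i (i + 1), iv p ≤ 2 * (1 / (i : ℝ)) := by
    have h1 : 3 / (i : ℝ) ^ 2 ≤ 1 / i := by
      rw [div_le_div_iff₀ (by positivity) (by positivity)]
      nlinarith
    linarith
  have htot : ∀ u ∈ Pr (hh M) i (i + 1), tot (sz (hh M)) (insert u τ) = i + tot (sz (hh M)) τ := by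
    intro u hu
    rw [TreeA_tot_insert (hUp u hu).2.2, (hUp u hu).2.1]
  have hRJ : (J : ℤ) ≤ R0 M a - (i + tot (sz (hh M)) τ) := by
    have hne : (Pr (hh M) i (i + 1)).Nonempty := by
      by_contra hne
      rw [not_nonempty_iff_eq_empty.1 hne, sum_empty] at hbl1
      have : 0 < 1 / (2 * (i : ℝ)) := by positivity
      linarith
    obtain ⟨u, hu⟩ := hne
    have h1 := (hτ5 u hu).start (sz_mono _) (top := top M)
      ⟨fun _ => by unfold R0; omega, by unfold R0; omega⟩ (fun p hp => by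
        rcases mem_insert.1 hp with rfl | hp'
        · have := (hUp p hu).2.1
          omega
        · exact (hτp p hp').2.2.le) (i := J) (by omega) (fun p hp => by
        rcases mem_insert.1 hp with rfl | hp'
        · have := (hUp p hu).2.1
          omega
        · exact (hτp p hp').2.1)
    rw [htot u hu] at h1
    exact h1.2
  obtain ⟨R, hR⟩ : ∃ R : ℕ, (R : ℤ) = R0 M a - (i + tot (sz (hh M)) τ) - ap M a :=
    ⟨_, Int.toNat_of_nonneg (by omega)⟩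
  obtain ⟨r, hr1, hr2, hr3⟩ : ∃ r, 2 * s ≤ r ∧ r ≤ 2 * s + 1 ∧ Even (τ.card + 1 + r) := by
    rcases Nat.even_or_odd (τ.card + 1) with h | h
    · exact ⟨2 * s, le_rfl, Nat.le_succ _, h.add (even_two_mul s)⟩
    · exact ⟨2 * s + 1, Nat.le_succ _, le_rfl, h.add_odd (odd_two_mul_add_one s)⟩
  obtain ⟨σ₀, σ₁, p1, p2, p3, p4, p5, p6, p7⟩ := Gain_par (R := R) hs hr1 hr2 (by omega)
    (by omega) hBJ hB4
  have hσ0 : 0 < σ₀ := by omega
  have hσ0' : (0 : ℝ) < σ₀ := by exact_mod_cast hσ0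
  obtain ⟨I, hI1, hI2, hI3⟩ := Gain_half X c b (Pr (hh M) σ₀ σ₁)
  have hEs : E ≤ ∑ Q ∈ powersetCard r I, wt iv Q := by
    refine Gain_esymm (by omega) hr2 hσ0 p7 (le_trans ?_ hI3) fun p hp => ?_
    · gcongr
      exact (hrange σ₀ σ₁ ((hunB 1 (by linarith)).trans p1) p2).1
    · have h1 := (mem_Pr hh0).1 (hI1 hp)
      have h2 : (B : ℝ) ≤ sz (hh M) p := by exact_mod_cast p1.trans h1.2.1
      have h3 := Gain_big hh0 hl1 hL0 zero_le_one h1.1.pos (by nlinarith)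
      rw [Real.rpow_one] at h3
      linarith
  have hd0 : 0 < pd τ := pd_pos fun p hp => (hτp p hp).1
  have hd0' : (0 : ℝ) < pd τ := by exact_mod_cast hd0
  have hRr : (R : ℝ) = R0 M a - (i + tot (sz (hh M)) τ) - ap M a := by exact_mod_cast hR
  -- the estimate for one leaf
  have key : ∀ Q ∈ powersetCard r I,
      c₁ / 2 * (M / pd τ) * (1 / i) * (hh M / σ₀) * wt iv Q ≤
        ∑ u ∈ (Pr (hh M) i (i + 1)).filter (Str X c b),
          ((An M X c b (pd τ * u) (Pr (hh M) 0 σ₁) Q).card : ℝ) := by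
    intro Q hQ
    obtain ⟨hQ1, hQ2⟩ := mem_powersetCard.1 hQ
    have hQ3 : Q ⊆ Pr (hh M) σ₀ σ₁ := hQ1.trans hI1
    have hQp : ∀ p ∈ Q, p.Prime := fun p hp => ((mem_Pr hh0).1 (hQ3 hp)).1
    have hq0 : (0 : ℝ) < pd Q := by exact_mod_cast pd_pos hQp
    have hQ4 : (tot (sz (hh M)) Q : ℝ) ≤ r * σ₁ := by
      have h1 : tot (sz (hh M)) Q ≤ r * σ₁ := by
        rw [← hQ2, ← nsmul_eq_mul]
        exact sum_le_card_nsmul _ _ _ fun p hp => by
          exact_mod_cast ((mem_Pr hh0).1 (hQ3 hp)).2.2.le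
      exact_mod_cast h1
    have p6' : 2 * ((r : ℝ) * σ₁) + 3 * σ₀ ≤ 2 * R := by exact_mod_cast p6
    have hlev : Real.exp (3 * (σ₀ : ℝ) / (2 * hh M)) *
        (pd τ * Real.exp ((i : ℝ) / hh M) * pd Q) ≤ M := by
      refine le_trans ?_ hR1
      calc _ ≤ Real.exp (3 * (σ₀ : ℝ) / (2 * hh M)) *
            (Real.exp ((tot (sz (hh M)) τ : ℝ) / hh M) * Real.exp ((i : ℝ) / hh M) *
              Real.exp ((tot (sz (hh M)) Q : ℝ) / hh M)) := by
            gcongr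
            · exact pd_le_exp hh0 fun p hp => (hτp p hp).1
            · exact pd_le_exp hh0 hQp
        _ = Real.exp ((3 * σ₀ / 2 + (tot (sz (hh M)) τ + i + tot (sz (hh M)) Q)) / hh M) := by
            rw [← Real.exp_add, ← Real.exp_add, ← Real.exp_add]
            congr 1
            field_simp
        _ ≤ _ := Real.exp_le_exp.2 (div_le_div_of_nonneg_right (by linarith) hh0'.le)
    have hlev' : M ≤ Real.exp (((2 * s + 4 : ℕ) : ℝ) * (σ₀ : ℝ) / hh M) *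
        (pd τ * Real.exp ((i : ℝ) / hh M)) := by
      refine hR2.trans ?_
      have h1 : R + 1 + τ.card ≤ (2 * s + 4) * σ₀ := by
        have : (r + 2) * σ₀ ≤ (2 * s + 3) * σ₀ := Nat.mul_le_mul_right _ (by omega)
        have : (2 * s + 4) * σ₀ = (2 * s + 3) * σ₀ + σ₀ := by ring
        omega
      have h2 : (R : ℝ) + 1 + τ.card ≤ ((2 * s + 4 : ℕ) : ℝ) * σ₀ := by exact_mod_cast h1
      calc _ ≤ Real.exp ((((2 * s + 4 : ℕ) : ℝ) * σ₀ + (tot (sz (hh M)) τ - τ.card + i)) / hh M) :=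
            Real.exp_le_exp.2 (div_le_div_of_nonneg_right (by linarith) hh0'.le)
        _ = Real.exp (((2 * s + 4 : ℕ) : ℝ) * (σ₀ : ℝ) / hh M) *
            (Real.exp (((tot (sz (hh M)) τ : ℝ) - τ.card) / hh M) * Real.exp ((i : ℝ) / hh M)) := by
            rw [← Real.exp_add, ← Real.exp_add]
            congr 1
            field_simp
        _ ≤ _ := by
            gcongr
            exact exp_le_pd hh0 fun p hp => (hτp p hp).1
    have h1 := hlow X c b (pd τ) i σ₀ σ₁ Q hcb hc1 hc2 hb1 hb2 hi1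
      ((hunB K' (by linarith)).trans p1) p2 p3 p4 hQ3
      (hI2.imp (fun h q hq => h q (hQ1 hq)) fun h q hq => h q (hQ1 hq)) hd0
      (fun p hp hdvd => by
        have h2 : p ∈ τ := by
          rw [← primeFactors_pd fun p hp => (hτp p hp).1]
          exact Nat.mem_primeFactors.2 ⟨hp, hdvd, hd0.ne'⟩
        exact p4.trans (hτp p h2).2.1) hlev hlev'
    have h2 : ∑ u ∈ (Pr (hh M) i (i + 1)).filter (fun u => ¬ Str X c b u),
        ((An M X c b (pd τ * u) (Pr (hh M) 0 σ₁) Q).card : ℝ) ≤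
        C * (M / (pd τ * pd Q)) * (hh M / σ₀) *
          ∑ u ∈ (Pr (hh M) i (i + 1)).filter (fun u => ¬ Str X c b u), iv u := by
      rw [mul_sum]
      refine sum_le_sum fun u hu => ?_
      obtain ⟨hu1, hu2, hu3⟩ := hUp u (mem_filter.1 hu).1
      have hu0 : (0 : ℝ) < u := by exact_mod_cast hu1.pos
      have hu4 : (u : ℝ) ≤ Real.exp ((i : ℝ) / hh M) := by
        rw [← Real.log_le_iff_le_exp hu0, ← hu2]
        exact (log_lt_sz hh0 u).le
      refine (hup M X c b τ Q u (hh M) σ₀ σ₁ hM2 hh0 (hB5.trans p1) p2 hQ3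
        (fun p hp => ⟨(hτp p hp).1, p4.trans (hτp p hp).2.1, hstr p hp,
          hnd p (hτp p hp).1 (hτp p hp).2.1⟩) hu1 (by omega) hu3 (hnd u hu1 (by omega))
        (le_trans ?_ hlev)).trans (le_of_eq ?_)
      · refine mul_le_mul (Real.exp_le_exp.2 ?_) (by gcongr) (by positivity) (by positivity)
        rw [div_le_div_iff₀ hh0' (by positivity)]
        linarith [mul_pos hσ0' hh0']
      · unfold iv
        field_simp
    have h3 : ∑ u ∈ (Pr (hh M) i (i + 1)).filter (fun u => ¬ Str X c b u), iv u ≤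
        δ * (2 * (1 / (i : ℝ))) := by
      have h4 := sum_filter_add_sum_filter_not (Pr (hh M) i (i + 1)) (Str X c b) iv
      have h5 : ∑ p ∈ Pr (hh M) i (i + 1), strw X c b p =
          ∑ p ∈ (Pr (hh M) i (i + 1)).filter (Str X c b), iv p := (sum_filter _ _).symm
      unfold GoodB at hgood
      have h6 := mul_le_mul_of_nonneg_left hbl3 hδ0.le
      linarith
    have h4 := sum_filter_add_sum_filter_not (Pr (hh M) i (i + 1)) (Str X c b)
      fun u => ((An M X c b (pd τ * u) (Pr (hh M) 0 σ₁) Q).card : ℝ)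
    set A : ℝ := M / (pd τ * pd Q) * (1 / i) * (hh M / σ₀) with hA
    have hA0 : 0 ≤ A := by positivity
    have h5 : C * (M / (pd τ * pd Q)) * (hh M / σ₀) *
        ∑ u ∈ (Pr (hh M) i (i + 1)).filter (fun u => ¬ Str X c b u), iv u ≤ c₁ / 2 * A := by
      calc _ ≤ C * (M / (pd τ * pd Q)) * (hh M / σ₀) * (δ * (2 * (1 / (i : ℝ)))) := by gcongr
        _ = 2 * (C * δ) * A := by rw [hA]; ring
        _ ≤ 2 * (c₁ / 4) * A := by gcongr
        _ = _ := by ring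
    have h6 : c₁ * (M / (pd τ * pd Q)) * (1 / i) * (hh M / σ₀) = c₁ * A := by rw [hA]; ring
    have h7 : c₁ / 2 * (M / pd τ) * (1 / i) * (hh M / σ₀) * wt iv Q = c₁ / 2 * A := by
      rw [hA, wt_iv]
      field_simp
    rw [h7]
    linarith
  have hleaf : ∀ Q ∈ powersetCard r I,
      Q ∈ leaves (sz (hh M)) (R : ℤ) (τ.card + 1) (Pr (hh M) (i0 M) J) ∧ Q.Nonempty ∧
        Q ⊆ Pr (hh M) 0 σ₁ := by
    intro Q hQ
    obtain ⟨hQ1, hQ2⟩ := mem_powersetCard.1 hQ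
    have hQ3 : ∀ q ∈ Q, q.Prime ∧ σ₀ ≤ sz (hh M) q ∧ sz (hh M) q < σ₁ := fun q hq =>
      (mem_Pr hh0).1 (hI1 (hQ1 hq))
    have hne : Q.Nonempty := card_pos.1 (by omega)
    have hi0' : i0 M ≤ σ₀ := (hunB 20 (by linarith)).trans p1
    refine ⟨path_leaf (σ₀ := σ₀) (σ₁ := σ₁) (fun q hq => (mem_Pr hh0).2
      ⟨(hQ3 q hq).1, hi0'.trans (hQ3 q hq).2.1, (hQ3 q hq).2.2.trans_le p4⟩) hne (hQ2 ▸ hr3)
      (fun q hq => ⟨(hQ3 q hq).2.1, (hQ3 q hq).2.2.le⟩) ?_ ?_, hne,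
      fun q hq => (mem_Pr hh0).2 ⟨(hQ3 q hq).1, Nat.zero_le _, (hQ3 q hq).2.2⟩⟩
    · rw [hQ2]
      exact_mod_cast p5
    · rw [hQ2]
      have : r * σ₁ ≤ R := by omega
      exact_mod_cast this
  have hJ0 : (σ₀ : ℝ) ≤ J := by exact_mod_cast p2.trans p4
  calc c₁ * E / 10 * M * wt iv τ * (∑ p ∈ Pr (hh M) i (i + 1), iv p) * (hh M / J)
      ≤ c₁ * E / 10 * M * wt iv τ * (2 * (1 / (i : ℝ))) * (hh M / σ₀) := by
        rw [wt_iv]
        gcongr
    _ = 2 / 5 * (c₁ / 2 * (M / pd τ) * (1 / i) * (hh M / σ₀) * E) := by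
        rw [wt_iv]
        ring
    _ ≤ 2 / 5 * (c₁ / 2 * (M / pd τ) * (1 / i) * (hh M / σ₀) *
          ∑ Q ∈ powersetCard r I, wt iv Q) := by gcongr
    _ ≤ 2 / 5 * ∑ Q ∈ powersetCard r I, ∑ u ∈ (Pr (hh M) i (i + 1)).filter (Str X c b),
          ((An M X c b (pd τ * u) (Pr (hh M) 0 σ₁) Q).card : ℝ) := by
        rw [mul_sum]
        exact mul_le_mul_of_nonneg_left (sum_le_sum key) (by norm_num)
    _ = ∑ u ∈ (Pr (hh M) i (i + 1)).filter (Str X c b), 2 / 5 * ∑ Q ∈ powersetCard r I,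
          ((An M X c b (pd τ * u) (Pr (hh M) 0 σ₁) Q).card : ℝ) := by rw [sum_comm, mul_sum]
    _ ≤ ∑ u ∈ (Pr (hh M) i (i + 1)).filter (Str X c b), Ew M X (Pr (hh M) 0 (top M))
          (deadLoc (hh M) (i0 M) J (insert u τ).card
            (R0 M a - tot (sz (hh M)) (insert u τ) - ap M a) (insert u τ)) := by
        refine sum_le_sum fun u hu => ?_
        obtain ⟨hu0, hu4⟩ := mem_filter.1 hu
        obtain ⟨hu1, hu2, hu3⟩ := hUp u hu0
        rw [card_insert_of_notMem hu3, htot u hu0, ← hR]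
        refine Gain_node hM0 hh0 (by omega) (fun p hp => ?_) _ hleaf
        rcases mem_insert.1 hp with rfl | hp'
        · exact ⟨(mem_Pr hh0).2 ⟨hu1, Nat.zero_le _, by omega⟩, hu4, hnd p hu1 (by omega)⟩
        · exact ⟨(mem_Pr hh0).2 ⟨(hτp p hp').1, Nat.zero_le _, (hτp p hp').2.2⟩, hstr p hp',
            hnd p (hτp p hp').1 (hτp p hp').2.1⟩
    _ ≤ _ := sum_le_sum_of_subset_of_nonneg (filter_subset _ _) fun u _ _ =>
        Ew_nonneg fun S _ => deadLoc_nonneg _ _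

end Crest.Agent.R1
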