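import Crest.Agent.R1.GDefs

/-!
# R1 / GlueA: Cauchy-Schwarz over residue classes and extension of `x` to all integers
-/

set_option autoImplicit false

namespace Crest.Agent.R1

open Finset Filter
open scoped Classical

/-- the restricted coefficients -/
noncomputable def GD.GlueA_G (D : GD) (x : ℕ) (j : (ℕ × ℕ) × (ℤ × ℕ)) : ℂ :=
  if Nat.Coprime x (nn j.1 j.2) then D.bb x j.1 j.2 else 0

/-- the square over the classes modulo `x π` -/
noncomputable def GD.GlueA_Q (D : GD) (x π : ℕ) : ℝ :=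
  R29.QQ (x * π) (D.VV ×ˢ D.II) (fun j => j.2.1) (fun j => (nn j.1 j.2 : ℤ)) (D.GlueA_G x)

theorem GD.Ok.GlueA_G_pos {D : GD} (h : D.Ok) : 0 < D.G := by
  have h1 := h.L_ge
  have h2 := h.G_ge
  have h3 : (0 : ℝ) < D.L ^ 4 := by positivity
  have : (0 : ℝ) < D.G := by linarith
  exact_mod_cast this

theorem GD.Ok.GlueA_T0_pos {D : GD} (h : D.Ok) : 0 < D.T0 :=
  lt_of_lt_of_le (pow_pos h.GlueA_G_pos _) h.T0_ge

theorem GD.Ok.GlueA_coprime {D : GD} (h : D.Ok) {x π : ℕ} (hπ : π ∈ D.PP) :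
    ∀ j ∈ D.VV ×ˢ D.II, D.GlueA_G x j ≠ 0 → IsCoprime (nn j.1 j.2 : ℤ) ((x * π : ℕ) : ℤ) := by
  intro j hj hne
  have hx : Nat.Coprime x (nn j.1 j.2) := by
    by_contra hc
    exact hne (if_neg hc)
  obtain ⟨hv, hi⟩ := mem_product.1 hj
  obtain ⟨hu, ht⟩ := h.VV_spec j.1 hv
  obtain ⟨hu1, hu2⟩ := mem_filter.1 hu
  obtain ⟨ht1, ht2⟩ := mem_filter.1 ht
  obtain ⟨hp1, hp2⟩ := mem_filter.1 hπ
  obtain ⟨he1, he2, -⟩ := h.EE_spec j.2.2 (mem_product.1 (mem_filter.1 hi).1).2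
  have a1 := mem_Ico.1 hu1
  have a2 := mem_Ico.1 ht1
  have a3 := mem_Ico.1 hp1
  have a4 := h.U_ge
  have a5 := h.Q_ge
  have a6 := h.E_le
  have a7 := h.GlueA_T0_pos
  have a8 : D.E ≤ D.G * D.E := Nat.le_mul_of_pos_left _ h.GlueA_G_pos
  have a9 : D.T0 ≤ D.T0 ^ 2 := Nat.le_self_pow two_ne_zero _
  have hπn : Nat.Coprime π (nn j.1 j.2) := by
    unfold nn
    refine Nat.Coprime.mul_right (Nat.Coprime.mul_right ?_ ?_) ?_
    · exact Nat.coprime_of_lt_prime he1.ne_zero (by omega) hp2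
    · exact (Nat.coprime_primes hp2 hu2).2 (by omega)
    · exact (Nat.coprime_primes hp2 ht2).2 (by omega)
  exact Nat.isCoprime_iff_coprime.2 (Nat.Coprime.mul_left hx hπn).symm

theorem GD.Ok.GlueA_expand {D : GD} (h : D.Ok) {x π : ℕ} (hx : 1 ≤ x) (hπ : π ∈ D.PP) :
    (D.GlueA_Q x π : ℂ) = ∑ v ∈ D.VV, ∑ i ∈ D.II, ∑ v' ∈ D.VV, ∑ i' ∈ D.II,
      if Nat.Coprime x (nn v i) ∧ Nat.Coprime x (nn v' i') ∧ ((x * π : ℕ) : ℤ) ∣ Dl v i v' i' ∧ True then
        D.bb x v i * (starRingEnd ℂ) (D.bb x v' i') else 0 := by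
  unfold GD.GlueA_Q
  rw [R29.QQ_expand (Nat.mul_pos hx (mem_filter.1 hπ).2.pos) _ _ _ _ (h.GlueA_coprime hπ), sum_product]
  refine sum_congr rfl fun v _ => sum_congr rfl fun i _ => ?_
  rw [sum_product]
  refine sum_congr rfl fun v' _ => sum_congr rfl fun i' _ => ?_
  unfold GD.GlueA_G Dl
  by_cases h1 : Nat.Coprime x (nn v i)
  swap
  · simp only [h1, false_and, if_false, zero_mul, ite_self]
  by_cases h2 : Nat.Coprime x (nn v' i')
  swap
  · simp only [h2, false_and, and_false, if_false, map_zero, mul_zero, ite_self]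
  simp only [eq_true h1, eq_true h2, true_and, and_true, if_true]

theorem GD.Ok.GlueA_refine {D : GD} (h : D.Ok) {x π : ℕ} (hx : x ∈ D.XX) (hπ : π ∈ D.PP) :
    ‖D.Sx x‖ ^ 2 ≤ x * π * D.GlueA_Q x π := by
  obtain ⟨hx1, -, hx3, hx4⟩ := h.XX_spec x hx
  have hx0 : 0 < x := lt_of_lt_of_le h.X0_pos hx1
  have h1 := R29.QQ_refine (x := 1) (π := x * π) one_pos (Nat.mul_pos hx0 (mem_filter.1 hπ).2.pos)
    (D.VV ×ˢ D.II) (fun j => j.2.1) (fun j => (nn j.1 j.2 : ℤ)) (D.GlueA_G x) (h.GlueA_coprime hπ)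
  rw [one_mul, Nat.cast_mul] at h1
  refine le_trans (le_of_eq ?_) h1
  unfold R29.QQ GD.Sx
  rw [sum_range_one, sum_product]
  congr 2
  refine sum_congr rfl fun v hv => sum_congr rfl fun i hi => ?_
  have hc : Nat.Coprime x (nn v i) := by
    unfold nn
    rw [mul_assoc]
    exact (hx3 i.2 (mem_product.1 (mem_filter.1 hi).1).2).mul_right (hx4 v hv)
  rw [if_pos (by simp)]
  exact (if_pos hc).symm

/-- For `x ∈ XX`, `π ∈ PP` the pairs `(v,i)` are sorted by the class of `k / n` modulo `x π`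
(`n` is coprime to `x π`); Cauchy-Schwarz over the `x π` classes.  For every `x` the restricted double
sum `∑ [x ⊥ n, x ⊥ n', x π ∣ Δ] b conj b'` is `∑_classes ‖·‖² ≥ 0`, and `cut (x/X0) = 1` on `XX`. -/
theorem GD.Ok.cs {D : GD} (h : D.Ok) :
    ∑ x ∈ D.XX, ‖D.Sx x‖ ^ 2 ≤ (D.Tot (fun _ _ _ _ => True)).re := by
  have hcard : (0 : ℝ) < D.PP.card := by
    have h1 := h.PP_card
    have h2 := h.Q_ge
    have h3 := h.GlueA_T0_pos
    have h4 : 0 < D.PP.card := by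
      rcases Nat.eq_zero_or_pos D.PP.card with h0 | h0
      · rw [h0, mul_zero] at h1
        have : 0 < D.T0 ^ 2 := by positivity
        omega
      · exact h0
    exact_mod_cast h4
  have hT : D.Tot (fun _ _ _ _ => True) =
      (((∑ π ∈ D.PP, ∑ x ∈ Icc 1 (32 * D.X0), R29.cut ((x : ℝ) / D.X0) * x * π * D.GlueA_Q x π) /
        D.PP.card : ℝ) : ℂ) := by
    unfold GD.Tot
    rw [Complex.ofReal_div, Complex.ofReal_natCast, Complex.ofReal_sum]
    congr 1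
    refine sum_congr rfl fun π hπ => ?_
    rw [Complex.ofReal_sum]
    refine sum_congr rfl fun x hx => ?_
    rw [Complex.ofReal_mul (R29.cut ((x : ℝ) / D.X0) * x * π), h.GlueA_expand (mem_Icc.1 hx).1 hπ]
    congr 1
    refine sum_congr rfl fun v _ => sum_congr rfl fun i _ => sum_congr rfl fun v' _ =>
      sum_congr rfl fun i' _ => by congr
  rw [hT, Complex.ofReal_re, le_div_iff₀ hcard, mul_comm, ← nsmul_eq_mul, ← sum_const]
  refine sum_le_sum fun π hπ => ?_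
  have hX0 : (0 : ℝ) < D.X0 := by exact_mod_cast h.X0_pos
  have hsub : D.XX ⊆ Icc 1 (32 * D.X0) := fun x hx => by
    have := h.XX_spec x hx
    have := h.X0_pos
    exact mem_Icc.2 ⟨by omega, by omega⟩
  refine le_trans (sum_le_sum fun x hx => ?_) (sum_le_sum_of_subset_of_nonneg hsub fun x _ _ => ?_)
  · have h1 : (D.X0 : ℝ) ≤ x := by exact_mod_cast (h.XX_spec x hx).1
    have h2 : (x : ℝ) ≤ 3 * D.X0 := by exact_mod_cast (h.XX_spec x hx).2.1
    have h3 : 1 ≤ (x : ℝ) / D.X0 := by rwa [le_div_iff₀ hX0, one_mul]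
    have h4 : (x : ℝ) / D.X0 ≤ 3 := by rwa [div_le_iff₀ hX0]
    have h5 : R29.cut ((x : ℝ) / D.X0) = 1 := by
      unfold R29.cut
      rw [min_eq_left (le_min (by linarith) (by linarith)), max_eq_right zero_le_one]
    rw [h5, one_mul]
    exact h.GlueA_refine hx hπ
  · have h1 : 0 ≤ R29.cut ((x : ℝ) / D.X0) := le_max_left _ _
    exact mul_nonneg (by positivity) (R29.QQ_nonneg _ _ _ _ _)

theorem GD.Tot_split (D : GD) :
    D.Tot (fun _ _ _ _ => True) =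
      D.Tot (fun v i v' i' => Dl v i v' i' = 0) +
      D.Tot (fun v i v' i' => Dl v i v' i' ≠ 0 ∧ (v.1 = v'.1 ∨ v.2 = v'.2)) +
      D.Tot (fun v i v' i' => Dl v i v' i' ≠ 0 ∧ v.1 ≠ v'.1 ∧ v.2 ≠ v'.2) := by
  unfold GD.Tot
  rw [← add_div, ← add_div]
  congr 1
  simp only [← sum_add_distrib, ← mul_add]
  refine sum_congr rfl fun π _ => sum_congr rfl fun x _ => ?_
  congr 1
  refine sum_congr rfl fun v _ => sum_congr rfl fun i _ => sum_congr rfl fun v' _ =>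
    sum_congr rfl fun i' _ => ?_
  by_cases h1 : Nat.Coprime x (nn v i)
  swap
  · simp only [h1, false_and, if_false, add_zero]
  by_cases h2 : Nat.Coprime x (nn v' i')
  swap
  · simp only [h2, false_and, and_false, if_false, add_zero]
  by_cases h3 : ((x * π : ℕ) : ℤ) ∣ Dl v i v' i'
  swap
  · simp only [h3, false_and, and_false, if_false, add_zero]
  simp only [eq_true h1, eq_true h2, eq_true h3, true_and, if_true]
  by_cases h4 : Dl v i v' i' = 0
  · rw [if_pos h4, if_neg (fun h => h.1 h4), if_neg (fun h => h.1 h4), add_zero, add_zero]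
  · rw [if_neg h4, zero_add]
    by_cases h5 : v.1 = v'.1 ∨ v.2 = v'.2
    · rw [if_pos ⟨h4, h5⟩, if_neg (fun h => h5.elim h.2.1 h.2.2), add_zero]
    · rw [if_neg (fun h => h5 h.2), if_pos ⟨h4, fun h => h5 (Or.inl h), fun h => h5 (Or.inr h)⟩, zero_add]

/-- reduction of the remainder sum to `Sx` (`rem_eq` with `Z = G`; terms outside `II` vanish) -/
theorem GD.Ok.rem_sum {D : GD} (h : D.Ok) :
    ((∑ x ∈ D.XX, ∑ v ∈ D.VV, ∑ e ∈ D.EE, D.lam e * rem D.M D.X (D.g * x * v.1 * v.2 * e) : ℝ) : ℂ) =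
      ((D.M / D.g : ℝ) : ℂ) * ∑ x ∈ D.XX, D.Sx x / x := by
  rw [Complex.ofReal_sum, mul_sum]
  refine sum_congr rfl fun x hx => ?_
  unfold GD.Sx
  rw [Complex.ofReal_sum, sum_div, mul_sum]
  refine sum_congr rfl fun v hv => ?_
  have hg : (0 : ℝ) < D.g := by exact_mod_cast h.g_pos
  have hX0 : (0 : ℝ) < D.X0 := by exact_mod_cast h.X0_pos
  have hx1 : (D.X0 : ℝ) ≤ x := by exact_mod_cast (h.XX_spec x hx).1
  have hx2 : (x : ℝ) ≤ 3 * D.X0 := by exact_mod_cast (h.XX_spec x hx).2.1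
  have hx0 : (0 : ℝ) < x := by linarith
  obtain ⟨hu, ht⟩ := h.VV_spec v hv
  obtain ⟨hu1, hu2⟩ := mem_filter.1 hu
  obtain ⟨ht1, ht2⟩ := mem_filter.1 ht
  have hu0 : (0 : ℝ) < v.1 := by exact_mod_cast hu2.pos
  have ht0 : (0 : ℝ) < v.2 := by exact_mod_cast ht2.pos
  have hu3 : (v.1 : ℝ) ≤ 2 * D.U := by exact_mod_cast (mem_Ico.1 hu1).2.le
  have ht3 : (v.2 : ℝ) ≤ 2 * D.T0 := by exact_mod_cast (mem_Ico.1 ht1).2.le
  have hU : (0 : ℝ) < D.U := by linarith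
  have hT0 : (0 : ℝ) < D.T0 := by linarith
  have hK : (0 : ℝ) < D.g * D.X0 * D.U * D.T0 := by positivity
  have hM : D.M = D.g * D.X0 * D.U * D.T0 * D.Tp := by
    unfold GD.Tp
    field_simp
  have hq : ∀ e : ℕ, (D.g : ℝ) * x * nn v (0, e) ≤ D.g * D.X0 * D.U * D.T0 * (12 * e) := by
    intro e
    have e1 : (D.g : ℝ) * x * nn v (0, e) = (D.g * e) * (x * (v.1 * v.2)) := by
      unfold nn
      push_cast
      ring
    have e2 : (D.g : ℝ) * D.X0 * D.U * D.T0 * (12 * e) =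
        (D.g * e) * ((3 * D.X0) * ((2 * D.U) * (2 * D.T0))) := by ring
    rw [e1, e2]
    gcongr
  have hII : ∑ i ∈ D.II, D.bb x v i = ∑ i ∈ R29.Ibar D.G ×ˢ D.EE, D.bb x v i := by
    unfold GD.II
    refine sum_subset (filter_subset _ _) fun i hi hi' => ?_
    have h1 : 12 * (i.2 : ℝ) ≤ |(i.1 : ℝ)| * D.Tp :=
      (not_le.1 fun h => hi' (mem_filter.2 ⟨hi, h⟩)).le
    have he : (0 : ℝ) < i.2 := by
      exact_mod_cast (h.EE_spec i.2 (mem_product.1 hi).2).1.ne_zero.bot_lt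
    have h2 : R29.tri (D.M / 2) i.1 ((D.g : ℝ) * x * nn v i) = 0 := by
      refine ew_tri_zero ?_ ?_
      · unfold nn
        push_cast
        positivity
      · refine (hq i.2).trans ?_
        rw [hM, mul_assoc _ D.Tp, mul_comm D.Tp]
        exact mul_le_mul_of_nonneg_left h1 hK.le
    unfold GD.bb
    rw [h2]
    simp
  rw [hII, sum_product_right, Complex.ofReal_sum, sum_div, mul_sum]
  refine sum_congr rfl fun e he => ?_
  obtain ⟨he1, he2, -⟩ := h.EE_spec e he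
  have he0 : (0 : ℝ) < e := by exact_mod_cast he1.ne_zero.bot_lt
  have hc : ∀ k : ℤ, ((D.g * x * v.1 * v.2 * e : ℕ) : ℝ) = (D.g : ℝ) * x * nn v (k, e) := by
    intro k
    unfold nn
    push_cast
    ring
  have hq0 : 0 < D.g * x * v.1 * v.2 * e := by
    have : (0 : ℝ) < ((D.g * x * v.1 * v.2 * e : ℕ) : ℝ) := by
      push_cast
      positivity
    exact_mod_cast this
  have hqZ : ((D.g * x * v.1 * v.2 * e : ℕ) : ℝ) ≤ D.M * D.G := by
    rw [hc 0]
    refine (hq e).trans ?_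
    rw [hM, mul_assoc _ D.Tp]
    refine mul_le_mul_of_nonneg_left (le_trans ?_ h.E_le') hK.le
    have : (e : ℝ) ≤ D.E := by exact_mod_cast he2
    linarith
  rw [Complex.ofReal_mul, rem_eq h.M_ge hq0 hqZ, sum_div, mul_sum, mul_sum, mul_sum]
  refine sum_congr rfl fun k _ => ?_
  unfold GD.bb GD.a0
  rw [← hc k]
  have c1 : (D.g : ℂ) ≠ 0 := by exact_mod_cast hg.ne'
  have c2 : (x : ℂ) ≠ 0 := by exact_mod_cast hx0.ne'
  have c3 : (v.1 : ℂ) ≠ 0 := by exact_mod_cast hu0.ne'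
  have c4 : (v.2 : ℂ) ≠ 0 := by exact_mod_cast ht0.ne'
  have c5 : (e : ℂ) ≠ 0 := by exact_mod_cast he0.ne'
  generalize R29.tri (D.M / 2) k ((D.g * x * v.1 * v.2 * e : ℕ) : ℝ) = t
  generalize R29.ee ((k : ℝ) * D.X / ((D.g * x * v.1 * v.2 * e : ℕ) : ℝ)) = z
  push_cast
  field_simp

end Crest.Agent.R1
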