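import Crest.Agent.R1.GlueBa

/-!
# R1 / GlueBz: degenerate pairs and the trivial bound (proofs for `GlueB`)
-/

set_option autoImplicit false

namespace Crest.Agent.R1

open Finset Filter
open scoped Classical

lemma gbz_phi (y : ℝ) : 0 ≤ R29.cut y * y ∧ R29.cut y * y ≤ 32 := by
  by_cases h : R29.cut y = 0
  · simp [h]
  · obtain ⟨h1, h2⟩ := R29.cut_ne_zero h
    have h3 := R29.cut_nonneg y
    have h4 := R29.cut_le_one y
    constructor <;> nlinarith

lemma gbz_Wf {D : GD} (h : D.Ok) (v : ℕ × ℕ) (i : ℤ × ℕ) (v' : ℕ × ℕ) (i' : ℤ × ℕ) (x : ℝ) :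
    |D.Wf v i v' i' x| ≤ 32 := by
  by_cases hc : R29.cut (x / D.X0) = 0
  · simp [GD.Wf, hc]
  · have hX : (0 : ℝ) < D.X0 := by exact_mod_cast h.X0_pos
    have hx : 0 < x := by
      have := (R29.cut_ne_zero hc).1
      have h2 : 0 < x / D.X0 := by linarith
      exact (div_pos_iff_of_pos_right hX).1 h2
    have hM : 0 ≤ D.M / 2 := by linarith [h.M_ge]
    obtain ⟨a0, a1⟩ := gba_tri01 hM (M := D.g * x * nn v i) (by positivity) i.1
    obtain ⟨b0, b1⟩ := gba_tri01 hM (M := D.g * x * nn v' i') (by positivity) i'.1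
    obtain ⟨c0, c1⟩ := gbz_phi (x / D.X0)
    rw [GD.Wf, abs_of_nonneg (by positivity)]
    exact (mul_le_of_le_one_right (by positivity) b1).trans
      ((mul_le_of_le_one_right c0 a1).trans c1)

lemma gbz_box {D : GD} (h : D.Ok) {v : ℕ × ℕ} (hv : v ∈ D.VV) :
    v ∈ Ico D.U (2 * D.U) ×ˢ Ico D.T0 (2 * D.T0) := by
  obtain ⟨⟨-, a1, a2⟩, -, a3, a4⟩ := (h.VV_spec v hv).imp R29.mem_win.1 R29.mem_win.1
  simp only [mem_product, mem_Ico]
  exact ⟨⟨a1, a2⟩, a3, a4⟩

lemma gbz_pos {D : GD} (h : D.Ok) : 0 < D.T0 ∧ 0 < D.U := by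
  have := gba_G_lt_T0 h
  have := gba_T0_U h
  omega

lemma gbz_inv {D : GD} (h : D.Ok) {v : ℕ × ℕ} (hv : v ∈ D.VV) :
    1 / ((v.1 : ℝ) * v.2) ≤ 1 / (D.U * D.T0) := by
  obtain ⟨a, b⟩ := gbz_pos h
  have := gbz_box h hv
  simp only [mem_product, mem_Ico] at this
  refine one_div_le_one_div_of_le (by positivity) ?_
  exact_mod_cast Nat.mul_le_mul this.1.1 this.2.1

lemma gbz_sum {D : GD} (h : D.Ok) : ∑ v ∈ D.VV, 1 / ((v.1 : ℝ) * v.2) ≤ 1 := by
  obtain ⟨a, b⟩ := gbz_pos h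
  have h2 := card_le_card (fun v hv => gbz_box h hv : D.VV ⊆ _)
  rw [card_product, Nat.card_Ico, Nat.card_Ico, show 2 * D.U - D.U = D.U by omega,
    show 2 * D.T0 - D.T0 = D.T0 by omega] at h2
  have h3 : (D.VV.card : ℝ) ≤ D.U * D.T0 := by exact_mod_cast h2
  refine (sum_le_sum fun v hv => gbz_inv h hv).trans ?_
  rw [sum_const, nsmul_eq_mul, mul_one_div, div_le_one (by positivity)]
  exact h3

lemma gbz_PP {D : GD} (h : D.Ok) : (0 : ℝ) < D.PP.card ∧ (D.Q : ℝ) ≤ D.G * D.PP.card := by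
  have h1 := h.PP_card
  have h2 := gba_Q_ge h
  refine ⟨Nat.cast_pos.2 (Nat.pos_of_ne_zero fun h0 => ?_), by exact_mod_cast h1⟩
  rw [h0] at h1
  omega

lemma gbz_L {D : GD} (h : D.Ok) : 8000000 * D.L ≤ D.G ∧ (1 : ℝ) ≤ D.G := by
  have h1 := h.L_ge
  have h2 := h.G_ge
  have h3 : (200 : ℝ) ^ 3 ≤ D.L ^ 3 := by gcongr
  have h4 : 200 ^ 3 * D.L ≤ D.L ^ 3 * D.L := by gcongr
  constructor <;> nlinarith

/-- the sum of the primes of `PP` dividing a nonzero determinant -/
lemma gbz_psum {D : GD} (h : D.Ok) {v v' : ℕ × ℕ} (hv : v ∈ D.VV) (hv' : v' ∈ D.VV)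
    {i i' : ℤ × ℕ} (hi : i ∈ D.II) (hi' : i' ∈ D.II) (h0 : Dl v i v' i' ≠ 0) :
    ∑ π ∈ D.PP, (if (π : ℤ) ∣ Dl v i v' i' then (π : ℝ) else 0) ≤
      2 * D.G * D.L * D.PP.card := by
  have b1 := gbz_box h hv
  have b2 := gbz_box h hv'
  simp only [mem_product, mem_Ico] at b1 b2
  have h1 := gba_card_dvd h ⟨b1.1.2, b1.2.2⟩ ⟨b2.1.2, b2.2.2⟩ hi hi' h0
  have h2 := (gbz_PP h).2
  have h3 : 0 ≤ D.L := by linarith [h.L_ge]
  rw [← sum_filter]
  calc _ ≤ ∑ _π ∈ D.PP.filter (fun π : ℕ => (π : ℤ) ∣ Dl v i v' i'), (2 * D.Q : ℝ) :=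
        sum_le_sum fun π hπ => by exact_mod_cast (R29.mem_win.1 (mem_filter.1 hπ).1).2.2.le
    _ ≤ D.L * (2 * (D.G * D.PP.card)) := by
        rw [sum_const, nsmul_eq_mul]
        gcongr
    _ = _ := by ring

theorem gbz_off_triv {D : GD} (h : D.Ok) (a a' : ℤ × ℕ → ℝ) :
    ‖D.Off a a' R29.psi0‖ ≤ (D.G : ℝ) ^ 6 * D.w1 a * D.w1 a' := by
  obtain ⟨hP, -⟩ := gbz_PP h
  obtain ⟨hL, hG⟩ := gbz_L h
  have hL0 := h.L_ge
  have hw : 0 ≤ D.w1 a := sum_nonneg fun _ _ => abs_nonneg _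
  have hw' : 0 ≤ D.w1 a' := sum_nonneg fun _ _ => abs_nonneg _
  have hs0 : 0 ≤ ∑ v ∈ D.VV, 1 / ((v.1 : ℝ) * v.2) := sum_nonneg fun _ _ => by positivity
  calc _ ≤ ∑ v ∈ D.VV, ∑ v' ∈ D.VV, 1 / ((v.1 : ℝ) * v.2) * (1 / ((v'.1 : ℝ) * v'.2)) *
        ((D.G : ℝ) ^ 6 * D.w1 a * D.w1 a') := by
        refine norm_sum_le_of_le _ fun v hv => ?_
        refine le_trans (norm_sum_le_of_le _ fun v' hv' => ?_)
          (sum_le_sum_of_subset_of_nonneg (filter_subset _ _) fun _ _ _ => by positivity)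
        obtain ⟨hv', hne, -⟩ := mem_filter.1 hv'
        rw [norm_mul, Complex.norm_real, Real.norm_of_nonneg (by positivity)]
        refine mul_le_mul (le_of_eq (by rw [one_div_mul_one_div]; ring_nf)) ?_ (norm_nonneg _)
          (by positivity)
        rw [mul_assoc, GD.w1, GD.w1, sum_mul_sum, mul_sum]
        refine norm_sum_le_of_le _ fun i hi => ?_
        rw [mul_sum]
        refine norm_sum_le_of_le _ fun i' hi' => ?_
        rw [norm_mul, Complex.norm_real, Real.norm_eq_abs, abs_mul, mul_comm]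
        refine mul_le_mul_of_nonneg_right ?_ (by positivity)
        have h0 : Dl v i v' i' ≠ 0 := fun h0 =>
          hne (congrArg Prod.fst (gba_diag_eq h hv hv' hi hi' h0).1)
        have h1 := gbz_psum h hv hv' hi hi' h0
        calc _ ≤ ∑ _m ∈ R29.Ibar D.Z, 32 * (2 * D.G * D.L + 1) := by
              refine norm_sum_le_of_le _ fun m _ => ?_
              split_ifs
              · rw [norm_div, Complex.norm_natCast, div_le_iff₀ hP]
                calc _ ≤ ∑ π ∈ D.PP,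
                      ((if (π : ℤ) ∣ Dl v i v' i' then (π : ℝ) else 0) + 1) * 32 := by
                      refine norm_sum_le_of_le _ fun π _ => ?_
                      rw [norm_mul, norm_mul, R29.norm_ee, mul_one, Complex.norm_real,
                        Real.norm_eq_abs]
                      exact mul_le_mul (R29.gmom_norm_psi0 _ _) (gbz_Wf h _ _ _ _ _) (abs_nonneg _)
                        (by positivity)
                  _ ≤ _ := by
                      rw [← sum_mul, sum_add_distrib, sum_const, nsmul_eq_mul]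
                      linarith
              · rw [norm_zero]; positivity
          _ ≤ _ := by
              rw [sum_const, nsmul_eq_mul, R29.card_Ibar, GD.Z]
              push_cast
              have a1 : 1 ≤ D.G * D.L := one_le_mul_of_one_le_of_one_le hG (by linarith)
              have a2 : D.G * (8000000 * D.L) ≤ D.G * D.G := by gcongr
              calc _ ≤ (D.G : ℝ) ^ 4 * (D.G * D.G) := by
                    rw [show 2 * (3 * (D.G : ℝ) ^ 4) * (32 * (2 * D.G * D.L + 1)) =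
                      D.G ^ 4 * (192 * (2 * D.G * D.L + 1)) by ring]
                    exact mul_le_mul_of_nonneg_left (by linarith) (by positivity)
                _ = _ := by ring
    _ ≤ _ := by
        simp only [← sum_mul, ← mul_sum]
        exact mul_le_of_le_one_left (by positivity) (mul_le_one₀ (gbz_sum h) hs0 (gbz_sum h))

/-- few `x` with `x π ∣ Δ` -/
lemma gbz_xsum {Δ : ℤ} (hΔ : Δ ≠ 0) {π Z X0 : ℕ} (hπ : 0 < π) (hX : 0 < X0)
    (hb : |(Δ : ℝ)| ≤ Z * π * X0 / 2) :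
    ∑ x ∈ Icc 1 (32 * X0), (if ((x * π : ℕ) : ℤ) ∣ Δ then R29.cut ((x : ℝ) / X0) * x * π else 0) ≤
      32 * X0 * Z * (if (π : ℤ) ∣ Δ then (π : ℝ) else 0) := by
  have hXr : (0 : ℝ) < X0 := Nat.cast_pos.2 hX
  have hπr : (0 : ℝ) < π := Nat.cast_pos.2 hπ
  split_ifs with hd
  · set S := (Icc 1 (32 * X0)).filter
      (fun x : ℕ => ((x * π : ℕ) : ℤ) ∣ Δ ∧ R29.cut ((x : ℝ) / X0) ≠ 0) with hS
    have hN : 0 < Δ.natAbs := Int.natAbs_pos.2 hΔ
    have hc : S.card ≤ (Icc 1 Z).card := by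
      refine card_le_card_of_injOn (fun x => Δ.natAbs / (x * π)) (fun x hx => ?_)
        (fun x hx x' hx' he => ?_)
      · obtain ⟨a1, a2, a3⟩ := mem_filter.1 hx
        obtain ⟨m, hm⟩ := Int.natCast_dvd.1 a2
        have a4 : 0 < x * π := Nat.mul_pos (mem_Icc.1 a1).1 hπ
        have a5 : (X0 : ℝ) / 2 < x := by
          have := (R29.cut_ne_zero a3).1
          rw [lt_div_iff₀ hXr] at this
          linarith
        simp only [coe_Icc, Set.mem_Icc]
        rw [hm, Nat.mul_div_cancel_left _ a4]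
        refine ⟨Nat.pos_of_ne_zero fun h0 => by simp [h0] at hm; omega, ?_⟩
        have a6 : |(Δ : ℝ)| = x * π * m := by
          rw [← Int.cast_abs, ← Nat.cast_natAbs, hm]; push_cast; ring
        have a7 : (X0 : ℝ) / 2 * π * m ≤ x * π * m := by gcongr
        have a8 : (X0 : ℝ) / 2 * π * m ≤ X0 / 2 * π * Z := by linarith
        exact_mod_cast le_of_mul_le_mul_left a8 (by positivity)
      · have a1 := Int.natCast_dvd.1 (mem_filter.1 hx).2.1
        have a2 := Int.natCast_dvd.1 (mem_filter.1 hx').2.1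
        have a3 := Nat.mul_div_cancel' a1
        have a4 := Nat.mul_div_cancel' a2
        simp only at he
        rw [he] at a3
        have a5 : 0 < Δ.natAbs / (x' * π) := Nat.pos_of_ne_zero fun h0 => by
          rw [h0] at a4; omega
        exact Nat.eq_of_mul_eq_mul_right hπ (Nat.eq_of_mul_eq_mul_right a5 (a3.trans a4.symm))
    rw [Nat.card_Icc, Nat.add_sub_cancel] at hc
    have hc' : (S.card : ℝ) ≤ Z := by exact_mod_cast hc
    calc _ = ∑ x ∈ S, R29.cut ((x : ℝ) / X0) * x * π := by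
          rw [hS, sum_filter]
          refine sum_congr rfl fun x _ => ?_
          by_cases a : R29.cut ((x : ℝ) / X0) = 0 <;> simp [a]
      _ ≤ ∑ _x ∈ S, (32 * X0 * π : ℝ) := by
          refine sum_le_sum fun x hx => mul_le_mul_of_nonneg_right ?_ hπr.le
          have a1 : (x : ℝ) ≤ 32 * X0 := by exact_mod_cast (mem_Icc.1 (mem_filter.1 hx).1).2
          exact (mul_le_of_le_one_left (Nat.cast_nonneg _) (R29.cut_le_one _)).trans a1
      _ ≤ _ := by
          rw [sum_const, nsmul_eq_mul]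
          calc _ ≤ (Z : ℝ) * (32 * X0 * π) := by gcongr
            _ = _ := by ring
  · rw [mul_zero]
    refine le_of_eq (sum_eq_zero fun x _ => if_neg fun a => hd (Dvd.dvd.trans ?_ a))
    exact Int.natCast_dvd_natCast.2 (Dvd.intro_left _ rfl)

lemma gbz_degw {D : GD} (h : D.Ok) {v : ℕ × ℕ} :
    ∑ v' ∈ D.VV, (if v.1 = v'.1 ∨ v.2 = v'.2 then 1 / ((v'.1 : ℝ) * v'.2) else 0) ≤ 2 / D.T0 := by
  obtain ⟨a, b⟩ := gbz_pos h
  have c := gba_T0_U h
  have h1 : D.VV.filter (fun v' => v.1 = v'.1 ∨ v.2 = v'.2) ⊆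
      ({v.1} ×ˢ Ico D.T0 (2 * D.T0)) ∪ (Ico D.U (2 * D.U) ×ˢ {v.2}) := by
    intro w hw
    obtain ⟨a1, a2⟩ := mem_filter.1 hw
    have a3 := mem_product.1 (gbz_box h a1)
    rcases a2 with a2 | a2
    · exact mem_union_left _ (mem_product.2 ⟨mem_singleton.2 a2.symm, a3.2⟩)
    · exact mem_union_right _ (mem_product.2 ⟨a3.1, mem_singleton.2 a2.symm⟩)
  have h2 := (card_le_card h1).trans (card_union_le _ _)
  simp only [card_product, card_singleton, Nat.card_Ico] at h2
  have h3 : ((D.VV.filter (fun v' => v.1 = v'.1 ∨ v.2 = v'.2)).card : ℝ) ≤ 2 * D.U := by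
    exact_mod_cast (by omega)
  rw [← sum_filter]
  refine (sum_le_sum fun w hw => gbz_inv h (mem_filter.1 hw).1).trans ?_
  rw [sum_const, nsmul_eq_mul]
  calc _ ≤ 2 * D.U * (1 / ((D.U : ℝ) * D.T0)) := by gcongr
    _ = _ := by field_simp

theorem gbz_degen {D : GD} (h : D.Ok) :
    ‖D.Tot (fun v i v' i' => Dl v i v' i' ≠ 0 ∧ (v.1 = v'.1 ∨ v.2 = v'.2))‖ ≤ D.X0 / D.G := by
  obtain ⟨hP, -⟩ := gbz_PP h
  obtain ⟨hL, hG⟩ := gbz_L h
  obtain ⟨hT, hU⟩ := gbz_pos h
  have hL0 := h.L_ge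
  set K : ℝ := 32 * D.X0 * D.Z * (2 * D.G * D.L * D.PP.card) with hK
  have hK0 : 0 ≤ K := by positivity
  set w : ℕ × ℕ → ℤ × ℕ → ℕ × ℕ → ℤ × ℕ → ℝ := fun v i v' i' =>
    1 / ((v.1 : ℝ) * v.2) * |D.a0 i| *
      (if v.1 = v'.1 ∨ v.2 = v'.2 then 1 / ((v'.1 : ℝ) * v'.2) else 0) * |D.a0 i'| with hw
  have hw0 : ∀ v i v' i', 0 ≤ w v i v' i' := fun v i v' i' => by simp only [hw]; positivity
  set f : ℕ → ℕ → ℕ × ℕ → ℤ × ℕ → ℕ × ℕ → ℤ × ℕ → ℝ := fun π x v i v' i' =>
    if Dl v i v' i' ≠ 0 then w v i v' i' *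
      (if ((x * π : ℕ) : ℤ) ∣ Dl v i v' i' then R29.cut ((x : ℝ) / D.X0) * x * π else 0)
    else 0 with hf
  rw [GD.Tot, norm_div, Complex.norm_natCast, div_le_iff₀ hP]
  calc _ ≤ ∑ π ∈ D.PP, ∑ x ∈ Icc 1 (32 * D.X0), ∑ v ∈ D.VV, ∑ i ∈ D.II, ∑ v' ∈ D.VV, ∑ i' ∈ D.II,
        f π x v i v' i' := by
        refine norm_sum_le_of_le _ fun π _ => norm_sum_le_of_le _ fun x _ => ?_
        simp only [mul_sum]
        refine norm_sum_le_of_le _ fun v _ => norm_sum_le_of_le _ fun i _ =>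
          norm_sum_le_of_le _ fun v' _ => norm_sum_le_of_le _ fun i' _ => ?_
        have c0 := R29.cut_nonneg ((x : ℝ) / D.X0)
        by_cases c : Nat.Coprime x (nn v i) ∧ Nat.Coprime x (nn v' i') ∧
            ((x * π : ℕ) : ℤ) ∣ Dl v i v' i' ∧ Dl v i v' i' ≠ 0 ∧ (v.1 = v'.1 ∨ v.2 = v'.2)
        · rw [if_pos c]
          simp only [hf, hw, if_pos c.2.2.1, if_pos c.2.2.2.1, if_pos c.2.2.2.2]
          rw [norm_mul, norm_mul, RCLike.norm_conj, Complex.norm_real,
            Real.norm_of_nonneg (by positivity), mul_comm]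
          refine mul_le_mul_of_nonneg_right ?_ (by positivity)
          refine (mul_le_mul (gba_norm_bb h x v i) (gba_norm_bb h x v' i') (norm_nonneg _)
            (by positivity)).trans (le_of_eq (by ring))
        · rw [if_neg c, mul_zero, norm_zero]
          have := hw0 v i v' i'
          simp only [hf]
          positivity
    _ = ∑ v ∈ D.VV, ∑ i ∈ D.II, ∑ v' ∈ D.VV, ∑ i' ∈ D.II, ∑ π ∈ D.PP, ∑ x ∈ Icc 1 (32 * D.X0),
        f π x v i v' i' := by
        rw [← sum_product', sum_comm]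
        refine sum_congr rfl fun v _ => ?_
        rw [sum_comm]
        refine sum_congr rfl fun i _ => ?_
        rw [sum_comm]
        refine sum_congr rfl fun v' _ => ?_
        rw [sum_comm]
        refine sum_congr rfl fun i' _ => ?_
        exact sum_product' _ _ (fun π x => f π x v i v' i')
    _ ≤ ∑ v ∈ D.VV, ∑ i ∈ D.II, ∑ v' ∈ D.VV, ∑ i' ∈ D.II, w v i v' i' * K := by
        refine sum_le_sum fun v hv => sum_le_sum fun i hi => sum_le_sum fun v' hv' =>
          sum_le_sum fun i' hi' => ?_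
        by_cases h0 : Dl v i v' i' ≠ 0
        · simp only [hf, if_pos h0, ← mul_sum]
          refine mul_le_mul_of_nonneg_left ?_ (hw0 _ _ _ _)
          refine le_trans (sum_le_sum fun π hπ => gbz_xsum (Z := D.Z) h0 (R29.mem_win.1 hπ).1.pos
            h.X0_pos ?_) ?_
          · have b1 := gbz_box h hv
            have b2 := gbz_box h hv'
            simp only [mem_product, mem_Ico] at b1 b2
            have c1 := gba_Dl_le h ⟨b1.1.2.le, b1.2.2.le⟩ hi hi'
            have c2 := gba_Dl_le h ⟨b2.1.2.le, b2.2.2.le⟩ hi' hi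
            have c3 : (D.Q : ℝ) ≤ π := by exact_mod_cast (R29.mem_win.1 hπ).2.1
            have c4 : (D.Z : ℝ) * D.Q * D.X0 ≤ D.Z * π * D.X0 := by gcongr
            rw [Dl]
            push_cast
            refine (abs_sub _ _).trans ?_
            rw [abs_mul, abs_mul, Nat.abs_cast, Nat.abs_cast]
            linarith
          · rw [← mul_sum]
            exact mul_le_mul_of_nonneg_left (gbz_psum h hv hv' hi hi' h0) (by positivity)
        · simp only [hf, if_neg h0, sum_const_zero]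
          exact mul_nonneg (hw0 _ _ _ _) hK0
    _ ≤ 1 * (2 * D.G) * (2 / D.T0) * (2 * D.G) * K := by
        simp only [← sum_mul]
        refine mul_le_mul_of_nonneg_right ?_ hK0
        have a0 : 0 ≤ D.w1 D.a0 := sum_nonneg fun _ _ => abs_nonneg _
        have a1 := gba_w1_le h
        calc _ ≤ ∑ v ∈ D.VV, ∑ i ∈ D.II,
              1 / ((v.1 : ℝ) * v.2) * |D.a0 i| * (2 / D.T0) * D.w1 D.a0 := by
              refine sum_le_sum fun v _ => sum_le_sum fun i _ => ?_
              simp only [hw, ← mul_sum, ← sum_mul]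
              rw [GD.w1]
              gcongr
              exact gbz_degw h
          _ = (∑ v ∈ D.VV, 1 / ((v.1 : ℝ) * v.2)) * D.w1 D.a0 * (2 / D.T0) * D.w1 D.a0 := by
              simp only [← mul_sum, ← sum_mul]
              rfl
          _ ≤ _ := by gcongr; exact gbz_sum h
    _ ≤ _ := by
        have a1 : (D.G : ℝ) ^ 70 ≤ D.T0 := by exact_mod_cast h.T0_ge
        have a2 : (D.G : ℝ) ^ 9 ≤ D.G ^ 70 := pow_le_pow_right₀ hG (by norm_num)
        have hTr : (0 : ℝ) < D.T0 := Nat.cast_pos.2 hT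
        have e : 1 * (2 * D.G) * (2 / D.T0) * (2 * D.G) * K =
            D.X0 / D.G * D.PP.card * (D.G ^ 8 * (1536 * D.L) / D.T0) := by
          rw [hK, GD.Z]; push_cast; field_simp; ring
        rw [e]
        refine mul_le_of_le_one_right (by positivity) ?_
        rw [div_le_one hTr]
        calc _ ≤ (D.G : ℝ) ^ 8 * D.G := by gcongr; linarith
          _ = D.G ^ 9 := by ring
          _ ≤ _ := a2.trans a1

end Crest.Agent.R1
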