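import Crest.Agent.R1.GDefs
import Crest.Agent.R1.GlueBz

/-!
# R1 / GlueB: norms of the coefficients, diagonal and degenerate terms
-/

set_option autoImplicit false

namespace Crest.Agent.R1

open Finset Filter
open scoped Classical

/-- `∑_e (1/e) (24 e / T') ≤ 24 E / T'` -/
theorem GD.Ok.w1_le {D : GD} (h : D.Ok) : D.w1 D.a0 ≤ 2 * D.G :=
  gba_w1_le h

/-- write `k/e = k₀/c₀` in lowest terms, `e = c₀ b`, `b ≤ G`, `T' |k₀| ≤ 12 c₀`: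
`≤ (24/T') (1 + log E)(1 + log G)²` -/
theorem GD.Ok.kap_le {D : GD} (h : D.Ok) : D.kap D.a0 ≤ D.G / D.Tp :=
  gba_kap_le h

/-- at most `L` primes of `PP` divide a nonzero determinant -/
theorem GD.Ok.card_dvd {D : GD} (h : D.Ok) {v v' : ℕ × ℕ} (hv : v.1 < 2 * D.U ∧ v.2 < 2 * D.T0)
    (hv' : v'.1 < 2 * D.U ∧ v'.2 < 2 * D.T0) {i i' : ℤ × ℕ} (hi : i ∈ D.II) (hi' : i' ∈ D.II)
    (h0 : Dl v i v' i' ≠ 0) :
    ((D.PP.filter (fun π : ℕ => (π : ℤ) ∣ Dl v i v' i')).card : ℝ) ≤ D.L :=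
  gba_card_dvd h hv hv' hi hi' h0

/-- size of the determinant -/
theorem GD.Ok.Dl_le {D : GD} (h : D.Ok) {v : ℕ × ℕ} (hv : v.1 ≤ 2 * D.U ∧ v.2 ≤ 2 * D.T0)
    {i i' : ℤ × ℕ} (hi : i ∈ D.II) (hi' : i' ∈ D.II) :
    |(i'.1 : ℝ)| * nn v i ≤ D.Z * D.Q * D.X0 / 4 :=
  gba_Dl_le h hv hi hi'

/-- `Δ = 0` forces `v = v'` and `k e' = k' e` -/
theorem GD.Ok.diag {D : GD} (h : D.Ok) :
    ‖D.Tot (fun v i v' i' => Dl v i v' i' = 0)‖ ≤ 2048 * D.X0 / D.G :=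
  gba_diag h

/-- pairs with `u = u'` or `t = t'` have weight `≤ 2/T0`; for `Δ ≠ 0` at most `L · 2Z` pairs `(π, x)` -/
theorem GD.Ok.degen {D : GD} (h : D.Ok) :
    ‖D.Tot (fun v i v' i' => Dl v i v' i' ≠ 0 ∧ (v.1 = v'.1 ∨ v.2 = v'.2))‖ ≤ D.X0 / D.G :=
  gbz_degen h

/-- trivial bound, for arbitrary coefficients (`0 ≤ Wf ≤ 32`, `‖psi0‖ ≤ π [π ∣ Δ] + 1`) -/
theorem GD.Ok.off_triv {D : GD} (h : D.Ok) (a a' : ℤ × ℕ → ℝ) :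
    ‖D.Off a a' R29.psi0‖ ≤ (D.G : ℝ) ^ 6 * D.w1 a * D.w1 a' :=
  gbz_off_triv h a a'

end Crest.Agent.R1
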