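import Crest.Agent.R1.GDefs

/-!
# R1 / GlueBa: norms of the coefficients and the diagonal (proofs for `GlueB`)
-/

set_option autoImplicit false

namespace Crest.Agent.R1

open Finset Filter
open scoped Classical

/-! ### numerical consequences of `Ok` -/

lemma gba_G_ge {D : GD} (h : D.Ok) : (200 : ℝ) ^ 4 ≤ D.G :=
  le_trans (pow_le_pow_left₀ (by norm_num) h.L_ge 4) h.G_ge

lemma gba_G_two {D : GD} (h : D.Ok) : 2 ≤ D.G := by
  have h1 := gba_G_ge h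
  have : (2 : ℝ) ≤ D.G := le_trans (by norm_num) h1
  exact_mod_cast this

lemma gba_G_lt_T0 {D : GD} (h : D.Ok) : D.G < D.T0 := by
  have h2 := gba_G_two h
  have h3 : D.G ^ 1 < D.G ^ 70 := Nat.pow_lt_pow_right (by omega) (by norm_num)
  have h4 := h.T0_ge
  rw [pow_one] at h3
  omega

lemma gba_E_lt_T0 {D : GD} (h : D.Ok) : D.E < D.T0 := by
  have h2 := gba_G_two h
  have h3 := gba_G_lt_T0 h
  have h4 := h.E_le
  have h5 : 2 * D.E ≤ D.G * D.E := Nat.mul_le_mul_right _ h2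
  omega

lemma gba_T0_U {D : GD} (h : D.Ok) : 2 * D.T0 ≤ D.U := by
  have h1 := h.Q_ge
  have h2 := h.U_ge
  have h3 : D.T0 ≤ D.T0 ^ 2 := by nlinarith
  omega

lemma gba_Q_ge {D : GD} (h : D.Ok) : 21 ≤ D.Q := by
  have h1 := h.Q_ge
  have h2 := gba_G_lt_T0 h
  have h3 : 1 ≤ D.T0 ^ 2 := Nat.one_le_pow _ _ (by omega)
  omega

lemma gba_Tp_pos {D : GD} (h : D.Ok) : 0 < D.Tp := lt_of_lt_of_le one_pos h.Tp_ge

lemma gba_mem_II {D : GD} {i : ℤ × ℕ} :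
    i ∈ D.II ↔ (i.1 ≠ 0 ∧ |i.1| ≤ D.G) ∧ i.2 ∈ D.EE ∧ |(i.1 : ℝ)| * D.Tp ≤ 12 * i.2 := by
  simp only [GD.II, mem_filter, mem_product, R29.mem_Ibar, and_assoc]

lemma gba_e_pos {D : GD} (h : D.Ok) {e : ℕ} (he : e ∈ D.EE) : 0 < e :=
  Nat.pos_of_ne_zero (h.EE_spec e he).1.ne_zero

lemma gba_a0_le {D : GD} (h : D.Ok) {i : ℤ × ℕ} (hi : i ∈ D.II) : |D.a0 i| ≤ 1 / (i.2 : ℝ) := by
  have he := (gba_mem_II.1 hi).2.1
  rw [GD.a0, abs_div, Nat.abs_cast]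
  exact div_le_div_of_nonneg_right (h.EE_spec _ he).2.2 (Nat.cast_nonneg _)

lemma gba_card_freq (N : ℕ) {T y : ℝ} (hT : 0 < T) (hy : 0 ≤ y) :
    (((R29.Ibar N).filter (fun k : ℤ => |(k : ℝ)| * T ≤ y)).card : ℝ) ≤ 2 * y / T := by
  have hsub : (R29.Ibar N).filter (fun k : ℤ => |(k : ℝ)| * T ≤ y) ⊆ R29.Ibar ⌊y / T⌋₊ := by
    intro k hk
    rw [mem_filter, R29.mem_Ibar] at hk
    rw [R29.mem_Ibar]
    refine ⟨hk.1.1, ?_⟩
    have h1 : ((k.natAbs : ℕ) : ℝ) ≤ y / T := by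
      rw [le_div_iff₀ hT, Nat.cast_natAbs, Int.cast_abs]
      exact hk.2
    have h2 := Nat.le_floor h1
    rw [← Int.natCast_natAbs]
    exact_mod_cast h2
  have h1 := card_le_card hsub
  rw [R29.card_Ibar] at h1
  have h2 : ((⌊y / T⌋₊ : ℕ) : ℝ) ≤ y / T := Nat.floor_le (div_nonneg hy hT.le)
  have h3 : (((R29.Ibar N).filter (fun k : ℤ => |(k : ℝ)| * T ≤ y)).card : ℝ) ≤
      ((2 * ⌊y / T⌋₊ : ℕ) : ℝ) := by exact_mod_cast h1
  rw [mul_div_assoc]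
  push_cast at h3
  linarith

/-! ### the `ℓ¹` norm -/

theorem gba_w1_le {D : GD} (h : D.Ok) : D.w1 D.a0 ≤ 2 * D.G := by
  have hT := gba_Tp_pos h
  have h1 : D.w1 D.a0 ≤ ∑ i ∈ D.II, 1 / (i.2 : ℝ) := sum_le_sum fun i hi => gba_a0_le h hi
  have h2 : ∑ i ∈ D.II, 1 / (i.2 : ℝ) ≤ ∑ e ∈ D.EE, 24 / D.Tp := by
    rw [GD.II, sum_filter, sum_product_right]
    refine sum_le_sum fun e he => ?_
    have he0 : (0 : ℝ) < e := by exact_mod_cast gba_e_pos h he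
    dsimp only
    rw [← sum_filter, sum_const, nsmul_eq_mul]
    have h3 := gba_card_freq D.G hT (y := 12 * (e : ℝ)) (by positivity)
    calc _ ≤ 2 * (12 * (e : ℝ)) / D.Tp * (1 / (e : ℝ)) :=
          mul_le_mul_of_nonneg_right h3 (by positivity)
      _ = 24 / D.Tp := by field_simp; ring
  have h3 : D.EE.card ≤ D.E := by
    have : D.EE ⊆ Icc 1 D.E := fun e he => mem_Icc.2 ⟨gba_e_pos h he, (h.EE_spec e he).2.1⟩
    simpa using card_le_card this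
  have h4 : (D.EE.card : ℝ) ≤ D.E := by exact_mod_cast h3
  rw [sum_const, nsmul_eq_mul] at h2
  have h5 : (D.EE.card : ℝ) * (24 / D.Tp) ≤ 2 * D.G := by
    rw [← mul_div_assoc, div_le_iff₀ hT]
    have := h.E_le'
    nlinarith
  linarith

/-! ### the `ℓ²` norm -/

lemma gba_decomp {k k' : ℤ} {e e' : ℕ} (hk : k ≠ 0) (he : 0 < e) (he' : 0 < e')
    (hh : k * e' = k' * e) :
    ∃ (c b b' : ℕ) (k0 : ℤ), 0 < c ∧ 0 < b ∧ 0 < b' ∧ k0 ≠ 0 ∧ k = k0 * b ∧ e = c * b ∧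
      k' = k0 * b' ∧ e' = c * b' := by
  have hg : 0 < Int.gcd k e := Int.gcd_pos_of_ne_zero_left _ hk
  obtain ⟨k0, c', hcop, h1, h2⟩ := Int.exists_gcd_one hg
  set b := Int.gcd k e with hb
  have hb0 : (0 : ℤ) < b := by exact_mod_cast hg
  have hc' : 0 < c' := by
    have : (0 : ℤ) < c' * b := by rw [← h2]; exact_mod_cast he
    exact (mul_pos_iff_of_pos_right hb0).1 this
  obtain ⟨c, rfl⟩ := Int.eq_ofNat_of_zero_le hc'.le
  have h3 : k0 * e' = k' * c := by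
    have : (k0 * e') * b = (k' * c) * b := by
      calc (k0 * e') * b = (k0 * b) * e' := by ring
        _ = k * e' := by rw [← h1]
        _ = k' * e := hh
        _ = k' * (c * b) := by rw [← h2]
        _ = _ := by ring
    exact mul_right_cancel₀ hb0.ne' this
  have h4 : (c : ℤ) ∣ (e' : ℤ) := by
    have hc : IsCoprime (c : ℤ) k0 := (Int.isCoprime_iff_gcd_eq_one.2 hcop).symm
    exact hc.dvd_of_dvd_mul_left ⟨k', by rw [h3]; ring⟩
  obtain ⟨b', hb'⟩ := Int.natCast_dvd_natCast.1 h4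
  have hcpos : 0 < c := by exact_mod_cast hc'
  refine ⟨c, b, b', k0, hcpos, hg, ?_, ?_, h1, by exact_mod_cast h2, ?_, hb'⟩
  · rcases Nat.eq_zero_or_pos b' with h0 | h0
    · rw [h0, mul_zero] at hb'; omega
    · exact h0
  · rintro rfl
    exact hk (by simpa using h1)
  · have : k' * c = (k0 * b') * c := by
      rw [← h3, hb']; push_cast; ring
    exact mul_right_cancel₀ hc'.ne' this

lemma gba_le_of_mul {k0 : ℤ} {b G : ℕ} (hk0 : k0 ≠ 0) (hb : 0 < b) (h : |k0 * b| ≤ G) :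
    b ≤ G ∧ |k0| ≤ G := by
  rw [abs_mul, Nat.abs_cast] at h
  have h1 : 1 ≤ |k0| := Int.one_le_abs hk0
  have h2 : (1 : ℤ) ≤ b := by exact_mod_cast hb
  constructor
  · have : (b : ℤ) ≤ G := by nlinarith
    exact_mod_cast this
  · nlinarith

lemma gba_logs {D : GD} (h : D.Ok) (hE : 0 < D.E) :
    1 + Real.log D.G ≤ D.L ∧ 1 + Real.log D.E ≤ D.L := by
  have hG : (1 : ℝ) ≤ D.G := by exact_mod_cast le_trans one_le_two (gba_G_two h)
  have hE' : (1 : ℝ) ≤ D.E := by exact_mod_cast hE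
  have hT : (1 : ℝ) ≤ D.T0 := by
    have := gba_G_lt_T0 h
    exact_mod_cast (by omega : 1 ≤ D.T0)
  have hU : (1 : ℝ) ≤ D.U := by
    have := gba_G_lt_T0 h
    have := gba_T0_U h
    exact_mod_cast (by omega : 1 ≤ D.U)
  have hUT : (1 : ℝ) ≤ D.U * D.T0 := one_le_mul_of_one_le_of_one_le hU hT
  have he : Real.exp 1 ≤ 8 := le_trans Real.exp_one_lt_d9.le (by norm_num)
  have hl := h.log_le
  have key : ∀ z : ℝ, 1 ≤ z → 8 * z ≤ Real.exp D.L → 1 + Real.log z ≤ D.L := by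
    intro z hz hz'
    have h1 : Real.exp (1 + Real.log z) ≤ Real.exp D.L := by
      rw [Real.exp_add, Real.exp_log (by linarith)]
      nlinarith
    exact Real.exp_le_exp.1 h1
  have hGE : (1 : ℝ) ≤ D.G * D.E := one_le_mul_of_one_le_of_one_le hG hE'
  constructor
  · refine key _ hG (le_trans ?_ hl)
    have : (1 : ℝ) ≤ D.E * (D.U * D.T0) := one_le_mul_of_one_le_of_one_le hE' hUT
    nlinarith
  · refine key _ hE' (le_trans ?_ hl)
    have : (1 : ℝ) ≤ D.G * (D.U * D.T0) := one_le_mul_of_one_le_of_one_le hG hUT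
    nlinarith

theorem gba_kap_le {D : GD} (h : D.Ok) : D.kap D.a0 ≤ D.G / D.Tp := by
  have hT := gba_Tp_pos h
  rcases Nat.eq_zero_or_pos D.E with hE | hE
  · have : D.II = ∅ := by
      refine eq_empty_of_forall_notMem fun i hi => ?_
      have he := (gba_mem_II.1 hi).2.1
      have h1 := gba_e_pos h he
      have h2 := (h.EE_spec _ he).2.1
      omega
    rw [GD.kap, this, sum_empty]
    positivity
  obtain ⟨hlG, hlE⟩ := gba_logs h hE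
  set A : Finset (ℕ × ℤ) := (Icc 1 D.E ×ˢ R29.Ibar D.G).filter
    (fun s => |(s.2 : ℝ)| * D.Tp ≤ 12 * s.1) with hA
  set S : Finset ((ℕ × ℤ) × ℕ × ℕ) := A ×ˢ (Icc 1 D.G ×ˢ Icc 1 D.G) with hS
  set φ : (ℕ × ℤ) × ℕ × ℕ → (ℤ × ℕ) × (ℤ × ℕ) :=
    fun s => ((s.1.2 * s.2.1, s.1.1 * s.2.1), (s.1.2 * s.2.2, s.1.1 * s.2.2)) with hφ
  set f : (ℤ × ℕ) × (ℤ × ℕ) → ℝ := fun p => 1 / (p.1.2 : ℝ) * (1 / (p.2.2 : ℝ)) with hf
  have hf0 : ∀ p, 0 ≤ f p := fun p => by simp only [hf]; positivity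
  have h1 : D.kap D.a0 ≤ ∑ p ∈ (D.II ×ˢ D.II).filter
      (fun p : (ℤ × ℕ) × (ℤ × ℕ) => p.1.1 * p.2.2 = p.2.1 * p.1.2), f p := by
    rw [sum_filter, sum_product, GD.kap]
    refine sum_le_sum fun i hi => sum_le_sum fun i' hi' => ?_
    split_ifs
    · exact mul_le_mul (gba_a0_le h hi) (gba_a0_le h hi') (abs_nonneg _) (by positivity)
    · exact le_rfl
  have h2 : (D.II ×ˢ D.II).filter
      (fun p : (ℤ × ℕ) × (ℤ × ℕ) => p.1.1 * p.2.2 = p.2.1 * p.1.2) ⊆ S.image φ := by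
    rintro ⟨⟨k, e⟩, ⟨k', e'⟩⟩ hp
    rw [mem_filter, mem_product, gba_mem_II, gba_mem_II] at hp
    obtain ⟨⟨⟨⟨hk, hkG⟩, he, hke⟩, ⟨⟨-, hkG'⟩, he', -⟩⟩, hh⟩ := hp
    dsimp only at hk hkG he hke hkG' he' hh
    obtain ⟨c, b, b', k0, hc, hb, hb', hk0, e1, e2, e3, e4⟩ :=
      gba_decomp hk (gba_e_pos h he) (gba_e_pos h he') hh
    refine mem_image.2 ⟨((c, k0), b, b'), ?_, by simp only [hφ, e1, e2, e3, e4]⟩
    rw [e1] at hkG
    rw [e3] at hkG'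
    obtain ⟨g1, g2⟩ := gba_le_of_mul hk0 hb hkG
    obtain ⟨g3, -⟩ := gba_le_of_mul hk0 hb' hkG'
    have g4 : c ≤ D.E := le_trans (by rw [e2]; exact Nat.le_mul_of_pos_right _ hb)
      (h.EE_spec _ he).2.1
    have g5 : |(k0 : ℝ)| * D.Tp ≤ 12 * c := by
      have hb0 : (0 : ℝ) < b := by exact_mod_cast hb
      rw [e1, e2] at hke
      push_cast at hke
      rw [abs_mul, Nat.abs_cast] at hke
      refine le_of_mul_le_mul_right ?_ hb0
      linarith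
    simp only [hS, hA, mem_product, mem_filter, mem_Icc, R29.mem_Ibar]
    exact ⟨⟨⟨⟨hc, g4⟩, hk0, g2⟩, g5⟩, ⟨hb, g1⟩, hb', g3⟩
  have h3 : ∑ p ∈ S.image φ, f p ≤ ∑ s ∈ S, f (φ s) := sum_image_le_of_nonneg fun p _ => hf0 p
  have h4 : ∑ s ∈ S, f (φ s) = (∑ a ∈ A, 1 / (a.1 : ℝ) ^ 2) *
      ((∑ b ∈ Icc 1 D.G, 1 / (b : ℝ)) * ∑ b ∈ Icc 1 D.G, 1 / (b : ℝ)) := by
    rw [hS, sum_product, sum_mul_sum, sum_mul]
    refine sum_congr rfl fun a _ => ?_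
    rw [sum_product, mul_sum]
    refine sum_congr rfl fun b _ => ?_
    rw [mul_sum]
    refine sum_congr rfl fun b' _ => ?_
    simp only [hf, hφ]
    push_cast
    ring
  have h5 : ∑ a ∈ A, 1 / (a.1 : ℝ) ^ 2 ≤ 24 / D.Tp * ∑ c ∈ Icc 1 D.E, 1 / (c : ℝ) := by
    rw [hA, sum_filter, sum_product, mul_sum]
    refine sum_le_sum fun c hc => ?_
    have hc0 : (0 : ℝ) < c := by exact_mod_cast (mem_Icc.1 hc).1
    dsimp only
    rw [← sum_filter, sum_const, nsmul_eq_mul]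
    have h6 := gba_card_freq D.G hT (y := 12 * (c : ℝ)) (by positivity)
    calc _ ≤ 2 * (12 * (c : ℝ)) / D.Tp * (1 / (c : ℝ) ^ 2) :=
          mul_le_mul_of_nonneg_right h6 (by positivity)
      _ = _ := by field_simp; ring
  have hL : 0 ≤ D.L := le_trans (by norm_num) h.L_ge
  have h6 : ∑ b ∈ Icc 1 D.G, 1 / (b : ℝ) ≤ D.L := le_trans (R29.gmom_harm _) hlG
  have h7 : ∑ b ∈ Icc 1 D.E, 1 / (b : ℝ) ≤ D.L := le_trans (R29.gmom_harm _) hlE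
  have h8 : 0 ≤ ∑ b ∈ Icc 1 D.G, 1 / (b : ℝ) := sum_nonneg fun _ _ => by positivity
  have h9 : ∑ s ∈ S, f (φ s) ≤ 24 / D.Tp * D.L * (D.L * D.L) := by
    rw [h4]
    refine mul_le_mul (le_trans h5 (mul_le_mul_of_nonneg_left h7 (by positivity)))
      (mul_le_mul h6 h6 h8 hL) (mul_nonneg h8 h8) (by positivity)
  have h10 : 24 / D.Tp * D.L * (D.L * D.L) ≤ D.G / D.Tp := by
    have e : 24 / D.Tp * D.L * (D.L * D.L) = 24 * D.L ^ 3 / D.Tp := by ring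
    rw [e]
    refine div_le_div_of_nonneg_right (le_trans ?_ h.G_ge) hT.le
    have : D.L ^ 4 = D.L * D.L ^ 3 := by ring
    rw [this]
    exact mul_le_mul_of_nonneg_right (le_trans (by norm_num) h.L_ge) (by positivity)
  exact h1.trans ((sum_le_sum_of_subset_of_nonneg h2 fun p _ _ => hf0 p).trans
    (h3.trans (h9.trans h10)))

/-! ### the determinant -/

lemma gba_term_le {D : GD} (h : D.Ok) {v : ℕ × ℕ} (hv : v.1 ≤ 2 * D.U ∧ v.2 ≤ 2 * D.T0)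
    {i i' : ℤ × ℕ} (hi : i ∈ D.II) (hi' : i' ∈ D.II) :
    |(i'.1 : ℝ)| * nn v i ≤ D.G * (D.E * (2 * D.U) * (2 * D.T0)) := by
  have h1 : |(i'.1 : ℝ)| ≤ D.G := by exact_mod_cast (gba_mem_II.1 hi').1.2
  have h2 : nn v i ≤ D.E * (2 * D.U) * (2 * D.T0) :=
    Nat.mul_le_mul (Nat.mul_le_mul (h.EE_spec _ (gba_mem_II.1 hi).2.1).2.1 hv.1) hv.2
  have h3 : (nn v i : ℝ) ≤ D.E * (2 * D.U) * (2 * D.T0) := by exact_mod_cast h2
  exact mul_le_mul h1 h3 (Nat.cast_nonneg _) (Nat.cast_nonneg _)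

theorem gba_card_dvd {D : GD} (h : D.Ok) {v v' : ℕ × ℕ} (hv : v.1 < 2 * D.U ∧ v.2 < 2 * D.T0)
    (hv' : v'.1 < 2 * D.U ∧ v'.2 < 2 * D.T0) {i i' : ℤ × ℕ} (hi : i ∈ D.II) (hi' : i' ∈ D.II)
    (h0 : Dl v i v' i' ≠ 0) :
    ((D.PP.filter (fun π : ℕ => (π : ℤ) ∣ Dl v i v' i')).card : ℝ) ≤ D.L := by
  set F := D.PP.filter (fun π : ℕ => (π : ℤ) ∣ Dl v i v' i') with hF
  have hFm : ∀ p ∈ F, p.Prime ∧ 3 ≤ p ∧ p ∣ (Dl v i v' i').natAbs := by
    intro p hp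
    rw [hF, mem_filter, GD.PP, R29.mem_win] at hp
    have := gba_Q_ge h
    exact ⟨hp.1.1, by omega, Int.natCast_dvd.1 hp.2⟩
  have h1 : ∏ p ∈ F, p ∣ (Dl v i v' i').natAbs :=
    Finset.prod_primes_dvd _ (fun p hp => (hFm p hp).1.prime) (fun p hp => (hFm p hp).2.2)
  have h2 : 3 ^ F.card ≤ (Dl v i v' i').natAbs :=
    le_trans (Finset.pow_card_le_prod _ _ _ fun p hp => (hFm p hp).2.1)
      (Nat.le_of_dvd (Int.natAbs_pos.2 h0) h1)
  have h3 : (3 : ℝ) ^ F.card ≤ |(Dl v i v' i' : ℝ)| := by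
    have : ((3 ^ F.card : ℕ) : ℝ) ≤ ((Dl v i v' i').natAbs : ℝ) := by exact_mod_cast h2
    rwa [Nat.cast_natAbs, Int.cast_abs, Nat.cast_pow, Nat.cast_ofNat] at this
  have h4 : |(Dl v i v' i' : ℝ)| ≤ Real.exp D.L := by
    have g1 := gba_term_le h ⟨hv.1.le, hv.2.le⟩ hi hi'
    have g2 := gba_term_le h ⟨hv'.1.le, hv'.2.le⟩ hi' hi
    have g3 : |(Dl v i v' i' : ℝ)| ≤ |(i.1 : ℝ)| * nn v' i' + |(i'.1 : ℝ)| * nn v i := by
      rw [Dl]
      push_cast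
      refine le_trans (abs_sub _ _) ?_
      rw [abs_mul, abs_mul, Nat.abs_cast, Nat.abs_cast]
    have g4 := h.log_le
    linarith
  have h5 : Real.exp (F.card : ℝ) ≤ (3 : ℝ) ^ F.card := by
    rw [← Real.exp_one_pow]
    exact pow_le_pow_left₀ (Real.exp_pos _).le
      (le_trans Real.exp_one_lt_d9.le (by norm_num)) _
  exact Real.exp_le_exp.1 (h5.trans (h3.trans h4))

theorem gba_Dl_le {D : GD} (h : D.Ok) {v : ℕ × ℕ} (hv : v.1 ≤ 2 * D.U ∧ v.2 ≤ 2 * D.T0)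
    {i i' : ℤ × ℕ} (hi : i ∈ D.II) (hi' : i' ∈ D.II) :
    |(i'.1 : ℝ)| * nn v i ≤ D.Z * D.Q * D.X0 / 4 := by
  refine le_trans (gba_term_le h hv hi hi') ?_
  have h1 := h.E_le'
  have h2 := h.Q_lo
  have hG : (0 : ℝ) ≤ D.G := Nat.cast_nonneg _
  have hUT : (0 : ℝ) ≤ D.U * D.T0 := by positivity
  have h3 : (D.G : ℝ) * (D.U * D.T0) * (12 * D.E) ≤ D.G * (D.U * D.T0) * (D.Tp * D.G) :=
    mul_le_mul_of_nonneg_left h1 (mul_nonneg hG hUT)
  have h4 : (D.G : ℝ) ^ 2 * (D.U * D.T0 * D.Tp) ≤ D.G ^ 2 * (2 * D.Q * D.X0 * (D.G : ℝ) ^ 2) :=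
    mul_le_mul_of_nonneg_left h2 (by positivity)
  have h5 : (0 : ℝ) ≤ (D.G : ℝ) ^ 4 * D.Q * D.X0 := by positivity
  rw [GD.Z]
  push_cast
  nlinarith

/-! ### the diagonal -/

lemma gba_prime_cancel {p p' : ℕ} (hp : p.Prime) (hp' : p'.Prime) {a b : ℤ}
    (ha : ¬ (p : ℤ) ∣ a) (h : a * p' = b * p) : p = p' ∧ a = b := by
  have h1 : (p : ℤ) ∣ a * p' := ⟨b, by rw [h]; ring⟩
  have h2 : (p : ℤ) ∣ (p' : ℤ) :=
    ((Nat.prime_iff_prime_int.1 hp).dvd_or_dvd h1).resolve_left ha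
  have h3 : p = p' := (Nat.prime_dvd_prime_iff_eq hp hp').1 (Int.natCast_dvd_natCast.1 h2)
  refine ⟨h3, ?_⟩
  subst h3
  exact mul_right_cancel₀ (by exact_mod_cast hp.ne_zero) h

lemma gba_not_dvd {p : ℕ} {a : ℤ} (h0 : a ≠ 0) (h : |a| < p) : ¬ (p : ℤ) ∣ a := fun hd =>
  absurd (Int.le_of_dvd (abs_pos.2 h0) ((dvd_abs _ _).2 hd)) (not_le.2 h)

lemma gba_diag_eq {D : GD} (h : D.Ok) {v v' : ℕ × ℕ} (hv : v ∈ D.VV) (hv' : v' ∈ D.VV)
    {i i' : ℤ × ℕ} (hi : i ∈ D.II) (hi' : i' ∈ D.II) (h0 : Dl v i v' i' = 0) :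
    v = v' ∧ i.1 * i'.2 = i'.1 * i.2 := by
  obtain ⟨⟨hu, hU, -⟩, ht, hT, -⟩ := (h.VV_spec v hv).imp R29.mem_win.1 R29.mem_win.1
  obtain ⟨⟨hu', -, -⟩, ht', -, hT'⟩ := (h.VV_spec v' hv').imp R29.mem_win.1 R29.mem_win.1
  obtain ⟨⟨hk, hkG⟩, -, -⟩ := gba_mem_II.1 hi
  obtain ⟨-, he', -⟩ := gba_mem_II.1 hi'
  have e1 := gba_e_pos h he'
  have e2 := (h.EE_spec _ he').2.1
  have e3 := gba_G_lt_T0 h
  have e4 := gba_E_lt_T0 h
  have e5 := gba_T0_U h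
  have nd : ∀ p : ℕ, p.Prime → D.T0 ≤ p → ¬ (p : ℤ) ∣ i.1 * i'.2 := by
    intro p hp hle hd
    rcases (Nat.prime_iff_prime_int.1 hp).dvd_or_dvd hd with hd | hd
    · exact gba_not_dvd hk (by omega) hd
    · exact gba_not_dvd (by omega) (by rw [Nat.abs_cast]; omega) hd
  have ndu : ¬ (v.1 : ℤ) ∣ i.1 * i'.2 * v'.2 := by
    intro hd
    rcases (Nat.prime_iff_prime_int.1 hu).dvd_or_dvd hd with hd | hd
    · exact nd _ hu (by omega) hd
    · have := ht'.pos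
      exact gba_not_dvd (by omega) (by rw [Nat.abs_cast]; omega) hd
  have E0 : i.1 * i'.2 * v'.2 * v'.1 = i'.1 * i.2 * v.2 * v.1 := by
    rw [Dl, nn, nn] at h0
    push_cast at h0
    linear_combination h0
  obtain ⟨a1, a2⟩ := gba_prime_cancel hu hu' ndu E0
  obtain ⟨a3, a4⟩ := gba_prime_cancel ht ht' (nd _ ht hT) a2
  exact ⟨Prod.ext a1 a3, a4⟩

lemma gba_tri01 {X M : ℝ} (hX : 0 ≤ X) (hM : 0 ≤ M) (k : ℤ) :
    0 ≤ R29.tri X k M ∧ R29.tri X k M ≤ 1 := by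
  refine ⟨le_max_left _ _, max_le zero_le_one ?_⟩
  have : 0 ≤ 2 * X * |(k : ℝ)| / M := by positivity
  linarith

lemma gba_norm_bb {D : GD} (h : D.Ok) (x : ℕ) (v : ℕ × ℕ) (i : ℤ × ℕ) :
    ‖D.bb x v i‖ ≤ |D.a0 i| / (v.1 * v.2) := by
  have hM : 0 ≤ D.M / 2 := by linarith [h.M_ge]
  obtain ⟨t0, t1⟩ := gba_tri01 hM (M := (D.g : ℝ) * x * nn v i) (by positivity) i.1
  rw [GD.bb, norm_mul, R29.norm_ee, mul_one, Complex.norm_real, Real.norm_eq_abs, abs_mul,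
    abs_div, abs_of_nonneg t0, abs_of_nonneg (a := ((v.1 : ℝ) * v.2)) (by positivity)]
  exact mul_le_of_le_one_right (by positivity) t1

lemma gba_inner {D : GD} (h : D.Ok) (x π : ℕ) :
    ‖∑ v ∈ D.VV, ∑ i ∈ D.II, ∑ v' ∈ D.VV, ∑ i' ∈ D.II,
      if Nat.Coprime x (nn v i) ∧ Nat.Coprime x (nn v' i') ∧ ((x * π : ℕ) : ℤ) ∣ Dl v i v' i' ∧
          Dl v i v' i' = 0 then
        D.bb x v i * (starRingEnd ℂ) (D.bb x v' i') else 0‖ ≤
      D.G / D.Tp / (D.U * D.T0) := by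
  have hT0 : 0 < D.T0 := lt_of_le_of_lt (Nat.zero_le _) (gba_G_lt_T0 h)
  have hU0 : 0 < D.U := by have := gba_T0_U h; omega
  have hUT : (0 : ℝ) < D.U * D.T0 := by positivity
  have hvv : ∀ v ∈ D.VV, (D.U : ℝ) * D.T0 ≤ v.1 * v.2 := by
    intro v hv
    obtain ⟨⟨-, hU, -⟩, -, hT, -⟩ := (h.VV_spec v hv).imp R29.mem_win.1 R29.mem_win.1
    exact_mod_cast Nat.mul_le_mul hU hT
  have hcard : (D.VV.card : ℝ) ≤ D.U * D.T0 := by
    have h1 : D.VV ⊆ Ico D.U (2 * D.U) ×ˢ Ico D.T0 (2 * D.T0) := by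
      intro v hv
      obtain ⟨⟨-, a1, a2⟩, -, a3, a4⟩ := (h.VV_spec v hv).imp R29.mem_win.1 R29.mem_win.1
      simp only [mem_product, mem_Ico]
      exact ⟨⟨a1, a2⟩, a3, a4⟩
    have h2 := card_le_card h1
    rw [card_product, Nat.card_Ico, Nat.card_Ico, show 2 * D.U - D.U = D.U by omega,
      show 2 * D.T0 - D.T0 = D.T0 by omega] at h2
    exact_mod_cast h2
  have hk0 : 0 ≤ D.kap D.a0 :=
    sum_nonneg fun _ _ => sum_nonneg fun _ _ => by split_ifs <;> positivity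
  have h1 : ∀ v ∈ D.VV, ‖∑ i ∈ D.II, ∑ v' ∈ D.VV, ∑ i' ∈ D.II,
      if Nat.Coprime x (nn v i) ∧ Nat.Coprime x (nn v' i') ∧ ((x * π : ℕ) : ℤ) ∣ Dl v i v' i' ∧
          Dl v i v' i' = 0 then
        D.bb x v i * (starRingEnd ℂ) (D.bb x v' i') else 0‖ ≤
      D.kap D.a0 / (D.U * D.T0) ^ 2 := by
    intro v hv
    rw [GD.kap, sum_div]
    refine norm_sum_le_of_le _ fun i hi => ?_
    rw [sum_eq_single v, sum_div]
    · refine norm_sum_le_of_le _ fun i' hi' => ?_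
      split_ifs with c1 c2 c2
      · rw [norm_mul, RCLike.norm_conj]
        have g : ∀ j, ‖D.bb x v j‖ ≤ |D.a0 j| / (D.U * D.T0) := fun j =>
          le_trans (gba_norm_bb h x v j)
            (div_le_div_of_nonneg_left (abs_nonneg _) hUT (hvv v hv))
        calc _ ≤ |D.a0 i| / (D.U * D.T0) * (|D.a0 i'| / (D.U * D.T0)) :=
              mul_le_mul (g i) (g i') (norm_nonneg _) (by positivity)
          _ = _ := by ring
      · exact absurd (gba_diag_eq h hv hv hi hi' c1.2.2.2).2 c2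
      · rw [norm_zero]; positivity
      · simp
    · intro v' hv' hne
      refine sum_eq_zero fun i' hi' => if_neg fun c => hne ?_
      exact (gba_diag_eq h hv hv' hi hi' c.2.2.2).1.symm
    · intro hn
      exact absurd hv hn
  refine le_trans (norm_sum_le_of_le _ h1) ?_
  rw [sum_const, nsmul_eq_mul]
  calc (D.VV.card : ℝ) * (D.kap D.a0 / (D.U * D.T0) ^ 2)
      ≤ (D.U * D.T0) * (D.kap D.a0 / (D.U * D.T0) ^ 2) :=
        mul_le_mul_of_nonneg_right hcard (by positivity)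
    _ = D.kap D.a0 / (D.U * D.T0) := by field_simp
    _ ≤ _ := div_le_div_of_nonneg_right (gba_kap_le h) hUT.le

theorem gba_diag {D : GD} (h : D.Ok) :
    ‖D.Tot (fun v i v' i' => Dl v i v' i' = 0)‖ ≤ 2048 * D.X0 / D.G := by
  have hT := gba_Tp_pos h
  have hT0 : 0 < D.T0 := lt_of_le_of_lt (Nat.zero_le _) (gba_G_lt_T0 h)
  have hU0 : 0 < D.U := by have := gba_T0_U h; omega
  have hUT : (0 : ℝ) < D.U * D.T0 := by positivity
  have hG : (0 : ℝ) < D.G := lt_of_lt_of_le (by norm_num) (gba_G_ge h)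
  set B : ℝ := D.G / D.Tp / (D.U * D.T0) with hB
  have hB0 : 0 ≤ B := by positivity
  have h1 : (32 * D.X0 : ℝ) * (32 * D.X0 * (2 * D.Q) * B) ≤ 2048 * D.X0 / D.G := by
    have e : (32 * D.X0 : ℝ) * (32 * D.X0 * (2 * D.Q) * B) =
        2048 * D.X0 / D.G * ((D.Q * D.X0 * (D.G : ℝ) ^ 2) / (D.U * D.T0 * D.Tp)) := by
      rw [hB]; field_simp; ring
    rw [e]
    exact mul_le_of_le_one_right (by positivity) ((div_le_one (by positivity)).2 h.Q_hi)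
  rw [GD.Tot, norm_div, Complex.norm_natCast]
  rcases Nat.eq_zero_or_pos D.PP.card with hP | hP
  · rw [hP, Nat.cast_zero, div_zero]; positivity
  rw [div_le_iff₀ (by exact_mod_cast hP), mul_comm _ (D.PP.card : ℝ), ← nsmul_eq_mul, ← sum_const]
  refine norm_sum_le_of_le _ fun π hπ => le_trans ?_ h1
  have hπ' : (π : ℝ) ≤ 2 * D.Q := by exact_mod_cast (R29.mem_win.1 hπ).2.2.le
  have h2 : (32 * D.X0 : ℝ) * (32 * D.X0 * (2 * D.Q) * B) =
      ∑ _x ∈ Icc 1 (32 * D.X0), 32 * D.X0 * (2 * D.Q) * B := by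
    rw [sum_const, nsmul_eq_mul, Nat.card_Icc, Nat.add_sub_cancel]
    push_cast
    rfl
  rw [h2]
  refine norm_sum_le_of_le _ fun x hx => ?_
  have hx' : (x : ℝ) ≤ 32 * D.X0 := by exact_mod_cast (mem_Icc.1 hx).2
  rw [norm_mul, Complex.norm_real, Real.norm_eq_abs]
  refine mul_le_mul ?_ ?_ (norm_nonneg _) (by positivity)
  · have c0 := R29.cut_nonneg ((x : ℝ) / D.X0)
    have c1 := R29.cut_le_one ((x : ℝ) / D.X0)
    rw [abs_of_nonneg (by positivity)]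
    refine mul_le_mul (le_trans (mul_le_of_le_one_left (Nat.cast_nonneg _) c1) hx') hπ'
      (Nat.cast_nonneg _) (by positivity)
  · refine le_of_eq_of_le (congrArg norm ?_) (gba_inner h x π)
    refine sum_congr rfl fun _ _ => sum_congr rfl fun _ _ => sum_congr rfl fun _ _ =>
      sum_congr rfl fun _ _ => ?_
    congr

end Crest.Agent.R1
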