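import Crest.Agent.R1.GlueBa

/-!
# R1 / GlueBb: degenerate pairs and the trivial bound (proofs for `GlueB`)
-/

set_option autoImplicit false

namespace Crest.Agent.R1

open Finset Filter
open scoped Classical

lemma gbb_T0_pos {D : GD} (h : D.Ok) : 0 < D.T0 := lt_of_le_of_lt (Nat.zero_le _) (gba_G_lt_T0 h)

lemma gbb_U_pos {D : GD} (h : D.Ok) : 0 < D.U := by
  have := gba_T0_U h
  have := gbb_T0_pos h
  omega

lemma gbb_PP_pos {D : GD} (h : D.Ok) : 0 < D.PP.card := by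
  have h1 := h.PP_card
  have h2 := gba_Q_ge h
  rcases Nat.eq_zero_or_pos D.PP.card with h0 | h0
  · rw [h0, mul_zero] at h1; omega
  · exact h0

lemma gbb_box {D : GD} (h : D.Ok) : D.VV ⊆ Ico D.U (2 * D.U) ×ˢ Ico D.T0 (2 * D.T0) := by
  intro v hv
  obtain ⟨⟨-, a1, a2⟩, -, a3, a4⟩ := (h.VV_spec v hv).imp R29.mem_win.1 R29.mem_win.1
  simp only [mem_product, mem_Ico]
  exact ⟨⟨a1, a2⟩, a3, a4⟩

lemma gbb_lt {D : GD} (h : D.Ok) {v : ℕ × ℕ} (hv : v ∈ D.VV) :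
    v.1 < 2 * D.U ∧ v.2 < 2 * D.T0 := by
  have := gbb_box h hv
  simp only [mem_product, mem_Ico] at this
  exact ⟨this.1.2, this.2.2⟩

lemma gbb_vv {D : GD} (h : D.Ok) {v : ℕ × ℕ} (hv : v ∈ D.VV) :
    (D.U : ℝ) * D.T0 ≤ v.1 * v.2 := by
  have := gbb_box h hv
  simp only [mem_product, mem_Ico] at this
  exact_mod_cast Nat.mul_le_mul this.1.1 this.2.1

lemma gbb_card {D : GD} (h : D.Ok) : (D.VV.card : ℝ) ≤ D.U * D.T0 := by
  have h2 := card_le_card (gbb_box h)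
  rw [card_product, Nat.card_Ico, Nat.card_Ico, show 2 * D.U - D.U = D.U by omega,
    show 2 * D.T0 - D.T0 = D.T0 by omega] at h2
  exact_mod_cast h2

lemma gbb_L_le {D : GD} (h : D.Ok) : 8000000 * D.L ≤ D.G := by
  have h1 := h.L_ge
  have h2 : (200 : ℝ) ^ 3 ≤ D.L ^ 3 := pow_le_pow_left₀ (by norm_num) h1 3
  have h3 : D.L ^ 4 = D.L ^ 3 * D.L := by ring
  have h4 := h.G_ge
  nlinarith

/-- the number of degenerate partners -/
lemma gbb_card_deg {D : GD} (h : D.Ok) (v : ℕ × ℕ) :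
    ((D.VV.filter (fun v' => v.1 = v'.1 ∨ v.2 = v'.2)).card : ℝ) ≤ 2 * D.U := by
  have h1 : D.VV.filter (fun v' => v.1 = v'.1 ∨ v.2 = v'.2) ⊆
      ({v.1} ×ˢ Ico D.T0 (2 * D.T0)) ∪ (Ico D.U (2 * D.U) ×ˢ {v.2}) := by
    intro v' hv'
    rw [mem_filter] at hv'
    have h2 := gbb_box h hv'.1
    simp only [mem_product, mem_Ico, mem_union, mem_singleton] at h2 ⊢
    rcases hv'.2 with e | e
    · exact Or.inl ⟨e.symm, h2.2⟩
    · exact Or.inr ⟨h2.1, e.symm⟩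
  have h2 := le_trans (card_le_card h1) (card_union_le _ _)
  rw [card_product, card_product, card_singleton, card_singleton, Nat.card_Ico, Nat.card_Ico] at h2
  have h3 := gba_T0_U h
  have h4 : (D.VV.filter (fun v' => v.1 = v'.1 ∨ v.2 = v'.2)).card ≤ 2 * D.U := by omega
  exact_mod_cast h4

lemma gbb_Dl_abs {D : GD} (h : D.Ok) {v v' : ℕ × ℕ} (hv : v ∈ D.VV) (hv' : v' ∈ D.VV)
    {i i' : ℤ × ℕ} (hi : i ∈ D.II) (hi' : i' ∈ D.II) :
    |(Dl v i v' i' : ℝ)| ≤ D.Z * D.Q * D.X0 / 2 := by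
  have g1 := gba_Dl_le h ⟨(gbb_lt h hv).1.le, (gbb_lt h hv).2.le⟩ hi hi'
  have g2 := gba_Dl_le h ⟨(gbb_lt h hv').1.le, (gbb_lt h hv').2.le⟩ hi' hi
  have g3 : |(Dl v i v' i' : ℝ)| ≤ |(i.1 : ℝ)| * nn v' i' + |(i'.1 : ℝ)| * nn v i := by
    rw [Dl]
    push_cast
    refine le_trans (abs_sub _ _) ?_
    rw [abs_mul, abs_mul, Nat.abs_cast, Nat.abs_cast]
  linarith

/-- for a fixed `π ≥ Q`, at most `Z` values of `x > X0/2` have `x π ∣ Δ` -/
lemma gbb_card_x {X0 Q Z π : ℕ} {Δ : ℤ} (hX : 0 < X0) (hQ : 0 < Q) (hπ : Q ≤ π) (h0 : Δ ≠ 0)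
    (hΔ : |(Δ : ℝ)| ≤ Z * Q * X0 / 2) (S : Finset ℕ) :
    (S.filter (fun x : ℕ => R29.cut ((x : ℝ) / X0) ≠ 0 ∧ ((x * π : ℕ) : ℤ) ∣ Δ)).card ≤ Z := by
  have hN : 0 < Δ.natAbs := Int.natAbs_pos.2 h0
  have hX' : (0 : ℝ) < X0 := by exact_mod_cast hX
  have hQ' : (0 : ℝ) < Q := by exact_mod_cast hQ
  have key : ∀ x ∈ S.filter (fun x : ℕ => R29.cut ((x : ℝ) / X0) ≠ 0 ∧ ((x * π : ℕ) : ℤ) ∣ Δ),
      Δ.natAbs / (x * π) * (x * π) = Δ.natAbs := fun x hx =>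
    Nat.div_mul_cancel (Int.natCast_dvd.1 (mem_filter.1 hx).2.2)
  have h1 : (S.filter (fun x : ℕ => R29.cut ((x : ℝ) / X0) ≠ 0 ∧
      ((x * π : ℕ) : ℤ) ∣ Δ)).card ≤ (Icc 1 Z).card := by
    refine card_le_card_of_injOn (fun x => Δ.natAbs / (x * π)) (fun x hx => ?_)
      (fun x hx y hy hxy => ?_)
    · have hk := key x hx
      have hc := (R29.cut_ne_zero (mem_filter.1 hx).2.1).1
      rw [lt_div_iff₀ hX'] at hc
      set m := Δ.natAbs / (x * π) with hm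
      simp only [coe_Icc, Set.mem_Icc]
      constructor
      · rcases Nat.eq_zero_or_pos m with h0 | h0
        · rw [h0, zero_mul] at hk; omega
        · exact h0
      · have e : (m : ℝ) * (x * π) = |(Δ : ℝ)| := by
          have : ((m * (x * π) : ℕ) : ℝ) = (Δ.natAbs : ℝ) := by rw [hk]
          rw [Nat.cast_natAbs, Int.cast_abs] at this
          exact_mod_cast this
        have hπ' : (Q : ℝ) ≤ π := by exact_mod_cast hπ
        have g1 : (X0 : ℝ) / 2 * Q ≤ x * π :=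
          mul_le_mul (by linarith) hπ' hQ'.le (Nat.cast_nonneg _)
        have g2 : (m : ℝ) * (X0 / 2 * Q) ≤ Z * (X0 / 2 * Q) := by
          calc (m : ℝ) * (X0 / 2 * Q) ≤ m * (x * π) :=
                mul_le_mul_of_nonneg_left g1 (Nat.cast_nonneg _)
            _ ≤ Z * Q * X0 / 2 := by rw [e]; exact hΔ
            _ = _ := by ring
        have g3 : (m : ℝ) ≤ Z := le_of_mul_le_mul_right g2 (by positivity)
        exact_mod_cast g3
    · have hx' := key x hx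
      have hy' := key y hy
      dsimp only at hxy
      rw [hxy] at hx'
      set m := Δ.natAbs / (y * π) with hm
      have hm0 : 0 < m := by
        rcases Nat.eq_zero_or_pos m with h0 | h0
        · rw [h0, zero_mul] at hy'; omega
        · exact h0
      have e : x * π = y * π := Nat.eq_of_mul_eq_mul_left hm0 (by rw [hx', hy'])
      exact Nat.eq_of_mul_eq_mul_right (by omega) e
  simpa using h1

/-- the weight of the pairs `(π, x)` dividing a nonzero determinant -/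
lemma gbb_px {D : GD} (h : D.Ok) {v v' : ℕ × ℕ} (hv : v ∈ D.VV) (hv' : v' ∈ D.VV)
    {i i' : ℤ × ℕ} (hi : i ∈ D.II) (hi' : i' ∈ D.II) (h0 : Dl v i v' i' ≠ 0) :
    ∑ π ∈ D.PP, ∑ x ∈ Icc 1 (32 * D.X0),
      (if ((x * π : ℕ) : ℤ) ∣ Dl v i v' i' then R29.cut ((x : ℝ) / D.X0) * x * π else 0) ≤
      D.L * (D.Z * (64 * D.X0 * D.Q)) := by
  have hQ := gba_Q_ge h
  have h1 : ∀ π ∈ D.PP, ∑ x ∈ Icc 1 (32 * D.X0),
      (if ((x * π : ℕ) : ℤ) ∣ Dl v i v' i' then R29.cut ((x : ℝ) / D.X0) * x * π else 0) ≤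
      if (π : ℤ) ∣ Dl v i v' i' then (D.Z : ℝ) * (64 * D.X0 * D.Q) else 0 := by
    intro π hπ
    obtain ⟨-, a1, a2⟩ := R29.mem_win.1 hπ
    have hπ' : (π : ℝ) ≤ 2 * D.Q := by exact_mod_cast a2.le
    split_ifs with c
    · have g1 : ∑ x ∈ Icc 1 (32 * D.X0),
          (if ((x * π : ℕ) : ℤ) ∣ Dl v i v' i' then R29.cut ((x : ℝ) / D.X0) * x * π else 0) ≤
          ∑ x ∈ Icc 1 (32 * D.X0),
          (if R29.cut ((x : ℝ) / D.X0) ≠ 0 ∧ ((x * π : ℕ) : ℤ) ∣ Dl v i v' i' then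
            (64 * D.X0 * D.Q : ℝ) else 0) := by
        refine sum_le_sum fun x hx => ?_
        have hx' : (x : ℝ) ≤ 32 * D.X0 := by exact_mod_cast (mem_Icc.1 hx).2
        have c0 := R29.cut_nonneg ((x : ℝ) / D.X0)
        have c1 := R29.cut_le_one ((x : ℝ) / D.X0)
        by_cases e1 : ((x * π : ℕ) : ℤ) ∣ Dl v i v' i'
        · by_cases e2 : R29.cut ((x : ℝ) / D.X0) = 0
          · rw [if_pos e1, if_neg (fun c => c.1 e2), e2]; simp
          · rw [if_pos e1, if_pos ⟨e2, e1⟩]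
            calc _ ≤ (32 * D.X0 : ℝ) * (2 * D.Q) :=
                  mul_le_mul (le_trans (mul_le_of_le_one_left (Nat.cast_nonneg _) c1) hx') hπ'
                    (Nat.cast_nonneg _) (by positivity)
              _ = _ := by ring
        · rw [if_neg e1, if_neg (fun c => e1 c.2)]
      refine le_trans g1 ?_
      rw [← sum_filter, sum_const, nsmul_eq_mul]
      refine mul_le_mul_of_nonneg_right ?_ (by positivity)
      exact_mod_cast gbb_card_x h.X0_pos (by omega) a1 h0 (gbb_Dl_abs h hv hv' hi hi') _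
    · refine le_of_eq (sum_eq_zero fun x _ => if_neg fun d => c ?_)
      exact dvd_trans (by push_cast; exact Dvd.intro_left _ rfl) d
  refine le_trans (sum_le_sum h1) ?_
  rw [← sum_filter, sum_const, nsmul_eq_mul]
  exact mul_le_mul_of_nonneg_right (gba_card_dvd h (gbb_lt h hv) (gbb_lt h hv') hi hi' h0)
    (by positivity)

lemma gbb_swap {A B C E F H : Type} (a : Finset A) (b : Finset B) (c : Finset C) (e : Finset E)
    (f : Finset F) (g : Finset H) (φ : A → B → C → E → F → H → ℝ) :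
    ∑ x ∈ a, ∑ y ∈ b, ∑ z ∈ c, ∑ u ∈ e, ∑ v ∈ f, ∑ w ∈ g, φ x y z u v w =
      ∑ z ∈ c, ∑ u ∈ e, ∑ v ∈ f, ∑ w ∈ g, ∑ x ∈ a, ∑ y ∈ b, φ x y z u v w := by
  have h := sum_comm (s := a ×ˢ b) (t := c ×ˢ e ×ˢ f ×ˢ g)
    (f := fun p q => φ p.1 p.2 q.1 q.2.1 q.2.2.1 q.2.2.2)
  simpa only [sum_product] using h

set_option maxHeartbeats 1000000 in
theorem gbb_degen {D : GD} (h : D.Ok) :
    ‖D.Tot (fun v i v' i' => Dl v i v' i' ≠ 0 ∧ (v.1 = v'.1 ∨ v.2 = v'.2))‖ ≤ D.X0 / D.G := by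
  have hT0 := gbb_T0_pos h
  have hU0 := gbb_U_pos h
  have hUT : (0 : ℝ) < D.U * D.T0 := by positivity
  have hG : (0 : ℝ) < D.G := lt_of_lt_of_le (by norm_num) (gba_G_ge h)
  have hP : (0 : ℝ) < D.PP.card := by exact_mod_cast gbb_PP_pos h
  have hL : 0 ≤ D.L := le_trans (by norm_num) h.L_ge
  set B : ℝ := D.L * (D.Z * (64 * D.X0 * D.Q)) with hB
  have hB0 : 0 ≤ B := by positivity
  set c : ℕ → ℕ → ℝ := fun π x => R29.cut ((x : ℝ) / D.X0) * x * π with hc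
  have hc0 : ∀ π x, 0 ≤ c π x := fun π x => by
    have := R29.cut_nonneg ((x : ℝ) / D.X0)
    simp only [hc]; positivity
  set w : ℕ × ℕ → ℤ × ℕ → ℕ × ℕ → ℤ × ℕ → ℝ := fun v i v' i' =>
    if Dl v i v' i' ≠ 0 ∧ (v.1 = v'.1 ∨ v.2 = v'.2) then
      |D.a0 i| * |D.a0 i'| / (D.U * D.T0) ^ 2 else 0 with hw
  have hw0 : ∀ v i v' i', 0 ≤ w v i v' i' := fun v i v' i' => by
    simp only [hw]; split_ifs <;> positivity
  -- step 1: termwise bound
  have h1 : ‖∑ π ∈ D.PP, ∑ x ∈ Icc 1 (32 * D.X0), ((c π x : ℝ) : ℂ) *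
      ∑ v ∈ D.VV, ∑ i ∈ D.II, ∑ v' ∈ D.VV, ∑ i' ∈ D.II,
      if Nat.Coprime x (nn v i) ∧ Nat.Coprime x (nn v' i') ∧ ((x * π : ℕ) : ℤ) ∣ Dl v i v' i' ∧
          (Dl v i v' i' ≠ 0 ∧ (v.1 = v'.1 ∨ v.2 = v'.2)) then
        D.bb x v i * (starRingEnd ℂ) (D.bb x v' i') else 0‖ ≤
      ∑ π ∈ D.PP, ∑ x ∈ Icc 1 (32 * D.X0),
        ∑ v ∈ D.VV, ∑ i ∈ D.II, ∑ v' ∈ D.VV, ∑ i' ∈ D.II,
          w v i v' i' * (if ((x * π : ℕ) : ℤ) ∣ Dl v i v' i' then c π x else 0) := by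
    refine norm_sum_le_of_le _ fun π _ => norm_sum_le_of_le _ fun x _ => ?_
    rw [mul_sum]
    refine norm_sum_le_of_le _ fun v hv => ?_
    rw [mul_sum]
    refine norm_sum_le_of_le _ fun i _ => ?_
    rw [mul_sum]
    refine norm_sum_le_of_le _ fun v' hv' => ?_
    rw [mul_sum]
    refine norm_sum_le_of_le _ fun i' _ => ?_
    by_cases e : Nat.Coprime x (nn v i) ∧ Nat.Coprime x (nn v' i') ∧
        ((x * π : ℕ) : ℤ) ∣ Dl v i v' i' ∧ (Dl v i v' i' ≠ 0 ∧ (v.1 = v'.1 ∨ v.2 = v'.2))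
    · rw [if_pos e, if_pos e.2.2.1, norm_mul, norm_mul, RCLike.norm_conj, Complex.norm_real,
        Real.norm_of_nonneg (hc0 π x), mul_comm]
      refine mul_le_mul_of_nonneg_right ?_ (hc0 π x)
      simp only [hw]
      rw [if_pos e.2.2.2]
      have g : ∀ u ∈ D.VV, ∀ j, ‖D.bb x u j‖ ≤ |D.a0 j| / (D.U * D.T0) := fun u hu j =>
        le_trans (gba_norm_bb h x u j)
          (div_le_div_of_nonneg_left (abs_nonneg _) hUT (gbb_vv h hu))
      calc _ ≤ |D.a0 i| / (D.U * D.T0) * (|D.a0 i'| / (D.U * D.T0)) :=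
            mul_le_mul (g v hv i) (g v' hv' i') (norm_nonneg _) (by positivity)
        _ = _ := by ring
    · rw [if_neg e, mul_zero, norm_zero]
      refine mul_nonneg (hw0 _ _ _ _) ?_
      split_ifs
      · exact hc0 π x
      · exact le_rfl
  -- step 2: exchange the sums
  have h2 : ∑ π ∈ D.PP, ∑ x ∈ Icc 1 (32 * D.X0),
        ∑ v ∈ D.VV, ∑ i ∈ D.II, ∑ v' ∈ D.VV, ∑ i' ∈ D.II,
          w v i v' i' * (if ((x * π : ℕ) : ℤ) ∣ Dl v i v' i' then c π x else 0) =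
      ∑ v ∈ D.VV, ∑ i ∈ D.II, ∑ v' ∈ D.VV, ∑ i' ∈ D.II, w v i v' i' *
        ∑ π ∈ D.PP, ∑ x ∈ Icc 1 (32 * D.X0),
          (if ((x * π : ℕ) : ℤ) ∣ Dl v i v' i' then c π x else 0) := by
    simp only [mul_sum]
    exact gbb_swap _ _ _ _ _ _ _
  have h3 : ∑ v ∈ D.VV, ∑ i ∈ D.II, ∑ v' ∈ D.VV, ∑ i' ∈ D.II, w v i v' i' *
        ∑ π ∈ D.PP, ∑ x ∈ Icc 1 (32 * D.X0),
          (if ((x * π : ℕ) : ℤ) ∣ Dl v i v' i' then c π x else 0) ≤
      ∑ v ∈ D.VV, ∑ i ∈ D.II, ∑ v' ∈ D.VV, ∑ i' ∈ D.II,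
        (if v.1 = v'.1 ∨ v.2 = v'.2 then |D.a0 i| * |D.a0 i'| * (B / (D.U * D.T0) ^ 2)
          else 0) := by
    refine sum_le_sum fun v hv => sum_le_sum fun i hi => sum_le_sum fun v' hv' =>
      sum_le_sum fun i' hi' => ?_
    simp only [hw]
    by_cases e : Dl v i v' i' ≠ 0 ∧ (v.1 = v'.1 ∨ v.2 = v'.2)
    · rw [if_pos e, if_pos e.2]
      calc _ ≤ |D.a0 i| * |D.a0 i'| / (D.U * D.T0) ^ 2 * B :=
            mul_le_mul_of_nonneg_left (gbb_px h hv hv' hi hi' e.1) (by positivity)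
        _ = _ := by ring
    · rw [if_neg e, zero_mul]
      split_ifs <;> positivity
  have hw1 : 0 ≤ D.w1 D.a0 := sum_nonneg fun _ _ => abs_nonneg _
  have h4 : ∑ v ∈ D.VV, ∑ i ∈ D.II, ∑ v' ∈ D.VV, ∑ i' ∈ D.II,
        (if v.1 = v'.1 ∨ v.2 = v'.2 then |D.a0 i| * |D.a0 i'| * (B / (D.U * D.T0) ^ 2)
          else 0) ≤
      ∑ _v ∈ D.VV, 2 * D.U * (D.w1 D.a0 * D.w1 D.a0 * (B / (D.U * D.T0) ^ 2)) := by
    refine sum_le_sum fun v _ => ?_
    rw [sum_comm]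
    have e : ∀ v' ∈ D.VV, ∑ i ∈ D.II, ∑ i' ∈ D.II,
        (if v.1 = v'.1 ∨ v.2 = v'.2 then |D.a0 i| * |D.a0 i'| * (B / (D.U * D.T0) ^ 2)
          else 0) = if v.1 = v'.1 ∨ v.2 = v'.2 then
            D.w1 D.a0 * D.w1 D.a0 * (B / (D.U * D.T0) ^ 2) else 0 := by
      intro v' _
      split_ifs
      · rw [GD.w1, sum_mul_sum, sum_mul]
        exact sum_congr rfl fun i _ => by rw [sum_mul]
      · simp
    rw [sum_congr rfl e, ← sum_filter, sum_const, nsmul_eq_mul]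
    exact mul_le_mul_of_nonneg_right (gbb_card_deg h v) (by positivity)
  have h5 : ∑ _v ∈ D.VV, 2 * D.U * (D.w1 D.a0 * D.w1 D.a0 * (B / (D.U * D.T0) ^ 2)) ≤
      (D.X0 : ℝ) / D.G * D.PP.card := by
    rw [sum_const, nsmul_eq_mul]
    have g1 : D.w1 D.a0 * D.w1 D.a0 ≤ 2 * D.G * (2 * D.G) :=
      mul_le_mul (gba_w1_le h) (gba_w1_le h) hw1 (by positivity)
    have g2 : (D.Q : ℝ) ≤ D.G * D.PP.card := by exact_mod_cast h.PP_card
    have g3 : (D.G : ℝ) ^ 70 ≤ D.T0 := by exact_mod_cast h.T0_ge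
    have g4 : B ≤ D.L * (3 * D.G ^ 4 * (64 * D.X0 * (D.G * D.PP.card))) := by
      rw [hB, GD.Z]
      push_cast
      gcongr
    have g5 : 1536 * D.L * (D.G : ℝ) ^ 8 ≤ D.T0 := by
      refine le_trans ?_ g3
      have hG1 : (1 : ℝ) ≤ D.G := le_trans (by norm_num) (gba_G_ge h)
      have := gbb_L_le h
      calc 1536 * D.L * (D.G : ℝ) ^ 8 ≤ D.G * (D.G : ℝ) ^ 8 :=
            mul_le_mul_of_nonneg_right (by linarith) (by positivity)
        _ = (D.G : ℝ) ^ 9 := by ring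
        _ ≤ _ := pow_le_pow_right₀ hG1 (by norm_num)
    have hT' : (0 : ℝ) < D.T0 := by exact_mod_cast hT0
    have hU' : (0 : ℝ) < D.U := by exact_mod_cast hU0
    calc (D.VV.card : ℝ) * (2 * D.U * (D.w1 D.a0 * D.w1 D.a0 * (B / (D.U * D.T0) ^ 2)))
        ≤ (D.U * D.T0) * (2 * D.U * (2 * D.G * (2 * D.G) *
          (D.L * (3 * D.G ^ 4 * (64 * D.X0 * (D.G * D.PP.card))) / (D.U * D.T0) ^ 2))) := by
          have := gbb_card h
          gcongr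
      _ = D.X0 / D.G * D.PP.card * (1536 * D.L * (D.G : ℝ) ^ 8 / D.T0) := by
          field_simp; ring
      _ ≤ _ := mul_le_of_le_one_right (by positivity) ((div_le_one hT').2 g5)
  rw [GD.Tot, norm_div, Complex.norm_natCast, div_le_iff₀ hP]
  refine le_trans (le_of_eq_of_le (congrArg norm ?_) h1) (h2.le.trans (h3.trans (h4.trans h5)))
  refine sum_congr rfl fun _ _ => sum_congr rfl fun _ _ => congrArg _ ?_
  refine sum_congr rfl fun _ _ => sum_congr rfl fun _ _ => sum_congr rfl fun _ _ =>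
    sum_congr rfl fun _ _ => ?_
  congr

lemma gbb_Wf {D : GD} (h : D.Ok) (v : ℕ × ℕ) (i : ℤ × ℕ) (v' : ℕ × ℕ) (i' : ℤ × ℕ) (x : ℝ) :
    0 ≤ D.Wf v i v' i' x ∧ D.Wf v i v' i' x ≤ 32 := by
  rw [GD.Wf]
  by_cases e : R29.cut (x / D.X0) = 0
  · rw [e]; simp
  obtain ⟨c1, c2⟩ := R29.cut_ne_zero e
  have hX : (0 : ℝ) < D.X0 := by exact_mod_cast h.X0_pos
  have hx : 0 < x / D.X0 := by linarith
  have hx' : 0 < x := by
    have := mul_pos hx hX
    rwa [div_mul_cancel₀ _ hX.ne'] at this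
  have hM : 0 ≤ D.M / 2 := by linarith [h.M_ge]
  obtain ⟨t0, t1⟩ := gba_tri01 hM (M := (D.g : ℝ) * x * nn v i) (by positivity) i.1
  obtain ⟨s0, s1⟩ := gba_tri01 hM (M := (D.g : ℝ) * x * nn v' i') (by positivity) i'.1
  have c0 := R29.cut_nonneg (x / D.X0)
  have c3 := R29.cut_le_one (x / D.X0)
  refine ⟨by positivity, ?_⟩
  calc _ ≤ (1 : ℝ) * 32 * 1 * 1 := by gcongr
    _ = 32 := by norm_num

theorem gbb_off_triv {D : GD} (h : D.Ok) (a a' : ℤ × ℕ → ℝ) :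
    ‖D.Off a a' R29.psi0‖ ≤ (D.G : ℝ) ^ 6 * D.w1 a * D.w1 a' := by
  have hT0 := gbb_T0_pos h
  have hU0 := gbb_U_pos h
  have hUT : (0 : ℝ) < D.U * D.T0 := by positivity
  have hG : (0 : ℝ) < D.G := lt_of_lt_of_le (by norm_num) (gba_G_ge h)
  have hP : (0 : ℝ) < D.PP.card := by exact_mod_cast gbb_PP_pos h
  have hL : 0 ≤ D.L := le_trans (by norm_num) h.L_ge
  have hwa : 0 ≤ D.w1 a := sum_nonneg fun _ _ => abs_nonneg _
  have hwa' : 0 ≤ D.w1 a' := sum_nonneg fun _ _ => abs_nonneg _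
  -- the innermost average
  have h1 : ∀ v ∈ D.VV, ∀ v' ∈ D.VV, v ≠ v' → ∀ i ∈ D.II, ∀ i' ∈ D.II, ∀ m : ℤ,
      ‖(∑ π ∈ D.PP, R29.psi0 π (Dl v i v' i') *
          (D.Wf v i v' i' ((Dl v i v' i' : ℝ) / (π * m)) : ℂ) *
            R29.ee ((D.X : ℝ) * π * m / ((D.g : ℝ) * nn v i * nn v' i'))) / D.PP.card‖ ≤
        32 * (2 * D.G * D.L + 1) := by
    intro v hv v' hv' hne i hi i' hi' m
    have h0 : Dl v i v' i' ≠ 0 := fun e => hne (gba_diag_eq h hv hv' hi hi' e).1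
    rw [norm_div, Complex.norm_natCast, div_le_iff₀ hP]
    have g1 : ∀ π ∈ D.PP, ‖R29.psi0 π (Dl v i v' i') *
          (D.Wf v i v' i' ((Dl v i v' i' : ℝ) / (π * m)) : ℂ) *
            R29.ee ((D.X : ℝ) * π * m / ((D.g : ℝ) * nn v i * nn v' i'))‖ ≤
        ((if (π : ℤ) ∣ Dl v i v' i' then (2 * D.Q : ℝ) else 0) + 1) * 32 := by
      intro π hπ
      have hπ' : (π : ℝ) ≤ 2 * D.Q := by exact_mod_cast (R29.mem_win.1 hπ).2.2.le
      obtain ⟨w0, w1⟩ := gbb_Wf h v i v' i' ((Dl v i v' i' : ℝ) / (π * m))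
      rw [norm_mul, norm_mul, R29.norm_ee, mul_one, Complex.norm_real, Real.norm_of_nonneg w0]
      refine mul_le_mul ?_ w1 w0 (by split_ifs <;> positivity)
      rw [R29.psi0]
      refine le_trans (norm_sub_le _ _) ?_
      rw [norm_one]
      split_ifs
      · rw [Complex.norm_natCast]; linarith
      · simp
    refine le_trans (norm_sum_le_of_le _ g1) ?_
    rw [← sum_mul, sum_add_distrib, ← sum_filter, sum_const, sum_const, nsmul_eq_mul, nsmul_eq_mul]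
    have g2 := gba_card_dvd h (gbb_lt h hv) (gbb_lt h hv') hi hi' h0
    have g3 : (D.Q : ℝ) ≤ D.G * D.PP.card := by exact_mod_cast h.PP_card
    calc _ ≤ (D.L * (2 * (D.G * D.PP.card)) + D.PP.card * 1) * 32 := by gcongr
      _ = _ := by ring
  have hK : (2 * D.Z : ℝ) * (32 * (2 * D.G * D.L + 1)) ≤ (D.G : ℝ) ^ 6 := by
    rw [GD.Z]
    push_cast
    have g1 := gbb_L_le h
    have g2 := h.L_ge
    have g3 : 192 * (2 * D.G * D.L + 1) ≤ (D.G : ℝ) ^ 2 := by nlinarith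
    calc _ = (D.G : ℝ) ^ 4 * (192 * (2 * D.G * D.L + 1)) := by ring
      _ ≤ (D.G : ℝ) ^ 4 * (D.G : ℝ) ^ 2 := by gcongr
      _ = _ := by ring
  set K : ℝ := (D.G : ℝ) ^ 6 * D.w1 a * D.w1 a' with hKd
  have hK0 : 0 ≤ K := by positivity
  have h2 : ‖D.Off a a' R29.psi0‖ ≤ ∑ _v ∈ D.VV, ∑ _v' ∈ D.VV, 1 / (D.U * D.T0) ^ 2 * K := by
    rw [GD.Off]
    refine norm_sum_le_of_le _ fun v hv => ?_
    refine le_trans (norm_sum_le_of_le _ (n := fun _ => 1 / (D.U * D.T0 : ℝ) ^ 2 * K)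
      fun v' hv' => ?_) (sum_le_sum_of_subset_of_nonneg (filter_subset _ _) fun _ _ _ => by
        positivity)
    obtain ⟨hv', hne, -⟩ := mem_filter.1 hv'
    have hne' : v ≠ v' := fun e => hne (by rw [e])
    rw [norm_mul, Complex.norm_real, Real.norm_of_nonneg (by positivity)]
    refine mul_le_mul ?_ ?_ (norm_nonneg _) (by positivity)
    · refine one_div_le_one_div_of_le (by positivity) ?_
      calc ((D.U : ℝ) * D.T0) ^ 2 = (D.U * D.T0) * (D.U * D.T0) := by ring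
        _ ≤ (v.1 * v.2) * (v'.1 * v'.2) :=
          mul_le_mul (gbb_vv h hv) (gbb_vv h hv') hUT.le (by positivity)
        _ = _ := by ring
    · have e : K = ∑ i ∈ D.II, ∑ i' ∈ D.II, |a i| * |a' i'| * (D.G : ℝ) ^ 6 := by
        rw [hKd, mul_assoc, mul_comm, GD.w1, GD.w1, sum_mul_sum, sum_mul]
        exact sum_congr rfl fun i _ => by rw [sum_mul]
      rw [e]
      refine norm_sum_le_of_le _ fun i hi => norm_sum_le_of_le _ fun i' hi' => ?_
      rw [norm_mul, Complex.norm_real, Real.norm_eq_abs, abs_mul]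
      refine mul_le_mul_of_nonneg_left (le_trans ?_ hK) (by positivity)
      have e2 : (2 * D.Z : ℝ) * (32 * (2 * D.G * D.L + 1)) =
          ∑ _m ∈ R29.Ibar D.Z, 32 * (2 * D.G * D.L + 1) := by
        rw [sum_const, nsmul_eq_mul, R29.card_Ibar]
        push_cast
        rfl
      rw [e2]
      refine norm_sum_le_of_le _ fun m _ => ?_
      split_ifs
      · exact h1 v hv v' hv' hne' i hi i' hi' m
      · rw [norm_zero]; positivity
  refine le_trans h2 ?_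
  rw [sum_const, sum_const, nsmul_eq_mul, nsmul_eq_mul]
  have := gbb_card h
  calc (D.VV.card : ℝ) * (D.VV.card * (1 / (D.U * D.T0) ^ 2 * K))
      ≤ (D.U * D.T0) * ((D.U * D.T0) * (1 / (D.U * D.T0) ^ 2 * K)) := by gcongr
    _ = K := by field_simp

end Crest.Agent.R1
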