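import Crest.Agent.R1.GlueB

/-!
# R1 / GlueC: the off-diagonal terms, change of variables `Δ = x π m`
-/

set_option autoImplicit false

namespace Crest.Agent.R1

open Finset Filter
open scoped Classical

theorem GlueC_sizes {D : GD} (h : D.Ok) :
    D.G < D.T0 ∧ D.E < D.T0 ∧ 2 * D.T0 < D.Q ∧ D.Z < D.Q ∧ D.Q < D.U := by
  have h1 : (2 : ℝ) ≤ D.G := by
    have := pow_le_pow_left₀ (by norm_num) h.L_ge 4
    linarith [h.G_ge]
  have h2 : 2 ≤ D.G := by exact_mod_cast h1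
  have h3 : D.G ^ 4 ≤ D.T0 := (Nat.pow_le_pow_right (by omega) (by norm_num)).trans h.T0_ge
  have h4 : D.G < D.T0 := lt_of_lt_of_le (lt_self_pow₀ (by omega) (by norm_num)) h3
  have h5 := h.E_le
  have h6 := h.Q_ge
  have h7 := h.U_ge
  have h8 : 21 * D.T0 ≤ D.Q := by nlinarith
  refine ⟨h4, by nlinarith, by omega, ?_, by omega⟩
  rw [GD.Z]
  omega

theorem GlueC_II {D : GD} (h : D.Ok) {i : ℤ × ℕ} (hi : i ∈ D.II) :
    i.1 ≠ 0 ∧ i.1.natAbs ≤ D.G ∧ 0 < i.2 ∧ i.2 ≤ D.E := by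
  rw [GD.II, mem_filter, mem_product, R29.mem_Ibar] at hi
  obtain ⟨h1, h2, -⟩ := h.EE_spec _ hi.1.2
  refine ⟨hi.1.1.1, ?_, Nat.pos_of_ne_zero h1.ne_zero, h2⟩
  have := hi.1.1.2
  rw [Int.abs_eq_natAbs] at this
  exact_mod_cast this

theorem GlueC_VV {D : GD} (h : D.Ok) {v : ℕ × ℕ} (hv : v ∈ D.VV) :
    v.1.Prime ∧ D.U ≤ v.1 ∧ v.1 < 2 * D.U ∧ v.2.Prime ∧ D.T0 ≤ v.2 ∧ v.2 < 2 * D.T0 := by
  obtain ⟨h1, h2⟩ := h.VV_spec v hv
  rw [R29.mem_win] at h1 h2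
  exact ⟨h1.1, h1.2.1, h1.2.2, h2⟩

theorem GlueC_swap (v : ℕ × ℕ) (i : ℤ × ℕ) (v' : ℕ × ℕ) (i' : ℤ × ℕ) :
    Dl v' i' v i = -Dl v i v' i' := by
  simp only [Dl]
  ring

theorem GlueC_ndvd {D : GD} (h : D.Ok) {v v' : ℕ × ℕ} (hv' : v' ∈ D.VV) {i i' : ℤ × ℕ}
    (hi : i ∈ D.II) (hi' : i' ∈ D.II) {p : ℕ} (hp : p.Prime) (hT : D.T0 ≤ p) (hn : p ∣ nn v i)
    (h1 : p ≠ v'.1) (h2 : p ≠ v'.2) : ¬ (p : ℤ) ∣ Dl v i v' i' := by
  intro hd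
  obtain ⟨s1, s2, -, -, -⟩ := GlueC_sizes h
  obtain ⟨k0, k1, -, -⟩ := GlueC_II h hi
  obtain ⟨-, -, e0, e1⟩ := GlueC_II h hi'
  obtain ⟨u0, -, -, t0, -, -⟩ := GlueC_VV h hv'
  have h3 : (p : ℤ) ∣ i.1 * nn v' i' :=
    (dvd_sub_left (Dvd.dvd.mul_left (Int.natCast_dvd_natCast.2 hn) i'.1)).1 hd
  rw [Int.natCast_dvd, Int.natAbs_mul, Int.natAbs_natCast, nn, hp.dvd_mul, hp.dvd_mul,
    hp.dvd_mul] at h3
  rcases h3 with h3 | (h3 | h3) | h3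
  · have := Nat.le_of_dvd (Int.natAbs_pos.2 k0) h3
    omega
  · have := Nat.le_of_dvd e0 h3
    omega
  · exact h1 ((Nat.prime_dvd_prime_iff_eq hp u0).1 h3)
  · exact h2 ((Nat.prime_dvd_prime_iff_eq hp t0).1 h3)

theorem GlueC_ndvd_u {D : GD} (h : D.Ok) {v v' : ℕ × ℕ} (hv : v ∈ D.VV) (hv' : v' ∈ D.VV)
    (h1 : v.1 ≠ v'.1) {i i' : ℤ × ℕ} (hi : i ∈ D.II) (hi' : i' ∈ D.II) :
    ¬ (v.1 : ℤ) ∣ Dl v i v' i' := by
  obtain ⟨-, -, s3, -, s5⟩ := GlueC_sizes h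
  obtain ⟨u0, u1, -, -, -, -⟩ := GlueC_VV h hv
  obtain ⟨-, -, -, -, -, t2⟩ := GlueC_VV h hv'
  exact GlueC_ndvd h hv' hi hi' u0 (by omega) ((dvd_mul_left _ _).mul_right _) h1 (by omega)

theorem GlueC_ndvd_t {D : GD} (h : D.Ok) {v v' : ℕ × ℕ} (hv : v ∈ D.VV) (hv' : v' ∈ D.VV)
    (h1 : v.2 ≠ v'.2) {i i' : ℤ × ℕ} (hi : i ∈ D.II) (hi' : i' ∈ D.II) :
    ¬ (v.2 : ℤ) ∣ Dl v i v' i' := by
  obtain ⟨-, -, s3, -, s5⟩ := GlueC_sizes h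
  obtain ⟨-, -, -, t0, t1, t2⟩ := GlueC_VV h hv
  obtain ⟨-, u1, -, -, -, -⟩ := GlueC_VV h hv'
  exact GlueC_ndvd h hv' hi hi' t0 t1 (dvd_mul_left _ _) (by omega) h1

theorem GD.Ok.Dl_ne_zero {D : GD} (h : D.Ok) {v v' : ℕ × ℕ} (hv : v ∈ D.VV) (hv' : v' ∈ D.VV)
    (h1 : v.1 ≠ v'.1) {i i' : ℤ × ℕ} (hi : i ∈ D.II) (hi' : i' ∈ D.II) : Dl v i v' i' ≠ 0 := by
  intro h0
  exact GlueC_ndvd_u h hv hv' h1 hi hi' (h0 ▸ dvd_zero _)

/-- the change of variables -/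
theorem GlueC_core {Δ : ℤ} (hΔ : Δ ≠ 0) {π Z X0 : ℕ} (hπ : π.Prime) (hZ : Z < π)
    (hb : |(Δ : ℝ)| ≤ Z * π * X0 / 2) {F : ℝ → ℂ}
    (hF : ∀ x, F x ≠ 0 → (X0 : ℝ) / 2 < x ∧ x < 32 * X0) {c : ℕ → Prop} {c' : ℤ → Prop}
    [DecidablePred c] [DecidablePred c']
    (hc : ∀ x : ℕ, ((x * π : ℕ) : ℤ) ∣ Δ → (c x ↔ c' ((x * π : ℕ) : ℤ))) :
    ∑ x ∈ Icc 1 (32 * X0), (if c x ∧ ((x * π : ℕ) : ℤ) ∣ Δ then F x else 0) =
      ∑ m ∈ R29.Ibar Z, if (m ∣ Δ ∧ c' (Δ / m)) ∧ (π : ℤ) ∣ Δ then F ((Δ : ℝ) / (π * m)) else 0 := by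
  have hπ0 : (0 : ℝ) < π := by exact_mod_cast hπ.pos
  have key : ∀ x : ℕ, x ∈ Icc 1 (32 * X0) → ∀ m : ℤ, Δ = ((x * π : ℕ) : ℤ) * m →
      m ≠ 0 ∧ Δ / ((x * π : ℕ) : ℤ) = m ∧ Δ / m = ((x * π : ℕ) : ℤ) ∧ (Δ : ℝ) / (π * m) = x := by
    intro x hx m hm
    have hm0 : m ≠ 0 := fun h0 => hΔ (by rw [hm, h0, mul_zero])
    have hx0 : ((x * π : ℕ) : ℤ) ≠ 0 := fun h0 => hΔ (by rw [hm, h0, zero_mul])
    refine ⟨hm0, by rw [hm, Int.mul_ediv_cancel_left _ hx0], by rw [hm, Int.mul_ediv_cancel _ hm0],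
      ?_⟩
    have : (m : ℝ) ≠ 0 := by exact_mod_cast hm0
    rw [hm]
    push_cast
    field_simp
  refine sum_bij_ne_zero (fun x _ _ => Δ / ((x * π : ℕ) : ℤ)) (fun x hx h0 => ?_)
    (fun x hx h0 x' hx' h0' he => ?_) (fun m hm h0 => ?_) (fun x hx h0 => ?_)
  · obtain ⟨⟨-, m, hm⟩, h1⟩ := ite_ne_right_iff.1 h0
    obtain ⟨k1, k2, -, -⟩ := key x hx m hm
    rw [k2, R29.mem_Ibar]
    refine ⟨k1, ?_⟩
    have h2 := (hF _ h1).1
    have h3 : |(Δ : ℝ)| = x * π * |(m : ℝ)| := by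
      rw [hm]
      push_cast
      rw [abs_mul, abs_of_nonneg (by positivity)]
    have h4 : (0 : ℝ) < x := lt_of_le_of_lt (by positivity) h2
    have h5 : |(m : ℝ)| ≤ Z := by
      refine le_of_mul_le_mul_left (a := (x : ℝ) * π) ?_ (mul_pos h4 hπ0)
      have h6 : (Z : ℝ) * π * (X0 / 2) ≤ Z * π * x := by gcongr
      linarith
    exact_mod_cast h5
  · obtain ⟨⟨-, m, hm⟩, -⟩ := ite_ne_right_iff.1 h0
    obtain ⟨⟨-, m', hm'⟩, -⟩ := ite_ne_right_iff.1 h0'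
    obtain ⟨-, k2, -, k4⟩ := key x hx m hm
    obtain ⟨-, k2', -, k4'⟩ := key x' hx' m' hm'
    rw [k2, k2'] at he
    rw [he, k4'] at k4
    exact_mod_cast k4.symm
  · obtain ⟨⟨⟨⟨w, hw⟩, h1⟩, h2⟩, h3⟩ := ite_ne_right_iff.1 h0
    rw [R29.mem_Ibar] at hm
    have h4 : (π : ℤ) ∣ w := by
      rw [hw] at h2
      refine ((Nat.prime_iff_prime_int.1 hπ).dvd_or_dvd h2).resolve_left fun h5 => ?_
      have := Int.le_of_dvd (abs_pos.2 hm.1) ((dvd_abs _ _).2 h5)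
      omega
    obtain ⟨z, hz⟩ := h4
    have hm' : (m : ℝ) ≠ 0 := by exact_mod_cast hm.1
    have h5 : (Δ : ℝ) / (π * m) = z := by
      rw [hw, hz]
      push_cast
      field_simp
    rw [h5] at h3
    obtain ⟨h6, h7⟩ := hF _ h3
    have h8 : 0 < z := by exact_mod_cast (lt_of_le_of_lt (by positivity) h6 : (0 : ℝ) < z)
    have h9 : z < 32 * X0 := by exact_mod_cast h7
    lift z to ℕ using h8.le
    have hx : z ∈ Icc 1 (32 * X0) := by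
      rw [mem_Icc]
      omega
    have hΔ' : Δ = ((z * π : ℕ) : ℤ) * m := by
      rw [hw, hz]
      push_cast
      ring
    obtain ⟨-, k2, k3, -⟩ := key z hx m hΔ'
    refine ⟨z, hx, ?_, k2⟩
    rw [k3] at h1
    rw [if_pos ⟨(hc z ⟨m, hΔ'⟩).2 h1, m, hΔ'⟩]
    exact_mod_cast h3
  · obtain ⟨⟨h1, m, hm⟩, -⟩ := ite_ne_right_iff.1 h0
    obtain ⟨-, k2, k3, k4⟩ := key x hx m hm
    rw [k2, k3, k4, if_pos ⟨h1, m, hm⟩, if_pos ⟨⟨⟨_, hm.trans (mul_comm _ _)⟩,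
      (hc x ⟨m, hm⟩).1 h1⟩, x * m, by rw [hm]; push_cast; ring⟩]

theorem GlueC_sum6 {α β γ δ : Type} (A : Finset α) (B : Finset β) (V : Finset γ) (I : Finset δ)
    (f : α → β → γ → δ → γ → δ → ℂ) :
    ∑ a ∈ A, ∑ b ∈ B, ∑ v ∈ V, ∑ i ∈ I, ∑ v' ∈ V, ∑ i' ∈ I, f a b v i v' i'
      = ∑ v ∈ V, ∑ v' ∈ V, ∑ i ∈ I, ∑ i' ∈ I, ∑ a ∈ A, ∑ b ∈ B, f a b v i v' i' := by
  rw [← sum_product', sum_comm]
  refine sum_congr rfl fun v _ => ?_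
  rw [sum_comm, eq_comm, sum_comm]
  refine sum_congr rfl fun i _ => ?_
  rw [eq_comm, sum_comm]
  refine sum_congr rfl fun v' _ => ?_
  rw [sum_comm]
  refine sum_congr rfl fun i' _ => ?_
  exact sum_product' _ _ fun a b => f a b v i v' i'

theorem GlueC_cop {D : GD} (h : D.Ok) {v v' : ℕ × ℕ} (hv : v ∈ D.VV) (hv' : v' ∈ D.VV)
    (h1 : v.1 ≠ v'.1) (h2 : v.2 ≠ v'.2) {i i' : ℤ × ℕ} (hi : i ∈ D.II) (hi' : i' ∈ D.II)
    {x : ℕ} (hx : (x : ℤ) ∣ Dl v i v' i') : Nat.Coprime x (nn v i) ↔ Nat.Coprime x i.2 := by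
  obtain ⟨u0, -, -, t0, -, -⟩ := GlueC_VV h hv
  have a1 : Nat.Coprime x v.1 := ((Nat.Prime.coprime_iff_not_dvd u0).2 fun h3 =>
    GlueC_ndvd_u h hv hv' h1 hi hi' ((Int.natCast_dvd_natCast.2 h3).trans hx)).symm
  have a2 : Nat.Coprime x v.2 := ((Nat.Prime.coprime_iff_not_dvd t0).2 fun h3 =>
    GlueC_ndvd_t h hv hv' h2 hi hi' ((Int.natCast_dvd_natCast.2 h3).trans hx)).symm
  simp only [nn, Nat.coprime_mul_iff_right]
  tauto

theorem GlueC_alg1 {X Δ g p m n n' : ℝ} (hΔ : Δ ≠ 0) (hp : p ≠ 0) (hm : m ≠ 0) (hg : g ≠ 0)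
    (hn : n ≠ 0) (hn' : n' ≠ 0) :
    X * Δ / (g * (Δ / (p * m)) * n * n') = X * p * m / (g * n * n') := by
  field_simp

theorem GlueC_alg2 {X k k' g x n n' : ℝ} (hx : x ≠ 0) (hg : g ≠ 0) (hn : n ≠ 0) (hn' : n' ≠ 0) :
    k * X / (g * x * n) + -(k' * X / (g * x * n')) = X * (k * n' - k' * n) / (g * x * n * n') := by
  field_simp
  ring

theorem GlueC_alg3 {c x p a a' u t u' t' s s' X : ℝ} (hX : X ≠ 0) :
    c * x * p * (a / (u * t) * s * (a' / (u' * t') * s'))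
      = X * (1 / (u * t * u' * t') * (a * a' * (p * (c * (x / X) * s * s')))) := by
  have e : x = X * (x / X) := by field_simp
  generalize x / X = z at e
  rw [e]
  ring

theorem GlueC_alg4 (c b b' X A B p W : ℝ) (z : ℂ) (h : c * (b * b') = X * (A * (B * (p * W)))) :
    (c : ℂ) * ((b : ℂ) * (b' : ℂ) * z) = X * (A * (B * (p * (W * z)))) := by
  rw [← mul_assoc, ← Complex.ofReal_mul, ← Complex.ofReal_mul, h]
  push_cast
  ring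

theorem GlueC_term {D : GD} (h : D.Ok) {v v' : ℕ × ℕ} (hv : v ∈ D.VV) (hv' : v' ∈ D.VV)
    (h1 : v.1 ≠ v'.1) (h2 : v.2 ≠ v'.2) {i i' : ℤ × ℕ} (hi : i ∈ D.II) (hi' : i' ∈ D.II)
    {π : ℕ} (hπ : π ∈ D.PP) {R : Prop} (hR : R) :
    ∑ x ∈ Icc 1 (32 * D.X0), ((R29.cut ((x : ℝ) / D.X0) * x * π : ℝ) : ℂ) *
      (if Nat.Coprime x (nn v i) ∧ Nat.Coprime x (nn v' i') ∧ ((x * π : ℕ) : ℤ) ∣ Dl v i v' i' ∧
          R then
        D.bb x v i * (starRingEnd ℂ) (D.bb x v' i') else 0) =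
    (D.X0 : ℂ) * (((1 / ((v.1 : ℝ) * v.2 * v'.1 * v'.2) : ℝ) : ℂ) *
      (((D.a0 i * D.a0 i' : ℝ) : ℂ) * ∑ m ∈ R29.Ibar D.Z,
        if m ∣ Dl v i v' i' ∧ IsCoprime (Dl v i v' i' / m) ((i.2 * i'.2 : ℕ) : ℤ) then
          psi1 π (Dl v i v' i') * (D.Wf v i v' i' ((Dl v i v' i' : ℝ) / (π * m)) : ℂ) *
            R29.ee ((D.X : ℝ) * π * m / ((D.g : ℝ) * nn v i * nn v' i')) else 0)) := by
  have hΔ := h.Dl_ne_zero hv hv' h1 hi hi'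
  obtain ⟨s1, s2, s3, s4, s5⟩ := GlueC_sizes h
  obtain ⟨u0, u1, u2, t0, t1, t2⟩ := GlueC_VV h hv
  obtain ⟨u0', u1', u2', t0', t1', t2'⟩ := GlueC_VV h hv'
  obtain ⟨-, -, e0, e1⟩ := GlueC_II h hi
  obtain ⟨-, -, e0', e1'⟩ := GlueC_II h hi'
  obtain ⟨p0, p1, -⟩ := R29.mem_win.1 hπ
  have hX : (0 : ℝ) < D.X0 := by exact_mod_cast h.X0_pos
  have hg : (0 : ℝ) < D.g := by exact_mod_cast h.g_pos
  have hn : (0 : ℝ) < nn v i := by exact_mod_cast Nat.mul_pos (Nat.mul_pos e0 u0.pos) t0.pos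
  have hn' : (0 : ℝ) < nn v' i' := by
    exact_mod_cast Nat.mul_pos (Nat.mul_pos e0' u0'.pos) t0'.pos
  have hb : |(Dl v i v' i' : ℝ)| ≤ D.Z * π * D.X0 / 2 := by
    have b1 := h.Dl_le ⟨u2.le, t2.le⟩ hi hi'
    have b2 := h.Dl_le ⟨u2'.le, t2'.le⟩ hi' hi
    have b3 : (D.Z : ℝ) * D.Q * D.X0 ≤ D.Z * π * D.X0 := by gcongr
    rw [Dl]
    push_cast
    refine (abs_sub _ _).trans ?_
    rw [abs_mul, abs_mul, abs_of_pos hn, abs_of_pos hn']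
    linarith
  have hc := GlueC_core hΔ p0 (by omega) hb
    (F := fun x => (D.Wf v i v' i' x : ℂ) *
      R29.ee ((D.X : ℝ) * Dl v i v' i' / (D.g * x * nn v i * nn v' i')))
    (fun x hx => by
      have a1 : R29.cut (x / D.X0) ≠ 0 := fun h0 => hx (by simp [GD.Wf, h0])
      obtain ⟨a2, a3⟩ := R29.cut_ne_zero a1
      rw [lt_div_iff₀ hX] at a2
      rw [div_lt_iff₀ hX] at a3
      exact ⟨by linarith, a3⟩)
    (c := fun x => Nat.Coprime x (nn v i) ∧ Nat.Coprime x (nn v' i'))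
    (c' := fun w => IsCoprime w ((i.2 * i'.2 : ℕ) : ℤ)) (fun x hx => by
      have a1 : (x : ℤ) ∣ Dl v i v' i' := (Int.natCast_dvd_natCast.2 (dvd_mul_right x π)).trans hx
      have a2 : Nat.Coprime π i.2 := Nat.coprime_of_lt_prime e0.ne' (by omega) p0
      have a3 : Nat.Coprime π i'.2 := Nat.coprime_of_lt_prime e0'.ne' (by omega) p0
      rw [GlueC_cop h hv hv' h1 h2 hi hi' a1, GlueC_cop h hv' hv h1.symm h2.symm hi' hi
        (by rw [GlueC_swap]; exact a1.neg_right), Nat.isCoprime_iff_coprime]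
      simp only [Nat.coprime_mul_iff_right, Nat.coprime_mul_iff_left]
      tauto)
  have hπ0 : (0 : ℝ) < π := by exact_mod_cast p0.pos
  have hΔ' : (Dl v i v' i' : ℝ) ≠ 0 := by exact_mod_cast hΔ
  have e2 : ∑ m ∈ R29.Ibar D.Z,
      (if m ∣ Dl v i v' i' ∧ IsCoprime (Dl v i v' i' / m) ((i.2 * i'.2 : ℕ) : ℤ) then
          psi1 π (Dl v i v' i') * (D.Wf v i v' i' ((Dl v i v' i' : ℝ) / (π * m)) : ℂ) *
            R29.ee ((D.X : ℝ) * π * m / ((D.g : ℝ) * nn v i * nn v' i')) else 0)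
      = π * ∑ x ∈ Icc 1 (32 * D.X0),
        if (Nat.Coprime x (nn v i) ∧ Nat.Coprime x (nn v' i')) ∧ ((x * π : ℕ) : ℤ) ∣ Dl v i v' i'
        then (D.Wf v i v' i' x : ℂ) *
          R29.ee ((D.X : ℝ) * Dl v i v' i' / (D.g * x * nn v i * nn v' i')) else 0 := by
    rw [hc, mul_sum]
    refine sum_congr rfl fun m hm => ?_
    have hm0 : (m : ℝ) ≠ 0 := by exact_mod_cast (R29.mem_Ibar.1 hm).1
    have e3 : (D.X : ℝ) * Dl v i v' i' / (D.g * ((Dl v i v' i' : ℝ) / (π * m)) * nn v i * nn v' i')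
        = (D.X : ℝ) * π * m / ((D.g : ℝ) * nn v i * nn v' i') :=
      GlueC_alg1 hΔ' hπ0.ne' hm0 hg.ne' hn.ne' hn'.ne'
    rw [e3, psi1]
    by_cases c1 : m ∣ Dl v i v' i' ∧ IsCoprime (Dl v i v' i' / m) ((i.2 * i'.2 : ℕ) : ℤ)
    · by_cases c2 : (π : ℤ) ∣ Dl v i v' i'
      · rw [if_pos c1, if_pos c2, if_pos ⟨c1, c2⟩, mul_assoc]
      · rw [if_pos c1, if_neg c2, if_neg fun h => c2 h.2, zero_mul, zero_mul, mul_zero]
    · rw [if_neg c1, if_neg fun h => c1 h.1, mul_zero]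
  rw [e2, mul_sum, mul_sum, mul_sum, mul_sum]
  refine sum_congr rfl fun x hx => ?_
  have hx0 : (0 : ℝ) < x := by exact_mod_cast (mem_Icc.1 hx).1
  by_cases c1 : (Nat.Coprime x (nn v i) ∧ Nat.Coprime x (nn v' i')) ∧
      ((x * π : ℕ) : ℤ) ∣ Dl v i v' i'
  · rw [if_pos c1, if_pos ⟨c1.1.1, c1.1.2, c1.2, hR⟩, GD.bb, GD.bb, map_mul,
      Complex.conj_ofReal, R29.conj_ee, mul_mul_mul_comm, ← R29.ee_add]
    have e3 : (i.1 : ℝ) * D.X / ((D.g : ℝ) * x * nn v i)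
        + -((i'.1 : ℝ) * D.X / ((D.g : ℝ) * x * nn v' i'))
        = (D.X : ℝ) * Dl v i v' i' / (D.g * x * nn v i * nn v' i') := by
      rw [Dl, Int.cast_sub, Int.cast_mul, Int.cast_mul, Int.cast_natCast, Int.cast_natCast]
      exact GlueC_alg2 hx0.ne' hg.ne' hn.ne' hn'.ne'
    rw [e3]
    exact GlueC_alg4 _ _ _ D.X0 _ _ π _ _ (GlueC_alg3 hX.ne')
  · rw [if_neg c1, if_neg fun h => c1 ⟨⟨h.1, h.2.1⟩, h.2.2.1⟩]
    simp only [mul_zero]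

/-- For `u ≠ u'`, `t ≠ t'`: `x ↦ m = Δ/(x π)` is a bijection between the `x` with `cut ≠ 0`, `x π ∣ Δ`
and the `m ∈ Ibar Z` with `m ∣ Δ`, `π ∣ Δ`, `Wf`-cutoff nonzero; `x` is automatically coprime to
`u t u' t'`, and `x ⊥ e e'` iff `Δ/m ⊥ e e'`. -/
theorem GD.Ok.off {D : GD} (h : D.Ok) :
    D.Tot (fun v i v' i' => Dl v i v' i' ≠ 0 ∧ v.1 ≠ v'.1 ∧ v.2 ≠ v'.2) =
      (D.X0 : ℂ) * D.Off D.a0 D.a0 psi1 := by
  rw [GD.Tot, GD.Off]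
  simp only [mul_sum (s := D.VV), mul_sum (s := D.II)]
  rw [GlueC_sum6, sum_div]
  refine sum_congr rfl fun v hv => ?_
  rw [sum_filter, mul_sum, sum_div]
  refine sum_congr rfl fun v' hv' => ?_
  by_cases c1 : v.1 ≠ v'.1 ∧ v.2 ≠ v'.2
  · rw [if_pos c1, mul_sum, sum_div]
    refine sum_congr rfl fun i hi => ?_
    rw [mul_sum, sum_div]
    refine sum_congr rfl fun i' hi' => ?_
    rw [sum_congr rfl fun π hπ => GlueC_term h hv hv' c1.1 c1.2 hi hi' hπ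
      (R := Dl v i v' i' ≠ 0 ∧ v.1 ≠ v'.1 ∧ v.2 ≠ v'.2) ⟨h.Dl_ne_zero hv hv' c1.1 hi hi', c1⟩,
      ← mul_sum, ← mul_sum, ← mul_sum, mul_div_assoc, mul_div_assoc, mul_div_assoc, sum_comm, sum_div]
    congr 3
    refine sum_congr rfl fun m _ => ?_
    split_ifs <;> simp
  · have c2 : ∀ P Q R S : Prop, ¬ (P ∧ Q ∧ R ∧ S ∧ v.1 ≠ v'.1 ∧ v.2 ≠ v'.2) :=
      fun _ _ _ _ h => c1 h.2.2.2.2
    simp only [if_neg c1, if_neg (c2 _ _ _ _), mul_zero, sum_const_zero, zero_div]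

theorem GD.Off_split (D : GD) (a a' : ℤ × ℕ → ℝ) :
    D.Off a a' psi1 = D.Off a a' (fun _ _ => 1) + D.Off a a' R29.psi0 := by
  simp only [GD.Off, ← sum_add_distrib, ← mul_add]
  refine sum_congr rfl fun v _ => sum_congr rfl fun v' _ => ?_
  congr 1
  refine sum_congr rfl fun i _ => sum_congr rfl fun i' _ => ?_
  congr 1
  refine sum_congr rfl fun m _ => ?_
  split_ifs
  · rw [← add_div, ← sum_add_distrib]
    congr 1
    refine sum_congr rfl fun π _ => ?_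
    rw [psi1, R29.psi0]
    ring
  · simp

theorem GlueC_phi (y : ℝ) : 0 ≤ R29.cut y * y ∧ R29.cut y * y ≤ 32 := by
  by_cases h : R29.cut y = 0
  · simp [h]
  · obtain ⟨h1, h2⟩ := R29.cut_ne_zero h
    have h3 := R29.cut_nonneg y
    have h4 := R29.cut_le_one y
    constructor <;> nlinarith

theorem GlueC_phi_lip (y y' : ℝ) : |R29.cut y * y - R29.cut y' * y'| ≤ 65 * |y - y'| := by
  have key : ∀ y y' : ℝ, R29.cut y ≠ 0 → |R29.cut y * y - R29.cut y' * y'| ≤ 65 * |y - y'| := by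
    intro y y' h
    obtain ⟨h1, h2⟩ := R29.cut_ne_zero h
    have e : R29.cut y * y - R29.cut y' * y'
        = (R29.cut y - R29.cut y') * y + R29.cut y' * (y - y') := by ring
    rw [e]
    refine (abs_add_le _ _).trans ?_
    rw [abs_mul, abs_mul, abs_of_pos (by linarith : 0 < y), abs_of_nonneg (R29.cut_nonneg y')]
    have h3 := R29.abs_cut_sub_le y y'
    have h4 := R29.cut_le_one y'
    have h5 := abs_nonneg (y - y')
    have h6 := abs_nonneg (R29.cut y - R29.cut y')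
    nlinarith
  by_cases h : R29.cut y = 0
  · by_cases h' : R29.cut y' = 0
    · simp [h, h']
    · rw [abs_sub_comm, abs_sub_comm y]
      exact key y' y h'
  · exact key y y' h

theorem GlueC_tri01 {c y : ℝ} (hc : 0 ≤ c) (hy : 0 ≤ y) :
    0 ≤ max 0 (1 - c / y) ∧ max 0 (1 - c / y) ≤ 1 :=
  ⟨le_max_left _ _, max_le zero_le_one (by linarith [div_nonneg hc hy])⟩

theorem GlueC_tri_lip {c a y y' : ℝ} (ha : 0 < a) (hy : a ≤ y) (hy' : a ≤ y') (hc : 0 ≤ c) :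
    |max 0 (1 - c / y) - max 0 (1 - c / y')| ≤ |y - y'| / a := by
  wlog hle : y ≤ y' generalizing y y'
  · rw [abs_sub_comm, abs_sub_comm y]
    exact this hy' hy (le_of_not_ge hle)
  have h0 : 0 < y := ha.trans_le hy
  have h0' : 0 < y' := ha.trans_le hy'
  have h1 : c / y' ≤ c / y := by gcongr
  rw [abs_sub_comm, abs_of_nonneg (sub_nonneg.2 (max_le_max le_rfl (by linarith))), abs_sub_comm,
    abs_of_nonneg (sub_nonneg.2 hle)]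
  have h2 : (y' - y) / y ≤ (y' - y) / a := by gcongr
  have h3 : 0 ≤ (y' - y) / y := div_nonneg (by linarith) h0.le
  rcases le_total c y' with h4 | h4
  · have h5 : c / y - c / y' = c / y' * ((y' - y) / y) := by field_simp
    have h6 : c / y' ≤ 1 := (div_le_one h0').2 h4
    rw [max_eq_right (by linarith)]
    nlinarith [le_max_right 0 (1 - c / y)]
  · have h6 : 1 ≤ c / y' := (one_le_div h0').2 h4
    rw [max_eq_left (by linarith)]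
    linarith [le_max_left 0 (1 - c / y)]

theorem GlueC_prod {p p' s s' t t' d : ℝ} (hp : 0 ≤ p' ∧ p' ≤ 32) (hs : 0 ≤ s ∧ s ≤ 1)
    (hs' : 0 ≤ s' ∧ s' ≤ 1) (ht : 0 ≤ t ∧ t ≤ 1) (h1 : |p - p'| ≤ 65 * d) (h2 : |s - s'| ≤ 2 * d)
    (h3 : |t - t'| ≤ 2 * d) : |p * s * t - p' * s' * t'| ≤ 200 * d := by
  have e : p * s * t - p' * s' * t' = (p - p') * (s * t) + (s - s') * (p' * t)
    + (t - t') * (p' * s') := by ring
  have hd : 0 ≤ d := by linarith [abs_nonneg (s - s')]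
  have a1 : |(p - p') * (s * t)| ≤ 65 * d * 1 := by
    rw [abs_mul, abs_of_nonneg (mul_nonneg hs.1 ht.1)]
    exact mul_le_mul h1 (mul_le_one₀ hs.2 ht.1 ht.2) (mul_nonneg hs.1 ht.1) (by linarith)
  have a2 : |(s - s') * (p' * t)| ≤ 2 * d * 32 := by
    rw [abs_mul, abs_of_nonneg (mul_nonneg hp.1 ht.1)]
    exact mul_le_mul h2 (by nlinarith [hp.1, hp.2, ht.1, ht.2]) (mul_nonneg hp.1 ht.1) (by linarith)
  have a3 : |(t - t') * (p' * s')| ≤ 2 * d * 32 := by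
    rw [abs_mul, abs_of_nonneg (mul_nonneg hp.1 hs'.1)]
    exact mul_le_mul h3 (by nlinarith [hp.1, hp.2, hs'.1, hs'.2]) (mul_nonneg hp.1 hs'.1)
      (by linarith)
  rw [e]
  refine (abs_add_three _ _ _).trans ?_
  linarith

theorem GlueC_Wf_eq (D : GD) (hX : 0 < D.X0) (v : ℕ × ℕ) (i : ℤ × ℕ) (v' : ℕ × ℕ)
    (i' : ℤ × ℕ) (x : ℝ) : D.Wf v i v' i' x = R29.cut (x / D.X0) * (x / D.X0)
      * max 0 (1 - D.M * |(i.1 : ℝ)| / (D.g * D.X0 * nn v i) / max (x / D.X0) (1 / 2))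
      * max 0 (1 - D.M * |(i'.1 : ℝ)| / (D.g * D.X0 * nn v' i') / max (x / D.X0) (1 / 2)) := by
  have hX' : (D.X0 : ℝ) ≠ 0 := by exact_mod_cast hX.ne'
  by_cases h : R29.cut (x / D.X0) = 0
  · simp [GD.Wf, h]
  · have e : ∀ n : ℝ, D.g * D.X0 * n * (x / D.X0) = D.g * x * n := fun n => by field_simp
    have e2 : 2 * (D.M / 2) = D.M := by ring
    rw [max_eq_left (R29.cut_ne_zero h).1.le, div_div, div_div, e, e, GD.Wf, R29.tri, R29.tri, e2]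

theorem GD.Wf_mem (D : GD) (hM : 0 ≤ D.M) (hX : 0 < D.X0) (v : ℕ × ℕ) (i : ℤ × ℕ) (v' : ℕ × ℕ)
    (i' : ℤ × ℕ) (x : ℝ) : 0 ≤ D.Wf v i v' i' x ∧ D.Wf v i v' i' x ≤ 32 := by
  rw [GlueC_Wf_eq D hX]
  obtain ⟨a1, a2⟩ := GlueC_phi (x / D.X0)
  have h0 : (0 : ℝ) ≤ max (x / D.X0) (1 / 2) := le_max_of_le_right (by norm_num)
  obtain ⟨b1, b2⟩ := GlueC_tri01 (c := D.M * |(i.1 : ℝ)| / (D.g * D.X0 * nn v i)) (by positivity) h0
  obtain ⟨c1, c2⟩ :=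
    GlueC_tri01 (c := D.M * |(i'.1 : ℝ)| / (D.g * D.X0 * nn v' i')) (by positivity) h0
  exact ⟨by positivity, (mul_le_of_le_one_right (mul_nonneg a1 b1) c2).trans
    ((mul_le_of_le_one_right a1 b2).trans a2)⟩

/-- Lipschitz bound in `x` -/
theorem GD.Wf_lip (D : GD) (hM : 0 ≤ D.M) (hX : 0 < D.X0) (v : ℕ × ℕ) (i : ℤ × ℕ) (v' : ℕ × ℕ)
    (i' : ℤ × ℕ) (x x' : ℝ) :
    |D.Wf v i v' i' x - D.Wf v i v' i' x'| ≤ 200 * |x - x'| / D.X0 := by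
  have hX' : (0 : ℝ) < D.X0 := by exact_mod_cast hX
  have h0 : ∀ y : ℝ, (0 : ℝ) ≤ max y (1 / 2) := fun y => le_max_of_le_right (by norm_num)
  have h1 : ∀ c : ℝ, 0 ≤ c → |max 0 (1 - c / max (x / D.X0) (1 / 2))
      - max 0 (1 - c / max (x' / D.X0) (1 / 2))| ≤ 2 * |x / D.X0 - x' / D.X0| := fun c hc => by
    refine (GlueC_tri_lip (a := 1 / 2) (by norm_num) (le_max_right _ _) (le_max_right _ _)
      hc).trans ?_
    have := abs_max_sub_max_le_abs (x / D.X0) (x' / D.X0) (1 / 2)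
    linarith
  rw [GlueC_Wf_eq D hX, GlueC_Wf_eq D hX]
  refine (GlueC_prod (GlueC_phi _) (GlueC_tri01 (by positivity) (h0 _))
    (GlueC_tri01 (by positivity) (h0 _)) (GlueC_tri01 (by positivity) (h0 _)) (GlueC_phi_lip _ _)
    (h1 _ (by positivity)) (h1 _ (by positivity))).trans_eq ?_
  rw [← sub_div, abs_div, abs_of_pos hX', mul_div_assoc]

/-- Lipschitz bound in `u'` (through the second triangle factor only) -/
theorem GD.Wf_lip' (D : GD) (hM : 0 ≤ D.M) (hX : 0 < D.X0) (v : ℕ × ℕ) (i i' : ℤ × ℕ) {U u u' : ℕ}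
    (hU : 0 < U) (hu : U ≤ u) (hu' : U ≤ u') (t : ℕ) (x : ℝ) :
    |D.Wf v i (u, t) i' x - D.Wf v i (u', t) i' x| ≤ 32 * |(u : ℝ) - u'| / U := by
  have hX' : (0 : ℝ) < D.X0 := by exact_mod_cast hX
  have hU' : (0 : ℝ) < U := by exact_mod_cast hU
  by_cases h : R29.cut (x / D.X0) = 0
  · simp only [GD.Wf, h, zero_mul, sub_zero, abs_zero]
    positivity
  have hx : 0 < x := by
    have := (R29.cut_ne_zero h).1
    rw [lt_div_iff₀ hX'] at this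
    linarith
  have e : ∀ w : ℕ, R29.tri (D.M / 2) i'.1 (D.g * x * nn (w, t) i')
      = max 0 (1 - D.M * |(i'.1 : ℝ)| / (D.g * x * i'.2 * t) / w) := fun w => by
    rw [R29.tri, nn, div_div]
    push_cast
    congr 3 <;> ring
  obtain ⟨a1, a2⟩ := GlueC_phi (x / D.X0)
  have b : 0 ≤ R29.tri (D.M / 2) i.1 (D.g * x * nn v i) ∧
      R29.tri (D.M / 2) i.1 (D.g * x * nn v i) ≤ 1 := GlueC_tri01 (by positivity) (by positivity)
  rw [GD.Wf, GD.Wf, e, e, ← mul_sub, abs_mul, abs_of_nonneg (mul_nonneg a1 b.1),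
    mul_div_assoc (32 : ℝ)]
  exact mul_le_mul ((mul_le_of_le_one_right a1 b.2).trans a2)
    (GlueC_tri_lip hU' (by exact_mod_cast hu) (by exact_mod_cast hu') (by positivity))
    (abs_nonneg _) (by norm_num)

end Crest.Agent.R1
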