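import Crest.Agent.R1.GlueC
import Crest.Agent.R1.GlueE

/-!
# R1 / GlueGX: auxiliary lemmas for `GlueG`
-/

set_option autoImplicit false

namespace Crest.Agent.R1

open Finset Filter
open scoped Classical

lemma GG_pair_eq {I K : Type} (s : Finset I) (b : I → ℝ) (φ ψ : I → K) (T : Finset K)
    (hT : ∀ i ∈ s, φ i ∈ T) :
    ∑ i ∈ s, ∑ i' ∈ s, (if φ i = ψ i' then b i * b i' else 0) =
      ∑ q ∈ T, (∑ i ∈ s, if φ i = q then b i else 0) * (∑ i ∈ s, if ψ i = q then b i else 0) := by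
  simp only [Finset.sum_mul_sum]
  rw [Finset.sum_comm (s := T)]
  refine Finset.sum_congr rfl fun i hi => ?_
  rw [Finset.sum_comm (s := T)]
  refine Finset.sum_congr rfl fun i' _ => ?_
  rw [Finset.sum_eq_single (φ i)]
  · by_cases h : φ i = ψ i'
    · simp [h]
    · simp [h, Ne.symm h]
  · intro q _ hq
    simp [Ne.symm hq]
  · intro h
    exact absurd (hT i hi) h

lemma GG_young {I K : Type} (s : Finset I) (b : I → ℝ) (φ ψ : I → K) :
    2 * ∑ i ∈ s, ∑ i' ∈ s, (if φ i = ψ i' then b i * b i' else 0) ≤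
      ∑ i ∈ s, ∑ i' ∈ s, (if φ i = φ i' then b i * b i' else 0) +
        ∑ i ∈ s, ∑ i' ∈ s, (if ψ i = ψ i' then b i * b i' else 0) := by
  have h1 : ∀ i ∈ s, φ i ∈ s.image φ ∪ s.image ψ := fun i hi =>
    Finset.mem_union_left _ (Finset.mem_image_of_mem _ hi)
  have h2 : ∀ i ∈ s, ψ i ∈ s.image φ ∪ s.image ψ := fun i hi =>
    Finset.mem_union_right _ (Finset.mem_image_of_mem _ hi)
  rw [GG_pair_eq s b φ ψ _ h1, GG_pair_eq s b φ φ _ h1, GG_pair_eq s b ψ ψ _ h2,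
    ← Finset.sum_add_distrib, Finset.mul_sum]
  refine Finset.sum_le_sum fun q _ => ?_
  nlinarith [sq_nonneg ((∑ i ∈ s, if φ i = q then b i else 0) -
    (∑ i ∈ s, if ψ i = q then b i else 0))]

lemma GD.GG_mem_II (D : GD) {i : ℤ × ℕ} (hi : i ∈ D.II) :
    i.1 ≠ 0 ∧ |i.1| ≤ D.G ∧ i.2 ∈ D.EE := by
  unfold GD.II at hi
  rw [Finset.mem_filter, Finset.mem_product, R29.mem_Ibar] at hi
  exact ⟨hi.1.1.1, hi.1.1.2, hi.1.2⟩

lemma GD.GG_kap_pair (D : GD) (a a' : ℤ × ℕ → ℝ) (hE : ∀ e ∈ D.EE, 0 < e) :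
    ∑ j ∈ D.II ×ˢ D.II, ∑ j' ∈ D.II ×ˢ D.II,
      (if ((j.1.1 * j.2.2 : ℤ) : ℚ) / ((j.2.1 * j.1.2 : ℤ) : ℚ) =
          ((j'.1.1 * j'.2.2 : ℤ) : ℚ) / ((j'.2.1 * j'.1.2 : ℤ) : ℚ) then
        |a j.1| * |a' j.2| * (|a j'.1| * |a' j'.2|) else 0) ≤ D.kap a * D.w1 a' ^ 2 := by
  set r : ℤ × ℕ → ℚ := fun i => (i.1 : ℚ) / i.2 with hr
  have hk : ∀ i ∈ D.II, (i.1 : ℚ) ≠ 0 ∧ (i.2 : ℚ) ≠ 0 := fun i hi =>
    ⟨by exact_mod_cast (D.GG_mem_II hi).1, by exact_mod_cast (hE _ (D.GG_mem_II hi).2.2).ne'⟩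
  have hkap : ∀ ρ : ℚ, ρ ≠ 0 → ∑ i ∈ D.II, ∑ i' ∈ D.II,
      (if ρ * r i = ρ * r i' then |a i| * |a i'| else 0) = D.kap a := by
    intro ρ hρ
    unfold GD.kap
    refine Finset.sum_congr rfl fun i hi => Finset.sum_congr rfl fun i' hi' => ?_
    refine if_congr ?_ rfl rfl
    rw [mul_right_inj' hρ, hr]
    simp only
    rw [div_eq_div_iff (hk i hi).2 (hk i' hi').2]
    exact_mod_cast Iff.rfl
  have key : ∀ i₂ ∈ D.II, ∀ i₂' ∈ D.II, ∑ i ∈ D.II, ∑ i' ∈ D.II,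
      (if ((i.1 * i₂.2 : ℤ) : ℚ) / ((i₂.1 * i.2 : ℤ) : ℚ) =
          ((i'.1 * i₂'.2 : ℤ) : ℚ) / ((i₂'.1 * i'.2 : ℤ) : ℚ) then |a i| * |a i'| else 0) ≤
        D.kap a := by
    intro i₂ h₂ i₂' h₂'
    have hy := GG_young D.II (fun i => |a i|) (fun i => (i₂.2 : ℚ) / i₂.1 * r i)
      (fun i => (i₂'.2 : ℚ) / i₂'.1 * r i)
    have e1 := hkap _ (div_ne_zero (hk _ h₂).2 (hk _ h₂).1)
    have e2 := hkap _ (div_ne_zero (hk _ h₂').2 (hk _ h₂').1)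
    have e3 : ∑ i ∈ D.II, ∑ i' ∈ D.II,
        (if ((i.1 * i₂.2 : ℤ) : ℚ) / ((i₂.1 * i.2 : ℤ) : ℚ) =
          ((i'.1 * i₂'.2 : ℤ) : ℚ) / ((i₂'.1 * i'.2 : ℤ) : ℚ) then |a i| * |a i'| else 0) =
        ∑ i ∈ D.II, ∑ i' ∈ D.II,
        (if (i₂.2 : ℚ) / i₂.1 * r i = (i₂'.2 : ℚ) / i₂'.1 * r i' then |a i| * |a i'| else 0) := by
      refine Finset.sum_congr rfl fun i hi => Finset.sum_congr rfl fun i' hi' => ?_
      refine if_congr ?_ rfl rfl
      have f1 : ((i.1 * i₂.2 : ℤ) : ℚ) / ((i₂.1 * i.2 : ℤ) : ℚ) = (i₂.2 : ℚ) / i₂.1 * r i := by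
        rw [hr]
        push_cast
        rw [div_mul_div_comm, mul_comm (i₂.2 : ℚ)]
      have f2 : ((i'.1 * i₂'.2 : ℤ) : ℚ) / ((i₂'.1 * i'.2 : ℤ) : ℚ) =
          (i₂'.2 : ℚ) / i₂'.1 * r i' := by
        rw [hr]
        push_cast
        rw [div_mul_div_comm, mul_comm (i₂'.2 : ℚ)]
      rw [f1, f2]
    rw [e3]
    have hy' : 2 * ∑ i ∈ D.II, ∑ i' ∈ D.II,
        (if (i₂.2 : ℚ) / i₂.1 * r i = (i₂'.2 : ℚ) / i₂'.1 * r i' then |a i| * |a i'| else 0) ≤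
        D.kap a + D.kap a := by
      rw [← e1]
      conv_rhs => rhs; rw [e1, ← e2]
      convert hy
    linarith
  calc _ = ∑ i₂ ∈ D.II, ∑ i₂' ∈ D.II, (∑ i ∈ D.II, ∑ i' ∈ D.II,
        (if ((i.1 * i₂.2 : ℤ) : ℚ) / ((i₂.1 * i.2 : ℤ) : ℚ) =
          ((i'.1 * i₂'.2 : ℤ) : ℚ) / ((i₂'.1 * i'.2 : ℤ) : ℚ) then |a i| * |a i'| else 0)) *
          (|a' i₂| * |a' i₂'|) := by
        rw [Finset.sum_product_right]
        refine Finset.sum_congr rfl fun i₂ _ => ?_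
        simp only [Finset.sum_product_right, Finset.sum_mul]
        rw [Finset.sum_comm]
        refine Finset.sum_congr rfl fun i₂' _ => Finset.sum_congr rfl fun i _ =>
          Finset.sum_congr rfl fun i' _ => ?_
        split_ifs
        · ring
        · ring
    _ ≤ ∑ i₂ ∈ D.II, ∑ i₂' ∈ D.II, D.kap a * (|a' i₂| * |a' i₂'|) := by
        refine Finset.sum_le_sum fun i₂ h₂ => Finset.sum_le_sum fun i₂' h₂' => ?_
        exact mul_le_mul_of_nonneg_right (key i₂ h₂ i₂' h₂') (by positivity)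
    _ = _ := by
        unfold GD.w1
        rw [sq, Finset.sum_mul_sum, Finset.mul_sum]
        refine Finset.sum_congr rfl fun i₂ _ => ?_
        rw [Finset.mul_sum]

/-- changing the coefficients by at most `δ` -/
lemma GG_diff {J : Type} (S : Finset J) (b : J → ℝ) (c c' : J → ℕ → ℂ) (Δ : J → ℤ) {Q G : ℕ}
    {L δ : ℝ} (hδ : 0 ≤ δ) (hL : 0 ≤ L) (hQ : 0 < Q) (hcard : Q ≤ G * (R29.win Q).card)
    (hc : ∀ j ∈ S, ∀ π ∈ R29.win Q, ‖c j π - c' j π‖ ≤ δ)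
    (hΔ : ∀ j ∈ S, (((R29.win Q).filter (fun π : ℕ => (π : ℤ) ∣ Δ j)).card : ℝ) ≤ L) :
    ‖(∑ π ∈ R29.win Q, ∑ j ∈ S, (b j : ℂ) * c j π * R29.psi0 π (Δ j)) / (R29.win Q).card -
      (∑ π ∈ R29.win Q, ∑ j ∈ S, (b j : ℂ) * c' j π * R29.psi0 π (Δ j)) / (R29.win Q).card‖ ≤
      δ * (2 * G * L + 1) * ∑ j ∈ S, |b j| := by
  have hP : 0 < (R29.win Q).card := by
    rcases Nat.eq_zero_or_pos (R29.win Q).card with h | h
    · rw [h] at hcard
      omega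
    · exact h
  have rP : (0 : ℝ) < (R29.win Q).card := by exact_mod_cast hP
  have rQ : (Q : ℝ) ≤ G * (R29.win Q).card := by exact_mod_cast hcard
  rw [← sub_div, ← Finset.sum_sub_distrib, norm_div, Complex.norm_natCast, div_le_iff₀ rP]
  simp only [← Finset.sum_sub_distrib]
  rw [Finset.sum_comm, Finset.mul_sum, Finset.sum_mul]
  refine (norm_sum_le _ _).trans (Finset.sum_le_sum fun j hj => ?_)
  have h1 : ∑ π ∈ R29.win Q, ‖R29.psi0 π (Δ j)‖ ≤ (2 * G * L + 1) * (R29.win Q).card := by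
    calc _ ≤ ∑ π ∈ R29.win Q, ((if (π : ℤ) ∣ Δ j then (2 * Q : ℝ) else 0) + 1) := by
          refine Finset.sum_le_sum fun π hπ => (R29.gmom_norm_psi0 _ _).trans ?_
          have : (π : ℝ) ≤ 2 * Q := by exact_mod_cast (R29.mem_win.1 hπ).2.2.le
          split_ifs <;> linarith
      _ = (((R29.win Q).filter (fun π : ℕ => (π : ℤ) ∣ Δ j)).card : ℝ) * (2 * Q) +
            (R29.win Q).card := by
          rw [Finset.sum_add_distrib, ← Finset.sum_filter]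
          simp
      _ ≤ L * (2 * (G * (R29.win Q).card)) + (R29.win Q).card := by
          have := hΔ j hj
          gcongr
      _ = _ := by ring
  calc _ ≤ ∑ π ∈ R29.win Q, |b j| * δ * ‖R29.psi0 π (Δ j)‖ := by
        refine (norm_sum_le _ _).trans (Finset.sum_le_sum fun π hπ => ?_)
        rw [← sub_mul, ← mul_sub, norm_mul, norm_mul, Complex.norm_real, Real.norm_eq_abs]
        have := hc j hj π hπ
        gcongr
    _ = |b j| * δ * ∑ π ∈ R29.win Q, ‖R29.psi0 π (Δ j)‖ := by rw [Finset.mul_sum]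
    _ ≤ |b j| * δ * ((2 * G * L + 1) * (R29.win Q).card) := by gcongr
    _ = _ := by ring

lemma GG_floor_approx {x M : ℝ} (hx : 0 ≤ x) (hM : 0 < M) :
    |x - (⌊x * M⌋₊ : ℝ) / M| ≤ 1 / M := by
  have h1 : (⌊x * M⌋₊ : ℝ) ≤ x * M := Nat.floor_le (by positivity)
  have h2 : x * M < ⌊x * M⌋₊ + 1 := Nat.lt_floor_add_one _
  have e : x - (⌊x * M⌋₊ : ℝ) / M = (x * M - ⌊x * M⌋₊) / M := by field_simp
  rw [e, abs_div, abs_of_pos hM, abs_of_nonneg (by linarith)]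
  gcongr
  linarith

lemma GG_ee_net (n : ℤ) (θ : ℝ) {N : ℝ} (hN : 0 < N) :
    ‖R29.ee (θ * n) - R29.ee ((⌊Int.fract θ * N⌋₊ : ℝ) / N * n)‖ ≤ 7 * (|(n : ℝ)| / N) := by
  have e : R29.ee (θ * n) = R29.ee (Int.fract θ * n) := by
    rw [← R29.ee_add_int (Int.fract θ * n) (⌊θ⌋ * n)]
    congr 1
    rw [Int.fract]
    push_cast
    ring
  rw [e]
  refine (R29.norm_ee_sub_le _ _).trans ?_
  rw [← sub_mul, abs_mul]
  have := GG_floor_approx (Int.fract_nonneg θ) hN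
  calc _ ≤ 7 * (1 / N * |(n : ℝ)|) := by gcongr
    _ = _ := by ring

lemma GG_block {U M u : ℕ} (hM : 0 < M) (hMU : M ≤ U) (h1 : U ≤ u) (h2 : u < 2 * U) :
    (u - U) * M / U < M ∧
      |(u : ℝ) - ((U + (u - U) * M / U * U / M : ℕ) : ℝ)| ≤ 2 * U / M := by
  have hU : 0 < U := by omega
  obtain ⟨d, rfl⟩ : ∃ d, u = U + d := ⟨u - U, by omega⟩
  have hd : d < U := by omega
  rw [Nat.add_sub_cancel_left]
  set b := d * M / U with hb
  have b1 : b * U ≤ d * M := Nat.div_mul_le_self _ _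
  have b2 : d * M < b * U + U := by
    have := Nat.lt_div_mul_add (a := d * M) hU
    rw [← hb] at this
    exact this
  set c := b * U / M with hc
  have c1 : c * M ≤ b * U := Nat.div_mul_le_self _ _
  have c2 : b * U < c * M + M := by
    have := Nat.lt_div_mul_add (a := b * U) hM
    rw [← hc] at this
    exact this
  refine ⟨?_, ?_⟩
  · rw [hb, Nat.div_lt_iff_lt_mul hU]
    nlinarith
  · have rM : (0 : ℝ) < M := by exact_mod_cast hM
    have r1 : (c : ℝ) * M ≤ d * M := by exact_mod_cast c1.trans b1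
    have r2 : (d : ℝ) * M ≤ c * M + 2 * U := by
      have : d * M ≤ c * M + 2 * U := by omega
      exact_mod_cast this
    have r3 : (c : ℝ) ≤ d := le_of_mul_le_mul_right r1 rM
    push_cast
    rw [add_sub_add_left_eq_sub, abs_of_nonneg (by linarith), le_div_iff₀ rM]
    linarith

lemma GG_cond_per {α β m : ℤ} (hm : m ≠ 0) {f e : ℕ} (he : e ∣ f) {x y : ℤ}
    (hxy : x ≡ y [ZMOD ((m.natAbs * f : ℕ) : ℤ)])
    (hx : m ∣ α + β * x ∧ IsCoprime ((α + β * x) / m) (e : ℤ)) :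
    m ∣ α + β * y ∧ IsCoprime ((α + β * y) / m) (e : ℤ) := by
  obtain ⟨c, hc⟩ := hxy.dvd
  obtain ⟨f', rfl⟩ := he
  obtain ⟨⟨z, hz⟩, hz'⟩ := hx
  have hs : ((m.natAbs : ℕ) : ℤ) = m * m.sign := by
    rw [mul_comm, Int.sign_mul_self_eq_natAbs]
  have e1 : α + β * y = m * (z + e * (β * m.sign * f' * c)) := by
    have : y = x + ((m.natAbs * (e * f') : ℕ) : ℤ) * c := by linarith
    rw [this, Nat.cast_mul, hs]
    push_cast
    linear_combination hz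
  rw [hz, Int.mul_ediv_cancel_left _ hm] at hz'
  refine ⟨⟨_, e1⟩, ?_⟩
  rw [e1, Int.mul_ediv_cancel_left _ hm]
  exact hz'.add_mul_left_left _

end Crest.Agent.R1
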