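import Crest.Agent.R1.Ew

/-!
# R1 / Loc: the local sieve weights (Rosser's tree on sizes `[i, J)`, fundamental lemma below `i`)
-/

set_option autoImplicit false

namespace Crest.Agent.R1

open Finset
open scoped Classical

noncomputable section

/-- weights of the fundamental lemma for the primes of size `< i`, level `exp (R / 2h)` -/
def fl0 (h i e : ℕ) (R : ℤ) : Finset ℕ → ℝ :=
  flw (e % 2) (Pr h 0 i) (Real.exp ((i : ℝ) / h)) (Real.exp ((R : ℝ) / (2 * h)))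

/-- their main term -/
def v0 (h i e : ℕ) (R : ℤ) : ℝ := ∑ T ∈ (Pr h 0 i).powerset, fl0 h i e R T * wt iv T

/-- local weights for the primes of size `< J` -/
def loc (h i J e : ℕ) (R : ℤ) (T : Finset ℕ) : ℝ :=
  if T ⊆ Pr h 0 J ∧ Alive (sz h) R e (T ∩ Pr h i J) then
    (-1) ^ (T ∩ Pr h i J).card *
      fl0 h i (e + (T ∩ Pr h i J).card) (R - tot (sz h) (T ∩ Pr h i J)) (T ∩ Pr h 0 i)
  else 0

/-- their main term -/
def Vloc (h i J e : ℕ) (R : ℤ) : ℝ := ∑ T ∈ (Pr h 0 J).powerset, loc h i J e R T * wt iv T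

/-- their remainder term on the progression `pd τ ∣ n - X` -/
def remLoc (M : ℝ) (X : ℤ) (h i J e : ℕ) (R : ℤ) (τ : Finset ℕ) : ℝ :=
  ∑ T ∈ (Pr h 0 J).powerset, loc h i J e R T * rem M X (pd τ * pd T)

/-- the local dead leaves on the progression `τ ⊆ S` -/
def deadLoc (h i J e : ℕ) (R : ℤ) (τ S : Finset ℕ) : ℝ :=
  ∑ τ' ∈ leaves (sz h) R e (Pr h i J), ind τ ∅ S * lind τ' (Pr h 0 J) S

/-- the main term: level `R0` above the cut `J`, level `R0 - a'` below -/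
def Main (M a : ℝ) (J a' : ℕ) : ℝ :=
  ∑ τ ∈ nodes (sz (hh M)) (R0 M a) 0 (Pr (hh M) J (top M)),
    (-1) ^ τ.card * wt iv τ * Vloc (hh M) (i0 M) J τ.card (R0 M a - tot (sz (hh M)) τ - a')

end

/-- admissible local data -/
structure LocOk (h i J e : ℕ) (R : ℤ) : Prop where
  h_pos : 0 < h
  h_le : h ≤ i
  i_le : i ≤ J
  ev : Even e → (J : ℤ) + i ≤ R
  od : (i : ℤ) ≤ R

variable {h i J e : ℕ} {R : ℤ}

theorem fl0_spec (hh : 0 < h) (hi : h ≤ i) (hR : (i : ℤ) ≤ R) :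
    IsSW e (Pr h 0 i) (Real.exp ((R : ℝ) / (2 * h))) (fl0 h i e R) ∧
      |v0 h i e R - Vs h i| ≤ Cfl * Real.exp (-((R : ℝ) / (2 * i)) / Cfl) * Vs h i := by
  have h0 : (0 : ℝ) < h := Nat.cast_pos.2 hh
  have hi' : (h : ℝ) ≤ i := Nat.cast_le.2 hi
  have hR' : (i : ℝ) ≤ R := by exact_mod_cast hR
  have hi0 : (0 : ℝ) < i := by linarith
  have hy : 2 ≤ Real.exp ((i : ℝ) / h) := by
    have h1 := Real.add_one_le_exp ((i : ℝ) / h)
    have h2 : 1 ≤ (i : ℝ) / h := (one_le_div h0).2 hi'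
    linarith
  have hP : ∀ p ∈ Pr h 0 i, p.Prime ∧ (p : ℝ) ≤ Real.exp ((i : ℝ) / h) := by
    intro p hp
    obtain ⟨h1, -, h2⟩ := (mem_Pr hh).1 hp
    refine ⟨h1, (Real.log_le_iff_le_exp (Nat.cast_pos.2 h1.pos)).1 ((log_lt_sz hh p).le.trans ?_)⟩
    exact div_le_div_of_nonneg_right (Nat.cast_le.2 h2.le) h0.le
  have hD : Real.exp ((i : ℝ) / h) ^ (1 / 4 : ℝ) ≤ Real.exp ((R : ℝ) / (2 * h)) := by
    rw [← Real.exp_mul]
    refine Real.exp_le_exp.2 ?_
    rw [div_mul_eq_mul_div, div_le_div_iff₀ h0 (by positivity)]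
    nlinarith
  obtain ⟨h1, h2⟩ := flw_spec (e % 2) hy hP hD
  refine ⟨⟨h1.abs_le, h1.supp, fun S hS => ?_⟩, ?_⟩
  · rw [neg_one_pow_eq_pow_mod_two]
    exact h1.ineq S hS
  · have h3 := h2 iv fun p hp => by
      have h4 : (2 : ℝ) ≤ p := by exact_mod_cast (hP p hp).1.two_le
      unfold iv
      exact ⟨by positivity, by gcongr, by gcongr; norm_num⟩
    rw [Real.log_exp, Real.log_exp,
      show (R : ℝ) / (2 * h) / ((i : ℝ) / h) = R / (2 * i) by field_simp] at h3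
    exact h3

theorem loc_congr {e' : ℕ} (he : e % 2 = e' % 2) : loc h i J e R = loc h i J e' R := by
  funext T
  unfold loc fl0
  rw [alive_congr he, show (e + (T ∩ Pr h i J).card) % 2 = (e' + (T ∩ Pr h i J).card) % 2 by omega]

theorem LocOk.loca_rem (H : LocOk h i J e R) {τ : Finset ℕ} (hτ : τ ⊆ Pr h i J)
    (ha : Alive (sz h) R e τ) : (i : ℤ) ≤ R - tot (sz h) τ :=
  Alive.rem_ge (sz_mono h) ⟨H.ev, H.od⟩ (fun _ hp =>
    ⟨((mem_Pr H.h_pos).1 (hτ hp)).2.1, ((mem_Pr H.h_pos).1 (hτ hp)).2.2.le⟩) ha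

theorem LocOk.loca_union (H : LocOk h i J e R) : Pr h i J ∪ Pr h 0 i = Pr h 0 J :=
  Pr_union H.h_pos (Nat.zero_le _) H.i_le

theorem LocOk.loca_lt (H : LocOk h i J e R) : ∀ p ∈ Pr h i J, ∀ q ∈ Pr h 0 i, q < p :=
  fun _ hp _ hq => Pr_lt H.h_pos le_rfl hp hq

theorem LocOk.loca_disj (H : LocOk h i J e R) : Disjoint (Pr h i J) (Pr h 0 i) :=
  disjoint_left.2 fun p hp hq => lt_irrefl p (H.loca_lt p hp p hq)

theorem LocOk.loca_pd (H : LocOk h i J e R) {T : Finset ℕ} (hT : loc h i J e R T ≠ 0) :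
    T ⊆ Pr h 0 J ∧ Alive (sz h) R e (T ∩ Pr h i J) ∧
      (pd T : ℝ) ≤ Real.exp ((R + (tot (sz h) (T ∩ Pr h i J) : ℝ)) / 2 / h) := by
  unfold loc at hT
  split_ifs at hT with hc
  · refine ⟨hc.1, hc.2, ?_⟩
    have h0 : (0 : ℝ) < h := Nat.cast_pos.2 H.h_pos
    have h1 := ((fl0_spec H.h_pos H.h_le (H.loca_rem inter_subset_right hc.2)).1.supp _
      (right_ne_zero_of_mul hT)).2
    have h2 := pd_le_exp H.h_pos (τ := T ∩ Pr h i J)
      fun p hp => ((mem_Pr H.h_pos).1 (mem_inter.1 hp).2).1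
    have h3 : pd T = pd (T ∩ Pr h i J) * pd (T ∩ Pr h 0 i) := by
      unfold pd
      rw [← prod_union (H.loca_disj.mono inter_subset_right inter_subset_right),
        ← inter_union_distrib_left, H.loca_union, inter_eq_left.2 hc.1]
    rw [h3, Nat.cast_mul]
    refine (mul_le_mul h2 h1 (Nat.cast_nonneg _) (Real.exp_pos _).le).trans (le_of_eq ?_)
    rw [← Real.exp_add]
    congr 1
    push_cast
    field_simp
    ring
  · exact absurd rfl hT

theorem loca_sum_powerset {U V : Finset ℕ} (hd : Disjoint U V) (G : Finset ℕ → ℝ) :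
    ∑ T ∈ (U ∪ V).powerset, G T = ∑ τ ∈ U.powerset, ∑ T ∈ V.powerset, G (τ ∪ T) := by
  rw [← sum_product']
  refine sum_nbij' (fun T => (T ∩ U, T ∩ V)) (fun p => p.1 ∪ p.2) ?_ ?_ ?_ ?_ ?_
  · intro T _
    simp only [mem_product, mem_powerset]
    exact ⟨inter_subset_right, inter_subset_right⟩
  · intro p hp
    simp only [mem_product, mem_powerset] at hp ⊢
    exact union_subset_union hp.1 hp.2
  · intro T hT
    simp only
    rw [← inter_union_distrib_left, inter_eq_left.2 (mem_powerset.1 hT)]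
  · intro p hp
    simp only [mem_product, mem_powerset] at hp
    refine Prod.ext ?_ ?_
    · simp only
      rw [union_inter_distrib_right, inter_eq_left.2 hp.1,
        disjoint_iff_inter_eq_empty.1 (hd.symm.mono_left hp.2), union_empty]
    · simp only
      rw [union_inter_distrib_right, inter_eq_left.2 hp.2,
        disjoint_iff_inter_eq_empty.1 (hd.mono_left hp.1), empty_union]
  · intro T hT
    simp only
    rw [← inter_union_distrib_left, inter_eq_left.2 (mem_powerset.1 hT)]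

theorem LocOk.loca_sum (H : LocOk h i J e R) (F : Finset ℕ → ℝ) :
    ∑ T ∈ (Pr h 0 J).powerset, loc h i J e R T * F T = ∑ τ ∈ nodes (sz h) R e (Pr h i J),
      (-1) ^ τ.card * ∑ T ∈ (Pr h 0 i).powerset,
        fl0 h i (e + τ.card) (R - tot (sz h) τ) T * F (τ ∪ T) := by
  have h0 := loca_sum_powerset H.loca_disj fun T => loc h i J e R T * F T
  rw [H.loca_union] at h0
  rw [h0, nodes, sum_filter]
  refine sum_congr rfl fun τ hτ => ?_
  have hτ' := mem_powerset.1 hτ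
  have key : ∀ T ∈ (Pr h 0 i).powerset, loc h i J e R (τ ∪ T) = if Alive (sz h) R e τ then
      (-1) ^ τ.card * fl0 h i (e + τ.card) (R - tot (sz h) τ) T else 0 := by
    intro T hT
    have hT' := mem_powerset.1 hT
    have e1 : (τ ∪ T) ∩ Pr h i J = τ := by
      rw [union_inter_distrib_right, inter_eq_left.2 hτ',
        disjoint_iff_inter_eq_empty.1 (H.loca_disj.symm.mono_left hT'), union_empty]
    have e2 : (τ ∪ T) ∩ Pr h 0 i = T := by
      rw [union_inter_distrib_right, inter_eq_left.2 hT',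
        disjoint_iff_inter_eq_empty.1 (H.loca_disj.mono_left hτ'), empty_union]
    have e3 : τ ∪ T ⊆ Pr h 0 J := H.loca_union ▸ union_subset_union hτ' hT'
    unfold loc
    rw [e1, e2]
    simp only [e3, true_and]
  rw [sum_congr rfl fun T hT => by rw [key T hT]]
  split_ifs
  · rw [mul_sum]
    exact sum_congr rfl fun T _ => mul_assoc _ _ _
  · simp

theorem LocOk.abs_le (H : LocOk h i J e R) (T : Finset ℕ) : |loc h i J e R T| ≤ 1 := by
  unfold loc
  split_ifs with hc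
  · rw [abs_mul, abs_pow, abs_neg, abs_one, one_pow, one_mul]
    exact (fl0_spec H.h_pos H.h_le (H.loca_rem inter_subset_right hc.2)).1.abs_le _
  · simp

theorem LocOk.supp (H : LocOk h i J e R) {T : Finset ℕ} (hT : loc h i J e R T ≠ 0) :
    T ⊆ Pr h 0 J ∧ (pd T : ℝ) ≤ Real.exp ((R : ℝ) / h) := by
  obtain ⟨h1, h2, h3⟩ := H.loca_pd hT
  refine ⟨h1, h3.trans (Real.exp_le_exp.2 (div_le_div_of_nonneg_right ?_ (Nat.cast_nonneg _)))⟩
  have h4 : tot (sz h) (T ∩ Pr h i J) ≤ R := by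
    have := H.loca_rem inter_subset_right h2
    omega
  have h5 : (tot (sz h) (T ∩ Pr h i J) : ℝ) ≤ R := by exact_mod_cast h4
  linarith

/-- a support element close to the full level has many large primes (`Alive.halving`) -/
theorem LocOk.many (H : LocOk h i J e R) (hS : Start R e J) {T : Finset ℕ}
    (hT : loc h i J e R T ≠ 0) {b : ℝ} (hb : Real.exp (((R : ℝ) - b) / h) ≤ pd T) :
    (R : ℝ) ≤ 2 ^ (T ∩ Pr h i J).card * (2 * b) := by
  obtain ⟨-, h2, h3⟩ := H.loca_pd hT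
  have h4 := Real.exp_le_exp.1 (hb.trans h3)
  rw [div_le_div_iff_of_pos_right (Nat.cast_pos.2 H.h_pos)] at h4
  have h5 := Alive.halving (sz_mono h) hS
    (fun p hp => ((mem_Pr H.h_pos).1 (mem_inter.1 hp).2).2.2.le) h2
  have h6 : (R : ℝ) ≤ 2 ^ (T ∩ Pr h i J).card * (R - (tot (sz h) (T ∩ Pr h i J) : ℝ)) := by
    exact_mod_cast h5
  exact h6.trans (mul_le_mul_of_nonneg_left (by linarith) (by positivity))

/-- the pointwise sieve inequality, with the dead leaves (`buchstab'`, `IsSW.ineq` for `S ∩ Pr h 0 i`) -/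
theorem LocOk.ineq (H : LocOk h i J e R) (τ S : Finset ℕ) :
    (-1 : ℝ) ^ e * ∑ T ∈ (Pr h 0 J).powerset, loc h i J e R T * ind (τ ∪ T) ∅ S +
      deadLoc h i J e R τ S ≤ (-1 : ℝ) ^ e * ind τ (Pr h 0 J) S := by
  have hb := buchstab' (σ := sz h) R e (τ₀ := τ) H.loca_lt S
  rw [H.loca_union] at hb
  rw [hb, H.loca_sum, mul_sum]
  refine add_le_add (sum_le_sum fun τ' hτ' => ?_) le_rfl
  obtain ⟨h1, h2⟩ := mem_filter.1 hτ'
  have h3 := (fl0_spec (e := e + τ'.card) H.h_pos H.h_le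
    (H.loca_rem (mem_powerset.1 h1) h2)).1.ineq (S ∩ Pr h 0 i) inter_subset_right
  simp only [← union_assoc]
  rw [ew_sum_ind, ← mul_assoc, ← pow_add]
  unfold ind
  by_cases h4 : τ ∪ τ' ⊆ S
  · simpa only [h4, if_true, true_and, one_mul, disjoint_iff_inter_eq_empty] using h3
  · simp [h4]

theorem LocOk.Vloc_eq (H : LocOk h i J e R) :
    Vloc h i J e R = ∑ τ ∈ nodes (sz h) R e (Pr h i J),
      (-1) ^ τ.card * wt iv τ * v0 h i (e + τ.card) (R - tot (sz h) τ) := by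
  unfold Vloc v0
  rw [H.loca_sum]
  refine sum_congr rfl fun τ hτ => ?_
  rw [mul_sum, mul_sum]
  refine sum_congr rfl fun T hT => ?_
  have h1 : wt iv (τ ∪ T) = wt iv τ * wt iv T :=
    prod_union (H.loca_disj.mono (mem_powerset.1 (mem_filter.1 hτ).1) (mem_powerset.1 hT))
  rw [h1]
  ring

/-- `mean_le` -/
theorem LocOk.Vloc_le (H : LocOk h i J e R) :
    (-1 : ℝ) ^ e * Vloc h i J e R ≤ (-1 : ℝ) ^ e * Vs h J := by
  have key := mean_le (P := Pr h 0 J) (lam := fun T => (-1 : ℝ) ^ e * loc h i J e R T)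
    (c := (-1 : ℝ) ^ e) (g := iv) (fun S hS => ?_) fun p hp => ?_
  · simpa only [Vloc, Vs, mul_sum, mul_assoc] using key
  · have h1 := H.ineq ∅ S
    have h2 : 0 ≤ deadLoc h i J e R ∅ S := sum_nonneg fun _ _ =>
      mul_nonneg (by unfold ind; split_ifs <;> norm_num) (by unfold lind; split_ifs <;> norm_num)
    have h3 : ind ∅ (Pr h 0 J) S = if S = ∅ then 1 else 0 := by
      unfold ind
      refine if_congr ⟨fun hd => ?_, fun hd => by simp [hd]⟩ rfl rfl
      exact (disjoint_self.1 (hd.2.mono_right hS) :)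
    rw [ew_sum_ind, if_pos (empty_subset _), one_mul, inter_eq_left.2 hS, h3] at h1
    rw [← mul_sum]
    linarith
  · have h1 : (1 : ℝ) ≤ p := by exact_mod_cast ((mem_Pr H.h_pos).1 hp).1.one_le
    exact ⟨by unfold iv; positivity, (div_le_one (by linarith)).2 h1⟩

theorem deadLoc_nonneg (τ S : Finset ℕ) : 0 ≤ deadLoc h i J e R τ S := by
  refine sum_nonneg fun τ' _ => mul_nonneg ?_ ?_
  · unfold ind
    split_ifs <;> norm_num
  · unfold lind
    split_ifs <;> norm_num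

theorem LocB_sub (hh : 0 < h) {t : ℕ} (hJ : J ≤ t) {τ : Finset ℕ} (hτ : τ ⊆ Pr h J t) :
    (∀ p ∈ Pr h 0 t, p.Prime) ∧ τ ⊆ Pr h 0 t ∧ Pr h 0 J ⊆ Pr h 0 t ∧ Disjoint τ (Pr h 0 J) := by
  refine ⟨fun p hp => ((mem_Pr hh).1 hp).1, ?_, ?_, disjoint_left.2 fun p hp hq => ?_⟩
  · rw [← Pr_union hh (Nat.zero_le J) hJ]
    exact hτ.trans subset_union_left
  · rw [← Pr_union hh (Nat.zero_le J) hJ]
    exact subset_union_right
  · exact lt_irrefl _ (Pr_lt hh le_rfl (hτ hp) hq)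

/-- lower bound at a node through the local weights -/
theorem LocOk.node_ext (H : LocOk h i J e R) {M : ℝ} (hM : 2 ≤ M) (X : ℤ) {t : ℕ} (hJ : J ≤ t)
    {τ : Finset ℕ} (hτ : τ ⊆ Pr h J t) :
    (-1 : ℝ) ^ e * (M * wt iv τ * Vloc h i J e R + remLoc M X h i J e R τ) +
      Ew M X (Pr h 0 t) (deadLoc h i J e R τ) ≤
        (-1 : ℝ) ^ e * Ew M X (Pr h 0 t) (ind τ (Pr h 0 J)) := by
  obtain ⟨h1, h2, h3, h4⟩ := LocB_sub H.h_pos hJ hτ
  have hM0 : 0 < M := by linarith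
  rw [Vloc, remLoc, ← Ew_sieve hM h1 h2 h3 h4, ← Ew_mul, ← Ew_mul, ← Ew_add hM0]
  exact Ew_mono hM0 fun S _ => H.ineq τ S

/-- lower bound at a node through the fundamental lemma at the exact level -/
theorem LocOk.node_triv (H : LocOk h i J e R) {M : ℝ} (hM : 2 ≤ M) (X : ℤ) {t : ℕ} (hJ : J ≤ t)
    {τ : Finset ℕ} (hτ : τ ⊆ Pr h J t) {R' : ℝ} (hR' : (J : ℝ) ≤ R')
    (hlev : pd τ * Real.exp (R' / (2 * h)) ≤ M) :
    (-1 : ℝ) ^ e * (M * wt iv τ * Vloc h i J e R) -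
      Cfl * Real.exp (-(R' / (2 * J)) / Cfl) * (M * wt iv τ * Vs h J) ≤
        (-1 : ℝ) ^ e * Ew M X (Pr h 0 t) (ind τ (Pr h 0 J)) := by
  obtain ⟨h1, h2, h3, h4⟩ := LocB_sub H.h_pos hJ hτ
  have hh : (0 : ℝ) < h := by exact_mod_cast H.h_pos
  have hhJ : (h : ℝ) ≤ J := by exact_mod_cast H.h_le.trans H.i_le
  have hJ0 : (0 : ℝ) < J := by linarith
  have key := Ew_FL (X := X) hM h1 h2 h3 h4 (y := Real.exp ((J : ℝ) / h))
    (by linarith [Real.add_one_le_exp ((J : ℝ) / h), (one_le_div hh).2 hhJ]) (fun p hp => ?_) ?_ hlev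
  · rw [Real.log_exp, Real.log_exp, show R' / (2 * h) / (J / h) = R' / (2 * J) by field_simp,
      ← Vs] at key
    have h5 : 0 ≤ M * wt iv τ := by
      rw [wt_iv]
      positivity
    have h6 := mul_le_mul_of_nonneg_left H.Vloc_le h5
    have h7 := _root_.abs_le.1 key
    rcases neg_one_pow_eq_or ℝ e with he | he <;> rw [he] at h6 ⊢ <;> linarith [h7.1, h7.2]
  · obtain ⟨hp1, -, hp2⟩ := (mem_Pr H.h_pos).1 hp
    have h5 : (0 : ℝ) < p := by exact_mod_cast hp1.pos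
    have h6 : (sz h p : ℝ) ≤ J := by exact_mod_cast hp2.le
    rw [← Real.log_le_iff_le_exp h5]
    exact (log_lt_sz H.h_pos p).le.trans (by gcongr)
  · rw [← Real.exp_mul, Real.exp_le_exp, div_mul_div_comm, div_le_div_iff₀ (by positivity)
      (by positivity)]
    nlinarith [mul_le_mul_of_nonneg_right hR' hh.le, mul_pos hJ0 hh]

/-- the tree above the cut `J` (`buchstab'` with `τ₀ = ∅`, dropping the leaves) -/
theorem surv_ge {M : ℝ} (hM : 2 ≤ M) (hh0 : 0 < hh M) (X : ℤ) (R₀ : ℤ) {J : ℕ} (hJ : J ≤ top M) :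
    ∑ τ ∈ nodes (sz (hh M)) R₀ 0 (Pr (hh M) J (top M)),
      (-1 : ℝ) ^ τ.card * Ew M X (Pr (hh M) 0 (top M)) (ind τ (Pr (hh M) 0 J)) ≤ Surv M X := by
  have hM0 : 0 < M := by linarith
  simp only [← Ew_mul]
  rw [← Ew_sum hM0, Surv]
  refine Ew_mono hM0 fun S hS => ?_
  have h1 := buchstab' (σ := sz (hh M)) R₀ 0 (τ₀ := ∅) (U := Pr (hh M) J (top M))
    (V := Pr (hh M) 0 J) (fun p hp q hq => Pr_lt hh0 le_rfl hp hq) S
  have h3 : ind ∅ (Pr (hh M) 0 (top M)) S = if S = ∅ then 1 else 0 := by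
    unfold ind
    refine if_congr ⟨fun hd => ?_, fun hd => by simp [hd]⟩ rfl rfl
    exact (disjoint_self.1 (hd.2.mono_right hS) :)
  simp only [Pr_union hh0 (Nat.zero_le J) hJ, pow_zero, one_mul, zero_add, empty_union, h3] at h1
  rw [h1]
  exact le_add_of_nonneg_right (sum_nonneg fun _ _ =>
    mul_nonneg (by unfold ind; split_ifs <;> norm_num) (by unfold lind; split_ifs <;> norm_num))

/-- nodes at the cut give admissible local data (`Alive.start`) -/
theorem locOk_node {t a' : ℕ} {R₀ : ℤ} (hh : 0 < h) (hi : h ≤ i) (ha : a' + i ≤ J) (hJ : J ≤ t)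
    (hR : 2 * (t : ℤ) ≤ R₀) {τ : Finset ℕ} (hτ : τ ∈ nodes (sz h) R₀ 0 (Pr h J t)) :
    LocOk h i J τ.card (R₀ - tot (sz h) τ - a') ∧ Start (R₀ - tot (sz h) τ) τ.card J := by
  obtain ⟨h1, h2⟩ := mem_filter.1 hτ
  rw [mem_powerset] at h1
  have h3 := h2.start (sz_mono h) (top := t) ⟨fun _ => hR, by omega⟩
    (fun p hp => ((mem_Pr hh).1 (h1 hp)).2.2.le) hJ fun p hp => ((mem_Pr hh).1 (h1 hp)).2.1
  rw [zero_add] at h3
  refine ⟨⟨hh, hi, by omega, fun he => ?_, ?_⟩, h3⟩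
  · have := h3.1 he
    omega
  · have := h3.2
    omega

end Crest.Agent.R1
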