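import Crest.Agent.R1.Ew

/-!
# R1 / Red: reduction of Jacobsthal's problem to the count of survivors
-/

set_option autoImplicit false

namespace Crest.Agent.R1

open Finset Filter
open scoped Classical

theorem red_prod_ge (P : Finset ℕ) (hP : ∀ p ∈ P, 2 ≤ p) :
    1 / ((P.card : ℝ) + 1) ≤ ∏ p ∈ P, (1 + -iv p) := by
  induction P using Finset.induction_on_max with
  | empty => simp
  | insert a s ha ih =>
    have hn : a ∉ s := fun h => lt_irrefl _ (ha a h)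
    have hs : ∀ p ∈ s, 2 ≤ p := fun p hp => hP p (mem_insert_of_mem hp)
    have h1 : s.card ≤ a - 2 := by
      rw [← Nat.card_Ico]
      exact card_le_card fun p hp => mem_Ico.2 ⟨hs p hp, ha p hp⟩
    have h2 : 2 ≤ a := hP a (mem_insert_self _ _)
    have h3 : (s.card : ℝ) + 2 ≤ a := by exact_mod_cast (by omega : s.card + 2 ≤ a)
    have h4 : iv a ≤ 1 / ((s.card : ℝ) + 2) := one_div_le_one_div_of_le (by positivity) h3
    have h5 : ((s.card : ℝ) + 1) / ((s.card : ℝ) + 2) ≤ 1 + -iv a := by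
      have : ((s.card : ℝ) + 1) / ((s.card : ℝ) + 2) = 1 - 1 / ((s.card : ℝ) + 2) := by
        field_simp; ring
      linarith
    rw [prod_insert hn, card_insert_of_notMem hn]
    calc 1 / (((s.card + 1 : ℕ) : ℝ) + 1)
        = ((s.card : ℝ) + 1) / ((s.card : ℝ) + 2) * (1 / ((s.card : ℝ) + 1)) := by
          push_cast; field_simp; ring
      _ ≤ _ := mul_le_mul h5 (ih hs) (by positivity) (le_trans (by positivity) h5)

theorem red_count (a : ℤ) (m d : ℕ) (hd : 0 < d) :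
    |∑ x ∈ Ico a (a + m), (if (d : ℤ) ∣ x then (1 : ℝ) else 0) - m / d| ≤ 1 := by
  have h := Int.Ico_filter_dvd_card a (a + m) (r := d) (by exact_mod_cast hd)
  have hd' : (0 : ℚ) < d := by exact_mod_cast hd
  rw [sum_boole]
  set u : ℚ := (a : ℚ) / ((d : ℤ) : ℚ) with hu
  set v : ℚ := ((a + m : ℤ) : ℚ) / ((d : ℤ) : ℚ) with hv
  have e : v = u + (m : ℚ) / d := by rw [hu, hv]; push_cast; ring
  have h0 : (0 : ℚ) ≤ (m : ℚ) / d := by positivity
  have h1 : ⌈u⌉ ≤ ⌈v⌉ := Int.ceil_le_ceil (by linarith)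
  rw [max_eq_left (by omega)] at h
  have h2 : ((#{x ∈ Ico a (a + m) | (d : ℤ) ∣ x} : ℕ) : ℚ) = (⌈v⌉ : ℚ) - ⌈u⌉ := by exact_mod_cast h
  have h3 : |((#{x ∈ Ico a (a + m) | (d : ℤ) ∣ x} : ℕ) : ℚ) - (m : ℚ) / d| ≤ 1 := by
    rw [h2, abs_le]
    have := Int.le_ceil u
    have := Int.le_ceil v
    have := Int.ceil_lt_add_one u
    have := Int.ceil_lt_add_one v
    constructor <;> linarith
  have h4 := (Rat.cast_le (K := ℝ)).2 h3
  push_cast at h4
  exact h4

theorem red_prime_of_gcd {n : ℕ} (hn : 0 < n) {x : ℤ} (h : Int.gcd x n ≠ 1) :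
    ∃ p ∈ n.primeFactors, (p : ℤ) ∣ x := by
  obtain ⟨p, hp, hd⟩ := Nat.exists_prime_and_dvd h
  have hd' : (p : ℤ) ∣ (Int.gcd x n : ℤ) := Int.natCast_dvd_natCast.2 hd
  refine ⟨p, Nat.mem_primeFactors.2 ⟨hp, ?_, hn.ne'⟩, hd'.trans (Int.gcd_dvd_left _ _)⟩
  exact Int.natCast_dvd_natCast.1 (hd'.trans (Int.gcd_dvd_right _ _))

/-- Legendre's sieve: the count is at least `m φ(n)/n - 2^k ≥ m/(k+1) - 2^k` -/
theorem jacob_small (k n : ℕ) (hn : 0 < n) (hk : n.primeFactors.card ≤ k) (a : ℤ) (m : ℕ)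
    (hm : (k + 1) * 2 ^ k < m) : ∃ x : ℤ, a ≤ x ∧ x < a + m ∧ Int.gcd x n = 1 := by
  by_contra hc
  push Not at hc
  set P := n.primeFactors with hP
  have hPp : ∀ p ∈ P, p.Prime := fun p hp => Nat.prime_of_mem_primeFactors hp
  have h0 : ∑ x ∈ Ico a (a + m), ∏ p ∈ P, (1 + -(if (p : ℤ) ∣ x then (1 : ℝ) else 0)) = 0 := by
    refine sum_eq_zero fun x hx => ?_
    obtain ⟨p, hp, hd⟩ := red_prime_of_gcd hn (hc x (mem_Ico.1 hx).1 (mem_Ico.1 hx).2)
    exact prod_eq_zero hp (by simp [hd])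
  have h1 : ∀ S ∈ P.powerset, (m : ℝ) * ∏ p ∈ S, -iv p ≤
      ∑ x ∈ Ico a (a + m), ∏ p ∈ S, -(if (p : ℤ) ∣ x then (1 : ℝ) else 0) + 1 := by
    intro S hS
    have hSp : ∀ p ∈ S, p.Prime := fun p hp => hPp p (mem_powerset.1 hS hp)
    have e1 : ∀ x : ℤ, ∏ p ∈ S, -(if (p : ℤ) ∣ x then (1 : ℝ) else 0) =
        (-1) ^ S.card * (if (pd S : ℤ) ∣ x then (1 : ℝ) else 0) := fun x => by
      rw [prod_neg, prod_boole]
      congr 1
      exact if_congr (pd_dvd_iff hSp x).symm rfl rfl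
    have e2 : ∏ p ∈ S, -iv p = (-1) ^ S.card * (1 / (pd S : ℝ)) := by
      rw [prod_neg, ← wt_iv, wt]
    have h := abs_le.1 (red_count a m (pd S) (pd_pos hSp))
    simp only [e1, e2, ← mul_sum]
    rcases neg_one_pow_eq_or ℝ S.card with e | e <;> rw [e]
    · have : (m : ℝ) * (1 * (1 / (pd S : ℝ))) = m / pd S := by ring
      linarith [h.1]
    · have : (m : ℝ) * (-1 * (1 / (pd S : ℝ))) = -(m / pd S) := by ring
      linarith [h.2]
  have h2 := sum_le_sum h1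
  rw [← mul_sum, ← prod_one_add, sum_add_distrib, sum_comm] at h2
  simp only [← prod_one_add] at h2
  rw [h0, sum_const, card_powerset, nsmul_eq_mul, mul_one, zero_add] at h2
  have h3 := red_prod_ge P fun p hp => (hPp p hp).two_le
  have h4 : (1 : ℝ) / (k + 1) ≤ 1 / ((P.card : ℝ) + 1) :=
    one_div_le_one_div_of_le (by positivity) (by exact_mod_cast Nat.succ_le_succ hk)
  have h5 : ((2 ^ P.card : ℕ) : ℝ) ≤ 2 ^ k := by exact_mod_cast Nat.pow_le_pow_right two_pos hk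
  have h6 : ((k : ℝ) + 1) * 2 ^ k < m := by exact_mod_cast hm
  have h7 : (m : ℝ) * (1 / (k + 1)) ≤ 2 ^ k :=
    ((mul_le_mul_of_nonneg_left (h4.trans h3) (Nat.cast_nonneg m)).trans h2).trans h5
  rw [mul_one_div, div_le_iff₀ (by positivity)] at h7
  linarith

theorem red_summable {Y : ℝ} (hY : 0 < Y) (Φ : ℤ → Prop) [DecidablePred Φ] :
    Summable fun n : ℤ => R29.Wt Y n * (if Φ n then (1 : ℝ) else 0) := by
  refine Summable.of_nonneg_of_le (fun n => ?_) (fun n => ?_) (R29.summable_Wt hY)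
  · have := R29.Wt_nonneg Y n
    split_ifs <;> simp [this]
  · have := R29.Wt_nonneg Y n
    split_ifs <;> simp [this]

theorem red_tail {Y : ℝ} (hY : 0 < Y) {r : ℕ} (hr : 1 ≤ r) :
    ∑' n : ℤ, R29.Wt Y n * (if r ≤ n.natAbs then (1 : ℝ) else 0) ≤ 4 * Y ^ 2 / r := by
  set f : ℤ → ℝ := fun n => R29.Wt Y n * (if r ≤ n.natAbs then (1 : ℝ) else 0) with hf
  have hs : Summable f := red_summable hY _
  have hf0 : ∀ n, 0 ≤ f n := fun n => by
    have := R29.Wt_nonneg Y n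
    simp only [hf]; split_ifs <;> simp [this]
  have h1 := hs.hasSum.nat_add_neg
  have hpt : ∀ n : ℤ, f n ≤ if r ≤ n.natAbs then Y ^ 2 * ((n.natAbs : ℝ) ^ 2)⁻¹ else 0 := by
    intro n
    by_cases h2 : r ≤ n.natAbs
    · have hn : n ≠ 0 := by omega
      have h4 := R29.Wt_le_sq hY hn
      have h5 : ((n.natAbs : ℝ)) ^ 2 = (n : ℝ) ^ 2 := by
        rw [Nat.cast_natAbs, Int.cast_abs, sq_abs]
      simp only [hf, h2, if_true, mul_one, h5]
      rwa [div_eq_mul_inv] at h4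
    · simp [hf, h2]
  have h2 : ∑' n : ℕ, (f n + f (-n)) ≤ 4 * Y ^ 2 / r := by
    refine h1.summable.tsum_le_of_sum_range_le fun N => ?_
    have h3 : ∀ i ∈ range N, f i + f (-i) ≤ if r ≤ i then 2 * Y ^ 2 * ((i : ℝ) ^ 2)⁻¹ else 0 := by
      intro i _
      have a1 := hpt i
      have a2 := hpt (-i)
      rw [Int.natAbs_neg] at a2
      rw [Int.natAbs_natCast] at a1 a2
      split_ifs at a1 a2 ⊢ <;> linarith
    refine (sum_le_sum h3).trans ?_
    rw [← sum_filter, ← mul_sum]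
    have h4 : (range N).filter (fun i => r ≤ i) = Ioo (r - 1) N := by
      ext i
      simp only [mem_filter, mem_range, mem_Ioo]
      omega
    have h5 := sum_Ioo_inv_sq_le (α := ℝ) (r - 1) N
    rw [Nat.cast_sub hr, Nat.cast_one, sub_add_cancel] at h5
    rw [h4]
    calc 2 * Y ^ 2 * ∑ i ∈ Ioo (r - 1) N, ((i : ℝ) ^ 2)⁻¹ ≤ 2 * Y ^ 2 * (2 / r) :=
          mul_le_mul_of_nonneg_left h5 (by positivity)
      _ = 4 * Y ^ 2 / r := by ring
  rw [h1.tsum_eq] at h2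
  linarith [hf0 0]

/-- if the interval has no integer prime to `n`, there are few survivors -/
theorem red_surv_le {M y : ℝ} (hM : 2 ≤ M) (hh0 : 0 < hh M) (hy : 0 < y)
    (hyp : ∀ p : ℕ, p.Prime → top M ≤ sz (hh M) p → y ≤ p) {k n : ℕ} (hn : 0 < n)
    (hk : n.primeFactors.card ≤ k) (a : ℤ) {m r : ℕ} (hr : 1 ≤ r) (hrm : 2 * r ≤ m)
    (hc : ∀ x : ℤ, a ≤ x → x < a + m → Int.gcd x n ≠ 1) :
    Surv M (-(a + r)) ≤ k * (M / y + 3) + M ^ 2 / r := by
  have hY : 0 < M / 2 := by linarith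
  set X : ℤ := -(a + r) with hX
  set Q := n.primeFactors.filter (fun p => top M ≤ sz (hh M) p) with hQ
  have hpt : ∀ t : ℤ, R29.Wt (M / 2) t *
      (if hit (Pr (hh M) 0 (top M)) X t = ∅ then (1 : ℝ) else 0) ≤
      ∑ p ∈ Q, R29.Wt (M / 2) t * (if (p : ℤ) ∣ t - X then (1 : ℝ) else 0) +
        R29.Wt (M / 2) t * (if r ≤ t.natAbs then (1 : ℝ) else 0) := by
    intro t
    rw [← mul_sum, ← mul_add]
    refine mul_le_mul_of_nonneg_left ?_ (R29.Wt_nonneg _ _)
    have h0 : (0 : ℝ) ≤ ∑ p ∈ Q, (if (p : ℤ) ∣ t - X then (1 : ℝ) else 0) :=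
      sum_nonneg fun p _ => by split_ifs <;> norm_num
    by_cases h1 : hit (Pr (hh M) 0 (top M)) X t = ∅
    · rw [if_pos h1]
      by_cases h2 : r ≤ t.natAbs
      · rw [if_pos h2]; linarith
      · rw [if_neg h2, add_zero]
        obtain ⟨p, hp, hd⟩ := red_prime_of_gcd hn (hc (t - X) (by omega) (by omega))
        have hpQ : p ∈ Q := by
          refine mem_filter.2 ⟨hp, ?_⟩
          by_contra h3
          have : p ∈ hit (Pr (hh M) 0 (top M)) X t := mem_filter.2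
            ⟨(mem_Pr hh0).2 ⟨Nat.prime_of_mem_primeFactors hp, Nat.zero_le _, not_le.1 h3⟩, hd⟩
          rw [h1] at this
          exact notMem_empty _ this
        have := single_le_sum (f := fun p : ℕ => if (p : ℤ) ∣ t - X then (1 : ℝ) else 0)
          (fun p _ => by split_ifs <;> norm_num) hpQ
        rwa [if_pos hd] at this
    · rw [if_neg h1]
      split_ifs <;> linarith
  have hs1 : Summable fun t : ℤ =>
      ∑ p ∈ Q, R29.Wt (M / 2) t * (if (p : ℤ) ∣ t - X then (1 : ℝ) else 0) :=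
    summable_sum fun p _ => red_summable hY _
  have hs2 := red_summable hY fun t : ℤ => r ≤ t.natAbs
  have h1 := (red_summable hY fun t => hit (Pr (hh M) 0 (top M)) X t = ∅).tsum_le_tsum hpt (hs1.add hs2)
  rw [hs1.tsum_add hs2, Summable.tsum_finsetSum fun p _ => red_summable hY _] at h1
  have h2 := red_tail hY hr
  have h3 : ∑ p ∈ Q, cntA M X p ≤ k * (M / y + 3) := by
    have h4 : ∀ p ∈ Q, cntA M X p ≤ M / y + 3 := fun p hp => by
      have hp' := Nat.prime_of_mem_primeFactors (mem_filter.1 hp).1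
      have := div_le_div_of_nonneg_left (by linarith : 0 ≤ M) hy (hyp p hp' (mem_filter.1 hp).2)
      linarith [cntA_le (X := X) hM hp'.pos]
    refine (sum_le_card_nsmul _ _ _ h4).trans ?_
    rw [nsmul_eq_mul]
    refine mul_le_mul_of_nonneg_right ?_ (by positivity)
    exact_mod_cast (card_filter_le _ _).trans hk
  have e : 4 * (M / 2) ^ 2 / r = M ^ 2 / r := by ring
  have h5 : Surv M X ≤ ∑ p ∈ Q, cntA M X p +
    ∑' t : ℤ, R29.Wt (M / 2) t * (if r ≤ t.natAbs then (1 : ℝ) else 0) := h1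
  linarith

theorem red_loglog_pos {k : ℕ} (hk : 1 ≤ k) : 0 < Real.log (Real.log (3 * (k : ℝ))) := by
  refine Real.log_pos ?_
  rw [Real.lt_log_iff_exp_lt (by positivity)]
  have : (1 : ℝ) ≤ k := by exact_mod_cast hk
  linarith [Real.exp_one_lt_d9]

theorem red_ev : ∀ᶠ x : ℝ in atTop, 3 ≤ x ∧ 2 ≤ Real.log x ∧ 48 * Real.log x ^ 6 ≤ x ∧
    8 * Real.log (2 * Real.log x) ≤ Real.log x := by
  have h1 : ∀ᶠ x : ℝ in atTop, ‖Real.log x ^ 6‖ ≤ 1 / 48 * ‖x‖ :=
    Real.isLittleO_pow_log_id_atTop.bound (by norm_num)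
  have h2 : ∀ᶠ x : ℝ in atTop, ‖Real.log x‖ ≤ 1 / 16 * ‖x‖ :=
    Real.isLittleO_log_id_atTop.bound (by norm_num)
  have h3 : Tendsto (fun x : ℝ => 2 * Real.log x) atTop atTop :=
    Real.tendsto_log_atTop.const_mul_atTop two_pos
  filter_upwards [eventually_ge_atTop 3, Real.tendsto_log_atTop.eventually_ge_atTop 2, h1,
    h3.eventually h2] with x a b c d
  rw [Real.norm_eq_abs, Real.norm_eq_abs, abs_of_nonneg (by linarith : 0 ≤ x)] at c
  rw [Real.norm_eq_abs, Real.norm_eq_abs, abs_of_nonneg (by linarith : 0 ≤ 2 * Real.log x)] at d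
  exact ⟨a, b, by linarith [le_abs_self (Real.log x ^ 6)],
    by linarith [le_abs_self (Real.log (2 * Real.log x))]⟩

theorem red_tendsto : Tendsto (fun x : ℝ => (x / Real.log x ^ 2) ^ 2) atTop atTop := by
  refine (tendsto_pow_atTop two_ne_zero).comp (tendsto_atTop_mono' _ ?_ Real.tendsto_log_atTop)
  filter_upwards [red_ev] with x ⟨_, b, c, _⟩
  rw [le_div_iff₀ (by positivity)]
  have h1 : 1 ≤ Real.log x ^ 3 := one_le_pow₀ (by linarith)
  have h2 : 0 ≤ Real.log x ^ 3 := by positivity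
  nlinarith

theorem red_num {x l y M L ℓ r : ℝ} (l2 : 2 ≤ l) (y0 : 0 < y) (hxy : x = y * l ^ 2) (hM : M = y ^ 2)
    (hL1 : l ≤ L) (hL2 : L ≤ 2 * l) (x48 : 48 * l ^ 6 ≤ x) (e1 : 2 ≤ ℓ) (hr2 : 16 * (M * l ^ 2) ≤ r) :
    x * (M / (y * L ^ 6) + 3) + M ^ 2 / r < M * ℓ / L ^ 2 := by
  have l0 : 0 < l := by linarith
  have L0 : 0 < L := by linarith
  have x0 : 0 < x := by rw [hxy]; positivity
  have M0 : 0 < M := by rw [hM]; positivity
  have r0 : 0 < r := lt_of_lt_of_le (by positivity) hr2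
  have t1 : x * (M / (y * L ^ 6)) ≤ M / L ^ 2 / 4 := by
    have : x * (M / (y * L ^ 6)) = M / L ^ 2 * (l ^ 2 / L ^ 4) := by
      rw [hxy]; field_simp
    rw [this, div_eq_mul_one_div (M / L ^ 2) 4]
    refine mul_le_mul_of_nonneg_left ?_ (by positivity)
    rw [div_le_div_iff₀ (by positivity) (by positivity)]
    have h2 : l ^ 2 ≤ L ^ 2 := pow_le_pow_left₀ l0.le hL1 2
    have h3 : 4 ≤ L ^ 2 := by nlinarith
    nlinarith
  have hL4 : L ^ 2 ≤ 4 * l ^ 2 := by nlinarith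
  have t2 : x * 3 ≤ M / L ^ 2 / 4 := by
    rw [div_div, le_div_iff₀ (by positivity)]
    have h2 : M * l ^ 4 = x * x := by rw [hM, hxy]; ring
    have h3 : x * 3 * (L ^ 2 * 4) * l ^ 4 ≤ M * l ^ 4 := by
      rw [h2]
      have h4 : L ^ 2 * l ^ 4 ≤ 4 * l ^ 2 * l ^ 4 := mul_le_mul_of_nonneg_right hL4 (by positivity)
      have h5 : 12 * (L ^ 2 * l ^ 4) ≤ x := by linarith
      linarith [mul_le_mul_of_nonneg_left h5 x0.le]
    exact le_of_mul_le_mul_right h3 (by positivity)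
  have t3 : M ^ 2 / r ≤ M / L ^ 2 / 4 := by
    rw [div_div, div_le_div_iff₀ r0 (by positivity)]
    have h2 : M * (L ^ 2 * 4) ≤ r := by linarith [mul_le_mul_of_nonneg_left hL4 M0.le]
    linarith [mul_le_mul_of_nonneg_left h2 M0.le]
  have t4 : M / L ^ 2 * 2 ≤ M * ℓ / L ^ 2 := by
    rw [mul_div_right_comm]
    exact mul_le_mul_of_nonneg_left e1 (by positivity)
  have t5 : 0 < M / L ^ 2 := by positivity
  rw [mul_add]
  linarith

/-- `m₀ = ⌈k²/(log log 3k)²⌉`, `M = m₀/(log m₀)^4`, `X = -(a + m₀/2)`.  If no `x` exists, every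
survivor `n'` with `|n'| < m₀/2 - 1` is divisible (after the shift) by a prime factor `p > √M L^6` of
`n`; `cntA_le`, `R29.Wt_le_sq` for the tail: `Surv ≤ k (√M/L^6 + 3) + 2 M²/m₀ · C < M ℓ/L²`. -/
theorem jacob_large (H : ∀ᶠ M : ℝ in atTop, ∀ X : ℤ, M * ll M / LL M ^ 2 ≤ Surv M X) :
    ∃ k₀ : ℕ, ∀ k : ℕ, k₀ ≤ k → ∀ n : ℕ, 0 < n → n.primeFactors.card ≤ k → ∀ (a : ℤ) (m : ℕ),
      (k : ℝ) ^ 2 / (Real.log (Real.log (3 * (k : ℝ)))) ^ 2 ≤ (m : ℝ) →
        ∃ x : ℤ, a ≤ x ∧ x < a + m ∧ Int.gcd x n = 1 := by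
  have hev := (tendsto_natCast_atTop_atTop (R := ℝ)).eventually
    (red_ev.and (red_tendsto.eventually (H.and (ev_basic 2))))
  obtain ⟨k₀, hk₀⟩ := eventually_atTop.1 hev
  refine ⟨k₀, fun k hk n hn hnk a m hm => ?_⟩
  obtain ⟨⟨x3, l2, x48, l8⟩, hH, e1, e2, e3, e4, -, -⟩ := hk₀ k hk
  by_contra hc
  push Not at hc
  set x : ℝ := (k : ℝ) with hx
  set l := Real.log x with hl
  set y := x / l ^ 2 with hy
  set M := y ^ 2 with hM
  set L := LL M with hL
  set w := Real.log (Real.log (3 * x)) with hw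
  have l0 : 0 < l := by linarith
  have x0 : 0 < x := by linarith
  have y0 : 0 < y := by positivity
  have L0 : 0 < L := by linarith
  have M0 : 0 < M := by positivity
  have hxy : x = y * l ^ 2 := by rw [hy]; field_simp
  have w0 : 0 < w := red_loglog_pos (Nat.one_le_cast.1 (by linarith : (1 : ℝ) ≤ x))
  have hLy : L = 2 * Real.log y := by rw [hL, LL, hM, Real.log_pow]; norm_num
  have hlogy : Real.log y = l - 2 * Real.log l := by
    rw [hy, Real.log_div x0.ne' (by positivity), Real.log_pow, ← hl]; norm_num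
  have hll0 : 0 ≤ Real.log l := Real.log_nonneg (by linarith)
  have hll : Real.log l ≤ Real.log (2 * l) := Real.log_le_log l0 (by linarith)
  have hL1 : l ≤ L := by linarith
  have hL2 : L ≤ 2 * l := by linarith
  have hw8 : 8 * w ≤ l := by
    have h1 : Real.log (3 * x) ≤ 2 * l := by
      rw [Real.log_mul (by norm_num) x0.ne']
      linarith [Real.log_le_log (by norm_num) x3]
    have h2 : 0 < Real.log (3 * x) := Real.log_pos (by linarith)
    linarith [Real.log_le_log h2 h1]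
  -- the length of the interval
  have hm1 : 64 * (M * l ^ 2) ≤ m := by
    refine le_trans ?_ hm
    rw [le_div_iff₀ (by positivity), hxy, hM]
    have h1 : 64 * w ^ 2 ≤ l ^ 2 := by nlinarith
    have h2 : 0 ≤ y ^ 2 * l ^ 2 := by positivity
    nlinarith [mul_le_mul_of_nonneg_left h1 h2]
  have hMl : 1 ≤ M * l ^ 2 := by nlinarith
  set r := m / 2 with hr
  have hr1 : (m : ℝ) ≤ 2 * r + 1 := by exact_mod_cast (by omega : m ≤ 2 * r + 1)
  have hr2 : 16 * (M * l ^ 2) ≤ r := by linarith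
  have hr3 : 1 ≤ r := by exact_mod_cast (by linarith : (1 : ℝ) ≤ r)
  have hyp : ∀ p : ℕ, p.Prime → top M ≤ sz (hh M) p → y * L ^ 6 ≤ p := by
    intro p hp h
    have h0 : (0 : ℝ) < hh M := by exact_mod_cast e4
    have h1 := sz_le_log e4 p
    have h2 : (top M : ℝ) ≤ sz (hh M) p := by exact_mod_cast h
    have h3 : (hh M : ℝ) * (LL M / 2 + 6 * ll M) + 2 ≤ top M := by
      rw [top]; push_cast; linarith [Nat.le_ceil ((hh M : ℝ) * (LL M / 2 + 6 * ll M))]
    rw [div_le_iff₀ h0] at h1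
    have h4 : LL M / 2 + 6 * ll M ≤ Real.log p := by
      refine le_of_mul_le_mul_left ?_ h0
      linarith
    have h5 : Real.log (y * L ^ 6) = LL M / 2 + 6 * ll M := by
      rw [Real.log_mul y0.ne' (by positivity), Real.log_pow, ← hL, hLy]
      have : ll M = Real.log L := rfl
      rw [this, hLy]; push_cast; ring
    rw [← h5] at h4
    exact (Real.log_le_log_iff (by positivity) (by exact_mod_cast hp.pos)).1 h4
  have h1 := (hH _).trans (red_surv_le e3 e4 (by positivity) hyp hn hnk a hr3 (by omega) hc)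
  exact absurd h1 (not_le.2 (red_num l2 y0 hxy hM hL1 hL2 x48 e1 hr2))

theorem jacob_of_surv (H : ∀ᶠ M : ℝ in atTop, ∀ X : ℤ, M * ll M / LL M ^ 2 ≤ Surv M X) :
    ∃ C : ℝ, 0 < C ∧ ∀ (k : ℕ), 1 ≤ k → ∀ (n : ℕ), 0 < n → n.primeFactors.card ≤ k →
      ∀ (a : ℤ) (m : ℕ), C * (k : ℝ) ^ 2 / (Real.log (Real.log (3 * (k : ℝ)))) ^ 2 ≤ (m : ℝ) →
        ∃ x : ℤ, a ≤ x ∧ x < a + m ∧ Int.gcd x n = 1 := by
  obtain ⟨k₀, hk₀⟩ := jacob_large H
  set B : ℕ := (k₀ + 1) * 2 ^ k₀ with hB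
  refine ⟨9 * ((B : ℝ) + 1), by positivity, fun k hk n hn hnk a m hm => ?_⟩
  have w0 := red_loglog_pos hk
  have k1 : (1 : ℝ) ≤ k := by exact_mod_cast hk
  set w := Real.log (Real.log (3 * (k : ℝ))) with hw
  have B0 : (0 : ℝ) ≤ B := Nat.cast_nonneg _
  rw [mul_div_assoc] at hm
  have q0 : 0 ≤ (k : ℝ) ^ 2 / w ^ 2 := by positivity
  by_cases h : k₀ ≤ k
  · exact hk₀ k h n hn hnk a m (by nlinarith)
  · refine jacob_small k₀ n hn (by omega) a m ?_
    have h0 : 0 < Real.log (3 * (k : ℝ)) := Real.log_pos (by linarith)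
    have h1 : w ≤ 3 * k := by
      linarith [Real.log_le_sub_one_of_pos h0, Real.log_le_sub_one_of_pos (by linarith : 0 < 3 * (k : ℝ))]
    have h2 : 1 / 9 ≤ (k : ℝ) ^ 2 / w ^ 2 := by
      rw [div_le_div_iff₀ (by norm_num) (by positivity)]
      nlinarith
    have h3 : (B : ℝ) < m := by nlinarith
    exact_mod_cast h3

end Crest.Agent.R1
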