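import Crest.Agent.R1.CaseI
import Crest.Agent.R1.CaseII
import Crest.Agent.R1.Red

/-!
# R1 / Main: Jacobsthal's function
-/

set_option autoImplicit false

namespace Crest.Agent.R1

open Finset Filter
open scoped Classical

theorem survivors : ∀ᶠ M : ℝ in atTop, ∀ X : ℤ, M * ll M / LL M ^ 2 ≤ Surv M X := by
  obtain ⟨a, K, s₁, C₁, ε, hK, hs, hε, h1⟩ := caseI
  filter_upwards [h1, caseII a K s₁ C₁ hK hs ε hε] with M h1 h2 X
  rcases h1 X with h | ⟨c, b, hc, h3, h4, h5, h6⟩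
  · exact h
  · exact h2 X c b hc h3 h4 h5 h6

theorem jacobsthal :
    ∃ C : ℝ, 0 < C ∧ ∀ (k : ℕ), 1 ≤ k → ∀ (n : ℕ), 0 < n → n.primeFactors.card ≤ k →
      ∀ (a : ℤ) (m : ℕ), C * (k : ℝ) ^ 2 / (Real.log (Real.log (3 * (k : ℝ)))) ^ 2 ≤ (m : ℝ) →
        ∃ x : ℤ, a ≤ x ∧ x < a + m ∧ Int.gcd x n = 1 := jacob_of_surv survivors

end Crest.Agent.R1
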