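import Crest.Agent.R1.Tree

/-!
# R1 / MassB: chain density and the recursions for the continuation bound
-/

set_option autoImplicit false

namespace Crest.Agent.R1

open Finset
open scoped Classical

variable {σ : ℕ → ℕ} {μ : ℕ → ℝ} {U : Finset ℕ} {j top : ℕ}

theorem mb_wt_nonneg (hμ : ∀ b, 0 ≤ μ b) (τ : Finset ℕ) : 0 ≤ wt μ τ :=
  prod_nonneg fun b _ => hμ b

theorem mb_erase_le (hμ : ∀ b, 0 ≤ μ b) (q : ℕ) (F G : Finset (Finset ℕ))
    (h : ∀ τ ∈ F, q ∈ τ ∧ τ.erase q ∈ G) :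
    ∑ τ ∈ F, wt μ τ ≤ μ q * ∑ τ ∈ G, wt μ τ := by
  have h1 : ∑ τ ∈ F, wt μ τ = μ q * ∑ τ ∈ F, wt μ (τ.erase q) := by
    rw [mul_sum]
    refine sum_congr rfl fun τ hτ => ?_
    unfold wt
    rw [mul_prod_erase _ _ (h τ hτ).1]
  rw [h1]
  refine mul_le_mul_of_nonneg_left ?_ (hμ q)
  have hinj : Set.InjOn (fun τ : Finset ℕ => τ.erase q) F := by
    intro a ha b hb hab
    have := congrArg (insert q) hab
    simpa [insert_erase (h a ha).1, insert_erase (h b hb).1] using this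
  rw [← sum_image (f := wt μ) hinj]
  refine sum_le_sum_of_subset_of_nonneg ?_ fun τ _ _ => mb_wt_nonneg hμ τ
  intro τ hτ
  obtain ⟨a, ha, rfl⟩ := mem_image.1 hτ
  exact (h a ha).2

theorem mb_remove_le (hμ : ∀ b, 0 ≤ μ b) (F : Finset (Finset ℕ)) (V : Finset ℕ)
    (G : ℕ → Finset (Finset ℕ)) (h : ∀ τ ∈ F, ∃ q ∈ τ, q ∈ V ∧ τ.erase q ∈ G q) :
    ∑ τ ∈ F, wt μ τ ≤ ∑ q ∈ V, μ q * ∑ τ ∈ G q, wt μ τ := by
  calc ∑ τ ∈ F, wt μ τ
      ≤ ∑ τ ∈ F, ∑ q ∈ V, (if q ∈ τ ∧ τ.erase q ∈ G q then wt μ τ else 0) := by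
        refine sum_le_sum fun τ hτ => ?_
        obtain ⟨q, hq, hqV, hG⟩ := h τ hτ
        have := single_le_sum (f := fun q => if q ∈ τ ∧ τ.erase q ∈ G q then wt μ τ else 0)
          (fun q _ => by
            split_ifs
            · exact mb_wt_nonneg hμ τ
            · exact le_rfl) hqV
        simpa [hq, hG] using this
    _ = ∑ q ∈ V, ∑ τ ∈ F.filter (fun τ => q ∈ τ ∧ τ.erase q ∈ G q), wt μ τ := by
        rw [sum_comm]
        refine sum_congr rfl fun q _ => ?_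
        rw [sum_filter]
    _ ≤ _ := by
        refine sum_le_sum fun q _ => mb_erase_le hμ q _ _ fun τ hτ => (mem_filter.1 hτ).2

theorem mb_block (h : BS σ μ U j top) {V : Finset ℕ} (hVU : V ⊆ U) {a T : ℕ} (ha : j ≤ a)
    (hV : ∀ b ∈ V, a ≤ σ b ∧ σ b ≤ T) (g : ℕ → ℝ) (hg : ∀ i ∈ Icc a T, 0 ≤ g i) :
    ∑ b ∈ V, μ b * g (σ b) ≤ ∑ i ∈ Icc a T, (1 / (i : ℝ) + 3 / (i : ℝ) ^ 2) * g i := by
  rw [← sum_fiberwise_of_maps_to (g := σ) (t := Icc a T) (fun b hb => mem_Icc.2 (hV b hb))]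
  refine sum_le_sum fun i hi => ?_
  have h1 : ∑ b ∈ V.filter (fun b => σ b = i), μ b * g (σ b) =
      (∑ b ∈ V.filter (fun b => σ b = i), μ b) * g i := by
    rw [sum_mul]
    refine sum_congr rfl fun b hb => ?_
    rw [(mem_filter.1 hb).2]
  rw [h1]
  refine mul_le_mul_of_nonneg_right ?_ (hg i hi)
  refine le_trans ?_ (h.block i (ha.trans (mem_Icc.1 hi).1))
  exact sum_le_sum_of_subset_of_nonneg (filter_subset_filter _ hVU) fun b _ _ => h.nonneg b

theorem mb_tot_erase {τ : Finset ℕ} {q : ℕ} (hq : q ∈ τ) :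
    tot σ (τ.erase q) = tot σ τ - σ q := by
  unfold tot
  rw [← add_sum_erase _ _ hq]
  ring

theorem mb_le_tot {τ : Finset ℕ} {q : ℕ} (hq : q ∈ τ) : (σ q : ℤ) ≤ tot σ τ :=
  single_le_sum (f := fun p => (σ p : ℤ)) (fun _ _ => Int.natCast_nonneg _) hq

theorem mb_sum_m {a : ℕ} (ha : 1000 ≤ a) {T : ℕ} (hT : a ≤ T) :
    ∑ i ∈ Icc a T, (1 / (i : ℝ) + 3 / (i : ℝ) ^ 2) ≤ Real.log T - Real.log a + 1 - 4 / T := by
  induction T, hT using Nat.le_induction with
  | base =>
    have ha' : (1000 : ℝ) ≤ a := by exact_mod_cast ha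
    rw [Icc_self, sum_singleton, sub_self, zero_add]
    have h1 : 1 / (a : ℝ) ≤ 1 / 1000 := one_div_le_one_div_of_le (by norm_num) ha'
    have h2 : 3 / (a : ℝ) ^ 2 ≤ 3 / 1000 := by
      refine div_le_div_of_nonneg_left (by norm_num) (by norm_num) ?_
      nlinarith
    have h3 : 4 / (a : ℝ) ≤ 4 / 1000 := div_le_div_of_nonneg_left (by norm_num) (by norm_num) ha'
    linarith
  | succ T hT ih =>
    rw [sum_Icc_succ_top (by omega)]
    have hT' : (1000 : ℝ) ≤ T := by exact_mod_cast ha.trans hT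
    have hT0 : (0 : ℝ) < T := by linarith
    have h1 : 1 / ((T : ℝ) + 1) ≤ Real.log (T + 1) - Real.log T := by
      have := Real.one_sub_inv_le_log_of_pos (x := ((T : ℝ) + 1) / T) (by positivity)
      rw [Real.log_div (by positivity) hT0.ne'] at this
      refine le_trans (le_of_eq ?_) this
      field_simp
      ring
    have h2 : 3 / ((T : ℝ) + 1) ^ 2 ≤ 4 / T - 4 / (T + 1) := by
      rw [div_sub_div _ _ hT0.ne' (by positivity), div_le_div_iff₀ (by positivity) (by positivity)]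
      nlinarith
    push_cast
    linarith

theorem mb_exp_le {t : ℝ} (h0 : 0 ≤ t) (h1 : t ≤ 1) : Real.exp t ≤ 1 + 2 * t := by
  have h := Real.exp_bound' h0 h1 (n := 1) one_pos
  simp at h
  linarith

/-- Rankin's trick -/
theorem mb_rankin (h : BS σ μ U j top) {T : ℕ} (hjT : j ≤ T) (hT : T ≤ top) :
    ∑ τ ∈ (U.filter (fun b => σ b ≤ T)).powerset, wt μ τ * Real.exp ((tot σ τ : ℝ) / top) ≤
      Real.exp 5 * T / j := by
  have hj : (1000 : ℝ) ≤ j := by exact_mod_cast h.big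
  have hjT' : (j : ℝ) ≤ T := by exact_mod_cast hjT
  have hT' : (T : ℝ) ≤ top := by exact_mod_cast hT
  have htop : (0 : ℝ) < top := by linarith
  set V := U.filter (fun b => σ b ≤ T) with hV
  have h1 : ∑ τ ∈ V.powerset, wt μ τ * Real.exp ((tot σ τ : ℝ) / top) =
      ∏ b ∈ V, (1 + μ b * Real.exp ((σ b : ℝ) / top)) := by
    rw [prod_one_add]
    refine sum_congr rfl fun τ _ => ?_
    unfold wt tot
    rw [prod_mul_distrib, ← Real.exp_sum]
    congr 2
    push_cast
    rw [sum_div]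
  have h2 : ∏ b ∈ V, (1 + μ b * Real.exp ((σ b : ℝ) / top)) ≤
      Real.exp (∑ b ∈ V, μ b * Real.exp ((σ b : ℝ) / top)) := by
    rw [Real.exp_sum]
    refine prod_le_prod (fun b _ => ?_) fun b _ => ?_
    · have := h.nonneg b
      positivity
    · rw [add_comm]
      exact Real.add_one_le_exp _
  have h3 : ∑ b ∈ V, μ b * Real.exp ((σ b : ℝ) / top) ≤
      ∑ i ∈ Icc j T, (1 / (i : ℝ) + 3 / (i : ℝ) ^ 2) * Real.exp ((i : ℝ) / top) :=
    mb_block h (filter_subset _ _) le_rfl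
      (fun b hb => ⟨(h.range b (mem_filter.1 hb).1).1, (mem_filter.1 hb).2⟩)
      (fun i => Real.exp ((i : ℝ) / top)) fun i _ => (Real.exp_pos _).le
  have h4 : ∑ i ∈ Icc j T, (1 / (i : ℝ) + 3 / (i : ℝ) ^ 2) * Real.exp ((i : ℝ) / top) ≤
      ∑ i ∈ Icc j T, ((1 / (i : ℝ) + 3 / (i : ℝ) ^ 2) + 4 / top) := by
    refine sum_le_sum fun i hi => ?_
    have hi1 : (j : ℝ) ≤ i := by exact_mod_cast (mem_Icc.1 hi).1
    have hi2 : (i : ℝ) ≤ T := by exact_mod_cast (mem_Icc.1 hi).2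
    have hi0 : (0 : ℝ) < i := by linarith
    have he := mb_exp_le (t := (i : ℝ) / top) (by positivity)
      ((div_le_one htop).2 (by linarith))
    have hm : (1 / (i : ℝ) + 3 / (i : ℝ) ^ 2) * (2 * ((i : ℝ) / top)) ≤ 4 / top := by
      have : (1 / (i : ℝ) + 3 / (i : ℝ) ^ 2) * (2 * ((i : ℝ) / top)) = (2 + 6 / i) / top := by
        field_simp
        ring
      rw [this]
      refine div_le_div_of_nonneg_right ?_ htop.le
      have : 6 / (i : ℝ) ≤ 2 := by
        rw [div_le_iff₀ hi0]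
        linarith
      linarith
    have hm0 : 0 ≤ 1 / (i : ℝ) + 3 / (i : ℝ) ^ 2 := by positivity
    nlinarith [mul_le_mul_of_nonneg_left he hm0]
  have h5 : ∑ i ∈ Icc j T, ((1 / (i : ℝ) + 3 / (i : ℝ) ^ 2) + 4 / top) ≤
      Real.log T - Real.log j + 5 := by
    rw [sum_add_distrib, sum_const, Nat.card_Icc, nsmul_eq_mul]
    have := mb_sum_m h.big hjT
    have hc : ((T + 1 - j : ℕ) : ℝ) ≤ top := by
      have : T + 1 - j ≤ top := by have := h.big; omega
      exact_mod_cast this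
    have h6 : ((T + 1 - j : ℕ) : ℝ) * (4 / top) ≤ 4 := by
      calc _ ≤ (top : ℝ) * (4 / top) := mul_le_mul_of_nonneg_right hc (by positivity)
        _ = 4 := by field_simp
    have : 0 ≤ 4 / (T : ℝ) := by positivity
    linarith
  rw [h1]
  refine h2.trans ((Real.exp_le_exp.2 (h3.trans (h4.trans h5))).trans (le_of_eq ?_))
  rw [Real.exp_add, Real.exp_sub, Real.exp_log (by linarith), Real.exp_log (by linarith)]
  ring

theorem mb_chain (h : BS σ μ U j top) (x : ℤ) (hx : 1 ≤ x) :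
    ∑ τ ∈ U.powerset.filter (fun τ => tot σ τ = x), wt μ τ ≤
      2 * Real.exp 6 / j * Real.exp (-(x : ℝ) / top) := by
  have hj : (1000 : ℝ) ≤ j := by exact_mod_cast h.big
  have htop' : (j : ℝ) ≤ top := by exact_mod_cast h.j_le
  have htop : (0 : ℝ) < top := by linarith
  have hx' : (1 : ℝ) ≤ x := by exact_mod_cast hx
  set B : ℤ → ℝ := fun y => ∑ τ ∈ U.powerset.filter (fun τ => tot σ τ = y), wt μ τ with hB
  have hB0 : ∀ y, 0 ≤ B y := fun y => sum_nonneg fun τ _ => mb_wt_nonneg h.nonneg τ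
  -- size biasing
  have h1 : (x : ℝ) * B x ≤ ∑ q ∈ U, μ q * ((σ q : ℝ) * B (x - σ q)) := by
    calc (x : ℝ) * B x
        = ∑ τ ∈ U.powerset.filter (fun τ => tot σ τ = x),
            ∑ q ∈ U, (if q ∈ τ then (σ q : ℝ) * wt μ τ else 0) := by
          rw [hB, mul_sum]
          refine sum_congr rfl fun τ hτ => ?_
          obtain ⟨hτU, hτ⟩ := mem_filter.1 hτ
          rw [← sum_filter, filter_mem_eq_inter, inter_eq_right.2 (mem_powerset.1 hτU), ← sum_mul,
            ← hτ]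
          unfold tot
          push_cast
          rfl
      _ = ∑ q ∈ U, (σ q : ℝ) *
            ∑ τ ∈ (U.powerset.filter (fun τ => tot σ τ = x)).filter (fun τ => q ∈ τ), wt μ τ := by
          rw [sum_comm]
          refine sum_congr rfl fun q _ => ?_
          rw [← sum_filter, mul_sum]
      _ ≤ _ := by
          refine sum_le_sum fun q _ => ?_
          rw [mul_left_comm]
          refine mul_le_mul_of_nonneg_left ?_ (Nat.cast_nonneg _)
          refine mb_erase_le h.nonneg q _ _ fun τ hτ => ?_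
          obtain ⟨hτ1, hq⟩ := mem_filter.1 hτ
          obtain ⟨hτU, hτ⟩ := mem_filter.1 hτ1
          refine ⟨hq, mem_filter.2 ⟨mem_powerset.2 ((erase_subset _ _).trans
            (mem_powerset.1 hτU)), ?_⟩⟩
          rw [mb_tot_erase hq, hτ]
  have h2 := mb_block h (subset_refl U) le_rfl h.range (fun i => (i : ℝ) * B (x - i))
    fun i _ => mul_nonneg (Nat.cast_nonneg _) (hB0 _)
  have h3 : ∑ i ∈ Icc j top, (1 / (i : ℝ) + 3 / (i : ℝ) ^ 2) * ((i : ℝ) * B (x - i)) ≤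
      2 * ∑ i ∈ Icc j top, B (x - i) := by
    rw [mul_sum]
    refine sum_le_sum fun i hi => ?_
    have hi1 : (j : ℝ) ≤ i := by exact_mod_cast (mem_Icc.1 hi).1
    have hi0 : (0 : ℝ) < i := by linarith
    rw [← mul_assoc]
    refine mul_le_mul_of_nonneg_right ?_ (hB0 _)
    have : (1 / (i : ℝ) + 3 / (i : ℝ) ^ 2) * i = 1 + 3 / i := by field_simp
    rw [this]
    have : 3 / (i : ℝ) ≤ 1 := by
      rw [div_le_iff₀ hi0]
      linarith
    linarith
  -- the window sum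
  have h4 : ∑ i ∈ Icc j top, B (x - i) ≤ Real.exp 6 * x / j * Real.exp (-(x : ℝ) / top) := by
    have h5 : ∑ i ∈ Icc j top, B (x - i) = ∑ τ ∈ U.powerset.filter
        (fun τ => (j : ℤ) ≤ x - tot σ τ ∧ x - tot σ τ ≤ top), wt μ τ := by
      rw [← sum_fiberwise_of_maps_to (g := fun τ => (x - tot σ τ).toNat) (t := Icc j top)
        (s := U.powerset.filter (fun τ => (j : ℤ) ≤ x - tot σ τ ∧ x - tot σ τ ≤ top))]
      · refine sum_congr rfl fun i hi => ?_
        obtain ⟨hi1, hi2⟩ := mem_Icc.1 hi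
        have := h.big
        rw [filter_filter]
        refine sum_congr (filter_congr fun τ _ => ?_) fun _ _ => rfl
        omega
      · intro τ hτ
        have := (mem_filter.1 hτ).2
        rw [mem_Icc]
        omega
    rw [h5]
    by_cases hxj : x < j
    · rw [filter_false_of_mem, sum_empty]
      · positivity
      · intro τ _ hτ
        have : 0 ≤ tot σ τ := sum_nonneg fun _ _ => Int.natCast_nonneg _
        omega
    · have hjT : j ≤ min x.toNat top := le_min (by omega) h.j_le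
      have hR := mb_rankin h hjT (min_le_right _ _)
      have hTx : ((min x.toNat top : ℕ) : ℝ) ≤ x := by
        have : ((min x.toNat top : ℕ) : ℤ) ≤ x := by omega
        exact_mod_cast this
      calc _ ≤ ∑ τ ∈ U.powerset.filter (fun τ => (j : ℤ) ≤ x - tot σ τ ∧ x - tot σ τ ≤ top),
            wt μ τ * Real.exp ((tot σ τ : ℝ) / top) * Real.exp (1 - (x : ℝ) / top) := by
            refine sum_le_sum fun τ hτ => ?_
            have h6 : (x : ℝ) - tot σ τ ≤ top := by exact_mod_cast (mem_filter.1 hτ).2.2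
            rw [mul_assoc, ← Real.exp_add]
            refine le_mul_of_one_le_right (mb_wt_nonneg h.nonneg τ) (Real.one_le_exp ?_)
            have : ((x : ℝ) - tot σ τ) / top ≤ 1 := (div_le_one htop).2 h6
            rw [sub_div] at this
            linarith
        _ ≤ ∑ τ ∈ (U.filter (fun b => σ b ≤ min x.toNat top)).powerset,
            wt μ τ * Real.exp ((tot σ τ : ℝ) / top) * Real.exp (1 - (x : ℝ) / top) := by
            refine sum_le_sum_of_subset_of_nonneg ?_ fun τ _ _ => ?_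
            · intro τ hτ
              obtain ⟨hτU, hτ1, hτ2⟩ := mem_filter.1 hτ
              refine mem_powerset.2 fun q hq => mem_filter.2 ⟨mem_powerset.1 hτU hq, ?_⟩
              have h7 := mb_le_tot (σ := σ) hq
              have h8 := (h.range q (mem_powerset.1 hτU hq)).2
              omega
            · have := mb_wt_nonneg h.nonneg τ
              positivity
        _ ≤ Real.exp 5 * x / j * Real.exp (1 - (x : ℝ) / top) := by
            rw [← sum_mul]
            refine mul_le_mul_of_nonneg_right (hR.trans ?_) (Real.exp_pos _).le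
            gcongr
        _ = _ := by
            rw [sub_eq_add_neg, Real.exp_add, neg_div, show (6 : ℝ) = 5 + 1 by norm_num,
              Real.exp_add]
            ring
  have h9 : (x : ℝ) * B x ≤ x * (2 * Real.exp 6 / j * Real.exp (-(x : ℝ) / top)) := by
    refine h1.trans (h2.trans (h3.trans ?_))
    calc _ ≤ 2 * (Real.exp 6 * x / j * Real.exp (-(x : ℝ) / top)) := by linarith
      _ = _ := by ring
  exact le_of_mul_le_mul_left h9 (by linarith)

/-- alive sets with all sizes `≥ a`, remaining level `ρ` and total parity `par` -/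
noncomputable def mbS (σ : ℕ → ℕ) (R : ℤ) (e : ℕ) (U : Finset ℕ) (par a ρ : ℕ) :
    Finset (Finset ℕ) :=
  (nodes σ R e U).filter
    (fun τ => (∀ p ∈ τ, a ≤ σ p) ∧ R - tot σ τ = ρ ∧ (e + τ.card) % 2 = par)

/-- their mass -/
noncomputable def mbD (σ : ℕ → ℕ) (μ : ℕ → ℝ) (R : ℤ) (e : ℕ) (U : Finset ℕ) (par a ρ : ℕ) : ℝ :=
  ∑ τ ∈ mbS σ R e U par a ρ, wt μ τ

theorem mb_rec (h : BS σ μ U j top) {R : ℤ} {e : ℕ} (hS : Start R e top) {par a ρ N : ℕ}
    (ha : j ≤ a) (hρ : (ρ : ℤ) < R) (hN : ρ ≤ N ∨ (par = 0 ∧ ρ / 2 ≤ N))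
    (G : ℕ → Finset (Finset ℕ))
    (hG : ∀ (i : ℕ) (τ : Finset ℕ), τ ∈ nodes σ R e U → (∀ p ∈ τ, i ≤ σ p) →
      R - tot σ τ = ((ρ + i : ℕ) : ℤ) → (e + τ.card + 1) % 2 = par → τ ∈ G i) :
    mbD σ μ R e U par a ρ ≤
      ∑ i ∈ Icc a N, (1 / (i : ℝ) + 3 / (i : ℝ) ^ 2) * ∑ τ ∈ G i, wt μ τ := by
  refine le_trans (mb_remove_le h.nonneg _ (U.filter (fun b => a ≤ σ b ∧ σ b ≤ N))
    (fun q => G (σ q)) ?_)
    (mb_block h (filter_subset _ _) ha (fun b hb => (mem_filter.1 hb).2)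
      (fun i => ∑ τ ∈ G i, wt μ τ) fun i _ => sum_nonneg fun τ _ => mb_wt_nonneg h.nonneg τ)
  intro τ hτ
  obtain ⟨hτn, hτa, hτρ, hτp⟩ := mem_filter.1 hτ
  obtain ⟨hτU, hal⟩ := mem_filter.1 hτn
  have hτU' := mem_powerset.1 hτU
  have hne : τ.Nonempty := by
    rw [nonempty_iff_ne_empty]
    rintro rfl
    simp [tot] at hτρ
    omega
  set q := τ.min' hne with hq
  have hqτ : q ∈ τ := min'_mem _ _
  have hqle : ∀ p ∈ τ, q ≤ p := fun p hp => min'_le _ _ hp
  have hst := hal.start h.mono hS (fun p hp => (h.range p (hτU' hp)).2)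
    (h.range q (hτU' hqτ)).2 (fun p hp => h.mono (hqle p hp))
  obtain ⟨hst1, hst2⟩ := hst
  have hcard := card_erase_add_one hqτ
  refine ⟨q, hqτ, mem_filter.2 ⟨hτU' hqτ, hτa q hqτ, ?_⟩, hG _ _ ?_ ?_ ?_ ?_⟩
  · rcases hN with hN | ⟨hp, hN⟩
    · omega
    · have := hst1 (Nat.even_iff.2 (by omega))
      omega
  · refine mem_filter.2 ⟨mem_powerset.2 ((erase_subset _ _).trans hτU'), ?_⟩
    have h1 : ∀ p ∈ τ.erase q, q < p := fun p hp =>
      lt_of_le_of_ne (hqle p (mem_of_mem_erase hp)) (ne_of_mem_erase hp).symm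
    have h2 := alive_insert (σ := σ) (R := R) (e := e) h1
    rw [insert_erase hqτ] at h2
    exact (h2.1 hal).1
  · exact fun p hp => h.mono (hqle p (mem_of_mem_erase hp))
  · rw [mb_tot_erase hqτ]
    push_cast
    omega
  · omega

theorem mb_recO (h : BS σ μ U j top) {R : ℤ} {e : ℕ} (hS : Start R e top) {a ρ : ℕ}
    (ha : j ≤ a) (hρ : (ρ : ℤ) < R) :
    mbD σ μ R e U 1 a ρ ≤
      ∑ i ∈ Icc a ρ, (1 / (i : ℝ) + 3 / (i : ℝ) ^ 2) * mbD σ μ R e U 0 i (ρ + i) :=
  mb_rec h hS ha hρ (Or.inl le_rfl) (fun i => mbS σ R e U 0 i (ρ + i))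
    fun i τ h1 h2 h3 h4 => mem_filter.2 ⟨h1, h2, h3, by omega⟩

theorem mb_recE (h : BS σ μ U j top) {R : ℤ} {e : ℕ} (hS : Start R e top) {a ρ : ℕ}
    (ha : j ≤ a) (hρ : (ρ : ℤ) < R) :
    mbD σ μ R e U 0 a ρ ≤
      ∑ i ∈ Icc a (ρ / 2), (1 / (i : ℝ) + 3 / (i : ℝ) ^ 2) * mbD σ μ R e U 1 i (ρ + i) :=
  mb_rec h hS ha hρ (Or.inr ⟨rfl, le_rfl⟩) (fun i => mbS σ R e U 1 i (ρ + i))
    fun i τ h1 h2 h3 h4 => mem_filter.2 ⟨h1, h2, h3, by omega⟩

theorem mb_sum_sq {a : ℕ} (ha : 1 ≤ a) {N : ℕ} (hN : a ≤ N) :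
    ∑ i ∈ Icc a N, 1 / (i : ℝ) ^ 2 ≤ 1 / (a : ℝ) ^ 2 + 1 / a - 1 / N := by
  induction N, hN using Nat.le_induction with
  | base => simp
  | succ N hN ih =>
    rw [sum_Icc_succ_top (by omega)]
    have hN0 : (1 : ℝ) ≤ N := by exact_mod_cast ha.trans hN
    have h2 : 1 / ((N : ℝ) + 1) ^ 2 ≤ 1 / N - 1 / (N + 1) := by
      rw [div_sub_div _ _ (by positivity) (by positivity),
        div_le_div_iff₀ (by positivity) (by positivity)]
      nlinarith
    push_cast
    linarith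

/-- the crude bound in the window `top/16 ≤ ρ ≤ top/4` -/
theorem mb_crude (h : BS σ μ U j top) {R : ℤ} {e : ℕ} (hS : Start R e top) {a ρ : ℕ}
    (ha : j ≤ a) (haρ : 2 * a ≤ ρ) (hρ : 4 * ρ ≤ top) :
    mbD σ μ R e U 0 a ρ ≤
      4 * Real.exp 7 * Real.exp (-(R : ℝ) / top) * (1 / (a : ℝ) ^ 2 + 1 / a - 2 / ρ) := by
  have hbig := h.big
  have hR := hS.2
  have htop : (0 : ℝ) < top := by
    have : 0 < top := by omega
    exact_mod_cast this
  have h1 := mb_rec (μ := μ) (par := 0) (ρ := ρ) (N := ρ / 2) h hS ha (by omega)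
    (Or.inr ⟨rfl, le_rfl⟩)
    (fun i => (U.filter (fun b => i ≤ σ b)).powerset.filter (fun τ => tot σ τ = R - ρ - i))
    (fun i τ h1 h2 h3 _ => by
      refine mem_filter.2 ⟨mem_powerset.2 fun p hp =>
        mem_filter.2 ⟨mem_powerset.1 (mem_filter.1 h1).1 hp, h2 p hp⟩, ?_⟩
      push_cast at h3
      omega)
  refine h1.trans ?_
  have h2 := mb_sum_sq (a := a) (by omega) (N := ρ / 2) (by omega)
  have h3 : 2 / (ρ : ℝ) ≤ 1 / ((ρ / 2 : ℕ) : ℝ) := by
    have h4 : (0 : ℝ) < ((ρ / 2 : ℕ) : ℝ) := by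
      have : 0 < ρ / 2 := by omega
      exact_mod_cast this
    have h5 : 2 * ((ρ / 2 : ℕ) : ℝ) ≤ ρ := by
      have : 2 * (ρ / 2) ≤ ρ := by omega
      exact_mod_cast this
    rw [div_le_div_iff₀ (by linarith) h4]
    linarith
  calc _ ≤ ∑ i ∈ Icc a (ρ / 2),
        4 * Real.exp 7 * Real.exp (-(R : ℝ) / top) * (1 / (i : ℝ) ^ 2) := by
        refine sum_le_sum fun i hi => ?_
        obtain ⟨hi1, hi2⟩ := mem_Icc.1 hi
        have hi0 : (1000 : ℝ) ≤ i := by
          have : 1000 ≤ i := by omega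
          exact_mod_cast this
        have hb : BS σ μ (U.filter (fun b => i ≤ σ b)) i top :=
          { mono := h.mono
            nonneg := h.nonneg
            big := by omega
            j_le := by omega
            range := fun b hb => ⟨(mem_filter.1 hb).2, (h.range b (mem_filter.1 hb).1).2⟩
            block := fun i' hi' => by
              refine le_trans ?_ (h.block i' (by omega))
              exact sum_le_sum_of_subset_of_nonneg (filter_subset_filter _ (filter_subset _ _))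
                fun b _ _ => h.nonneg b }
        have hc := mb_chain hb (R - ρ - i) (by omega)
        have hm : 1 / (i : ℝ) + 3 / (i : ℝ) ^ 2 ≤ 2 / i := by
          have : 3 / (i : ℝ) ^ 2 ≤ 1 / i := by
            rw [div_le_div_iff₀ (by positivity) (by positivity)]
            nlinarith
          have h2 : 2 / (i : ℝ) = 1 / i + 1 / i := by ring
          linarith
        have he : Real.exp (-((R - ρ - i : ℤ) : ℝ) / top) ≤
            Real.exp 1 * Real.exp (-(R : ℝ) / top) := by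
          rw [← Real.exp_add]
          refine Real.exp_le_exp.2 ?_
          have h6 : ((ρ : ℝ) + i) / top ≤ 1 := by
            rw [div_le_one htop]
            have : ρ + i ≤ top := by omega
            exact_mod_cast this
          have h7 : -((R - ρ - i : ℤ) : ℝ) / top = ((ρ : ℝ) + i) / top + -(R : ℝ) / top := by
            push_cast
            ring
          linarith
        calc _ ≤ 2 / (i : ℝ) * (2 * Real.exp 6 / i * (Real.exp 1 * Real.exp (-(R : ℝ) / top))) := by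
              refine mul_le_mul hm (hc.trans ?_)
                (sum_nonneg fun τ _ => mb_wt_nonneg h.nonneg τ) (by positivity)
              exact mul_le_mul_of_nonneg_left he (by positivity)
          _ = _ := by
              rw [show (7 : ℝ) = 6 + 1 by norm_num, Real.exp_add]
              ring
    _ ≤ _ := by
        rw [← mul_sum]
        refine mul_le_mul_of_nonneg_left ?_ (by positivity)
        linarith

/-- decomposition according to the remaining level and the parity -/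
theorem mb_decomp (h : BS σ μ U j top) {R : ℤ} {e : ℕ} (hS : Start R e top) (r : ℕ) {c : ℝ}
    (hc : 0 ≤ c) (hO : ∀ ρ, j ≤ ρ → ρ ≤ r → mbD σ μ R e U 1 j ρ ≤ c)
    (hE : ∀ ρ, 2 * j ≤ ρ → ρ ≤ r → mbD σ μ R e U 0 j ρ ≤ c) :
    mass σ μ R e U (fun τ => R - tot σ τ ≤ r) ≤ 2 * r * c := by
  have hbig := h.big
  have hst : ∀ τ ∈ nodes σ R e U, Start (R - tot σ τ) (e + τ.card) j := by
    intro τ hτ
    obtain ⟨hτU, hal⟩ := mem_filter.1 hτ
    have hτU' := mem_powerset.1 hτU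
    exact hal.start h.mono hS (fun p hp => (h.range p (hτU' hp)).2) h.j_le
      fun p hp => (h.range p (hτU' hp)).1
  have hsub : (nodes σ R e U).filter (fun τ => R - tot σ τ ≤ r) ⊆
      (Icc j r).biUnion (fun ρ => mbS σ R e U 1 j ρ) ∪
        (Icc (2 * j) r).biUnion (fun ρ => mbS σ R e U 0 j ρ) := by
    intro τ hτ
    obtain ⟨hτn, hτr⟩ := mem_filter.1 hτ
    obtain ⟨h1, h2⟩ := hst τ hτn
    have hτU' := mem_powerset.1 (mem_filter.1 hτn).1
    have hs : ∀ p ∈ τ, j ≤ σ p := fun p hp => (h.range p (hτU' hp)).1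
    rcases Nat.mod_two_eq_zero_or_one (e + τ.card) with hp | hp
    · have := h1 (Nat.even_iff.2 hp)
      refine mem_union_right _ (mem_biUnion.2 ⟨(R - tot σ τ).toNat, mem_Icc.2 ⟨by omega, by omega⟩,
        mem_filter.2 ⟨hτn, hs, by omega, hp⟩⟩)
    · refine mem_union_left _ (mem_biUnion.2 ⟨(R - tot σ τ).toNat, mem_Icc.2 ⟨by omega, by omega⟩,
        mem_filter.2 ⟨hτn, hs, by omega, hp⟩⟩)
  have hw := mb_wt_nonneg h.nonneg
  have hbU : ∀ (s : Finset ℕ) (F : ℕ → Finset (Finset ℕ)),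
      ∑ τ ∈ s.biUnion F, wt μ τ ≤ ∑ ρ ∈ s, ∑ τ ∈ F ρ, wt μ τ := by
    intro s F
    induction s using Finset.induction_on with
    | empty => simp
    | insert a s ha ih =>
      rw [biUnion_insert, sum_insert ha]
      have := sum_union_inter (s₁ := F a) (s₂ := s.biUnion F) (f := wt μ)
      have h0 : 0 ≤ ∑ τ ∈ F a ∩ s.biUnion F, wt μ τ := sum_nonneg fun τ _ => hw τ
      linarith
  have hcard : ∀ a : ℕ, 1 ≤ a → ((Icc a r).card : ℝ) * c ≤ r * c := by
    intro a ha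
    refine mul_le_mul_of_nonneg_right ?_ hc
    have : (Icc a r).card ≤ r := by rw [Nat.card_Icc]; omega
    exact_mod_cast this
  have hA : ∑ ρ ∈ Icc j r, ∑ τ ∈ mbS σ R e U 1 j ρ, wt μ τ ≤ r * c := by
    refine le_trans ?_ (hcard j (by omega))
    rw [← nsmul_eq_mul]
    exact sum_le_card_nsmul _ _ _ fun ρ hρ => hO ρ (mem_Icc.1 hρ).1 (mem_Icc.1 hρ).2
  have hB : ∑ ρ ∈ Icc (2 * j) r, ∑ τ ∈ mbS σ R e U 0 j ρ, wt μ τ ≤ r * c := by
    refine le_trans ?_ (hcard (2 * j) (by omega))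
    rw [← nsmul_eq_mul]
    exact sum_le_card_nsmul _ _ _ fun ρ hρ => hE ρ (mem_Icc.1 hρ).1 (mem_Icc.1 hρ).2
  have h1 := sum_le_sum_of_subset_of_nonneg hsub fun τ _ _ => hw τ
  have h2 := sum_union_inter (s₁ := (Icc j r).biUnion (fun ρ => mbS σ R e U 1 j ρ))
    (s₂ := (Icc (2 * j) r).biUnion (fun ρ => mbS σ R e U 0 j ρ)) (f := wt μ)
  have h3 : 0 ≤ ∑ τ ∈ (Icc j r).biUnion (fun ρ => mbS σ R e U 1 j ρ) ∩
      (Icc (2 * j) r).biUnion (fun ρ => mbS σ R e U 0 j ρ), wt μ τ := sum_nonneg fun τ _ => hw τ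
  have h4 := hbU (Icc j r) (fun ρ => mbS σ R e U 1 j ρ)
  have h5 := hbU (Icc (2 * j) r) (fun ρ => mbS σ R e U 0 j ρ)
  unfold mass
  convert (show _ ≤ 2 * r * c by linarith : ∑ τ ∈ (nodes σ R e U).filter
    (fun τ => R - tot σ τ ≤ r), wt μ τ ≤ 2 * r * c)

end Crest.Agent.R1
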