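import Crest.Agent.R1.Tree

/-!
# R1 / MassC: removing the least element (helpers for `root_density`)
-/

set_option autoImplicit false

namespace Crest.Agent.R1

open Finset
open scoped Classical

variable {σ : ℕ → ℕ} {μ : ℕ → ℝ} {U : Finset ℕ} {j top : ℕ}

theorem MassC_wt_nonneg (hμ : ∀ b, 0 ≤ μ b) (τ : Finset ℕ) : 0 ≤ wt μ τ :=
  Finset.prod_nonneg fun p _ => hμ p

theorem MassC_peel (hμ : ∀ b, 0 ≤ μ b) (F : Finset (Finset ℕ)) (V : Finset ℕ)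
    (G : ℕ → Finset (Finset ℕ)) (h : ∀ τ ∈ F, ∃ q ∈ τ, q ∈ V ∧ τ.erase q ∈ G q) :
    ∑ τ ∈ F, wt μ τ ≤ ∑ q ∈ V, μ q * ∑ τ ∈ G q, wt μ τ := by
  calc ∑ τ ∈ F, wt μ τ
      ≤ ∑ τ ∈ F, ∑ q ∈ V, if q ∈ τ ∧ τ.erase q ∈ G q then wt μ τ else 0 := by
        refine sum_le_sum fun τ hτ => ?_
        obtain ⟨q, hq, hqV, hG⟩ := h τ hτ
        refine le_trans (le_of_eq ?_) (single_le_sum (f := fun q =>
          if q ∈ τ ∧ τ.erase q ∈ G q then wt μ τ else 0) (fun q _ => ?_) hqV)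
        · simp [hq, hG]
        · split_ifs
          · exact MassC_wt_nonneg hμ τ
          · exact le_rfl
    _ = ∑ q ∈ V, ∑ τ ∈ F.filter (fun τ => q ∈ τ ∧ τ.erase q ∈ G q), wt μ τ := by
        rw [sum_comm]
        exact sum_congr rfl fun q _ => (sum_filter _ _).symm
    _ ≤ _ := by
        refine sum_le_sum fun q _ => ?_
        have e : ∑ τ ∈ F.filter (fun τ => q ∈ τ ∧ τ.erase q ∈ G q), wt μ τ =
            μ q * ∑ τ ∈ (F.filter (fun τ => q ∈ τ ∧ τ.erase q ∈ G q)).image (fun τ => τ.erase q),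
              wt μ τ := by
          rw [sum_image, mul_sum]
          · refine sum_congr rfl fun τ hτ => ?_
            exact (mul_prod_erase τ μ (mem_filter.1 hτ).2.1).symm
          · intro τ hτ τ' hτ' he
            have h1 := (mem_filter.1 (mem_coe.1 hτ)).2.1
            have h2 := (mem_filter.1 (mem_coe.1 hτ')).2.1
            rw [← insert_erase h1, ← insert_erase h2]
            exact congrArg _ he
        rw [e]
        refine mul_le_mul_of_nonneg_left (sum_le_sum_of_subset_of_nonneg ?_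
          fun τ _ _ => MassC_wt_nonneg hμ τ) (hμ q)
        intro τ hτ
        obtain ⟨τ', hτ', rfl⟩ := mem_image.1 hτ
        exact (mem_filter.1 hτ').2.2

theorem MassC_step (h : BS σ μ U j top) (F : Finset (Finset ℕ)) {a b : ℕ} (ha : j ≤ a)
    (G : ℕ → Finset (Finset ℕ)) (g : ℕ → ℝ) (hg0 : ∀ i ∈ Icc a b, 0 ≤ g i)
    (hg : ∀ i ∈ Icc a b, i ≤ top → ∑ τ ∈ G i, wt μ τ ≤ g i)
    (hF : ∀ τ ∈ F, ∃ q ∈ τ, q ∈ U ∧ σ q ∈ Icc a b ∧ τ.erase q ∈ G (σ q)) :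
    ∑ τ ∈ F, wt μ τ ≤ ∑ i ∈ Icc a b, (1 / (i : ℝ) + 3 / (i : ℝ) ^ 2) * g i := by
  refine (MassC_peel h.nonneg F (U.filter fun q => σ q ∈ Icc a b) (fun q => G (σ q))
    fun τ hτ => ?_).trans ?_
  · obtain ⟨q, hq, hqU, hs, hG⟩ := hF τ hτ
    exact ⟨q, hq, mem_filter.2 ⟨hqU, hs⟩, hG⟩
  rw [← sum_fiberwise_of_maps_to (g := σ) (t := Icc a b) (fun q hq => (mem_filter.1 hq).2)]
  refine sum_le_sum fun i hi => ?_
  calc _ ≤ ∑ q ∈ (U.filter fun q => σ q ∈ Icc a b).filter (fun q => σ q = i), μ q * g i := by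
        refine sum_le_sum fun q hq => ?_
        obtain ⟨hq1, hq2⟩ := mem_filter.1 hq
        rw [hq2]
        refine mul_le_mul_of_nonneg_left (hg i hi ?_) (h.nonneg q)
        rw [← hq2]
        exact (h.range q (mem_filter.1 hq1).1).2
    _ = (∑ q ∈ (U.filter fun q => σ q ∈ Icc a b).filter (fun q => σ q = i), μ q) * g i := by
        rw [sum_mul]
    _ ≤ _ := by
        refine mul_le_mul_of_nonneg_right (le_trans ?_ (h.block i (ha.trans (mem_Icc.1 hi).1)))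
          (hg0 i hi)
        refine sum_le_sum_of_subset_of_nonneg (fun q hq => ?_) fun q _ _ => h.nonneg q
        obtain ⟨hq1, hq2⟩ := mem_filter.1 hq
        exact mem_filter.2 ⟨(mem_filter.1 hq1).1, hq2⟩

theorem MassC_tot_erase {τ : Finset ℕ} {q : ℕ} (hq : q ∈ τ) :
    tot σ τ = tot σ (τ.erase q) + σ q := by
  unfold tot
  rw [sum_erase_add _ _ hq]

theorem MassC_tot_nonneg (τ : Finset ℕ) : 0 ≤ tot σ τ :=
  sum_nonneg fun _ _ => Int.natCast_nonneg _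

/-- the least element of an alive set -/
theorem MassC_least {R₀ : ℤ} {τ : Finset ℕ} (hne : τ.Nonempty) (h : Alive σ R₀ 0 τ) :
    ∃ q ∈ τ, (∀ p ∈ τ.erase q, q < p) ∧ Alive σ R₀ 0 (τ.erase q) ∧
      (Even τ.card → tot σ τ + 2 * σ q ≤ R₀) := by
  have hq := τ.min'_mem hne
  have hlt : ∀ p ∈ τ.erase (τ.min' hne), τ.min' hne < p := fun p hp =>
    lt_of_le_of_ne (τ.min'_le p (mem_of_mem_erase hp)) (ne_of_mem_erase hp).symm
  refine ⟨_, hq, hlt, ?_⟩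
  have h' := h
  rw [← insert_erase hq, alive_insert hlt] at h'
  refine ⟨h'.1, fun he => ?_⟩
  have h2 := h'.2 (by rwa [zero_add, card_erase_add_one hq])
  rw [MassC_tot_erase (σ := σ) hq]
  linarith

/-- an even nonempty alive set leaves room for twice any size below it -/
theorem MassC_even_room {R₀ : ℤ} {τ : Finset ℕ} (hc : 2 ≤ τ.card) (he : Even τ.card)
    (h : Alive σ R₀ 0 τ) {i : ℕ} (hi : ∀ p ∈ τ, i ≤ σ p) : tot σ τ + 2 * i ≤ R₀ := by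
  obtain ⟨q, hq, -, -, h3⟩ := MassC_least (card_pos.1 (by omega)) h
  have h4 : (i : ℤ) ≤ σ q := by exact_mod_cast hi q hq
  have := h3 he
  linarith

/-- even sets with sizes `≥ i` and remaining level `R` -/
noncomputable def rcE (σ : ℕ → ℕ) (μ : ℕ → ℝ) (U : Finset ℕ) (R₀ : ℤ) (i : ℕ) (R : ℤ) : ℝ :=
  mass σ μ R₀ 0 (U.filter fun p => i ≤ σ p) fun τ => 2 ≤ τ.card ∧ Even τ.card ∧ R₀ - tot σ τ = R

/-- odd sets with at least three elements, sizes `≥ i` and remaining level `R` -/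
noncomputable def rcO (σ : ℕ → ℕ) (μ : ℕ → ℝ) (U : Finset ℕ) (R₀ : ℤ) (i : ℕ) (R : ℤ) : ℝ :=
  mass σ μ R₀ 0 (U.filter fun p => i ≤ σ p) fun τ => 2 ≤ τ.card ∧ Odd τ.card ∧ R₀ - tot σ τ = R

theorem MassC_mass_nonneg (hμ : ∀ b, 0 ≤ μ b) (R : ℤ) (e : ℕ) (V : Finset ℕ)
    (Φ : Finset ℕ → Prop) : 0 ≤ mass σ μ R e V Φ :=
  sum_nonneg fun τ _ => MassC_wt_nonneg hμ τ

theorem MassC_mem {R₀ : ℤ} {V τ : Finset ℕ} {Φ : Finset ℕ → Prop} :
    τ ∈ (nodes σ R₀ 0 V).filter Φ ↔ τ ⊆ V ∧ Alive σ R₀ 0 τ ∧ Φ τ := by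
  simp only [nodes, mem_filter, mem_powerset, and_assoc]

/-- the parent of an odd set -/
theorem MassC_odd_parent (hσ : Monotone σ) {R₀ : ℤ} {τ : Finset ℕ} (hc : 2 ≤ τ.card)
    (ho : Odd τ.card) (h : Alive σ R₀ 0 τ) :
    ∃ q ∈ τ, (∀ p ∈ τ.erase q, σ q ≤ σ p) ∧ Alive σ R₀ 0 (τ.erase q) ∧ 2 ≤ (τ.erase q).card ∧
      Even (τ.erase q).card ∧ tot σ τ + σ q ≤ R₀ := by
  obtain ⟨q, hq, h1, h2, -⟩ := MassC_least (card_pos.1 (by omega)) h
  have hcard := card_erase_add_one hq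
  have hs : ∀ p ∈ τ.erase q, σ q ≤ σ p := fun p hp => hσ (h1 p hp).le
  have he : Even (τ.erase q).card := by
    rw [← hcard] at ho
    rwa [Nat.odd_add_one, Nat.not_odd_iff_even] at ho
  have hc' : 2 ≤ (τ.erase q).card := by
    obtain ⟨k, hk⟩ := he
    omega
  refine ⟨q, hq, hs, h2, hc', he, ?_⟩
  have := MassC_even_room hc' he h2 hs
  rw [MassC_tot_erase (σ := σ) hq]
  linarith

theorem MassC_hO (h : BS σ μ U j top) (R₀ : ℤ) {i : ℕ} (hi : j ≤ i) (R : ℕ) :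
    rcO σ μ U R₀ i R ≤
      ∑ k ∈ Icc i R, (1 / (k : ℝ) + 3 / (k : ℝ) ^ 2) * rcE σ μ U R₀ k ((R + k : ℕ) : ℤ) := by
  refine MassC_step h _ hi (fun k => (nodes σ R₀ 0 (U.filter fun p => k ≤ σ p)).filter
    fun τ => 2 ≤ τ.card ∧ Even τ.card ∧ R₀ - tot σ τ = ((R + k : ℕ) : ℤ)) _
    (fun k _ => MassC_mass_nonneg h.nonneg _ _ _ _) (fun k _ _ => le_of_eq ?_) fun τ hτ => ?_
  · unfold rcE mass
    congr
  obtain ⟨hsub, hal, hc, ho, hR⟩ := MassC_mem.1 hτ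
  obtain ⟨q, hq, h1, h2, h3, h4, h5⟩ := MassC_odd_parent h.mono hc ho hal
  have hqU := mem_filter.1 (hsub hq)
  refine ⟨q, hq, hqU.1, mem_Icc.2 ⟨hqU.2, ?_⟩, ?_⟩
  · have : (σ q : ℤ) ≤ R := by linarith
    exact_mod_cast this
  · have := (MassC_mem (σ := σ) (R₀ := R₀) (V := U.filter fun p => σ q ≤ σ p) (τ := τ.erase q)
      (Φ := fun τ => 2 ≤ τ.card ∧ Even τ.card ∧ R₀ - tot σ τ = ((R + σ q : ℕ) : ℤ))).2
      ⟨fun p hp => mem_filter.2 ⟨(mem_filter.1 (hsub (mem_of_mem_erase hp))).1, h1 p hp⟩, h2, h3,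
        h4, by rw [MassC_tot_erase (σ := σ) hq] at hR; push_cast; linarith⟩
    convert this

/-- the parent of an even set -/
theorem MassC_even_parent (hσ : Monotone σ) {R₀ : ℤ} {τ : Finset ℕ} (hc : 2 ≤ τ.card)
    (he : Even τ.card) (h : Alive σ R₀ 0 τ) :
    ∃ q ∈ τ, (∀ p ∈ τ.erase q, σ q ≤ σ p) ∧ Alive σ R₀ 0 (τ.erase q) ∧
      Odd (τ.erase q).card ∧ tot σ τ + 2 * σ q ≤ R₀ := by
  obtain ⟨q, hq, h1, h2, h3⟩ := MassC_least (card_pos.1 (by omega)) h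
  have hcard := card_erase_add_one hq
  refine ⟨q, hq, fun p hp => hσ (h1 p hp).le, h2, ?_, h3 he⟩
  rw [← hcard] at he
  rwa [Nat.even_add_one, Nat.not_even_iff_odd] at he

theorem MassC_hE (h : BS σ μ U j top) {R₀ : ℤ} (hR₀ : 2 * (top : ℤ) ≤ R₀) {i : ℕ} (hi : j ≤ i)
    {R : ℕ} (hR : R < top / 16) :
    rcE σ μ U R₀ i R ≤
      ∑ k ∈ Icc i (R / 2), (1 / (k : ℝ) + 3 / (k : ℝ) ^ 2) * rcO σ μ U R₀ k ((R + k : ℕ) : ℤ) := by
  refine MassC_step h _ hi (fun k => (nodes σ R₀ 0 (U.filter fun p => k ≤ σ p)).filter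
    fun τ => 2 ≤ τ.card ∧ Odd τ.card ∧ R₀ - tot σ τ = ((R + k : ℕ) : ℤ)) _
    (fun k _ => MassC_mass_nonneg h.nonneg _ _ _ _) (fun k _ _ => le_of_eq ?_) fun τ hτ => ?_
  · unfold rcO mass
    congr
  obtain ⟨hsub, hal, hc, he, hR'⟩ := MassC_mem.1 hτ
  obtain ⟨q, hq, h1, h2, h3, h4⟩ := MassC_even_parent h.mono hc he hal
  have hqU := mem_filter.1 (hsub hq)
  have h5 : 2 * σ q ≤ R := by
    have : 2 * (σ q : ℤ) ≤ R := by linarith
    exact_mod_cast this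
  have h6 : R₀ - tot σ (τ.erase q) = ((R + σ q : ℕ) : ℤ) := by
    rw [MassC_tot_erase (σ := σ) hq] at hR'; push_cast; linarith
  have h7 : 2 ≤ (τ.erase q).card := by
    by_contra hlt
    have h8 : (τ.erase q).card = 1 := by
      obtain ⟨k, hk⟩ := h3
      omega
    obtain ⟨p, hp⟩ := card_eq_one.1 h8
    have hpU : p ∈ U := (mem_filter.1 (hsub (mem_of_mem_erase (hp ▸ mem_singleton_self p)))).1
    have h9 := (h.range p hpU).2
    rw [hp] at h6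
    simp only [tot, sum_singleton] at h6
    omega
  refine ⟨q, hq, hqU.1, mem_Icc.2 ⟨hqU.2, by omega⟩, ?_⟩
  have := (MassC_mem (σ := σ) (R₀ := R₀) (V := U.filter fun p => σ q ≤ σ p) (τ := τ.erase q)
    (Φ := fun τ => 2 ≤ τ.card ∧ Odd τ.card ∧ R₀ - tot σ τ = ((R + σ q : ℕ) : ℤ))).2
    ⟨fun p hp => mem_filter.2 ⟨(mem_filter.1 (hsub (mem_of_mem_erase hp))).1, h1 p hp⟩, h2, h7,
      h3, h6⟩
  convert this

theorem MassC_hc (h : BS σ μ U j top) (R₀ : ℤ) {C : ℝ} (hC : 0 ≤ C)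
    (hB : ∀ k, j ≤ k → k ≤ top → ∀ x : ℤ, 1 ≤ x →
      ∑ τ ∈ (U.filter fun p => k ≤ σ p).powerset.filter (fun τ => tot σ τ = x), wt μ τ ≤ C / k)
    {i : ℕ} (hi : j ≤ i) (R : ℕ) :
    rcE σ μ U R₀ i R ≤ ∑ k ∈ Icc i (R / 2), (1 / (k : ℝ) + 3 / (k : ℝ) ^ 2) * (C / k) := by
  refine MassC_step h _ hi (fun k => (U.filter fun p => k ≤ σ p).powerset.filter
    fun τ => tot σ τ = R₀ - R - k ∧ 1 ≤ R₀ - R - k) _
    (fun k _ => by positivity) (fun k hk hkt => ?_) fun τ hτ => ?_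
  · by_cases h1 : 1 ≤ R₀ - R - k
    · simp only [h1, and_true]
      exact hB k (hi.trans (mem_Icc.1 hk).1) hkt _ h1
    · simp only [h1, and_false, filter_false, sum_empty]
      positivity
  obtain ⟨hsub, hal, hc, he, hR'⟩ := MassC_mem.1 hτ
  obtain ⟨q, hq, h1, h2, h3, h4⟩ := MassC_even_parent h.mono hc he hal
  have hqU := mem_filter.1 (hsub hq)
  have h5 : 2 * σ q ≤ R := by
    have : 2 * (σ q : ℤ) ≤ R := by linarith
    exact_mod_cast this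
  have h6 : tot σ (τ.erase q) = R₀ - R - σ q := by
    rw [MassC_tot_erase (σ := σ) hq] at hR'; linarith
  refine ⟨q, hq, hqU.1, mem_Icc.2 ⟨hqU.2, by omega⟩, mem_filter.2 ⟨mem_powerset.2
    fun p hp => mem_filter.2 ⟨(mem_filter.1 (hsub (mem_of_mem_erase hp))).1, h1 p hp⟩, h6, ?_⟩⟩
  rw [← h6]
  obtain ⟨p, hp⟩ : (τ.erase q).Nonempty := card_pos.1 h3.pos
  have h7 : (σ p : ℤ) ≤ tot σ (τ.erase q) :=
    single_le_sum (f := fun p => (σ p : ℤ)) (fun _ _ => Int.natCast_nonneg _) hp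
  have h8 := (h.range p (mem_filter.1 (hsub (mem_of_mem_erase hp))).1).1
  have h9 := h.big
  omega

theorem MassC_inv_sq {i n : ℕ} (hi : 1 ≤ i) (hn : i ≤ n) :
    ∑ k ∈ Icc i n, 1 / (k : ℝ) ^ 2 ≤ 1 / (i : ℝ) ^ 2 + 1 / i - 1 / n := by
  induction n, hn using Nat.le_induction with
  | base => simp
  | succ n hn ih =>
    rw [sum_Icc_succ_top (by omega)]
    have h1 : (1 : ℝ) ≤ n := by exact_mod_cast hi.trans hn
    have h2 : 1 / ((n + 1 : ℕ) : ℝ) ^ 2 ≤ 1 / (n : ℝ) - 1 / ((n + 1 : ℕ) : ℝ) := by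
      push_cast
      rw [div_sub_div _ _ (by positivity) (by positivity), div_le_div_iff₀ (by positivity)
        (by positivity)]
      nlinarith
    linarith

theorem MassC_sum {C : ℝ} (hC : 0 ≤ C) {i R : ℕ} (hi : 1000 ≤ i) (hR : 2 * i ≤ R) :
    ∑ k ∈ Icc i (R / 2), (1 / (k : ℝ) + 3 / (k : ℝ) ^ 2) * (C / k) ≤
      2 * C / (R : ℝ) ^ 2 * ((R : ℝ) * (R - 2 * i) / i + (R : ℝ) ^ 2 / (i : ℝ) ^ 2) := by
  have hi' : (1000 : ℝ) ≤ i := by exact_mod_cast hi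
  have hR' : 2 * (i : ℝ) ≤ R := by exact_mod_cast hR
  have h1 : ∑ k ∈ Icc i (R / 2), (1 / (k : ℝ) + 3 / (k : ℝ) ^ 2) * (C / k) ≤
      2 * C * ∑ k ∈ Icc i (R / 2), 1 / (k : ℝ) ^ 2 := by
    rw [mul_sum]
    refine sum_le_sum fun k hk => ?_
    have hk' : (1000 : ℝ) ≤ k := by exact_mod_cast hi.trans (mem_Icc.1 hk).1
    have h3 : 3 / (k : ℝ) ^ 2 ≤ 1 / k := by
      rw [div_le_div_iff₀ (by positivity) (by positivity)]
      nlinarith
    calc _ ≤ (1 / (k : ℝ) + 1 / k) * (C / k) :=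
          mul_le_mul_of_nonneg_right (by linarith) (by positivity)
      _ = _ := by field_simp; ring
  have h2 := MassC_inv_sq (i := i) (n := R / 2) (by omega) (by omega)
  have h3 : 2 / (R : ℝ) ≤ 1 / ((R / 2 : ℕ) : ℝ) := by
    have h4 : (0 : ℝ) < ((R / 2 : ℕ) : ℝ) := by exact_mod_cast (show 0 < R / 2 by omega)
    have h5 : 2 * ((R / 2 : ℕ) : ℝ) ≤ R := by exact_mod_cast (show 2 * (R / 2) ≤ R by omega)
    rw [div_le_div_iff₀ (by linarith) h4]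
    linarith
  refine h1.trans ((mul_le_mul_of_nonneg_left (h2.trans (sub_le_sub_left h3 _))
    (by positivity)).trans (le_of_eq ?_))
  have : (0 : ℝ) < R := by linarith
  field_simp
  ring

theorem MassC_filter (h : BS σ μ U j top) : U.filter (fun p => j ≤ σ p) = U :=
  filter_true_of_mem fun p hp => (h.range p hp).1

theorem MassC_O_zero (h : BS σ μ U j top) {R₀ R : ℤ} (hR : ¬ ((j : ℤ) ≤ R ∧ R ≤ R₀)) :
    rcO σ μ U R₀ j R = 0 := by
  refine sum_eq_zero fun τ hτ => absurd ?_ hR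
  obtain ⟨hsub, hal, hc, ho, hR⟩ := MassC_mem.1 hτ
  obtain ⟨q, hq, -, -, -, -, h5⟩ := MassC_odd_parent h.mono hc ho hal
  have h1 : (j : ℤ) ≤ σ q := by exact_mod_cast (mem_filter.1 (hsub hq)).2
  have h2 := MassC_tot_nonneg (σ := σ) τ
  constructor <;> linarith

theorem MassC_E_zero {R₀ R : ℤ} (hR : ¬ (2 * (j : ℤ) ≤ R ∧ R ≤ R₀)) :
    rcE σ μ U R₀ j R = 0 := by
  refine sum_eq_zero fun τ hτ => absurd ?_ hR
  obtain ⟨hsub, hal, hc, he, hR⟩ := MassC_mem.1 hτ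
  have h1 := MassC_even_room hc he hal fun p hp => (mem_filter.1 (hsub hp)).2
  have h2 := MassC_tot_nonneg (σ := σ) τ
  constructor <;> linarith

theorem MassC_split (h : BS σ μ U j top) (R₀ R : ℤ) :
    mass σ μ R₀ 0 U (fun τ => 2 ≤ τ.card ∧ R₀ - tot σ τ = R) =
      rcE σ μ U R₀ j R + rcO σ μ U R₀ j R := by
  unfold rcE rcO mass
  rw [MassC_filter h, sum_filter, sum_filter, sum_filter, ← sum_add_distrib]
  refine sum_congr rfl fun τ _ => ?_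
  rcases Nat.even_or_odd τ.card with he | ho
  · have := Nat.not_odd_iff_even.2 he
    simp [he, this]
  · have := Nat.not_even_iff_odd.2 ho
    simp [ho, this]

/-- `root_density` from the comparison principle -/
theorem MassC_final (h : BS σ μ U j top) {R₀ : ℤ} {K : ℝ} (hK : 0 ≤ K)
    (hO : ∀ R : ℕ, j ≤ R → (R : ℤ) ≤ R₀ → rcO σ μ U R₀ j R ≤
      K / (top : ℝ) ^ 2 * (((R : ℝ) - j) ^ 2 / j + 10 * (5 * (R : ℝ) ^ 2 / (j : ℝ) ^ 2 - 4)))
    (hE : ∀ R : ℕ, 2 * j ≤ R → (R : ℤ) ≤ R₀ → rcE σ μ U R₀ j R ≤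
      K / (top : ℝ) ^ 2 * ((R : ℝ) * (R - 2 * j) / j + 10 * (6 * (R : ℝ) ^ 2 / (j : ℝ) ^ 2 - 23)))
    (R : ℤ) :
    mass σ μ R₀ 0 U (fun τ => 2 ≤ τ.card ∧ R₀ - tot σ τ = R) ≤ 50 * K * R ^ 2 / (j * top ^ 2) ∧
      mass σ μ R₀ 0 U (fun τ => 2 ≤ τ.card ∧ Odd τ.card ∧ R₀ - tot σ τ = R) ≤
        50 * K * ((R - j) ^ 2 / j + R ^ 2 / j ^ 2) / top ^ 2 := by
  have hj : (1000 : ℝ) ≤ j := by exact_mod_cast h.big
  have ht : (1000 : ℝ) ≤ top := by exact_mod_cast h.big.trans h.j_le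
  have hK' : 0 ≤ K / (top : ℝ) ^ 2 := by positivity
  have hq : (R : ℝ) ^ 2 / (j : ℝ) ^ 2 ≤ (R : ℝ) ^ 2 / j / 1000 := by
    rw [div_div]
    exact div_le_div_of_nonneg_left (by positivity) (by positivity) (by nlinarith)
  have hq0 : 0 ≤ (R : ℝ) ^ 2 / (j : ℝ) ^ 2 := by positivity
  have hq1 : 0 ≤ (R : ℝ) ^ 2 / (j : ℝ) := by positivity
  have hq2 : 0 ≤ ((R : ℝ) - j) ^ 2 / (j : ℝ) := by positivity
  have hO' : rcO σ μ U R₀ j R ≤ K / (top : ℝ) ^ 2 * (2 * ((R : ℝ) ^ 2 / j)) ∧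
      rcO σ μ U R₀ j R ≤ K / (top : ℝ) ^ 2 * (50 * (((R : ℝ) - j) ^ 2 / j + R ^ 2 / j ^ 2)) := by
    by_cases hR : (j : ℤ) ≤ R ∧ R ≤ R₀
    · obtain ⟨n, rfl⟩ := Int.eq_ofNat_of_zero_le ((Int.natCast_nonneg j).trans hR.1)
      have hjn : j ≤ n := by exact_mod_cast hR.1
      have hjn' : (j : ℝ) ≤ n := by exact_mod_cast hjn
      have h1 := hO n hjn hR.2
      push_cast at hq hq0 hq1 hq2 ⊢
      have h2 : ((n : ℝ) - j) ^ 2 / j ≤ (n : ℝ) ^ 2 / j :=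
        div_le_div_of_nonneg_right (by nlinarith) (by positivity)
      have h3 : 5 * (n : ℝ) ^ 2 / (j : ℝ) ^ 2 = 5 * ((n : ℝ) ^ 2 / (j : ℝ) ^ 2) := by ring
      rw [h3] at h1
      constructor <;> refine h1.trans (mul_le_mul_of_nonneg_left ?_ hK') <;> linarith
    · rw [MassC_O_zero h hR]
      constructor <;> positivity
  have hE' : rcE σ μ U R₀ j R ≤ K / (top : ℝ) ^ 2 * (2 * ((R : ℝ) ^ 2 / j)) := by
    by_cases hR : 2 * (j : ℤ) ≤ R ∧ R ≤ R₀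
    · obtain ⟨n, rfl⟩ := Int.eq_ofNat_of_zero_le (le_trans (by positivity) hR.1)
      have hjn : 2 * j ≤ n := by exact_mod_cast hR.1
      have hjn' : 2 * (j : ℝ) ≤ n := by exact_mod_cast hjn
      have h1 := hE n hjn hR.2
      push_cast at hq hq0 hq1 hq2 ⊢
      have h2 : (n : ℝ) * (n - 2 * j) / j ≤ (n : ℝ) ^ 2 / j :=
        div_le_div_of_nonneg_right (by nlinarith) (by positivity)
      have h3 : 6 * (n : ℝ) ^ 2 / (j : ℝ) ^ 2 = 6 * ((n : ℝ) ^ 2 / (j : ℝ) ^ 2) := by ring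
      rw [h3] at h1
      refine h1.trans (mul_le_mul_of_nonneg_left ?_ hK')
      linarith
    · rw [MassC_E_zero hR]
      positivity
  constructor
  · rw [MassC_split h]
    calc _ ≤ K / (top : ℝ) ^ 2 * (50 * ((R : ℝ) ^ 2 / j)) := by
          have := mul_nonneg hK' hq1
          nlinarith [hO'.1]
      _ = _ := by field_simp
  · have e : mass σ μ R₀ 0 U (fun τ => 2 ≤ τ.card ∧ Odd τ.card ∧ R₀ - tot σ τ = R) =
        rcO σ μ U R₀ j R := by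
      unfold rcO
      rw [MassC_filter h]
    rw [e]
    refine hO'.2.trans (le_of_eq ?_)
    ring

end Crest.Agent.R1
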