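import Crest.Agent.R1.Tree
import Crest.Agent.R1.MassB
import Crest.Agent.R1.MassC

/-!
# R1 / Mass: how much weight the alive sets with small remaining level carry

Notation in the hints: `O_j(R)`, `E_j(R)` = mass of the alive `τ` with all sizes `≥ j`, remaining
level `R₀ - tot τ = R` and odd, resp. even, total parity.  Removing the least element gives
`O_j(R) ≤ ∑_{j ≤ i ≤ R} m_i E_i(R+i)` and `E_j(R) ≤ ∑_{j ≤ i, 2i ≤ R} m_i O_i(R+i)` with
`m_i = 1/i + 3/i²`.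
-/

set_option autoImplicit false

namespace Crest.Agent.R1

open Finset
open scoped Classical

/-- supersolution, odd part -/
noncomputable def Obar (j R : ℝ) : ℝ := (R - j) ^ 2 / j + 10 * (5 * R ^ 2 / j ^ 2 - 4)

/-- supersolution, even part -/
noncomputable def Ebar (j R : ℝ) : ℝ := R * (R - 2 * j) / j + 10 * (6 * R ^ 2 / j ^ 2 - 23)

theorem sum_Icc_tele (f g : ℕ → ℝ) {j n : ℕ} (h : j ≤ n) (hs : ∀ i, j ≤ i → i < n → f i ≤ g i - g (i + 1))
    (hn : f n ≤ g n) : ∑ i ∈ Icc j n, f i ≤ g j := by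
  have key : ∀ m, j ≤ m → m ≤ n → ∑ i ∈ Ico j m, f i ≤ g j - g m := by
    intro m hm
    induction m, hm using Nat.le_induction with
    | base => intro _; simp
    | succ m hm ih =>
      intro h'
      rw [sum_Ico_succ_top hm]
      linarith [ih (by omega), hs m hm (by omega)]
  rw [← Ico_add_one_right_eq_Icc, sum_Ico_succ_top h]
  linarith [key n h le_rfl]

theorem frac_bounds {j : ℝ} (hj : 1000 ≤ j) :
    j ^ 2 / (j + 1) ≤ j - 1 + 1 / j ∧ (j / (j + 1)) ^ 2 ≤ 1 - 2 * (1 / j) + 3 * (1 / j) ^ 2 := by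
  have h0 : 0 < j := by linarith
  constructor
  · have : j - 1 + 1 / j - j ^ 2 / (j + 1) = 1 / (j * (j + 1)) := by
      field_simp
      ring
    have h1 : 0 ≤ 1 / (j * (j + 1)) := by positivity
    linarith
  · have : 1 - 2 * (1 / j) + 3 * (1 / j) ^ 2 - (j / (j + 1)) ^ 2 = (4 * j + 3) / (j ^ 2 * (j + 1) ^ 2) := by
      field_simp
      ring
    have h1 : 0 ≤ (4 * j + 3) / (j ^ 2 * (j + 1) ^ 2) := by positivity
    linarith

theorem Obar_step {j : ℝ} (hj : 1000 ≤ j) (R : ℝ) :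
    (1 / j + 3 / j ^ 2) * Ebar j (R + j) ≤ Obar j R - Obar (j + 1) R := by
  have h0 : 0 < j := by linarith
  obtain ⟨t, rfl⟩ : ∃ t, R = t * j := ⟨R / j, by field_simp⟩
  obtain ⟨h1, h2⟩ := frac_bounds hj
  have e1 : (1 / j + 3 / j ^ 2) * Ebar j (t * j + j) =
      (1 + 3 * (1 / j)) * (t ^ 2 - 1) + (1 / j) * ((1 + 3 * (1 / j)) * (60 * (t + 1) ^ 2 - 230)) := by
    unfold Ebar
    field_simp
    ring
  have e2 : Obar j (t * j) - Obar (j + 1) (t * j) =
      t ^ 2 * (j - j ^ 2 / (j + 1)) - 1 + 50 * t ^ 2 * (1 - (j / (j + 1)) ^ 2) := by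
    unfold Obar
    field_simp
    ring
  rw [e1, e2]
  have hu0 : 0 < 1 / j := by positivity
  have hu1 : 1 / j ≤ 1 / 1000 := one_div_le_one_div_of_le (by norm_num) hj
  generalize 1 / j = u at h1 h2 hu0 hu1 ⊢
  have h3 : t ^ 2 * (1 - u) ≤ t ^ 2 * (j - j ^ 2 / (j + 1)) :=
    mul_le_mul_of_nonneg_left (by linarith) (sq_nonneg t)
  have h4 : 50 * t ^ 2 * (2 * u - 3 * u ^ 2) ≤ 50 * t ^ 2 * (1 - (j / (j + 1)) ^ 2) :=
    mul_le_mul_of_nonneg_left (by linarith) (by positivity)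
  have h5 : u * (150 * t ^ 2 + 180 * (t + 1) ^ 2) ≤ 1 / 1000 * (150 * t ^ 2 + 180 * (t + 1) ^ 2) :=
    mul_le_mul_of_nonneg_right hu1 (by positivity)
  have h6 : 0 ≤ 36 * t ^ 2 - 120 * t + 173 - u * (150 * t ^ 2 + 180 * (t + 1) ^ 2 - 690) := by
    nlinarith [sq_nonneg (t - 5 / 3)]
  nlinarith [mul_nonneg hu0.le h6]

theorem Ebar_step {j : ℝ} (hj : 1000 ≤ j) {R : ℝ} (hR : 2 * j ≤ R) :
    (1 / j + 3 / j ^ 2) * Obar j (R + j) ≤ Ebar j R - Ebar (j + 1) R := by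
  have h0 : 0 < j := by linarith
  obtain ⟨t, rfl⟩ : ∃ t, R = t * j := ⟨R / j, by field_simp⟩
  have ht : 2 ≤ t := le_of_mul_le_mul_right hR h0
  obtain ⟨h1, h2⟩ := frac_bounds hj
  have e1 : (1 / j + 3 / j ^ 2) * Obar j (t * j + j) =
      (1 + 3 * (1 / j)) * t ^ 2 + (1 / j) * ((1 + 3 * (1 / j)) * (50 * (t + 1) ^ 2 - 40)) := by
    unfold Obar
    field_simp
    ring
  have e2 : Ebar j (t * j) - Ebar (j + 1) (t * j) =
      t ^ 2 * (j - j ^ 2 / (j + 1)) + 60 * t ^ 2 * (1 - (j / (j + 1)) ^ 2) := by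
    unfold Ebar
    field_simp
    ring
  rw [e1, e2]
  have hu0 : 0 < 1 / j := by positivity
  have hu1 : 1 / j ≤ 1 / 1000 := one_div_le_one_div_of_le (by norm_num) hj
  generalize 1 / j = u at h1 h2 hu0 hu1 ⊢
  have h3 : t ^ 2 * (1 - u) ≤ t ^ 2 * (j - j ^ 2 / (j + 1)) :=
    mul_le_mul_of_nonneg_left (by linarith) (sq_nonneg t)
  have h4 : 60 * t ^ 2 * (2 * u - 3 * u ^ 2) ≤ 60 * t ^ 2 * (1 - (j / (j + 1)) ^ 2) :=
    mul_le_mul_of_nonneg_left (by linarith) (by positivity)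
  have h5 : u * (180 * t ^ 2 + 150 * (t + 1) ^ 2) ≤ 1 / 1000 * (180 * t ^ 2 + 150 * (t + 1) ^ 2) :=
    mul_le_mul_of_nonneg_right hu1 (by positivity)
  have h6 : 0 ≤ 66 * t ^ 2 - 100 * t - 10 - u * (180 * t ^ 2 + 150 * (t + 1) ^ 2 - 120) := by
    nlinarith [sq_nonneg (t - 2)]
  nlinarith [mul_nonneg hu0.le h6]

theorem Ebar_last {j : ℝ} (hj : 1000 ≤ j) {R : ℝ} (hR : 2 * j ≤ R) (hR' : R ≤ 2 * j + 1) :
    (1 / j + 3 / j ^ 2) * Obar j (R + j) ≤ Ebar j R := by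
  have h0 : 0 < j := by linarith
  obtain ⟨t, rfl⟩ : ∃ t, R = t * j := ⟨R / j, by field_simp⟩
  have ht : 2 ≤ t := le_of_mul_le_mul_right hR h0
  have ht' : t ≤ 2.01 := le_of_mul_le_mul_right (by linarith) h0
  have e1 : (1 / j + 3 / j ^ 2) * Obar j (t * j + j) =
      (1 + 3 * (1 / j)) * (t ^ 2 + (1 / j) * (50 * (t + 1) ^ 2 - 40)) := by
    unfold Obar
    field_simp
    ring
  have e2 : Ebar j (t * j) = t * (t - 2) * j + 10 * (6 * t ^ 2 - 23) := by
    unfold Ebar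
    field_simp
  rw [e1, e2]
  have hu0 : 0 < 1 / j := by positivity
  have hu1 : 1 / j ≤ 1 / 1000 := one_div_le_one_div_of_le (by norm_num) hj
  generalize 1 / j = u at hu0 hu1 ⊢
  have h3 : 0 ≤ t * (t - 2) * j := mul_nonneg (mul_nonneg (by linarith) (by linarith)) h0.le
  have h4 : t ^ 2 ≤ 5 := by nlinarith
  have h5 : 50 * (t + 1) ^ 2 - 40 ≤ 500 := by nlinarith
  have h6 : u * (50 * (t + 1) ^ 2 - 40) ≤ 1 := by nlinarith
  have h7 : (1 + 3 * u) * (t ^ 2 + u * (50 * (t + 1) ^ 2 - 40)) ≤ (1 + 3 * u) * 6 :=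
    mul_le_mul_of_nonneg_left (by linarith) (by linarith)
  nlinarith

/-- telescoping from `Obar j R - Obar (j+1) R ≥ m_j Ebar j (R+j)` for `j < R` and
`Obar R R ≥ m_R Ebar R (2R)` -/
theorem Obar_super {j R : ℕ} (hj : 1000 ≤ j) (hR : j ≤ R) :
    ∑ i ∈ Icc j R, (1 / (i : ℝ) + 3 / (i : ℝ) ^ 2) * Ebar i (R + i) ≤ Obar j R := by
  refine sum_Icc_tele _ (fun i => Obar i R) hR (fun i hi _ => ?_) ?_
  · push_cast
    exact Obar_step (by exact_mod_cast hj.trans hi) _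
  · have h1 : (1000 : ℝ) ≤ R := by exact_mod_cast hj.trans hR
    have h0 : (0 : ℝ) < R := by linarith
    have e1 : Obar R R = 10 := by
      unfold Obar
      field_simp
      ring
    have e2 : Ebar R (R + R) = 10 := by
      unfold Ebar
      field_simp
      ring
    have h2 : 1 / (R : ℝ) ≤ 1 / 1000 := one_div_le_one_div_of_le (by norm_num) h1
    have h3 : 3 / (R : ℝ) ^ 2 ≤ 3 / 1000 ^ 2 := by gcongr
    simp only [e1, e2]
    linarith

/-- telescoping from `Ebar j R - Ebar (j+1) R ≥ m_j Obar j (R+j)` for `2(j+1) ≤ R`, and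
`Ebar j R ≥ m_j Obar j (R+j)` for `R ∈ {2j, 2j+1}` -/
theorem Ebar_super {j R : ℕ} (hj : 1000 ≤ j) (hR : 2 * j ≤ R) :
    ∑ i ∈ Icc j (R / 2), (1 / (i : ℝ) + 3 / (i : ℝ) ^ 2) * Obar i (R + i) ≤ Ebar j R := by
  have hjR : j ≤ R / 2 := by omega
  refine sum_Icc_tele _ (fun i => Ebar i R) hjR (fun i hi hi' => ?_) ?_
  · push_cast
    exact Ebar_step (by exact_mod_cast hj.trans hi) (by exact_mod_cast (by omega : 2 * i ≤ R))
  · exact Ebar_last (by exact_mod_cast hj.trans hjR) (by exact_mod_cast (by omega : 2 * (R / 2) ≤ R))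
      (by exact_mod_cast (by omega : R ≤ 2 * (R / 2) + 1))

/-- abstract comparison: induction on `R` downwards -/
theorem super_core (O E : ℕ → ℕ → ℝ) {j₀ R₁ RO : ℕ} {K : ℝ} (hj : 1000 ≤ j₀) (hK : 0 ≤ K)
    (hR : 3 * R₁ ≤ 2 * RO)
    (hO : ∀ j R, j₀ ≤ j → j ≤ R → R ≤ RO →
      O j R ≤ ∑ i ∈ Icc j R, (1 / (i : ℝ) + 3 / (i : ℝ) ^ 2) * E i (R + i))
    (hE : ∀ j R, j₀ ≤ j → 2 * j ≤ R → R < R₁ →
      E j R ≤ ∑ i ∈ Icc j (R / 2), (1 / (i : ℝ) + 3 / (i : ℝ) ^ 2) * O i (R + i))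
    (hc : ∀ j R, j₀ ≤ j → 2 * j ≤ R → R₁ ≤ R → R ≤ 2 * RO → E j R ≤ K * Ebar j R) :
    (∀ j R, j₀ ≤ j → j ≤ R → R ≤ RO → O j R ≤ K * Obar j R) ∧
      ∀ j R, j₀ ≤ j → 2 * j ≤ R → R ≤ 2 * RO → E j R ≤ K * Ebar j R := by
  have key : ∀ k R, 2 * RO + 1 ≤ R + k → (∀ j, j₀ ≤ j → j ≤ R → R ≤ RO → O j R ≤ K * Obar j R) ∧
      ∀ j, j₀ ≤ j → 2 * j ≤ R → R ≤ 2 * RO → E j R ≤ K * Ebar j R := by
    intro k
    induction k with
    | zero => exact fun R h => ⟨fun j _ _ _ => by omega, fun j _ _ _ => by omega⟩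
    | succ k ih =>
      refine fun R h => ⟨fun j h1 h2 h3 => ?_, fun j h1 h2 h3 => ?_⟩
      · refine (hO j R h1 h2 h3).trans (le_trans ?_ (mul_le_mul_of_nonneg_left (Obar_super (hj.trans h1) h2) hK))
        rw [mul_sum]
        refine sum_le_sum fun i hi => ?_
        obtain ⟨h4, h5⟩ := mem_Icc.1 hi
        have := (ih (R + i) (by omega)).2 i (by omega) (by omega) (by omega)
        rw [mul_left_comm]
        push_cast at this
        exact mul_le_mul_of_nonneg_left this (by positivity)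
      · rcases le_or_gt R₁ R with h4 | h4
        · exact hc j R h1 h2 h4 h3
        refine (hE j R h1 h2 h4).trans (le_trans ?_ (mul_le_mul_of_nonneg_left (Ebar_super (hj.trans h1) h2) hK))
        rw [mul_sum]
        refine sum_le_sum fun i hi => ?_
        obtain ⟨h5, h6⟩ := mem_Icc.1 hi
        have := (ih (R + i) (by omega)).1 i (by omega) (by omega) (by omega)
        rw [mul_left_comm]
        push_cast at this
        exact mul_le_mul_of_nonneg_left this (by positivity)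
  exact ⟨fun j R => (key (2 * RO + 1) R (by omega)).1 j, fun j R => (key (2 * RO + 1) R (by omega)).2 j⟩

variable {σ : ℕ → ℕ} {μ : ℕ → ℝ} {U : Finset ℕ} {j top : ℕ}

theorem BS.subset (h : BS σ μ U j top) {U' : Finset ℕ} (hU : U' ⊆ U) {j' top' : ℕ} (hj : j ≤ j')
    (hj' : j' ≤ top') (hr : ∀ b ∈ U', j' ≤ σ b ∧ σ b ≤ top') : BS σ μ U' j' top' := by
  refine ⟨h.mono, h.nonneg, h.big.trans hj, hj', hr, fun i hi => le_trans ?_ (h.block i (hj.trans hi))⟩
  exact sum_le_sum_of_subset_of_nonneg (filter_subset_filter _ hU) fun b _ _ => h.nonneg b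

/-- `∑ m_i ≤ log (2 top / j)` -/
theorem sum_m_le {j top : ℕ} (hj : 1000 ≤ j) (h : j ≤ top) :
    ∑ i ∈ Icc j top, (1 / (i : ℝ) + 3 / (i : ℝ) ^ 2) ≤ Real.log (2 * top / j) := by
  have h1 : (1000 : ℝ) ≤ j := by exact_mod_cast hj
  have h2 : (j : ℝ) ≤ top := by exact_mod_cast h
  refine (sum_Icc_tele _ (fun i => Real.log top - Real.log i + 5 / i) h (fun i hi _ => ?_) ?_).trans ?_
  · have h3 : (1000 : ℝ) ≤ i := by exact_mod_cast hj.trans hi
    have h4 := Real.one_sub_inv_le_log_of_pos (x := ((i : ℝ) + 1) / i) (by positivity)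
    rw [Real.log_div (by positivity) (by positivity)] at h4
    push_cast
    have h5 : 1 - (((i : ℝ) + 1) / i)⁻¹ + 5 / i - 5 / (i + 1) - (1 / (i : ℝ) + 3 / (i : ℝ) ^ 2) =
        (i - 3) / (i ^ 2 * (i + 1)) := by
      field_simp
      ring
    have h6 : 0 ≤ ((i : ℝ) - 3) / (i ^ 2 * (i + 1)) := div_nonneg (by linarith) (by positivity)
    linarith
  · have h5 : (5 : ℝ) / top - (1 / (top : ℝ) + 3 / (top : ℝ) ^ 2) = (4 * top - 3) / top ^ 2 := by
      have : (0 : ℝ) < top := by linarith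
      field_simp
      ring
    have h6 : 0 ≤ (4 * (top : ℝ) - 3) / top ^ 2 := div_nonneg (by linarith) (by positivity)
    simp only [sub_self, zero_add]
    linarith
  · have h0 : (0 : ℝ) < j := by linarith
    have h0' : (0 : ℝ) < top := by linarith
    rw [Real.log_div (by positivity) (by positivity), Real.log_mul (by positivity) (by positivity)]
    have h3 : 5 / (j : ℝ) ≤ 5 / 1000 := by gcongr
    linarith [Real.log_two_gt_d9]

theorem BS.sum_le (h : BS σ μ U j top) : ∑ b ∈ U, μ b ≤ Real.log (2 * top / j) := by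
  rw [← sum_fiberwise_of_maps_to (g := σ) (t := Icc j top) fun b hb => mem_Icc.2 (h.range b hb)]
  exact (sum_le_sum fun i hi => h.block i (mem_Icc.1 hi).1).trans (sum_m_le h.big h.j_le)

theorem BS.pow_total (h : BS σ μ U j top) (c : ℕ) :
    ∑ τ ∈ U.powerset, (c : ℝ) ^ τ.card * wt μ τ ≤ (2 * top / j) ^ c := by
  have h1 : (1000 : ℝ) ≤ j := by exact_mod_cast h.big
  have h2 : (j : ℝ) ≤ top := by exact_mod_cast h.j_le
  have h0 : (0 : ℝ) < j := by linarith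
  have h0' : (0 : ℝ) < top := by linarith
  calc _ = ∏ b ∈ U, (1 + c * μ b) := by
        rw [prod_one_add]
        refine sum_congr rfl fun τ _ => ?_
        rw [prod_mul_distrib, prod_const, wt]
    _ ≤ Real.exp (∑ b ∈ U, c * μ b) :=
        Real.prod_one_add_le_exp_sum _ fun b => mul_nonneg (Nat.cast_nonneg c) (h.nonneg b)
    _ ≤ Real.exp (c * Real.log (2 * top / j)) := by
        rw [← mul_sum]
        exact Real.exp_le_exp.2 (mul_le_mul_of_nonneg_left h.sum_le (Nat.cast_nonneg c))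
    _ = _ := by rw [Real.exp_nat_mul, Real.exp_log (by positivity)]

/-- total mass `∏ (1 + μ b) ≤ exp (∑ m_i)` -/
theorem BS.total (h : BS σ μ U j top) : ∑ τ ∈ U.powerset, wt μ τ ≤ 2 * top / j := by
  simpa using h.pow_total 1

/-- deep sets (Rankin with the factor `3`) -/
theorem BS.depth (h : BS σ μ U j top) (n : ℕ) :
    ∑ τ ∈ U.powerset.filter (fun τ => n < τ.card), wt μ τ ≤ (2 * top / j) ^ 3 / 3 ^ n := by
  have hw : ∀ τ, 0 ≤ wt μ τ := fun τ => prod_nonneg fun b _ => h.nonneg b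
  rw [le_div_iff₀ (by positivity), sum_mul]
  refine le_trans ?_ (h.pow_total 3)
  refine le_trans (sum_le_sum fun τ hτ => ?_) (sum_le_sum_of_subset_of_nonneg (filter_subset _ _)
    fun τ _ _ => mul_nonneg (by positivity) (hw τ))
  rw [mul_comm]
  push_cast
  exact mul_le_mul_of_nonneg_right (pow_le_pow_right₀ (by norm_num) (mem_filter.1 hτ).2.le) (hw τ)

/-- chain density by size biasing: `x B(x) ≤ ∑_i i m_i B(x - i) ≤ 2 ∑_{x - top ≤ x' < x} B(x')`; the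
last sum is at most `C min(x, top)/j · exp (-(x - top)/top)` (subsets of total size `< x` only use
sizes `< x`; Rankin with the weights `exp (σ b/top) ≤ e`) -/
theorem chain_density : ∃ C : ℝ, 0 < C ∧ ∀ {σ : ℕ → ℕ} {μ : ℕ → ℝ} {U : Finset ℕ} {j top : ℕ},
    BS σ μ U j top → ∀ x : ℤ, 1 ≤ x →
      ∑ τ ∈ U.powerset.filter (fun τ => tot σ τ = x), wt μ τ ≤ C / j * Real.exp (-(x : ℝ) / top) := by
  exact ⟨2 * Real.exp 6, by positivity, fun h x hx => mb_chain h x hx⟩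

/-- the tree from the root.  Apply `super_core` to `E = ` nonempty even sets, `O = ` odd sets with at
least three elements, `R₁ = top/16`, `RO = R₀`, `K = C/top²`; the crude bound is
`E_j(R) ≤ ∑_{j ≤ i ≤ R/2} m_i B_i(R₀ - R - i) ≤ ∑ m_i C/i`. -/
theorem root_density : ∃ C : ℝ, 0 < C ∧ ∀ {σ : ℕ → ℕ} {μ : ℕ → ℝ} {U : Finset ℕ} {j top : ℕ}
    {R₀ : ℤ}, BS σ μ U j top → 2 * (top : ℤ) ≤ R₀ → R₀ ≤ 4 * (top : ℤ) → ∀ R : ℤ,
      mass σ μ R₀ 0 U (fun τ => 2 ≤ τ.card ∧ R₀ - tot σ τ = R) ≤ C * R ^ 2 / (j * top ^ 2) ∧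
      mass σ μ R₀ 0 U (fun τ => 2 ≤ τ.card ∧ Odd τ.card ∧ R₀ - tot σ τ = R) ≤
        C * ((R - j) ^ 2 / j + R ^ 2 / j ^ 2) / top ^ 2 := by
  obtain ⟨C, hC, hch⟩ := chain_density
  refine ⟨50 * (578 * C), by positivity, fun {σ μ U j top R₀} h h2 _ R => ?_⟩
  have hbig := h.big
  have hjt := h.j_le
  have ht : (1000 : ℝ) ≤ top := by exact_mod_cast hbig.trans hjt
  have hB : ∀ k, j ≤ k → k ≤ top → ∀ x : ℤ, 1 ≤ x →
      ∑ τ ∈ (U.filter fun p => k ≤ σ p).powerset.filter (fun τ => tot σ τ = x), wt μ τ ≤ C / k := by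
    intro k hk hkt x hx
    refine (hch (h.subset (filter_subset _ _) hk hkt fun b hb =>
      ⟨(mem_filter.1 hb).2, (h.range b (mem_filter.1 hb).1).2⟩) x hx).trans ?_
    refine mul_le_of_le_one_right (by positivity) (Real.exp_le_one_iff.2 ?_)
    have : (1 : ℝ) ≤ x := by exact_mod_cast hx
    exact div_nonpos_of_nonpos_of_nonneg (by linarith) (by linarith)
  have key := super_core (fun i R => rcO σ μ U R₀ i R) (fun i R => rcE σ μ U R₀ i R)
    (j₀ := j) (R₁ := top / 16) (RO := R₀.toNat) (K := 578 * C / (top : ℝ) ^ 2) hbig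
    (by positivity) (by omega) (fun i R hi _ _ => MassC_hO h R₀ hi R)
    (fun i R hi _ hR => MassC_hE h h2 hi hR) (fun i R hi hR hR1 _ => ?_)
  · refine MassC_final h (by positivity) (fun n hn hn' => ?_) (fun n hn hn' => ?_) R
    · exact key.1 j n le_rfl hn (by omega)
    · exact key.2 j n le_rfl hn (by omega)
  · refine ((MassC_hc h R₀ hC.le hB hi R).trans (MassC_sum hC.le (hbig.trans hi) hR)).trans ?_
    have hi' : (1000 : ℝ) ≤ i := by exact_mod_cast hbig.trans hi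
    have hR' : 2 * (i : ℝ) ≤ R := by exact_mod_cast hR
    have hR2 : (top : ℝ) ≤ 17 * R := by exact_mod_cast (show top ≤ 17 * R by omega)
    have h4 : 4 ≤ (R : ℝ) ^ 2 / (i : ℝ) ^ 2 := by
      rw [le_div_iff₀ (by positivity)]
      nlinarith
    have h5 : 0 ≤ (R : ℝ) * (R - 2 * i) / i :=
      div_nonneg (mul_nonneg (by linarith) (by linarith)) (by linarith)
    refine mul_le_mul ?_ ?_ (by positivity) (by positivity)
    · rw [div_le_div_iff₀ (by have : (0 : ℝ) < R := by linarith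
                              positivity) (by positivity)]
      have : (top : ℝ) ^ 2 ≤ 289 * (R : ℝ) ^ 2 := by nlinarith
      nlinarith
    · unfold Ebar
      have h6 : 6 * (R : ℝ) ^ 2 / (i : ℝ) ^ 2 = 6 * ((R : ℝ) ^ 2 / (i : ℝ) ^ 2) := by ring
      rw [h6]
      linarith

/-- continuation from an admissible state.  `super_core` with `R₁ = top/16`, `RO = top/8`,
`K = C exp (-R/top)/top²`. -/
theorem cont_bound : ∃ C : ℝ, 0 < C ∧ ∀ {σ : ℕ → ℕ} {μ : ℕ → ℝ} {U : Finset ℕ} {j top e : ℕ}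
    {R : ℤ}, BS σ μ U j top → Start R e top → ∀ r : ℕ, 8 * r ≤ top →
      mass σ μ R e U (fun τ => R - tot σ τ ≤ r) ≤
        C * Real.exp (-(R : ℝ) / top) * r ^ 3 / (j * top ^ 2) := by
  refine ⟨4 * (289 * (4 * Real.exp 7)), by positivity, ?_⟩
  intro σ μ U j top e R h hS r hr
  have hbig := h.big
  have hjt := h.j_le
  have hR := hS.2
  have hj : (1000 : ℝ) ≤ j := by exact_mod_cast hbig
  have htop : (0 : ℝ) < top := by
    have : 0 < top := by omega
    exact_mod_cast this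
  set K : ℝ := 289 * (4 * Real.exp 7) * Real.exp (-(R : ℝ) / top) / top ^ 2 with hK
  have hK0 : 0 ≤ K := by positivity
  obtain ⟨hO, hE⟩ := super_core (mbD σ μ R e U 1) (mbD σ μ R e U 0) (j₀ := j) (R₁ := top / 16)
    (RO := top / 8) (K := K) hbig hK0 (by omega)
    (fun a ρ ha _ hρ => mb_recO h hS ha (by omega))
    (fun a ρ ha _ hρ => mb_recE h hS ha (by omega))
    (fun a ρ ha haρ h1 h2 => by
      refine (mb_crude h hS ha haρ (by omega)).trans ?_
      have ha' : (1000 : ℝ) ≤ a := by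
        have : 1000 ≤ a := by omega
        exact_mod_cast this
      have haρ' : 2 * (a : ℝ) ≤ ρ := by exact_mod_cast haρ
      have htρ : (top : ℝ) ≤ 17 * ρ := by
        have : top ≤ 17 * ρ := by omega
        exact_mod_cast this
      have hρ0 : (0 : ℝ) < ρ := by linarith
      have h3 : (ρ : ℝ) ^ 2 * (1 / (a : ℝ) ^ 2 + 1 / a - 2 / ρ) ≤ Ebar a ρ := by
        have h4 : Ebar a ρ - (ρ : ℝ) ^ 2 * (1 / (a : ℝ) ^ 2 + 1 / a - 2 / ρ) =
            59 * (ρ / a) ^ 2 - 230 := by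
          unfold Ebar
          field_simp
          ring
        have h5 : (2 : ℝ) ≤ ρ / a := by
          rw [le_div_iff₀ (by linarith)]
          exact haρ'
        nlinarith
      have h6 : 0 ≤ 1 / (a : ℝ) ^ 2 + 1 / a - 2 / ρ := by
        have : 2 / (ρ : ℝ) ≤ 1 / a := by
          rw [div_le_div_iff₀ hρ0 (by linarith)]
          linarith
        have : 0 ≤ 1 / (a : ℝ) ^ 2 := by positivity
        linarith
      have h7 : (1 : ℝ) ≤ 289 * ρ ^ 2 / top ^ 2 := by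
        rw [le_div_iff₀ (by positivity)]
        nlinarith
      calc _ ≤ 4 * Real.exp 7 * Real.exp (-(R : ℝ) / top) * (1 / (a : ℝ) ^ 2 + 1 / a - 2 / ρ) *
            (289 * ρ ^ 2 / top ^ 2) := le_mul_of_one_le_right (by positivity) h7
        _ = K * ((ρ : ℝ) ^ 2 * (1 / (a : ℝ) ^ 2 + 1 / a - 2 / ρ)) := by
            rw [hK]
            ring
        _ ≤ _ := mul_le_mul_of_nonneg_left h3 hK0)
  have hsq : ∀ ρ : ℕ, ρ ≤ r → (ρ : ℝ) ^ 2 / j + 60 * ρ ^ 2 / j ^ 2 ≤ 2 * r ^ 2 / j := by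
    intro ρ hρ
    have h1 : (ρ : ℝ) ≤ r := by exact_mod_cast hρ
    have h2 : (ρ : ℝ) ^ 2 ≤ r ^ 2 := by gcongr
    have h3 : 60 * (ρ : ℝ) ^ 2 / j ^ 2 ≤ ρ ^ 2 / j := by
      rw [div_le_div_iff₀ (by positivity) (by positivity)]
      have : 0 ≤ (ρ : ℝ) ^ 2 * j * (j - 60) := by
        have : (0 : ℝ) ≤ j - 60 := by linarith
        positivity
      nlinarith
    have h4 : (ρ : ℝ) ^ 2 / j ≤ r ^ 2 / j := by gcongr
    have h5 : 2 * (r : ℝ) ^ 2 / j = r ^ 2 / j + r ^ 2 / j := by ring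
    linarith
  refine (mb_decomp h hS r (c := K * (2 * r ^ 2 / j)) (by positivity) (fun ρ h1 h2 => ?_)
    fun ρ h1 h2 => ?_).trans (le_of_eq ?_)
  · refine (hO j ρ le_rfl h1 (by omega)).trans (mul_le_mul_of_nonneg_left
      (le_trans ?_ (hsq ρ h2)) hK0)
    have h3 : (j : ℝ) ≤ ρ := by exact_mod_cast h1
    have h4 : ((ρ : ℝ) - j) ^ 2 / j ≤ ρ ^ 2 / j := by
      refine div_le_div_of_nonneg_right ?_ (by positivity)
      nlinarith
    have h5 : 0 ≤ (ρ : ℝ) ^ 2 / j ^ 2 := by positivity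
    have h6 : 5 * (ρ : ℝ) ^ 2 / j ^ 2 = 5 * (ρ ^ 2 / j ^ 2) := by ring
    have h7 : 60 * (ρ : ℝ) ^ 2 / j ^ 2 = 60 * (ρ ^ 2 / j ^ 2) := by ring
    unfold Obar
    linarith
  · refine (hE j ρ le_rfl h1 (by omega)).trans (mul_le_mul_of_nonneg_left
      (le_trans ?_ (hsq ρ h2)) hK0)
    have h4 : (ρ : ℝ) * (ρ - 2 * j) / j ≤ ρ ^ 2 / j := by
      refine div_le_div_of_nonneg_right ?_ (by positivity)
      have : 0 ≤ (ρ : ℝ) * j := by positivity
      nlinarith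
    have h6 : 6 * (ρ : ℝ) ^ 2 / j ^ 2 = 6 * (ρ ^ 2 / j ^ 2) := by ring
    have h7 : 60 * (ρ : ℝ) ^ 2 / j ^ 2 = 60 * (ρ ^ 2 / j ^ 2) := by ring
    unfold Ebar
    linarith
  · rw [hK]
    ring

end Crest.Agent.R1
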