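import Crest.Agent.R1.CDefs

/-!
# R1 / VirtA: a lower bound sieve on the primes of a progression (`virt_one`)
-/

set_option autoImplicit false

namespace Crest.Agent.R1

open Finset Filter
open scoped Classical

/-- a copy of `gc` -/
noncomputable def VA_gc (c : ℤ) (l : ℕ) : ℝ :=
  if (l : ℤ) ∣ c then 1 / (l : ℝ) else 1 / ((l : ℝ) - 1)

theorem VA_totient (c : ℤ) (q : ℕ) (T : Finset ℕ) (hT : ∀ l ∈ T, l.Prime ∧ ¬ l ∣ q) :
    1 / (Nat.totient (c.natAbs * q * pd T) : ℝ) =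
      wt (VA_gc c) T / Nat.totient (c.natAbs * q) := by
  induction T using Finset.induction_on with
  | empty => simp [pd, wt]
  | insert l T hl ih =>
    have hp := (hT l (mem_insert_self _ _)).1
    have hq := (hT l (mem_insert_self _ _)).2
    have ih' := ih fun x hx => hT x (mem_insert_of_mem hx)
    have e1 : c.natAbs * q * pd (insert l T) = l * (c.natAbs * q * pd T) := by
      unfold pd
      rw [prod_insert hl]
      ring
    have e2 : wt (VA_gc c) (insert l T) = VA_gc c l * wt (VA_gc c) T := prod_insert hl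
    have hn : ¬ l ∣ pd T := by
      intro h
      obtain ⟨x, hx, hlx⟩ := (Prime.dvd_finsetProd_iff hp.prime _).1 h
      have := (Nat.prime_dvd_prime_iff_eq hp (hT x (mem_insert_of_mem hx)).1).1 hlx
      exact hl (this ▸ hx)
    rw [e1, e2, mul_div_assoc, ← ih']
    unfold VA_gc
    split_ifs with h
    · have h1 : l ∣ c.natAbs * q * pd T :=
        Dvd.dvd.mul_right (Dvd.dvd.mul_right (Int.natCast_dvd.1 h) _) _
      rw [Nat.totient_mul_of_prime_of_dvd hp h1, Nat.cast_mul, one_div_mul_one_div]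
    · have h1 : ¬ l ∣ c.natAbs * q * pd T := by
        intro h2
        rcases (Nat.Prime.dvd_mul hp).1 h2 with h3 | h3
        · rcases (Nat.Prime.dvd_mul hp).1 h3 with h4 | h4
          · exact h (Int.natCast_dvd.2 h4)
          · exact hq h4
        · exact hn h3
      rw [Nat.totient_mul_of_prime_of_not_dvd hp h1, Nat.cast_mul, Nat.cast_sub hp.one_le,
        Nat.cast_one, one_div_mul_one_div]

theorem VA_class {N₀ Y m : ℤ} (h1 : IsCoprime N₀ m) (h2 : IsCoprime Y m) :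
    ∃ a : ℤ, IsCoprime a m ∧ ∀ u : ℤ, m ∣ N₀ * u - Y ↔ u ≡ a [ZMOD m] := by
  obtain ⟨s, t, hst⟩ := h1
  refine ⟨s * Y, IsCoprime.mul_left ⟨N₀, t, by linarith⟩ h2, fun u => ?_⟩
  rw [Int.modEq_iff_dvd]
  constructor
  · intro h
    have e : s * Y - u = -s * (N₀ * u - Y) - t * u * m := by linear_combination u * hst
    rw [e]
    exact dvd_sub (Dvd.dvd.mul_left h _) (Dvd.intro_left _ rfl)
  · intro h
    have e : N₀ * u - Y = -N₀ * (s * Y - u) - t * Y * m := by linear_combination Y * hst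
    rw [e]
    exact dvd_sub (Dvd.dvd.mul_left h _) (Dvd.intro_left _ rfl)

theorem VA_dvd {c w : ℤ} (hc : c ≠ 0) {q : ℕ} {T : Finset ℕ}
    (hT : ∀ l ∈ T, l.Prime ∧ ¬ l ∣ q) :
    (c * q ∣ w ∧ ∀ l ∈ T, c * l ∣ w) ↔ c * q * pd T ∣ w := by
  constructor
  · rintro ⟨⟨k, rfl⟩, h⟩
    have h1 : (pd T : ℤ) ∣ k := (pd_dvd_iff (fun l hl => (hT l hl).1) k).2 fun l hl => by
      have h2 := h l hl
      rw [mul_assoc, mul_dvd_mul_iff_left hc] at h2
      have hp : Prime (l : ℤ) := Nat.prime_iff_prime_int.1 (hT l hl).1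
      rcases hp.dvd_or_dvd h2 with h3 | h3
      · exact absurd (Int.natCast_dvd_natCast.1 h3) (hT l hl).2
      · exact h3
    exact mul_dvd_mul_left _ h1
  · intro h
    refine ⟨(Dvd.intro _ rfl).trans h, fun l hl => Dvd.dvd.trans ?_ h⟩
    rw [mul_assoc]
    exact mul_dvd_mul_left _ (Dvd.dvd.mul_left
      ((pd_dvd_iff (fun l hl => (hT l hl).1) _).1 dvd_rfl l hl) _)

theorem VA_card {P : Finset ℕ} (hP : ∀ p ∈ P, p.Prime) {D : ℝ} (hD : 0 ≤ D) :
    ((P.powerset.filter fun T => (pd T : ℝ) ≤ D).card : ℝ) ≤ D := by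
  have h : (P.powerset.filter fun T => (pd T : ℝ) ≤ D).card ≤ (Icc 1 ⌊D⌋₊).card := by
    refine card_le_card_of_injOn pd ?_ ?_
    · intro T hT
      obtain ⟨h1, h2⟩ := mem_filter.1 (mem_coe.1 hT)
      rw [mem_coe, mem_Icc]
      exact ⟨pd_pos fun p hp => hP p (mem_powerset.1 h1 hp), Nat.le_floor h2⟩
    · intro T hT T' hT' e
      have h1 := mem_powerset.1 (mem_filter.1 (mem_coe.1 hT)).1
      have h2 := mem_powerset.1 (mem_filter.1 (mem_coe.1 hT')).1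
      rw [← primeFactors_pd (τ := T) fun p hp => hP p (h1 hp),
        ← primeFactors_pd (τ := T') fun p hp => hP p (h2 hp), e]
  rw [Nat.card_Icc, Nat.add_sub_cancel] at h
  exact le_trans (Nat.cast_le.2 h) (Nat.floor_le hD)

theorem VA_prod {P : Finset ℕ} {g : ℕ → ℝ} {y : ℝ} (hy : 1 ≤ y)
    (hP : ∀ p ∈ P, p.Prime ∧ (p : ℝ) ≤ y)
    (hg : ∀ p ∈ P, 0 ≤ g p ∧ g p ≤ 1 / 2 ∧ g p ≤ 2 / p) :
    Real.exp (-4) / y ^ 4 ≤ ∏ p ∈ P, (1 - g p) := by
  refine le_trans ?_ (flb_prod P g fun p hp => ⟨(hg p hp).1, (hg p hp).2.1⟩)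
  have h1 : ∑ p ∈ P, g p ≤ 2 * ∑ n ∈ Icc 1 ⌊y⌋₊, ((n : ℝ))⁻¹ := by
    rw [mul_sum]
    refine le_trans (sum_le_sum fun p hp => (hg p hp).2.2) ?_
    simp only [div_eq_mul_inv]
    refine sum_le_sum_of_subset_of_nonneg (fun p hp => ?_) fun _ _ _ => by positivity
    exact mem_Icc.2 ⟨(hP p hp).1.one_le, Nat.le_floor (hP p hp).2⟩
  have h2 : ∑ n ∈ Icc 1 ⌊y⌋₊, ((n : ℝ))⁻¹ ≤ 1 + Real.log y := by
    have h3 := harmonic_le_one_add_log ⌊y⌋₊
    rw [harmonic_eq_sum_Icc] at h3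
    push_cast at h3
    have h4 : (1 : ℝ) ≤ ⌊y⌋₊ := by exact_mod_cast Nat.le_floor (by simpa using hy)
    have h5 : Real.log ⌊y⌋₊ ≤ Real.log y :=
      Real.log_le_log (by linarith) (Nat.floor_le (by linarith))
    linarith
  have h6 : y ^ 4 = Real.exp (4 * Real.log y) := by
    rw [show (4 : ℝ) * Real.log y = ((4 : ℕ) : ℝ) * Real.log y by norm_num, Real.exp_nat_mul,
      Real.exp_log (by linarith)]
  rw [h6, ← Real.exp_sub]
  exact Real.exp_le_exp.2 (by linarith)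

/-- the sieve inequality with weights -/
theorem VA_sieve {P : Finset ℕ} {D : ℝ} {lam : Finset ℕ → ℝ} (h : IsSW 0 P D lam)
    (U : Finset ℕ) (w : ℕ → ℝ) (hw : ∀ u, 0 ≤ w u) (R : ℕ → ℕ → Prop) :
    ∑ T ∈ P.powerset, lam T * ∑ u ∈ U.filter (fun u => ∀ l ∈ T, R u l), w u ≤
      ∑ u ∈ U.filter (fun u => ∀ l ∈ P, ¬ R u l), w u := by
  simp only [sum_filter, mul_sum]
  rw [sum_comm]
  refine sum_le_sum fun u _ => ?_
  have h1 := h.ineq (P.filter fun l => R u l) (filter_subset _ _)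
  simp only [pow_zero, one_mul] at h1
  have h2 : ∑ T ∈ P.powerset, lam T * (if ∀ l ∈ T, R u l then w u else 0) =
      (∑ T ∈ (P.filter fun l => R u l).powerset, lam T) * w u := by
    have e : (P.filter fun l => R u l).powerset = P.powerset.filter fun T => ∀ l ∈ T, R u l := by
      ext T
      simp only [mem_powerset, mem_filter, subset_iff]
      exact ⟨fun hh => ⟨fun _ hx => (hh hx).1, fun _ hx => (hh hx).2⟩,
        fun hh _ hx => ⟨hh.1 hx, hh.2 _ hx⟩⟩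
    rw [e, sum_filter, sum_mul]
    refine sum_congr rfl fun T _ => ?_
    split_ifs <;> simp
  rw [h2]
  refine le_trans (mul_le_mul_of_nonneg_right h1 (hw u)) (le_of_eq ?_)
  by_cases h3 : ∀ l ∈ P, ¬ R u l
  · rw [if_pos h3, if_pos (filter_eq_empty_iff.2 h3), one_mul]
  · rw [if_neg h3, if_neg (fun hh => h3 (filter_eq_empty_iff.1 hh)), zero_mul]

theorem VA_s0 : ∃ s : ℕ, 1 ≤ s ∧ Cfl * Real.exp (-(s : ℝ) / Cfl) ≤ 1 / 4 := by
  have h1 := one_le_Cfl
  refine ⟨⌈Cfl * Real.log (4 * Cfl)⌉₊ + 1, by omega, ?_⟩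
  have h2 : Cfl * Real.log (4 * Cfl) ≤ ((⌈Cfl * Real.log (4 * Cfl)⌉₊ + 1 : ℕ) : ℝ) := by
    push_cast
    linarith [Nat.le_ceil (Cfl * Real.log (4 * Cfl))]
  have h3 : -((⌈Cfl * Real.log (4 * Cfl)⌉₊ + 1 : ℕ) : ℝ) / Cfl ≤ -Real.log (4 * Cfl) := by
    rw [div_le_iff₀ (by linarith)]
    linarith
  have h4 := Real.exp_le_exp.2 h3
  rw [Real.exp_neg, Real.exp_log (by linarith)] at h4
  refine le_trans (mul_le_mul_of_nonneg_left h4 (by linarith)) (le_of_eq ?_)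
  field_simp

theorem VA_gc_spec {c : ℤ} {l : ℕ} (hp : l.Prime) (h2 : l = 2 → (2 : ℤ) ∣ c) :
    0 ≤ VA_gc c l ∧ VA_gc c l ≤ 1 / 2 ∧ VA_gc c l ≤ 2 / l := by
  have h1 : (2 : ℝ) ≤ l := by exact_mod_cast hp.two_le
  unfold VA_gc
  split_ifs with h
  · exact ⟨by positivity, by gcongr, by gcongr; norm_num⟩
  · have h3 : l ≠ 2 := by
      rintro rfl
      exact h (h2 rfl)
    have h4 : (3 : ℝ) ≤ l := by
      have : 3 ≤ l := by
        have := hp.two_le
        omega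
      exact_mod_cast this
    refine ⟨div_nonneg zero_le_one (by linarith), ?_, ?_⟩
    · rw [div_le_div_iff₀ (by linarith) (by norm_num)]
      linarith
    · rw [div_le_div_iff₀ (by linarith) (by linarith)]
      linarith

theorem VA_virt_one (C : ℕ) : ∀ᶠ M : ℝ in atTop, ∀ (B₀ η : ℝ) (c Y N₀ : ℤ) (q : ℕ) (P : Finset ℕ),
    Real.exp (LL M ^ (6 / 10 : ℝ)) ≤ B₀ → 1 / LL M ^ C ≤ η → η ≤ 1 → 1 ≤ c → (c : ℝ) ≤ LL M ^ C →
    1 ≤ q → (q : ℝ) ≤ LL M ^ C → IsCoprime N₀ (c * q) → IsCoprime Y (c * q) →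
    (∀ l ∈ P, l.Prime ∧ (l : ℝ) ≤ LL M ^ C ∧ ¬ l ∣ q ∧ ¬ (l : ℤ) ∣ N₀ ∧ ¬ (l : ℤ) ∣ Y ∧
      (l = 2 → (2 : ℤ) ∣ c)) →
    η * B₀ / (4 * Real.log (2 * B₀)) / Nat.totient (c.natAbs * q) * ∏ l ∈ P, (1 - VA_gc c l) ≤
      (((Ioc ⌊B₀⌋₊ ⌊B₀ * (1 + η)⌋₊).filter (fun u : ℕ => u.Prime ∧ c * q ∣ N₀ * u - Y ∧
        ∀ l ∈ P, ¬ c * l ∣ N₀ * u - Y)).card : ℝ) := by
  obtain ⟨s, hs1, hs⟩ := VA_s0
  obtain ⟨Cs, hCs, hsw⟩ := sw_interval (2 * ((C + 1) * s + 3 * C + 4 * (C + 1) + 1))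
    (2 * (2 * C + (C + 1) * s))
  filter_upwards [ev_basic (4 * Real.exp 4 * Cs + 4)] with M hM
  intro B₀ η c Y N₀ q P hB hη hη1 hc1 hcL hq1 hqL hN hY hP
  have hM2 := hM.2.1
  set L := LL M with hLdef
  have hpos : 0 < 4 * Real.exp 4 * Cs := by positivity
  have hL4 : 4 ≤ L := by linarith
  have hL1 : 1 ≤ L := by linarith
  have hL0 : 0 < L := by linarith
  -- sizes
  have hr2 : 2 ≤ L ^ (6 / 10 : ℝ) := by
    have h1 : (4 : ℝ) ^ (1 / 2 : ℝ) ≤ L ^ (1 / 2 : ℝ) :=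
      Real.rpow_le_rpow (by norm_num) hL4 (by norm_num)
    have h2 : L ^ (1 / 2 : ℝ) ≤ L ^ (6 / 10 : ℝ) :=
      Real.rpow_le_rpow_of_exponent_le hL1 (by norm_num)
    have h3 : (4 : ℝ) ^ (1 / 2 : ℝ) = 2 := by
      rw [← Real.sqrt_eq_rpow, show (4 : ℝ) = 2 ^ 2 by norm_num, Real.sqrt_sq (by norm_num)]
    linarith
  have hB3 : 3 ≤ B₀ := by linarith [Real.add_one_le_exp (L ^ (6 / 10 : ℝ))]
  have hB0 : 0 < B₀ := by linarith
  have hlog : L ^ (6 / 10 : ℝ) ≤ Real.log B₀ := (Real.le_log_iff_exp_le hB0).2 hB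
  have hlog2 : L ≤ Real.log B₀ ^ 2 := by
    have h1 : (L ^ (6 / 10 : ℝ)) ^ 2 ≤ Real.log B₀ ^ 2 := by gcongr
    have h2 : (L ^ (6 / 10 : ℝ)) ^ 2 = L ^ (12 / 10 : ℝ) := by
      rw [← Real.rpow_natCast, ← Real.rpow_mul hL0.le]
      norm_num
    have h3 : L ^ (1 : ℝ) ≤ L ^ (12 / 10 : ℝ) :=
      Real.rpow_le_rpow_of_exponent_le hL1 (by norm_num)
    rw [Real.rpow_one] at h3
    linarith
  have hlogpow : ∀ k : ℕ, L ^ k ≤ Real.log B₀ ^ (2 * k) := fun k => by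
    rw [pow_mul]
    exact pow_le_pow_left₀ hL0.le hlog2 k
  have hη0 : 0 < η := lt_of_lt_of_le (by positivity) hη
  set y : ℝ := L ^ (C + 1) with hy
  have hy2 : 2 ≤ y := by
    have : L ^ 1 ≤ L ^ (C + 1) := pow_le_pow_right₀ hL1 (by omega)
    rw [pow_one] at this
    linarith
  have hPy : ∀ p ∈ P, p.Prime ∧ (p : ℝ) ≤ y := fun p hp =>
    ⟨(hP p hp).1, (hP p hp).2.1.trans (pow_le_pow_right₀ hL1 (by omega))⟩
  have hD : y ^ (1 / 4 : ℝ) ≤ y ^ s := by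
    rw [← Real.rpow_natCast]
    refine Real.rpow_le_rpow_of_exponent_le (by linarith) ?_
    have : (1 : ℝ) ≤ s := by exact_mod_cast hs1
    linarith
  obtain ⟨hSW, hQ⟩ := flw_spec 0 hy2 hPy hD
  set lam := flw 0 P y (y ^ s) with hlam
  have hg : ∀ p ∈ P, 0 ≤ VA_gc c p ∧ VA_gc c p ≤ 1 / 2 ∧ VA_gc c p ≤ 2 / p := fun p hp =>
    VA_gc_spec (hP p hp).1 (hP p hp).2.2.2.2.2
  have hQ' := hQ _ hg
  have hlogy : 0 < Real.log y := Real.log_pos (by linarith)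
  rw [Real.log_pow, mul_div_cancel_right₀ _ hlogy.ne'] at hQ'
  set V := ∏ p ∈ P, (1 - VA_gc c p) with hV
  have hVge : Real.exp (-4) / y ^ 4 ≤ V := VA_prod (by linarith) hPy hg
  have hV0 : 0 < V := lt_of_lt_of_le (by positivity) hVge
  have hmain : 3 / 4 * V ≤ ∑ T ∈ P.powerset, lam T * wt (VA_gc c) T := by
    have h1 := (_root_.abs_le.1 hQ').1
    have h2 := mul_le_mul_of_nonneg_right hs hV0.le
    linarith
  have hc0 : c ≠ 0 := by omega
  have hcabs : ((c.natAbs : ℕ) : ℤ) = c := Int.natAbs_of_nonneg (by omega)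
  have hcR : ((c.natAbs : ℕ) : ℝ) = c := by
    rw [← hcabs, Int.natAbs_natCast, Int.cast_natCast]
  have hcq0 : 0 < c.natAbs * q := Nat.mul_pos (Int.natAbs_pos.2 hc0) hq1
  set φ : ℝ := (Nat.totient (c.natAbs * q) : ℝ) with hφ
  have hφ0 : 0 < φ := by
    rw [hφ]
    exact_mod_cast Nat.totient_pos.2 hcq0
  have hcqL : ((c.natAbs * q : ℕ) : ℝ) ≤ L ^ (2 * C) := by
    rw [Nat.cast_mul, hcR, two_mul, pow_add]
    exact mul_le_mul hcL hqL (by positivity) (by positivity)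
  have hφL : φ ≤ L ^ (2 * C) := le_trans (by rw [hφ]; exact_mod_cast Nat.totient_le _) hcqL
  set I := Ioc ⌊B₀⌋₊ ⌊B₀ * (1 + η)⌋₊ with hI
  set U := I.filter (fun u : ℕ => u.Prime ∧ c * q ∣ N₀ * u - Y) with hU
  set E := Cs * B₀ / Real.log B₀ ^ (2 * ((C + 1) * s + 3 * C + 4 * (C + 1) + 1)) with hE
  have hE0 : 0 ≤ E := by
    have : 0 < Real.log B₀ := by linarith
    positivity
  -- each term of the sieve
  have hterm : ∀ T ∈ P.powerset, lam T * (η * B₀ / φ * wt (VA_gc c) T) -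
      (if (pd T : ℝ) ≤ y ^ s then E else 0) ≤
      lam T * ∑ u ∈ U.filter (fun u : ℕ => ∀ l ∈ T, c * l ∣ N₀ * u - Y), Real.log u := by
    intro T hT
    have hTP := mem_powerset.1 hT
    by_cases h0 : lam T = 0
    · rw [h0, zero_mul, zero_mul]
      split_ifs <;> linarith
    have hTD := (hSW.supp T h0).2
    rw [if_pos hTD]
    have hT' : ∀ l ∈ T, l.Prime ∧ ¬ l ∣ q := fun l hl => ⟨(hP l (hTP hl)).1, (hP l (hTP hl)).2.2.1⟩
    have hcop : ∀ Z : ℤ, IsCoprime Z (c * q) → (∀ l ∈ T, ¬ (l : ℤ) ∣ Z) →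
        IsCoprime Z ((c.natAbs * q * pd T : ℕ) : ℤ) := by
      intro Z h1 h2
      push_cast
      rw [abs_of_nonneg (by omega)]
      refine IsCoprime.mul_right h1 ?_
      unfold pd
      push_cast
      refine IsCoprime.prod_right fun l hl => ?_
      exact ((Nat.prime_iff_prime_int.1 (hT' l hl).1).irreducible.coprime_iff_not_dvd.2
        (h2 l hl)).symm
    obtain ⟨a, ha, hau⟩ := VA_class (hcop N₀ hN fun l hl => (hP l (hTP hl)).2.2.2.1)
      (hcop Y hY fun l hl => (hP l (hTP hl)).2.2.2.2.1)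
    have hm0 : 0 < c.natAbs * q * pd T := Nat.mul_pos hcq0 (pd_pos fun l hl => (hT' l hl).1)
    have hmL : ((c.natAbs * q * pd T : ℕ) : ℝ) ≤ Real.log B₀ ^ (2 * (2 * C + (C + 1) * s)) := by
      refine le_trans ?_ (hlogpow _)
      rw [Nat.cast_mul, pow_add, pow_mul L (C + 1) s]
      exact mul_le_mul hcqL hTD (by positivity) (by positivity)
    have key := hsw B₀ (B₀ * (1 + η)) hB3 (by nlinarith) (by nlinarith) _ hm0 hmL a ha
    have e1 : I.filter (fun p : ℕ => p.Prime ∧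
        (p : ℤ) ≡ a [ZMOD ((c.natAbs * q * pd T : ℕ) : ℤ)]) =
        U.filter (fun u : ℕ => ∀ l ∈ T, c * l ∣ N₀ * u - Y) := by
      rw [hU, filter_filter]
      refine filter_congr fun u _ => ?_
      rw [and_assoc, VA_dvd hc0 hT', ← hau]
      push_cast
      rw [abs_of_nonneg (by omega)]
    have e2 : (B₀ * (1 + η) - B₀) / (Nat.totient (c.natAbs * q * pd T) : ℝ) =
        η * B₀ / φ * wt (VA_gc c) T := by
      rw [div_eq_mul_one_div, VA_totient c q T hT', ← hφ]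
      ring
    rw [e1, e2] at key
    have h1 := hSW.abs_le T
    have h2 : |lam T * (∑ u ∈ U.filter (fun u : ℕ => ∀ l ∈ T, c * l ∣ N₀ * u - Y), Real.log u -
        η * B₀ / φ * wt (VA_gc c) T)| ≤ E := by
      rw [abs_mul]
      exact le_trans (mul_le_mul h1 key (abs_nonneg _) zero_le_one) (by rw [one_mul])
    have h3 := (_root_.abs_le.1 h2).1
    rw [mul_sub] at h3
    linarith
  have hsum := sum_le_sum hterm
  have hsv : ∑ T ∈ P.powerset,
      lam T * ∑ u ∈ U.filter (fun u : ℕ => ∀ l ∈ T, c * l ∣ N₀ * u - Y), Real.log u ≤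
      ∑ u ∈ U.filter (fun u : ℕ => ∀ l ∈ P, ¬ c * l ∣ N₀ * u - Y), Real.log u := by
    convert VA_sieve hSW U (fun u => Real.log u) (fun u => Real.log_natCast_nonneg u)
      (fun u l : ℕ => c * l ∣ N₀ * u - Y)
  rw [sum_sub_distrib, ← sum_filter, sum_const, nsmul_eq_mul] at hsum
  have e3 : ∑ T ∈ P.powerset, lam T * (η * B₀ / φ * wt (VA_gc c) T) =
      η * B₀ / φ * ∑ T ∈ P.powerset, lam T * wt (VA_gc c) T := by
    rw [mul_sum]
    exact sum_congr rfl fun T _ => by ring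
  have hcard := VA_card (fun p hp => (hP p hp).1) (D := y ^ s) (by positivity)
  -- the error term
  have herr : y ^ s * E ≤ 1 / 4 * (η * B₀ / φ * V) := by
    have h1 : E ≤ Cs * B₀ / L ^ ((C + 1) * s + 3 * C + 4 * (C + 1) + 1) := by
      rw [hE]
      exact div_le_div_of_nonneg_left (by positivity) (by positivity) (hlogpow _)
    have h2 : 1 / L ^ C * B₀ / L ^ (2 * C) * (Real.exp (-4) / y ^ 4) ≤ η * B₀ / φ * V := by
      gcongr
    refine le_trans (mul_le_mul_of_nonneg_left h1 (by positivity)) (le_trans ?_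
      (mul_le_mul_of_nonneg_left h2 (by norm_num)))
    have e4 : y ^ s * (Cs * B₀ / L ^ ((C + 1) * s + 3 * C + 4 * (C + 1) + 1)) =
        Cs / L * (B₀ / L ^ (3 * C + 4 * (C + 1))) := by
      rw [hy, ← pow_mul]
      field_simp
      ring
    have e5 : 1 / 4 * (1 / L ^ C * B₀ / L ^ (2 * C) * (Real.exp (-4) / y ^ 4)) =
        1 / (4 * Real.exp 4) * (B₀ / L ^ (3 * C + 4 * (C + 1))) := by
      rw [hy, ← pow_mul, Real.exp_neg]
      field_simp
      ring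
    rw [e4, e5]
    refine mul_le_mul_of_nonneg_right ?_ (by positivity)
    rw [div_le_div_iff₀ hL0 (by positivity)]
    linarith
  set G := U.filter (fun u : ℕ => ∀ l ∈ P, ¬ c * l ∣ N₀ * u - Y) with hG
  have hW0 : 0 < η * B₀ / φ := by positivity
  have hlow : 1 / 2 * (η * B₀ / φ * V) ≤ ∑ u ∈ G, Real.log u := by
    have h1 := mul_le_mul_of_nonneg_left hmain hW0.le
    have h2 := mul_le_mul_of_nonneg_right hcard hE0
    rw [e3] at hsum
    linarith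
  have hup : ∑ u ∈ G, Real.log u ≤ G.card * Real.log (2 * B₀) := by
    rw [← nsmul_eq_mul]
    refine sum_le_card_nsmul _ _ _ fun u hu => ?_
    obtain ⟨h1, h2, -⟩ := mem_filter.1 (mem_filter.1 hu).1
    have h3 : (u : ℝ) ≤ B₀ * (1 + η) :=
      le_trans (Nat.cast_le.2 (mem_Ioc.1 h1).2) (Nat.floor_le (by positivity))
    exact Real.log_le_log (by exact_mod_cast h2.pos) (by nlinarith)
  have eG : I.filter (fun u : ℕ => u.Prime ∧ c * q ∣ N₀ * u - Y ∧
      ∀ l ∈ P, ¬ c * l ∣ N₀ * u - Y) = G := by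
    rw [hG, hU, filter_filter]
    exact filter_congr fun u _ => and_assoc.symm
  rw [eG]
  have hl2 : 0 < Real.log (2 * B₀) := Real.log_pos (by linarith)
  have e6 : η * B₀ / (4 * Real.log (2 * B₀)) / φ * V =
      1 / 4 * (η * B₀ / φ * V) / Real.log (2 * B₀) := by
    field_simp
  rw [e6, div_le_iff₀ hl2]
  have h7 : 0 < η * B₀ / φ * V := by positivity
  linarith

end Crest.Agent.R1
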