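import Crest.Agent.R1.CDefs
import Crest.Agent.R1.VirtA

/-!
# R1 / Virt: the content of a dead leaf, averaged over one prime by the Siegel-Walfisz theorem
-/

set_option autoImplicit false

namespace Crest.Agent.R1

open Finset Filter
open scoped Classical

/-- density of the class removed by `l` among the reduced classes -/
noncomputable def gc (c : ℤ) (l : ℕ) : ℝ := if (l : ℤ) ∣ c then 1 / (l : ℝ) else 1 / ((l : ℝ) - 1)

/-- A lower bound sieve on primes `u` in a progression.  With `w = (N₀ u - Y)/c`, the conditions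
`q ∣ w` and `l ∣ w (l ∈ T)` say `c q pd T ∣ N₀ u - Y`, one reduced class mod `c q pd T`, and
`1/φ(c q pd T) = wt (gc c) T / φ(c q)`.  Use `flw 0 P y (y^{s₀})`, `y = L^C`,
`Cfl exp (-s₀/Cfl) ≤ 1/4`, weights `log u`, `sw_interval`, and `∏ (1 - gc) ≥ 1/(2y)`. -/
theorem virt_one (C : ℕ) : ∀ᶠ M : ℝ in atTop, ∀ (B₀ η : ℝ) (c Y N₀ : ℤ) (q : ℕ) (P : Finset ℕ),
    Real.exp (LL M ^ (6 / 10 : ℝ)) ≤ B₀ → 1 / LL M ^ C ≤ η → η ≤ 1 → 1 ≤ c → (c : ℝ) ≤ LL M ^ C →
    1 ≤ q → (q : ℝ) ≤ LL M ^ C → IsCoprime N₀ (c * q) → IsCoprime Y (c * q) →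
    (∀ l ∈ P, l.Prime ∧ (l : ℝ) ≤ LL M ^ C ∧ ¬ l ∣ q ∧ ¬ (l : ℤ) ∣ N₀ ∧ ¬ (l : ℤ) ∣ Y ∧
      (l = 2 → (2 : ℤ) ∣ c)) →
    η * B₀ / (4 * Real.log (2 * B₀)) / Nat.totient (c.natAbs * q) * ∏ l ∈ P, (1 - gc c l) ≤
      (((Ioc ⌊B₀⌋₊ ⌊B₀ * (1 + η)⌋₊).filter (fun u : ℕ => u.Prime ∧ c * q ∣ N₀ * u - Y ∧
        ∀ l ∈ P, ¬ c * l ∣ N₀ * u - Y)).card : ℝ) :=
  VA_virt_one C

/-- Restrict to `B` made of primes `≤ exp (λ/25)`.  The full sum over such `B` is
`∏ (1 - 1/(l(l-1))) ≥ c`, the weighted mean of `log pd B` is `≤ 2 ∑ log l/l ≤ λ/10` (Markov), and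
the larger primes `l ≤ exp (2λ)` contribute a bounded factor (Mertens). -/
theorem smooth_sum : ∃ c lam₀ : ℝ, 0 < c ∧ ∀ (lam : ℝ) (V : Finset ℕ), lam₀ ≤ lam →
    (∀ l ∈ V, l.Prime ∧ (l : ℝ) ≤ Real.exp (2 * lam)) →
    c ≤ ∑ B ∈ V.powerset.filter (fun B => (pd B : ℝ) ≤ Real.exp (lam / 5)),
      wt iv B * ∏ l ∈ V \ B, (1 - 1 / ((l : ℝ) - 1)) := by
  have markov : ∀ (V : Finset ℕ) (a b t : ℕ → ℝ), (∀ l ∈ V, 0 ≤ a l ∧ 0 ≤ t l ∧ 1 / 2 ≤ a l + b l) →
      ∑ B ∈ V.powerset, ((∏ l ∈ B, a l) * ∏ l ∈ V \ B, b l) * ∑ l ∈ B, t l ≤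
        2 * (∑ l ∈ V, a l * t l) * ∏ l ∈ V, (a l + b l) := by
    intro V a b t h
    have e1 : ∀ B ∈ V.powerset, ((∏ l ∈ B, a l) * ∏ l ∈ V \ B, b l) * ∑ l ∈ B, t l =
        ∑ l ∈ V, t l * ((∏ l ∈ B, a l) * ∏ l' ∈ V \ B, Function.update b l 0 l') := by
      intro B hB
      have hB' := mem_powerset.1 hB
      rw [mul_sum, ← sum_subset hB']
      · refine sum_congr rfl fun l hl => ?_
        rw [mul_comm]
        congr 2
        refine prod_congr rfl fun l' hl' => ?_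
        rw [Function.update_of_ne]
        rintro rfl
        exact (mem_sdiff.1 hl').2 hl
      · intro l hl hl'
        rw [prod_eq_zero (mem_sdiff.2 ⟨hl, hl'⟩) (Function.update_self _ _ _)]
        simp
    rw [sum_congr rfl e1, sum_comm, mul_sum, sum_mul]
    refine sum_le_sum fun l hl => ?_
    rw [← mul_sum, ← prod_add, ← mul_prod_erase V _ hl, ← mul_prod_erase V (fun l => a l + b l) hl,
      Function.update_self, add_zero]
    have e2 : ∏ x ∈ V.erase l, (a x + Function.update b l 0 x) = ∏ x ∈ V.erase l, (a x + b x) :=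
      prod_congr rfl fun x hx => by rw [Function.update_of_ne (ne_of_mem_erase hx)]
    rw [e2]
    have h0 : 0 ≤ ∏ x ∈ V.erase l, (a x + b x) :=
      prod_nonneg fun x hx => by linarith [(h x (mem_of_mem_erase hx)).2.2]
    obtain ⟨h1, h2, h3⟩ := h l hl
    have h4 := mul_le_mul_of_nonneg_left h3 (mul_nonneg (mul_nonneg h1 h2) h0)
    nlinarith
  refine ⟨Real.exp (-2) / 2 * Real.exp (-260), 1000, by positivity, fun lam V hlam hV => ?_⟩
  obtain ⟨V₁, hV₁⟩ : ∃ V₁, V₁ = V.filter (fun l : ℕ => Real.log l ≤ lam / 25) := ⟨_, rfl⟩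
  obtain ⟨V₂, hV₂⟩ : ∃ V₂, V₂ = V.filter (fun l : ℕ => ¬ Real.log l ≤ lam / 25) := ⟨_, rfl⟩
  have h2 : ∀ l ∈ V, (2 : ℝ) ≤ l := fun l hl => by exact_mod_cast (hV l hl).1.two_le
  have hs₁ : V₁ ⊆ V := hV₁ ▸ filter_subset _ _
  have hs₂ : V₂ ⊆ V := hV₂ ▸ filter_subset _ _
  have hb : ∀ l ∈ V, 0 ≤ 1 - 1 / ((l : ℝ) - 1) := fun l hl => by
    have := h2 l hl
    rw [sub_nonneg, div_le_one (by linarith)]
    linarith
  have hiv : ∀ l, 0 ≤ iv l := fun l => by unfold iv; positivity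
  have hab : ∀ l ∈ V, iv l + (1 - 1 / ((l : ℝ) - 1)) = 1 - 1 / ((l : ℝ) * (l - 1)) := fun l hl => by
    have := h2 l hl
    have h1 : (l : ℝ) - 1 ≠ 0 := by linarith
    have h3 : (l : ℝ) ≠ 0 := by linarith
    unfold iv
    field_simp
    ring
  have hg : ∀ l ∈ V, 0 ≤ 1 / ((l : ℝ) * (l - 1)) ∧ 1 / ((l : ℝ) * (l - 1)) ≤ 1 / 2 := fun l hl => by
    have := h2 l hl
    have h1 : (2 : ℝ) ≤ (l : ℝ) * (l - 1) := by nlinarith
    exact ⟨by positivity, by gcongr⟩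
  -- the large primes
  have hP₂ : Real.exp (-260) ≤ ∏ l ∈ V₂, (1 - 1 / ((l : ℝ) - 1)) := by
    have h3 : ∀ l ∈ V₂, (3 : ℝ) ≤ l := by
      intro l hl
      have a1 : ¬ Real.log l ≤ lam / 25 := by rw [hV₂] at hl; exact (mem_filter.1 hl).2
      have a2 := Real.log_le_sub_one_of_pos (by linarith [h2 l (hs₂ hl)] : (0 : ℝ) < l)
      linarith [not_le.1 a1]
    refine le_trans (Real.exp_le_exp.2 ?_) (flb_prod V₂ (fun l => 1 / ((l : ℝ) - 1)) fun l hl => ?_)
    · have a1 := flb_win V₂ (u := lam / 25) (K := 50) (by norm_num) fun l hl => by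
        have a1 : ¬ Real.log l ≤ lam / 25 := by rw [hV₂] at hl; exact (mem_filter.1 hl).2
        refine ⟨(hV l (hs₂ hl)).1, (not_le.1 a1).le, ?_⟩
        have := (Real.log_le_iff_le_exp (by linarith [h3 l hl])).2 (hV l (hs₂ hl)).2
        linarith
      have a2 : ∑ l ∈ V₂, 1 / ((l : ℝ) - 1) ≤ 2 * ∑ l ∈ V₂, 1 / (l : ℝ) := by
        rw [mul_sum]
        refine sum_le_sum fun l hl => ?_
        have := h3 l hl
        rw [mul_one_div, div_le_div_iff₀ (by linarith) (by linarith)]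
        linarith
      linarith
    · have := h3 l hl
      have a1 : (2 : ℝ) ≤ (l : ℝ) - 1 := by linarith
      exact ⟨by positivity, by gcongr⟩
  -- the small primes
  obtain ⟨Z, hZ⟩ : ∃ Z, Z = ∏ l ∈ V₁, (iv l + (1 - 1 / ((l : ℝ) - 1))) := ⟨_, rfl⟩
  have hZ1 : Real.exp (-2) ≤ Z := by
    rw [hZ, prod_congr rfl fun l hl => hab l (hs₁ hl)]
    refine le_trans (Real.exp_le_exp.2 ?_) (flb_prod V₁ _ fun l hl => hg l (hs₁ hl))
    have hsub : V₁ ⊆ Ico 2 (V₁.sup id + 2) := by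
      intro p hp
      rw [mem_Ico]
      have : p ≤ V₁.sup id := le_sup (f := id) hp
      exact ⟨(hV p (hs₁ hp)).1.two_le, by omega⟩
    have a1 : ∑ l ∈ V₁, 1 / ((l : ℝ) * (l - 1)) ≤ 1 := by
      refine (sum_le_sum_of_subset_of_nonneg hsub ?_).trans
        ((R29.primes_sum_inv_mul_le _).trans ?_)
      · intro k hk _
        have : (2 : ℝ) ≤ k := by exact_mod_cast (mem_Ico.1 hk).1
        apply div_nonneg zero_le_one
        nlinarith
      · have : 0 ≤ 1 / (((V₁.sup id : ℕ) : ℝ) + 1) := by positivity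
        linarith
    linarith
  have hZ0 : 0 < Z := (Real.exp_pos _).trans_le hZ1
  have hM : ∑ l ∈ V₁, iv l * Real.log l ≤ lam / 25 + 10 := by
    have a1 := R29.mertens_upper (y := Real.exp (lam / 25)) (Real.one_le_exp (by linarith))
    rw [Real.log_exp] at a1
    refine le_trans ?_ a1
    have e : ∀ l : ℕ, iv l * Real.log l = Real.log l / l := fun l => by unfold iv; ring
    simp only [e]
    refine sum_le_sum_of_subset_of_nonneg (fun l hl => ?_) fun p _ _ =>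
      div_nonneg (Real.log_natCast_nonneg p) (Nat.cast_nonneg p)
    refine (R29.mem_primesUpTo (Real.exp_pos _).le).2 ⟨(hV l (hs₁ hl)).1, ?_⟩
    rw [← Real.log_le_iff_le_exp (by linarith [h2 l (hs₁ hl)])]
    rw [hV₁] at hl
    exact (mem_filter.1 hl).2
  have hmk := markov V₁ iv (fun l => 1 - 1 / ((l : ℝ) - 1)) (fun l => Real.log l) fun l hl =>
    ⟨hiv l, Real.log_natCast_nonneg l, by
      rw [hab l (hs₁ hl)]
      linarith [(hg l (hs₁ hl)).2]⟩
  rw [← hZ] at hmk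
  obtain ⟨W, hW⟩ : ∃ W : Finset ℕ → ℝ,
      W = fun B => (∏ l ∈ B, iv l) * ∏ l ∈ V₁ \ B, (1 - 1 / ((l : ℝ) - 1)) := ⟨_, rfl⟩
  have hW0 : ∀ B, 0 ≤ W B := fun B => by
    rw [hW]
    exact mul_nonneg (prod_nonneg fun l _ => hiv l)
      (prod_nonneg fun l hl => hb l (hs₁ (mem_sdiff.1 hl).1))
  have hZW : ∑ B ∈ V₁.powerset, W B = Z := by rw [hZ, prod_add, hW]
  have hbad : lam / 5 * ∑ B ∈ V₁.powerset.filter (fun B => ¬ (pd B : ℝ) ≤ Real.exp (lam / 5)), W B ≤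
      2 * (lam / 25 + 10) * Z := by
    calc _ ≤ ∑ B ∈ V₁.powerset.filter (fun B => ¬ (pd B : ℝ) ≤ Real.exp (lam / 5)),
          W B * ∑ l ∈ B, Real.log l := by
          rw [mul_sum]
          refine sum_le_sum fun B hB => ?_
          obtain ⟨a1, a2⟩ := mem_filter.1 hB
          have a3 : ∀ l ∈ B, l.Prime := fun l hl => (hV l (hs₁ (mem_powerset.1 a1 hl))).1
          have a4 : ∑ l ∈ B, Real.log l = Real.log (pd B) := by
            rw [pd, Nat.cast_prod, Real.log_prod fun l hl => by exact_mod_cast (a3 l hl).ne_zero]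
          rw [mul_comm, a4]
          refine mul_le_mul_of_nonneg_left ?_ (hW0 B)
          rw [Real.le_log_iff_exp_le (by exact_mod_cast pd_pos a3)]
          exact (not_le.1 a2).le
      _ ≤ ∑ B ∈ V₁.powerset, W B * ∑ l ∈ B, Real.log l :=
          sum_le_sum_of_subset_of_nonneg (filter_subset _ _) fun B _ _ =>
            mul_nonneg (hW0 B) (sum_nonneg fun l _ => Real.log_natCast_nonneg l)
      _ ≤ 2 * (∑ l ∈ V₁, iv l * Real.log l) * Z := by rw [hW]; exact hmk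
      _ ≤ _ := by gcongr
  have hgood : Z / 2 ≤ ∑ B ∈ V₁.powerset.filter (fun B => (pd B : ℝ) ≤ Real.exp (lam / 5)), W B := by
    have a1 := sum_filter_add_sum_filter_not V₁.powerset
      (fun B => (pd B : ℝ) ≤ Real.exp (lam / 5)) W
    rw [hZW] at a1
    have a2 : lam / 5 * ∑ B ∈ V₁.powerset.filter (fun B => ¬ (pd B : ℝ) ≤ Real.exp (lam / 5)), W B ≤
        lam / 5 * (Z / 2) := hbad.trans (by nlinarith)
    have a3 := le_of_mul_le_mul_left a2 (by linarith)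
    linarith
  calc Real.exp (-2) / 2 * Real.exp (-260)
      ≤ (∑ B ∈ V₁.powerset.filter (fun B => (pd B : ℝ) ≤ Real.exp (lam / 5)), W B) *
        ∏ l ∈ V₂, (1 - 1 / ((l : ℝ) - 1)) :=
        mul_le_mul (le_trans (by linarith) hgood) hP₂ (Real.exp_pos _).le
          (sum_nonneg fun B _ => hW0 B)
    _ = ∑ B ∈ V₁.powerset.filter (fun B => (pd B : ℝ) ≤ Real.exp (lam / 5)),
        wt iv B * ∏ l ∈ V \ B, (1 - 1 / ((l : ℝ) - 1)) := by
        rw [sum_mul]
        refine sum_congr rfl fun B hB => ?_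
        have a1 := mem_powerset.1 (mem_filter.1 hB).1
        have a2 : V \ B = (V₁ \ B) ∪ V₂ := by
          ext l
          have a3 := @a1 l
          rw [hV₁] at a3
          simp only [hV₁, hV₂, Finset.mem_sdiff, mem_union, mem_filter] at a3 ⊢
          tauto
        have a3 : Disjoint (V₁ \ B) V₂ := by
          rw [hV₁, hV₂]
          exact (disjoint_filter_filter_not V V _).mono_left sdiff_subset
        rw [a2, prod_union a3, hW, wt]
        ring
    _ ≤ _ := sum_le_sum_of_subset_of_nonneg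
        (filter_subset_filter _ (powerset_mono.2 hs₁)) fun B _ _ =>
          mul_nonneg (prod_nonneg fun l _ => hiv l)
            (prod_nonneg fun l hl => hb l (mem_sdiff.1 hl).1)

/-- elementary symmetric functions -/
theorem esymm_ge (I : Finset ℕ) (w : ℕ → ℝ) {ω : ℝ} (hω : 0 ≤ ω)
    (hw : ∀ p ∈ I, 0 ≤ w p ∧ w p ≤ ω) (r : ℕ) :
    max 0 (∑ p ∈ I, w p - r * ω) ^ r / r.factorial ≤ ∑ Q ∈ powersetCard r I, wt w Q := by
  have e : ∀ (I : Finset ℕ) (r : ℕ), ∑ Q ∈ powersetCard r I, wt w Q = FLa.esy w r I := by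
    intro I r
    rw [powersetCard_eq_filter, sum_filter, FLa.esy]
  rw [e]
  induction I using Finset.induction_on generalizing r with
  | empty =>
    cases r with
    | zero => simp [FLa.esy_zero]
    | succ r =>
      rw [max_eq_left (by simp; positivity), zero_pow (Nat.succ_ne_zero r), zero_div]
      exact FLa.esy_nonneg w ∅ (by simp) _
  | insert p I hp ih =>
    have hw' : ∀ q ∈ I, 0 ≤ w q ∧ w q ≤ ω := fun q hq => hw q (mem_insert_of_mem hq)
    obtain ⟨g0, g1⟩ := hw p (mem_insert_self p I)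
    cases r with
    | zero => simp [FLa.esy_zero]
    | succ r =>
      rw [FLa.esy_insert w r hp, sum_insert hp]
      have h1 := ih hw' (r + 1)
      have h2 := mul_le_mul_of_nonneg_left (ih hw' r) g0
      refine le_trans ?_ (add_le_add h1 h2)
      obtain ⟨s, hs⟩ : ∃ s, s = ∑ q ∈ I, w q := ⟨_, rfl⟩
      rw [← hs]
      obtain ⟨a, ha⟩ : ∃ a, a = max 0 (s - ((r + 1 : ℕ) : ℝ) * ω) := ⟨_, rfl⟩
      obtain ⟨b, hb⟩ : ∃ b, b = max 0 (w p + s - ((r + 1 : ℕ) : ℝ) * ω) := ⟨_, rfl⟩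
      obtain ⟨c, hc⟩ : ∃ c, c = max 0 (s - (r : ℝ) * ω) := ⟨_, rfl⟩
      rw [← ha, ← hb, ← hc]
      have a0 : 0 ≤ a := ha ▸ le_max_left _ _
      have b0 : 0 ≤ b := hb ▸ le_max_left _ _
      have hbc : b ≤ c := by
        rw [hb, hc]
        refine max_le_max le_rfl ?_
        push_cast
        linarith
      have hba : b - a ≤ w p := by
        have := le_max_right 0 (s - ((r + 1 : ℕ) : ℝ) * ω)
        rw [← ha] at this
        rw [sub_le_iff_le_add, hb]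
        exact max_le (by linarith) (by linarith)
      have h3 := pow_add_mul_le_add_pow (a := b) (b := a - b) b0 (by linarith) (r + 1)
      rw [add_sub_cancel, Nat.add_sub_cancel] at h3
      have h4 : b ^ r ≤ c ^ r := pow_le_pow_left₀ b0 hbc r
      have h5 : b ^ r * (b - a) ≤ c ^ r * w p :=
        (mul_le_mul_of_nonneg_left hba (by positivity)).trans (mul_le_mul_of_nonneg_right h4 g0)
      have hf : (0 : ℝ) < (r.factorial : ℝ) := by exact_mod_cast r.factorial_pos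
      have hk : (0 : ℝ) < ((r + 1 : ℕ) : ℝ) := by positivity
      have h6 : a ^ (r + 1) / ((r + 1).factorial : ℝ) + w p * (c ^ r / r.factorial) =
          (a ^ (r + 1) + ((r + 1 : ℕ) : ℝ) * (c ^ r * w p)) / ((r + 1).factorial : ℝ) := by
        rw [Nat.factorial_succ, Nat.cast_mul]
        field_simp
      rw [h6]
      refine div_le_div_of_nonneg_right ?_ (by positivity)
      have h7 := mul_le_mul_of_nonneg_left h5 hk.le
      linarith

/-- primes of nearly equal size lead to a dead leaf -/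
theorem path_leaf {σ : ℕ → ℕ} {R : ℤ} {e σ₀ σ₁ : ℕ} {U Q : Finset ℕ} (hQ : Q ⊆ U) (hne : Q.Nonempty)
    (hev : Even (e + Q.card)) (hσ : ∀ q ∈ Q, σ₀ ≤ σ q ∧ σ q ≤ σ₁)
    (h1 : R < ((Q.card + 2) * σ₀ : ℕ)) (h2 : ((Q.card * σ₁ : ℕ) : ℤ) ≤ R) : Q ∈ leaves σ R e U := by
  refine mem_filter.2 ⟨mem_powerset.2 hQ, fun ha => ?_, fun p hp _ p' hp' he => ?_⟩
  · have hm := Q.min'_mem hne
    have e1 : Q.filter (fun q => Q.min' hne ≤ q) = Q := filter_true_of_mem fun q hq => Q.min'_le q hq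
    have h3 := ha _ hm
    rw [e1] at h3
    have h4 := h3 hev
    have h5 : Q.card • (σ₀ : ℤ) ≤ tot σ Q :=
      card_nsmul_le_sum _ _ _ fun q hq => by exact_mod_cast (hσ q hq).1
    have h6 : (σ₀ : ℤ) ≤ σ (Q.min' hne) := by exact_mod_cast (hσ _ hm).1
    rw [nsmul_eq_mul] at h5
    push_cast at h1
    linarith
  · obtain ⟨T, hT⟩ : ∃ T, T = (Q.erase p).filter (fun q => p' ≤ q) := ⟨_, rfl⟩
    rw [← hT] at he ⊢
    have h3 : T ⊆ Q.erase p := hT ▸ filter_subset _ _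
    have h4 : T.card + 2 ≤ Q.card := by
      have a1 := card_le_card h3
      rw [card_erase_of_mem hp] at a1
      have a2 := card_pos.2 hne
      obtain ⟨k, hk⟩ := hev
      obtain ⟨k', hk'⟩ := he
      omega
    have h5 : tot σ T ≤ T.card • (σ₁ : ℤ) :=
      sum_le_card_nsmul _ _ _ fun q hq => by exact_mod_cast (hσ q (mem_of_mem_erase (h3 hq))).2
    have h6 : (σ p' : ℤ) ≤ σ₁ := by exact_mod_cast (hσ _ (mem_of_mem_erase hp')).2
    have h7 : ((T.card : ℤ) + 2) * σ₁ ≤ Q.card * σ₁ :=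
      mul_le_mul_of_nonneg_right (by exact_mod_cast h4) (Nat.cast_nonneg _)
    rw [nsmul_eq_mul] at h5
    push_cast at h2
    linarith

/-- the integers counted for one prime `u` -/
noncomputable def An (M : ℝ) (X c b : ℤ) (d : ℕ) (P Q : Finset ℕ) : Finset ℤ :=
  (Icc ⌈M / 4⌉ ⌊M / 2⌋).filter (fun n => (d : ℤ) ∣ c * n - b ∧ ∀ l ∈ P, ((l : ℤ) ∣ n - X ↔ l ∈ Q))

/-- upper bound, for any prime `u`: choose `X₁ ≡ X` modulo the primes of `τ` and `Pr h 0 σ₁`,
`c X₁ ≡ b mod u`; `card_le_Ew`, `Ew_FL` with `V = Pr h 0 σ₀`, `y = D = exp (σ₀/h)`, `Vs_le` -/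
theorem virt_upper : ∃ C : ℝ, 0 < C ∧ ∀ (M : ℝ) (X c b : ℤ) (τ Q : Finset ℕ) (u h σ₀ σ₁ : ℕ),
    2 ≤ M → 0 < h → 3 * h ≤ σ₀ → σ₀ ≤ σ₁ → Q ⊆ Pr h σ₀ σ₁ →
    (∀ p ∈ τ, p.Prime ∧ σ₁ ≤ sz h p ∧ Str X c b p ∧ ¬ (p : ℤ) ∣ c) →
    u.Prime → σ₁ ≤ sz h u → u ∉ τ → ¬ (u : ℤ) ∣ c →
    Real.exp ((σ₀ : ℝ) / h) * (pd τ * u * pd Q) ≤ M →
    ((An M X c b (pd τ * u) (Pr h 0 σ₁) Q).card : ℝ) ≤ C * (M / (pd τ * u * pd Q)) * (h / σ₀) := by
  have hC := one_le_Cfl
  refine ⟨8 * (1 + Cfl), by linarith, ?_⟩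
  intro M X c b τ Q u h σ₀ σ₁ hM hh h3 h01 hQ hτ hu hσu huτ huc hlev
  have hM0 : 0 < M := by linarith
  have hh0 : (0 : ℝ) < h := by exact_mod_cast hh
  have h3' : 3 * (h : ℝ) ≤ σ₀ := by exact_mod_cast h3
  have hQ' : ∀ q ∈ Q, q.Prime ∧ σ₀ ≤ sz h q ∧ sz h q < σ₁ := fun q hq => (mem_Pr hh).1 (hQ hq)
  have hQ1 : Q ⊆ Pr h 0 σ₁ := fun q hq =>
    (mem_Pr hh).2 ⟨(hQ' q hq).1, Nat.zero_le _, (hQ' q hq).2.2⟩
  have hV1 : Pr h 0 σ₀ ⊆ Pr h 0 σ₁ := fun q hq => by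
    rw [mem_Pr hh] at hq ⊢
    exact ⟨hq.1, hq.2.1, hq.2.2.trans_le h01⟩
  have hup : Prime (u : ℤ) := Nat.prime_iff_prime_int.1 hu
  have hN : ∀ p ∈ τ ∪ Pr h 0 σ₁, p.Prime := fun p hp => by
    rcases mem_union.1 hp with a | a
    · exact (hτ p a).1
    · exact ((mem_Pr hh).1 a).1
  have huN : u ∉ τ ∪ Pr h 0 σ₁ := fun a => by
    rcases mem_union.1 a with a | a
    · exact huτ a
    · have := ((mem_Pr hh).1 a).2.2
      omega
  -- the choice of `X₁`
  obtain ⟨X₁, hX1, hX2⟩ : ∃ X₁ : ℤ, (∀ p ∈ τ ∪ Pr h 0 σ₁, (p : ℤ) ∣ X₁ - X) ∧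
      (u : ℤ) ∣ c * X₁ - b := by
    have a1 : ¬ (u : ℤ) ∣ c * (pd (τ ∪ Pr h 0 σ₁) : ℤ) := by
      intro a
      rcases hup.dvd_or_dvd a with a | a
      · exact huc a
      · have a2 : u ∣ pd (τ ∪ Pr h 0 σ₁) := by exact_mod_cast a
        refine huN ?_
        rw [← primeFactors_pd hN]
        exact Nat.mem_primeFactors.2 ⟨hu, a2, (pd_pos hN).ne'⟩
    obtain ⟨s, t, hst⟩ := (hup.coprime_iff_not_dvd).2 a1
    refine ⟨X + (pd (τ ∪ Pr h 0 σ₁) : ℤ) * (t * (b - c * X)), fun p hp => ?_, ⟨-(s * (b - c * X)), ?_⟩⟩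
    · rw [add_sub_cancel_left]
      exact ((pd_dvd_iff hN _).1 dvd_rfl p hp).mul_right _
    · linear_combination (b - c * X) * hst
  obtain ⟨P, hP⟩ : ∃ P, P = insert u (τ ∪ Pr h 0 σ₁) := ⟨_, rfl⟩
  have hPp : ∀ p ∈ P, p.Prime := fun p hp => by
    rw [hP] at hp
    rcases mem_insert.1 hp with rfl | a
    · exact hu
    · exact hN p a
  have hτP : insert u (τ ∪ Q) ⊆ P := hP ▸ insert_subset_insert _ (union_subset_union_right hQ1)
  have hVP : Pr h 0 σ₀ ⊆ P := hP ▸ (hV1.trans subset_union_right).trans (subset_insert _ _)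
  have hd : Disjoint (insert u (τ ∪ Q)) (Pr h 0 σ₀) := by
    refine disjoint_left.2 fun p hp hp' => ?_
    have a1 := ((mem_Pr hh).1 hp').2.2
    rcases mem_insert.1 hp with rfl | a
    · omega
    · rcases mem_union.1 a with a | a
      · have := (hτ p a).2.1
        omega
      · have := (hQ' p a).2.1
        omega
  have hpd : pd (insert u (τ ∪ Q)) = pd τ * u * pd Q := by
    have a1 : u ∉ τ ∪ Q := fun a => huN (union_subset_union_right hQ1 a)
    have a2 : Disjoint τ Q := disjoint_left.2 fun p hp hp' => by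
      have := (hτ p hp).2.1
      have := (hQ' p hp').2.2
      omega
    unfold pd
    rw [prod_insert a1, prod_union a2]
    ring
  have hy : 2 ≤ Real.exp ((σ₀ : ℝ) / h) := by
    have a1 := Real.add_one_le_exp ((σ₀ : ℝ) / h)
    have a2 : 1 ≤ (σ₀ : ℝ) / h := (one_le_div hh0).2 (by linarith)
    linarith
  have key := Ew_FL (X := X₁) hM hPp hτP hVP hd (y := Real.exp ((σ₀ : ℝ) / h))
    (D := Real.exp ((σ₀ : ℝ) / h)) hy (fun p hp => by
      obtain ⟨a1, -, a2⟩ := (mem_Pr hh).1 hp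
      refine (Real.log_le_iff_le_exp (Nat.cast_pos.2 a1.pos)).1 ((log_lt_sz hh p).le.trans ?_)
      exact div_le_div_of_nonneg_right (Nat.cast_le.2 a2.le) hh0.le)
    (by
      refine (Real.rpow_le_rpow_of_exponent_le (by linarith) (by norm_num : (1 / 4 : ℝ) ≤ 1)).trans ?_
      rw [Real.rpow_one])
    (by rw [hpd]; push_cast; linarith)
  have hcard := card_le_Ew (X := X₁) (P := P) hM0 (Φ := ind (insert u (τ ∪ Q)) (Pr h 0 σ₀))
    (fun S _ => by unfold ind; split_ifs <;> norm_num) (An M X c b (pd τ * u) (Pr h 0 σ₁) Q)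
    (fun n hn => by
      obtain ⟨a1, a2, a3⟩ := mem_filter.1 hn
      obtain ⟨a4, a5⟩ := mem_Icc.1 a1
      have a6 : ∀ p ∈ τ ∪ Pr h 0 σ₁, ((p : ℤ) ∣ n - X₁ ↔ (p : ℤ) ∣ n - X) := fun p hp => by
        rw [show n - X = (n - X₁) + (X₁ - X) by ring]
        exact (dvd_add_left (hX1 p hp)).symm
      push_cast at a2
      constructor
      · rw [Int.ceil_le] at a4
        rw [Int.le_floor] at a5
        rw [abs_of_nonneg (by linarith)]
        exact a5
      · unfold ind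
        rw [if_pos]
        refine ⟨fun p hp => mem_filter.2 ⟨hτP hp, ?_⟩, disjoint_left.2 fun l hl hl' => ?_⟩
        · rcases mem_insert.1 hp with rfl | a
          · have b1 : (p : ℤ) ∣ c * (n - X₁) := by
              rw [show c * (n - X₁) = (c * n - b) - (c * X₁ - b) by ring]
              exact dvd_sub ((dvd_mul_left _ _).trans a2) hX2
            exact (hup.dvd_or_dvd b1).resolve_left huc
          · rcases mem_union.1 a with a | a
            · obtain ⟨b1, -, b2, b3⟩ := hτ p a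
              rw [a6 p (mem_union_left _ a)]
              have b4 : (p : ℤ) ∣ c * (n - X) := by
                rw [show c * (n - X) = (c * n - b) - (c * X - b) by ring]
                refine dvd_sub ?_ b2
                exact (pd_dvd_iff (fun q hq => (hτ q hq).1) _).1 ((dvd_mul_right _ _).trans a2) p a
              exact ((Nat.prime_iff_prime_int.1 b1).dvd_or_dvd b4).resolve_left b3
            · rw [a6 p (mem_union_right _ (hQ1 a))]
              exact (a3 p (hQ1 a)).2 a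
        · have b1 := (mem_filter.1 hl).2
          rw [a6 l (mem_union_right _ (hV1 hl'))] at b1
          have b2 := (hQ' l ((a3 l (hV1 hl')).1 b1)).2.1
          have b3 := ((mem_Pr hh).1 hl').2.2
          omega)
  obtain ⟨v0, v1⟩ := Vs_le hh h3
  rw [wt_iv, hpd, ← Vs] at key
  push_cast at key
  rw [mul_one_div] at key
  obtain ⟨A, hA⟩ : ∃ A, A = M / ((pd τ : ℝ) * u * pd Q) := ⟨_, rfl⟩
  rw [← hA] at key ⊢
  have hA0 : 0 ≤ A := by rw [hA]; positivity
  have e1 : Real.exp (-(Real.log (Real.exp ((σ₀ : ℝ) / h)) / Real.log (Real.exp ((σ₀ : ℝ) / h))) /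
      Cfl) ≤ 1 := by
    rw [Real.exp_le_one_iff, Real.log_exp, neg_div, neg_nonpos]
    positivity
  have k1 := (abs_le.1 key).2
  have k2 : A * Vs h σ₀ ≤ 3 * (A * (h / σ₀)) := by
    have := mul_le_mul_of_nonneg_left v1 hA0
    rw [mul_div_assoc] at this
    linarith
  have k3 : 0 ≤ A * Vs h σ₀ := mul_nonneg hA0 v0
  have k4 := mul_le_mul_of_nonneg_right (mul_le_mul_of_nonneg_left e1 (by linarith : 0 ≤ Cfl)) k3
  have k5 := mul_le_mul_of_nonneg_left k2 (by linarith : 0 ≤ 1 + Cfl)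
  have k6 : 0 ≤ (1 + Cfl) * (A * (h / σ₀)) := by positivity
  nlinarith

end Crest.Agent.R1
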