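import Crest.Agent.R1.VirtLc

/-!
# R1 / VirtL: lower bound for the averaged content
-/

set_option autoImplicit false

namespace Crest.Agent.R1

open Finset Filter
open scoped Classical

/-- numerical facts about the window parameters -/
lemma vl_eta {M L c b h j : ℝ} (hM : 0 < M) (hc : 1 ≤ c) (hh : 1 ≤ h) (hL : 1 ≤ L) (hb : b ≤ 0)
    (hbM : -b ≤ M * L) (hj0 : 0 ≤ j) (hj : j + 1 ≤ 4 * h) {Y : ℝ}
    (hY : Y = c * (M / 4 + j * (M / (16 * h))) - b) :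
    M / 4 ≤ Y ∧ Y ≤ 2 * c * M * L ∧ c * (M / 4) - b ≤ Y ∧
      Y * (1 + c * (M / (16 * h)) / Y) = c * (M / 4 + (j + 1) * (M / (16 * h))) - b ∧
      Y * (1 + c * (M / (16 * h)) / Y) ≤ c * (M / 2) - b ∧ 0 < c * (M / (16 * h)) / Y ∧
      1 / (32 * h * L) ≤ c * (M / (16 * h)) / Y ∧ c * (M / (16 * h)) / Y ≤ 1 / (4 * h) := by
  set Δ := M / (16 * h) with hΔ
  have hΔ0 : 0 < Δ := by positivity
  have e : 4 * h * Δ = M / 4 := by rw [hΔ]; field_simp; ring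
  have a0 : 0 ≤ c * (j * Δ) := by positivity
  have a1 : c * (M / 4) - b ≤ Y := by rw [hY]; nlinarith
  have a2 : M / 4 ≤ c * (M / 4) := by nlinarith
  have hY0 : 0 < Y := by linarith
  have a3 : (j + 1) * Δ ≤ M / 4 := by rw [← e]; gcongr
  have a4 : Y * (1 + c * Δ / Y) = c * (M / 4 + (j + 1) * Δ) - b := by
    rw [mul_add, mul_div_cancel₀ _ hY0.ne', hY]; ring
  have a5 : c * (M / 4 + (j + 1) * Δ) ≤ c * (M / 2) := by gcongr; linarith
  have a6 : Y ≤ 2 * c * M * L := by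
    have b1 : c * (M / 4 + j * Δ) ≤ c * M := by gcongr; nlinarith
    have b2 : c * M ≤ c * M * L := le_mul_of_one_le_right (by positivity) hL
    have b3 : M * L ≤ c * M * L := by
      have : 0 ≤ (c - 1) * (M * L) := mul_nonneg (by linarith) (by positivity)
      nlinarith
    rw [hY]; linarith
  refine ⟨by linarith, a6, a1, a4, by linarith, by positivity, ?_, ?_⟩
  · calc 1 / (32 * h * L) = c * Δ / (2 * c * M * L) := by rw [hΔ]; field_simp; ring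
      _ ≤ _ := by gcongr
  · calc c * Δ / Y ≤ c * Δ / (c * (M / 4)) := by gcongr; linarith
      _ = _ := by rw [hΔ]; field_simp; ring

/-- numerical facts about the range of the prime `q'` -/
lemma vl_y {M Y l lam d Qs Qd Bd h i c : ℝ} {C₁ C₃ : ℕ} (hd : 0 < d) (hQs : 1 ≤ Qs) (hQ : Qs ≤ Qd)
    (hB1 : 1 ≤ Bd) (hB : Bd ≤ Real.exp (lam / 5)) (hh : 1 ≤ h) (hl : 10 ≤ l)
    (hlam : (2 * C₁ + 2) * l ≤ lam) (hY0 : M / 4 ≤ Y) (hY1 : Y ≤ 2 * c * M * Real.exp (C₁ * l))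
    (hc : c ≤ Real.exp (C₁ * l))
    (H1 : Real.exp (3 / 2 * lam) * (d * Real.exp (i / h) * Qd) ≤ M)
    (H2 : M ≤ Real.exp (C₃ * lam) * (d * Real.exp (i / h))) {y : ℝ}
    (hy : y = Y / (d * (Qs * Bd) * (Real.exp ((i - 1) / h) * (1 + 1 / (2 * h))))) :
    Real.exp (11 / 10 * lam) ≤ y ∧ Real.log (2 * y) ≤ (C₃ + 2) * lam := by
  have hC : (0 : ℝ) ≤ C₁ * l := by positivity
  have hlam' : 20 ≤ lam := by nlinarith
  have hM : 0 < M := lt_of_lt_of_le (by have : 0 < Qd := by linarith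
                                        positivity) H1
  have ht0 : 0 < 1 / (2 * h) := by positivity
  have e : Real.exp (i / h) = Real.exp ((i - 1) / h) * Real.exp (1 / h) := by
    rw [← Real.exp_add]; congr 1; field_simp; ring
  have a1 : Real.exp ((i - 1) / h) * (1 + 1 / (2 * h)) ≤ Real.exp (i / h) := by
    rw [e]
    gcongr
    have b1 := Real.add_one_le_exp (1 / h)
    have b2 : 1 / (2 * h) ≤ 1 / h := by gcongr; linarith
    linarith
  have a2 : Real.exp (11 / 10 * lam) ≤ y := by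
    rw [hy, le_div_iff₀ (by positivity)]
    have b1 : 4 ≤ Real.exp (lam / 5) := by linarith [Real.add_one_le_exp (lam / 5)]
    have b2 : Real.exp (3 / 2 * lam) =
        Real.exp (11 / 10 * lam) * Real.exp (lam / 5) * Real.exp (lam / 5) := by
      rw [← Real.exp_add, ← Real.exp_add]; congr 1; ring
    have b3 : 0 < Qd := by linarith
    calc _ ≤ Real.exp (11 / 10 * lam) * (d * (Qd * Real.exp (lam / 5)) * Real.exp (i / h)) := by
          gcongr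
      _ = Real.exp (11 / 10 * lam) * Real.exp (lam / 5) * 4 * (d * Real.exp (i / h) * Qd) / 4 := by
          ring
      _ ≤ Real.exp (3 / 2 * lam) * (d * Real.exp (i / h) * Qd) / 4 := by rw [b2]; gcongr
      _ ≤ Y := by linarith
  refine ⟨a2, ?_⟩
  have hy0 : 0 < y := (Real.exp_pos _).trans_le a2
  rw [Real.log_le_iff_le_exp (by positivity)]
  have a3 : y ≤ Y / (d * Real.exp ((i - 1) / h)) := by
    rw [hy]
    have b1 : 1 ≤ Qs * Bd := one_le_mul_of_one_le_of_one_le hQs hB1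
    refine div_le_div_of_nonneg_left (by linarith) (by positivity) ?_
    refine mul_le_mul (le_mul_of_one_le_right hd.le b1)
      (le_mul_of_one_le_right (by positivity) (by linarith)) (by positivity) (by positivity)
  have a4 : Y / (d * Real.exp ((i - 1) / h)) ≤
      2 * Real.exp (C₁ * l) * Real.exp (C₁ * l) * Real.exp (C₃ * lam) * Real.exp 1 := by
    rw [div_le_iff₀ (by positivity)]
    have b1 : Real.exp (1 / h) ≤ Real.exp 1 := by
      rw [Real.exp_le_exp, div_le_one (by linarith)]; exact hh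
    calc Y ≤ 2 * c * M * Real.exp (C₁ * l) := hY1
      _ ≤ 2 * Real.exp (C₁ * l) * (Real.exp (C₃ * lam) * (d * (Real.exp ((i - 1) / h) *
          Real.exp 1))) * Real.exp (C₁ * l) := by
          gcongr
          refine H2.trans ?_
          rw [e]; gcongr
      _ = _ := by ring
  have a5 : (4 : ℝ) ≤ Real.exp 3 := by linarith [Real.add_one_le_exp 3]
  calc 2 * y ≤ 4 * (Real.exp (C₁ * l) * Real.exp (C₁ * l) * Real.exp (C₃ * lam) * Real.exp 1) := by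
        linarith
    _ ≤ Real.exp 3 * (Real.exp (C₁ * l) * Real.exp (C₁ * l) * Real.exp (C₃ * lam) * Real.exp 1) := by
        gcongr
    _ ≤ _ := by
        rw [← Real.exp_add, ← Real.exp_add, ← Real.exp_add, ← Real.exp_add, Real.exp_le_exp]
        nlinarith

set_option maxHeartbeats 1600000 in
/-- Put `λ = σ₀/h`, `U = exp ((i-1)/h)`, `P = Pr h 0 σ₁`, `Qs = pd Q`, `Qu = 1` if `Q` is structured,
`Qs = 1`, `Qu = pd Q` otherwise, `V = {l ∈ P \ Q | ¬ Str l, l ∤ c}`.  Cut `[M/4, M/2]` into `4h`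
windows of length `Δ = M/(16 h)`; on window `j`, `c n - b ∈ (Y_j, Y_j (1 + η_j)]`,
`Y_j = c (M/4 + j Δ) + |b|`, `η_j = c Δ / Y_j ∈ [L^{-C₁-2}, 1/(4h)]`.  For `B ⊆ V` with
`pd B ≤ exp (λ/5)` (and `2 ∈ B` if `2 ∈ V`, other `B` have weight `0`) and a prime `q'` with
`B₀ = Y_j/(d m') ∈ [U, U (1 + 1/(2h))]`, `m' = Qs · pd B · q'` (`primes_short`: `q' ≥ exp (1.1 λ)`,
`log q' ≤ (C₃ + 2) λ`), apply `virt_one` with `N₀ = d m'`, `Y = c X - b`, `q = Qu`, sieving set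
`(V \ B) ∪ {l ∈ P \ Q | l ∣ c}`; `n = (d u m' + b)/c`, so `N₀ u - Y = c (n - X)`.  The map
`(j, B, q', u) ↦ (u, n)` is injective.  `smooth_sum`; `φ(c Qu) ≤ φ(c) Qu`,
`∏_{l ∣ c} (1 - 1/l) = φ(c)/c`. -/
theorem virt_lower (C₃ : ℕ) : ∃ c₁ : ℝ, 0 < c₁ ∧ ∀ C₁ : ℕ, ∃ K' : ℕ, ∀ K'' : ℕ, ∀ᶠ M : ℝ in atTop,
    ∀ (X c b : ℤ) (d i σ₀ σ₁ : ℕ) (Q : Finset ℕ), IsCoprime c b → 1 ≤ c → (c : ℝ) ≤ LL M ^ C₁ →
      b ≤ 0 → |(b : ℝ)| ≤ M * LL M ^ C₁ → v1 M ≤ i → un M K' ≤ σ₀ → σ₀ ≤ σ₁ →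
      10 * σ₁ ≤ 11 * σ₀ → σ₁ ≤ un M K'' → Q ⊆ Pr (hh M) σ₀ σ₁ →
      ((∀ q ∈ Q, Str X c b q) ∨ ∀ q ∈ Q, ¬ Str X c b q) → 0 < d →
      (∀ p : ℕ, p.Prime → p ∣ d → σ₁ ≤ sz (hh M) p) →
      Real.exp (3 * (σ₀ : ℝ) / (2 * hh M)) * (d * Real.exp ((i : ℝ) / hh M) * pd Q) ≤ M →
      M ≤ Real.exp (C₃ * (σ₀ : ℝ) / hh M) * (d * Real.exp ((i : ℝ) / hh M)) →
      c₁ * (M / (d * pd Q)) * (1 / i) * (hh M / σ₀) ≤
        ∑ u ∈ Pr (hh M) i (i + 1), ((An M X c b (d * u) (Pr (hh M) 0 σ₁) Q).card : ℝ) := by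
  obtain ⟨c₀, lam₀, hc₀, hsm⟩ := smooth_sum
  obtain ⟨y₀, hps⟩ := primes_short
  refine ⟨c₀ / (256 * (C₃ + 2)), by positivity, fun C₁ => ⟨2 * C₁ + 2, fun K'' => ?_⟩⟩
  filter_upwards [virt_one (C₁ + 1 + (C₃ + 1) * (K'' + 1)),
    ev_basic (704 + 5 * (K'' + 1) + |lam₀| + |y₀|)] with M hone ⟨hl, hL, hM, hh0, h10, h11⟩ X c b d i
    σ₀ σ₁ Q hcb hc hcL hb hbM hv hσ₀ hσ h1011 hσ₁ hQ hstr hd0 hd H1 H2
  set C := C₁ + 1 + (C₃ + 1) * (K'' + 1) with hC
  have hK : (0 : ℝ) ≤ K'' := Nat.cast_nonneg _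
  have hC₁ : (0 : ℝ) ≤ C₁ := Nat.cast_nonneg _
  have hC₃ : (0 : ℝ) ≤ C₃ := Nat.cast_nonneg _
  have p1 := abs_nonneg lam₀
  have p2 := abs_nonneg y₀
  have p3 := le_abs_self lam₀
  have p4 := le_abs_self y₀
  have hM0 : 0 < M := by linarith
  have hL0 : 0 < LL M := by linarith
  have eL : LL M = Real.exp (ll M) := (Real.exp_log hL0).symm
  have ePow : ∀ n : ℕ, LL M ^ n = Real.exp (n * ll M) := fun n => by
    rw [Real.exp_nat_mul, ← eL]
  have eR : ∀ a : ℝ, LL M ^ a = Real.exp (ll M * a) := fun a => Real.rpow_def_of_pos hL0 a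
  have u0 := (un_spec (M := M) (κ := ((2 * C₁ + 2 : ℕ) : ℝ)) (by positivity) (by linarith)).1
  have u1 := (un_spec (M := M) (κ := (K'' : ℝ)) hK (by linarith)).2
  have hv' : (hh M : ℝ) * LL M ^ (7 / 10 : ℝ) ≤ i := (Nat.le_ceil _).trans (Nat.cast_le.2 hv)
  rw [eR] at hv'
  have hσ₀' : (un M ((2 * C₁ + 2 : ℕ) : ℝ) : ℝ) ≤ σ₀ := Nat.cast_le.2 hσ₀
  have hσ₁' : (σ₁ : ℝ) ≤ un M K'' := Nat.cast_le.2 hσ₁
  have hσ' : (σ₀ : ℝ) ≤ σ₁ := Nat.cast_le.2 hσ
  have h1011' : 10 * (σ₁ : ℝ) ≤ 11 * σ₀ := by exact_mod_cast h1011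
  generalize hh M = h at *
  generalize ll M = l at *
  have hr : (0 : ℝ) < h := Nat.cast_pos.2 hh0
  have hr1 : (1 : ℝ) ≤ h := by exact_mod_cast hh0
  have hl0 : 704 ≤ l := by linarith
  obtain ⟨lam, hlam⟩ : ∃ lam : ℝ, lam = σ₀ / h := ⟨_, rfl⟩
  have f0 : (2 * C₁ + 2) * h * l ≤ σ₀ := by push_cast at u0 hσ₀'; linarith
  have f1 : (2 * C₁ + 2) * l ≤ lam := by rw [hlam, le_div_iff₀ hr]; linarith
  have f1' : 2 * l ≤ lam := by
    have : 0 ≤ C₁ * l := by positivity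
    linarith
  have hhl : 1 ≤ h * l := one_le_mul_of_one_le_of_one_le hr1 (by linarith)
  have f2 : (σ₁ : ℝ) / h ≤ (K'' + 1) * l := by rw [div_le_iff₀ hr]; linarith
  have f3 : (σ₁ : ℝ) / h ≤ 11 / 10 * lam := by
    rw [hlam, ← mul_div_assoc]; gcongr; linarith
  have f3' : lam ≤ (K'' + 1) * l := by refine le_trans ?_ f2; rw [hlam]; gcongr
  have f4 : (K'' + 1) * l ≤ Real.exp (l * (7 / 10)) := by
    have := Real.quadratic_le_exp_of_nonneg (by positivity : 0 ≤ l * (7 / 10))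
    have a : 5 * (K'' + 1) * l ≤ l * l := by gcongr; linarith
    have a' : 0 ≤ l * l := by positivity
    linarith
  have f5 : σ₁ ≤ i := by
    have a : (σ₁ : ℝ) ≤ h * Real.exp (l * (7 / 10)) := by
      rw [div_le_iff₀ hr] at f2
      calc _ ≤ _ := f2
        _ ≤ _ := by rw [mul_comm]; gcongr
    exact Nat.cast_le.1 (a.trans hv')
  have f5' : h ≤ i := by
    have a := Real.one_le_exp (by positivity : 0 ≤ l * (7 / 10))
    exact Nat.cast_le.1 ((le_mul_of_one_le_right hr.le a).trans hv')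
  have f6 : LL M ^ (6 / 10 : ℝ) ≤ ((i : ℝ) - 1) / h := by
    rw [eR, le_div_iff₀ hr]
    have a : Real.exp (l * (7 / 10)) = Real.exp (l * (6 / 10)) * Real.exp (l * (1 / 10)) := by
      rw [← Real.exp_add]; congr 1; ring
    have a1 := Real.one_le_exp (by positivity : 0 ≤ l * (6 / 10))
    have a2 : 2 ≤ Real.exp (l * (1 / 10)) := by linarith [Real.add_one_le_exp (l * (1 / 10))]
    have a3 : 1 ≤ Real.exp (l * (6 / 10)) * h := one_le_mul_of_one_le_of_one_le a1 hr1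
    have a4 : Real.exp (l * (6 / 10)) * h * 2 ≤
        Real.exp (l * (6 / 10)) * h * Real.exp (l * (1 / 10)) := by gcongr
    rw [a] at hv'
    linarith
  have hCr : (C : ℝ) = C₁ + 1 + (C₃ + 1) * (K'' + 1) := by rw [hC]; push_cast; ring
  have q1 : 0 ≤ C₃ * ((K'' + 1) * l) := by positivity
  have q2 : 0 ≤ (K'' + 1) * l := by positivity
  have q3 : 0 ≤ C₁ * l := by positivity
  have q4 : C * l = C₁ * l + l + C₃ * ((K'' + 1) * l) + (K'' + 1) * l := by rw [hCr]; ring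
  have hcC : (c : ℝ) ≤ LL M ^ C := by
    refine hcL.trans ?_
    rw [ePow, ePow, Real.exp_le_exp]; linarith
  have hPC : Real.exp ((σ₁ : ℝ) / h) ≤ LL M ^ C := by rw [ePow, Real.exp_le_exp]; linarith
  have H1' : Real.exp (3 / 2 * lam) * (d * Real.exp ((i : ℝ) / h) * pd Q) ≤ M := by
    convert H1 using 3; rw [hlam]; field_simp
  have H2' : M ≤ Real.exp (C₃ * lam) * (d * Real.exp ((i : ℝ) / h)) := by
    convert H2 using 3; rw [hlam]; ring
  have hdr : (0 : ℝ) < d := Nat.cast_pos.2 hd0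
  have hQp : ∀ p ∈ Q, p.Prime := fun p hp => ((mem_Pr hh0).1 (hQ hp)).1
  have hQ0 := pd_pos hQp
  have hQr : (1 : ℝ) ≤ pd Q := by exact_mod_cast hQ0
  have hQC : (pd Q : ℝ) ≤ LL M ^ C := by
    have a1 : d * Real.exp ((i : ℝ) / h) * pd Q ≤
        d * Real.exp ((i : ℝ) / h) * Real.exp (C₃ * lam) := by
      have := le_mul_of_one_le_left (by positivity : 0 ≤ d * Real.exp ((i : ℝ) / h) * pd Q)
        (Real.one_le_exp (by linarith : 0 ≤ 3 / 2 * lam))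
      linarith
    refine (le_of_mul_le_mul_left a1 (by positivity)).trans ?_
    rw [ePow, Real.exp_le_exp]
    have : C₃ * lam ≤ C₃ * ((K'' + 1) * l) := by gcongr
    linarith
  have hc0 : (1 : ℝ) ≤ c := by exact_mod_cast hc
  rw [ePow] at hcL hbM
  have hcσ : ∀ p : ℕ, p.Prime → (p : ℤ) ∣ c → sz h p < σ₀ := by
    intro p hp hm
    have a1 : (p : ℝ) ≤ c := by exact_mod_cast Int.le_of_dvd (by omega) hm
    have a2 : Real.log p ≤ C₁ * l := by
      rw [Real.log_le_iff_le_exp (Nat.cast_pos.2 hp.pos)]; linarith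
    have a3 := (sz_le_log hh0 p).trans a2
    rw [div_le_iff₀ hr] at a3
    have a4 : 0 ≤ C₁ * l * h := by positivity
    have : (sz h p : ℝ) < σ₀ := by linarith
    exact Nat.cast_lt.1 this
  obtain ⟨Qs, Qu, hcase⟩ : ∃ Qs Qu : ℕ, ((∀ l ∈ Q, Str X c b l) ∧ Qs = pd Q ∧ Qu = 1) ∨
      ((∀ l ∈ Q, ¬ Str X c b l) ∧ Qs = 1 ∧ Qu = pd Q) := by
    rcases hstr with a | a
    · exact ⟨_, _, Or.inl ⟨a, rfl, rfl⟩⟩
    · exact ⟨_, _, Or.inr ⟨a, rfl, rfl⟩⟩
  have hQs0 : 0 < Qs := by rcases hcase with ⟨-, h3, -⟩ | ⟨-, h3, -⟩ <;> omega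
  have hQs1 : Qs ≤ pd Q := by rcases hcase with ⟨-, h3, -⟩ | ⟨-, h3, -⟩ <;> omega
  set V := vlV X c b (Pr h 0 σ₁) Q with hV
  have hVP : V ⊆ Pr h 0 σ₁ := fun l hl => (mem_sdiff.1 (mem_filter.1 hl).1).1
  set 𝓑 := V.powerset.filter (fun B => (pd B : ℝ) ≤ Real.exp (lam / 5) ∧ (2 ∈ V → 2 ∈ B)) with h𝓑
  set Yf : ℕ → ℝ := fun j => c * (M / 4 + j * (M / (16 * h))) - b with hYf
  have hbr : (b : ℝ) ≤ 0 := by exact_mod_cast hb
  have hbM' : -(b : ℝ) ≤ M * Real.exp (C₁ * l) := (neg_le_abs _).trans hbM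
  have h32 : 32 * (h : ℝ) ≤ Real.exp l := by
    have := Real.quadratic_le_exp_of_nonneg (by linarith : 0 ≤ l)
    have a : 704 * l ≤ l * l := by gcongr
    linarith
  have block : ∀ j ∈ range (4 * h), ∀ B ∈ 𝓑, ∃ (Qp : Finset ℕ) (Us : ℕ → Finset ℕ),
      (∀ q ∈ Qp, q.Prime ∧ q ∉ Pr h 0 σ₁) ∧
      (∀ q ∈ Qp, ∀ u ∈ Us q, u ∈ Pr h i (i + 1) ∧ ∃ n ∈ An M X c b (d * u) (Pr h 0 σ₁) Q,
        c * n - b = ((d * (Qs * pd B * q) : ℕ) : ℤ) * u ∧ Yf j < ((c * n - b : ℤ) : ℝ) ∧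
          ((c * n - b : ℤ) : ℝ) ≤ Yf (j + 1)) ∧
      M / (16 * h) / (d * pd Q) / (64 * ((C₃ + 2) * lam) * i) *
        (wt iv B * ∏ l ∈ V \ B, (1 - 1 / ((l : ℝ) - 1))) ≤ ∑ q ∈ Qp, ((Us q).card : ℝ) := by
    intro j hj B hB
    obtain ⟨b1, b2, b3⟩ := mem_filter.1 hB
    have b1' := mem_powerset.1 b1
    have hj' : (j : ℝ) + 1 ≤ 4 * h := by exact_mod_cast mem_range.1 hj
    obtain ⟨y1, y2, y3, y4, y5, y6, y7, y8⟩ := vl_eta hM0 hc0 hr1 (Real.one_le_exp q3) hbr hbM'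
      (Nat.cast_nonneg j) hj' (Y := Yf j) rfl
    have hB0 : (1 : ℝ) ≤ pd B := by
      exact_mod_cast pd_pos fun p hp => ((mem_Pr hh0).1 (hVP (b1' hp))).1
    obtain ⟨z1, z2⟩ := vl_y hdr (by exact_mod_cast hQs0 : (1 : ℝ) ≤ Qs) (Nat.cast_le.2 hQs1) hB0 b2
      hr1 (by linarith) f1 y1 y2 hcL H1' H2' rfl
    generalize hy : Yf j / (d * (Qs * pd B) * (Real.exp (((i : ℝ) - 1) / h) * (1 + 1 / (2 * h)))) = y
      at z1 z2
    have z3 : l ≤ Real.log y := by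
      rw [Real.le_log_iff_exp_le ((Real.exp_pos _).trans_le z1)]
      exact (Real.exp_le_exp.2 (by linarith)).trans z1
    obtain ⟨Qp, Us, r1, r2, r3⟩ := vl_block hps hone hh0 hcb hc hcC hQ hcase b1' b3 hd0 hd hcσ hσ f5
      f5' hPC hQC f6 y6 (le_trans (by
        rw [ePow]
        refine one_div_le_one_div_of_le (by positivity) ?_
        calc _ ≤ Real.exp l * Real.exp (C₁ * l) := by gcongr
          _ ≤ _ := by rw [← Real.exp_add, Real.exp_le_exp]; linarith) y7) y8 y3 y5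
      (y := y) (by rw [← hy]; push_cast; rfl)
      (by linarith [Real.add_one_le_exp (11 / 10 * lam)]) ((Real.exp_le_exp.2 f3).trans z1) (by
        refine one_div_le_one_div_of_le (by positivity) ?_
        calc 2 * (h : ℝ) ≤ 22 * 1 * l := by linarith
          _ ≤ l * l * l := by gcongr <;> linarith
          _ = l ^ 3 := by ring
          _ ≤ _ := by gcongr) z2
    refine ⟨Qp, Us, r1, fun q hq u hu => ?_, le_trans (le_of_eq ?_) r3⟩
    · have := r2 q hq u hu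
      rw [y4] at this
      simpa only [hYf, Nat.cast_add, Nat.cast_one] using this
    · have : 0 < Yf j := by linarith
      congr 3
      field_simp
  choose! Qp Us r1 r2 r3 using block
  have hmono : Monotone Yf := fun j j' hj => by
    have : (j : ℝ) ≤ j' := Nat.cast_le.2 hj
    simp only [hYf]
    gcongr
  refine le_trans ?_ (vl_count 𝓑 Yf hmono Qp Us hh0 hc hd0 hQs0
    (fun p hp => ((mem_Pr hh0).1 hp).1) (fun B hB => (mem_powerset.1 (mem_filter.1 hB).1).trans hVP)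
    r1 r2)
  have hs := hsm lam V (by linarith) fun p hp => by
    obtain ⟨a1, -, a2⟩ := (mem_Pr hh0).1 (hVP hp)
    refine ⟨a1, ?_⟩
    rw [← Real.log_le_iff_le_exp (Nat.cast_pos.2 a1.pos)]
    have a3 : (sz h p : ℝ) / h ≤ σ₁ / h := by
      have : (sz h p : ℝ) ≤ σ₁ := Nat.cast_le.2 a2.le
      gcongr
    linarith [log_lt_sz hh0 p]
  have hs' : c₀ ≤ ∑ B ∈ 𝓑, wt iv B * ∏ l ∈ V \ B, (1 - 1 / ((l : ℝ) - 1)) := by
    refine hs.trans (le_of_eq (sum_subset (fun B hB => ?_) fun B hB hB' => ?_).symm)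
    · exact mem_filter.2 ⟨(mem_filter.1 hB).1, (mem_filter.1 hB).2.1⟩
    · have a : ¬ (2 ∈ V → 2 ∈ B) := fun a =>
        hB' (mem_filter.2 ⟨(mem_filter.1 hB).1, (mem_filter.1 hB).2, a⟩)
      rw [Classical.not_imp] at a
      rw [prod_eq_zero (mem_sdiff.2 a) (by norm_num), mul_zero]
  have hi0 : (0 : ℝ) < i := Nat.cast_pos.2 (by omega)
  have hlam0 : 0 < lam := by linarith
  calc _ = ∑ _j ∈ range (4 * h), M / (16 * h) / (d * pd Q) / (64 * ((C₃ + 2) * lam) * i) * c₀ := by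
        have e : (h : ℝ) / σ₀ = 1 / lam := by rw [hlam, one_div_div]
        rw [sum_const, card_range, nsmul_eq_mul, e]
        push_cast
        field_simp
        ring
    _ ≤ _ := by
        refine sum_le_sum fun j hj => ?_
        refine le_trans ?_ (sum_le_sum (r3 j hj))
        rw [← mul_sum]
        gcongr

end Crest.Agent.R1
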