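import Crest.Agent.R1.Virt

/-!
# R1 / VirtLa: arithmetic and counting lemmas for `virt_lower`
-/

set_option autoImplicit false

namespace Crest.Agent.R1

open Finset Filter
open scoped Classical

lemma vl_str_not_dvd {X c b : ℤ} (hcb : IsCoprime c b) {l : ℕ} (hl : l.Prime) (hs : Str X c b l) :
    ¬ (l : ℤ) ∣ c := by
  intro h
  have h1 : (l : ℤ) ∣ b := by
    have := dvd_sub (h.mul_right X) hs
    simpa using this
  have h2 := hcb.isUnit_of_dvd' h h1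
  rw [Int.isUnit_iff_natAbs_eq, Int.natAbs_natCast] at h2
  exact hl.one_lt.ne' h2

lemma vl_dvd_pd {τ : Finset ℕ} (hτ : ∀ p ∈ τ, p.Prime) {l : ℕ} (hl : l.Prime) :
    l ∣ pd τ ↔ l ∈ τ := by
  rw [← primeFactors_pd hτ, Nat.mem_primeFactors, primeFactors_pd hτ]
  exact ⟨fun h => ⟨hl, h, (pd_pos hτ).ne'⟩, fun h => h.2.1⟩

/-- the sieving conditions for `n = (d m' u + b)/c` -/
lemma vl_point {X c b : ℤ} (hcb : IsCoprime c b) (hc : 1 ≤ c) {P Q B : Finset ℕ}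
    (hP : ∀ l ∈ P, l.Prime) (hQ : Q ⊆ P) {d Qs Qu q u : ℕ}
    (hcase : ((∀ l ∈ Q, Str X c b l) ∧ Qs = pd Q ∧ Qu = 1) ∨
      ((∀ l ∈ Q, ¬ Str X c b l) ∧ Qs = 1 ∧ Qu = pd Q))
    (hB : B ⊆ (P \ Q).filter (fun l => ¬ Str X c b l ∧ ¬ (l : ℤ) ∣ c))
    (hd : ∀ l ∈ P, ¬ l ∣ d) (hq : q.Prime) (hqP : q ∉ P) (hu : u.Prime) (huP : u ∉ P)
    (h1 : c * Qu ∣ ((d * (Qs * pd B * q) : ℕ) : ℤ) * u - (c * X - b))
    (h2 : ∀ l ∈ ((P \ Q).filter (fun l => ¬ Str X c b l ∧ ¬ (l : ℤ) ∣ c) \ B) ∪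
        (P \ Q).filter (fun l : ℕ => (l : ℤ) ∣ c),
      ¬ c * l ∣ ((d * (Qs * pd B * q) : ℕ) : ℤ) * u - (c * X - b)) :
    ∃ n : ℤ, c * n - b = ((d * (Qs * pd B * q) : ℕ) : ℤ) * u ∧
      ∀ l ∈ P, ((l : ℤ) ∣ n - X ↔ l ∈ Q) := by
  have hc0 : c ≠ 0 := by omega
  obtain ⟨w, hw⟩ := h1
  set N : ℤ := ((d * (Qs * pd B * q) : ℕ) : ℤ) * u with hN
  refine ⟨X + Qu * w, by linear_combination (-1 : ℤ) * hw, fun l hl => ?_⟩
  have hlp := hP l hl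
  have hlz : Prime (l : ℤ) := Nat.prime_iff_prime_int.1 hlp
  have hBP : ∀ p ∈ B, p.Prime := fun p hp => hP p (mem_sdiff.1 (mem_filter.1 (hB hp)).1).1
  have hQP : ∀ p ∈ Q, p.Prime := fun p hp => hP p (hQ hp)
  have e : X + Qu * w - X = Qu * w := by ring
  have hw' : N - (c * X - b) = c * (Qu * w) := by rw [hw]; ring
  rw [e]
  -- divisibility of `N` by primes of `P`
  have hdiv : (l : ℤ) ∣ N ↔ l ∣ Qs ∨ l ∈ B := by
    rw [hN, ← Nat.cast_mul, Int.natCast_dvd_natCast, hlp.dvd_mul, hlp.dvd_mul, hlp.dvd_mul,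
      hlp.dvd_mul, vl_dvd_pd hBP hlp]
    have a1 : ¬ l ∣ q := fun h => hqP (((Nat.prime_dvd_prime_iff_eq hlp hq).1 h) ▸ hl)
    have a2 : ¬ l ∣ u := fun h => huP (((Nat.prime_dvd_prime_iff_eq hlp hu).1 h) ▸ hl)
    have a3 := hd l hl
    tauto
  have hQs : l ∣ Qs → l ∈ Q := by
    intro h
    rcases hcase with ⟨-, h3, -⟩ | ⟨-, h3, -⟩
    · rw [h3] at h; exact (vl_dvd_pd hQP hlp).1 h
    · rw [h3] at h; exact absurd (Nat.dvd_one.1 h) hlp.one_lt.ne'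
  constructor
  · intro hit
    by_contra hlQ
    have hl' : l ∈ P \ Q := mem_sdiff.2 ⟨hl, hlQ⟩
    have hcl : c * l ∣ N - (c * X - b) := by rw [hw']; exact mul_dvd_mul_left c hit
    have hlc : (l : ℤ) ∣ N - (c * X - b) := (Dvd.intro_left c rfl).trans hcl
    by_cases hs : Str X c b l
    · have : (l : ℤ) ∣ N := by
        have := dvd_add hlc hs
        simpa using this
      rcases hdiv.1 this with h | h
      · exact hlQ (hQs h)
      · exact (mem_filter.1 (hB h)).2.1 hs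
    · by_cases hlB : l ∈ B
      · have h3 : (l : ℤ) ∣ N := hdiv.2 (Or.inr hlB)
        apply hs
        have := dvd_sub h3 hlc
        simpa [Str] using this
      · by_cases hc' : (l : ℤ) ∣ c
        · exact h2 l (mem_union_right _ (mem_filter.2 ⟨hl', hc'⟩)) hcl
        · exact h2 l (mem_union_left _ (mem_sdiff.2 ⟨mem_filter.2 ⟨hl', hs, hc'⟩, hlB⟩)) hcl
  · intro hlQ
    rcases hcase with ⟨h3, h4, -⟩ | ⟨-, -, h4⟩
    · have a1 : (l : ℤ) ∣ N := hdiv.2 (Or.inl (by rw [h4]; exact (vl_dvd_pd hQP hlp).2 hlQ))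
      have a2 : (l : ℤ) ∣ c * (Qu * w) := by rw [← hw']; exact dvd_sub a1 (h3 l hlQ)
      exact (hlz.dvd_or_dvd a2).resolve_left (vl_str_not_dvd hcb hlp (h3 l hlQ))
    · refine Dvd.dvd.mul_right ?_ w
      rw [h4]
      exact Int.natCast_dvd_natCast.2 ((vl_dvd_pd hQP hlp).2 hlQ)

/-- the counting step -/
lemma vl_count {M : ℝ} {X c b : ℤ} {h d i Qs n₀ : ℕ} {P Q : Finset ℕ} (𝓑 : Finset (Finset ℕ))
    (Y : ℕ → ℝ) (hY : Monotone Y) (Qp : ℕ → Finset ℕ → Finset ℕ)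
    (Us : ℕ → Finset ℕ → ℕ → Finset ℕ) (hh : 0 < h) (hc : 1 ≤ c) (hd : 0 < d) (hQs : 0 < Qs)
    (hP : ∀ l ∈ P, l.Prime) (hB : ∀ B ∈ 𝓑, B ⊆ P)
    (hq : ∀ j ∈ range n₀, ∀ B ∈ 𝓑, ∀ q ∈ Qp j B, q.Prime ∧ q ∉ P)
    (hu : ∀ j ∈ range n₀, ∀ B ∈ 𝓑, ∀ q ∈ Qp j B, ∀ u ∈ Us j B q, u ∈ Pr h i (i + 1) ∧
      ∃ n ∈ An M X c b (d * u) P Q, c * n - b = ((d * (Qs * pd B * q) : ℕ) : ℤ) * u ∧
        Y j < ((c * n - b : ℤ) : ℝ) ∧ ((c * n - b : ℤ) : ℝ) ≤ Y (j + 1)) :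
    ∑ j ∈ range n₀, ∑ B ∈ 𝓑, ∑ q ∈ Qp j B, ((Us j B q).card : ℝ) ≤
      ∑ u ∈ Pr h i (i + 1), ((An M X c b (d * u) P Q).card : ℝ) := by
  have hc0 : c ≠ 0 := by omega
  set T := (range n₀).sigma (fun j => 𝓑.sigma (fun B => (Qp j B).sigma (fun q => Us j B q))) with hT
  set T' := (Pr h i (i + 1)).sigma (fun u => An M X c b (d * u) P Q) with hT'
  have e1 : ∑ j ∈ range n₀, ∑ B ∈ 𝓑, ∑ q ∈ Qp j B, ((Us j B q).card : ℝ) = T.card := by
    simp only [hT, card_sigma]; push_cast; rfl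
  have e2 : ∑ u ∈ Pr h i (i + 1), ((An M X c b (d * u) P Q).card : ℝ) = T'.card := by
    simp only [hT', card_sigma]; push_cast; rfl
  rw [e1, e2]
  let f : (Σ _ : ℕ, Σ _ : Finset ℕ, Σ _ : ℕ, ℕ) → (Σ _ : ℕ, ℤ) := fun z =>
    ⟨z.2.2.2, (((d * (Qs * pd z.2.1 * z.2.2.1) : ℕ) : ℤ) * z.2.2.2 + b) / c⟩
  have key : ∀ z ∈ T, z.1 ∈ range n₀ ∧ z.2.1 ∈ 𝓑 ∧ z.2.2.1 ∈ Qp z.1 z.2.1 ∧
      z.2.2.2 ∈ Pr h i (i + 1) ∧ (f z).2 ∈ An M X c b (d * z.2.2.2) P Q ∧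
      c * (f z).2 - b = ((d * (Qs * pd z.2.1 * z.2.2.1) : ℕ) : ℤ) * z.2.2.2 ∧
      Y z.1 < ((c * (f z).2 - b : ℤ) : ℝ) ∧ ((c * (f z).2 - b : ℤ) : ℝ) ≤ Y (z.1 + 1) := by
    intro z hz
    simp only [hT, mem_sigma] at hz
    obtain ⟨h1, h2, h3, h4⟩ := hz
    obtain ⟨h5, n, hn, h6, h7, h8⟩ := hu _ h1 _ h2 _ h3 _ h4
    have : (f z).2 = n := by
      show (((d * (Qs * pd z.2.1 * z.2.2.1) : ℕ) : ℤ) * z.2.2.2 + b) / c = n
      rw [← h6, sub_add_cancel, Int.mul_ediv_cancel_left _ hc0]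
    rw [this]
    exact ⟨h1, h2, h3, h5, hn, h6, h7, h8⟩
  exact_mod_cast card_le_card_of_injOn f (fun z hz => by
    obtain ⟨-, -, -, h4, h5, -⟩ := key z hz
    exact mem_coe.2 (mem_sigma.2 ⟨h4, h5⟩)) (fun z hz z' hz' hf => by
    obtain ⟨a1, a2, a3, a4, -, a6, a7, a8⟩ := key z hz
    obtain ⟨b1, b2, b3, b4, -, b6, b7, b8⟩ := key z' hz'
    have hu' : z.2.2.2 = z'.2.2.2 := congrArg Sigma.fst hf
    have hn : (f z).2 = (f z').2 := by rw [hf]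
    have hj : z.1 = z'.1 := by
      rw [hn] at a7 a8
      by_contra hne
      rcases lt_or_gt_of_ne hne with h | h
      · have := hY (Nat.succ_le_of_lt h); linarith
      · have := hY (Nat.succ_le_of_lt h); linarith
    have hup : 0 < z'.2.2.2 := ((mem_Pr hh).1 b4).1.pos
    have hm : pd z.2.1 * z.2.2.1 = pd z'.2.1 * z'.2.2.1 := by
      rw [hn, b6, hu'] at a6
      have h1 : d * (Qs * pd z'.2.1 * z'.2.2.1) * z'.2.2.2 =
          d * (Qs * pd z.2.1 * z.2.2.1) * z'.2.2.2 := by exact_mod_cast a6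
      have h2 := Nat.eq_of_mul_eq_mul_left hd (Nat.eq_of_mul_eq_mul_right hup h1)
      rw [mul_assoc, mul_assoc] at h2
      exact (Nat.eq_of_mul_eq_mul_left hQs h2).symm
    obtain ⟨q1, q2⟩ := hq _ a1 _ a2 _ a3
    obtain ⟨q3, q4⟩ := hq _ b1 _ b2 _ b3
    have hBp : ∀ p ∈ z.2.1, p.Prime := fun p hp => hP p (hB _ a2 hp)
    have hBp' : ∀ p ∈ z'.2.1, p.Prime := fun p hp => hP p (hB _ b2 hp)
    have hq' : z.2.2.1 = z'.2.2.1 := by
      have : z.2.2.1 ∣ pd z'.2.1 * z'.2.2.1 := hm ▸ Dvd.intro_left _ rfl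
      rcases (q1.dvd_mul).1 this with h | h
      · exact absurd (hB _ b2 ((vl_dvd_pd hBp' q1).1 h)) q2
      · exact (Nat.prime_dvd_prime_iff_eq q1 q3).1 h
    have hB' : z.2.1 = z'.2.1 := by
      rw [hq'] at hm
      have := Nat.eq_of_mul_eq_mul_right q3.pos hm
      rw [← primeFactors_pd hBp, this, primeFactors_pd hBp']
    obtain ⟨j, B, q, u⟩ := z
    obtain ⟨j', B', q', u'⟩ := z'
    simp only at hj hB' hq' hu'
    subst hj hB' hq' hu'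
    rfl)

lemma vl_totient_le (n q : ℕ) : Nat.totient (n * q) ≤ Nat.totient n * q := by
  induction q using induction_on_primes with
  | zero => simp
  | one => simp
  | prime_mul p a hp ih =>
    have h : Nat.totient (p * (n * a)) ≤ p * Nat.totient (n * a) := by
      by_cases hd : p ∣ n * a
      · rw [Nat.totient_mul_of_prime_of_dvd hp hd]
      · rw [Nat.totient_mul_of_prime_of_not_dvd hp hd]
        exact Nat.mul_le_mul_right _ (Nat.sub_le _ _)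
    calc Nat.totient (n * (p * a)) = Nat.totient (p * (n * a)) := by ring_nf
      _ ≤ p * (Nat.totient n * a) := h.trans (Nat.mul_le_mul_left _ ih)
      _ = _ := by ring

/-- the Euler factors at the primes dividing `c` -/
lemma vl_prod {c : ℤ} (hc : 1 ≤ c) {V W : Finset ℕ} (hV : ∀ l ∈ V, l.Prime ∧ ¬ (l : ℤ) ∣ c)
    (hW : ∀ l ∈ W, l.Prime ∧ (l : ℤ) ∣ c) {Qu : ℕ} (hQu : 0 < Qu) :
    (∏ l ∈ V, (1 - 1 / ((l : ℝ) - 1))) / (c * Qu) ≤
      (∏ l ∈ V ∪ W, (1 - gc c l)) / Nat.totient (c.natAbs * Qu) := by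
  have hdis : Disjoint V W := disjoint_left.2 fun l h1 h2 => (hV l h1).2 (hW l h2).2
  have hcn : 0 < c.natAbs := Int.natAbs_pos.2 (by omega)
  have hcr : (c.natAbs : ℝ) = c := by
    rw [← Int.cast_natCast, Int.natAbs_of_nonneg (by omega)]
  have hc0 : (0 : ℝ) < c := by exact_mod_cast (by omega : (0 : ℤ) < c)
  have hQ0 : (0 : ℝ) < Qu := by exact_mod_cast hQu
  have e1 : ∏ l ∈ V, (1 - gc c l) = ∏ l ∈ V, (1 - 1 / ((l : ℝ) - 1)) :=
    prod_congr rfl fun l hl => by rw [gc, if_neg (hV l hl).2]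
  have e2 : ∏ l ∈ W, (1 - gc c l) = ∏ l ∈ W, (1 - 1 / (l : ℝ)) :=
    prod_congr rfl fun l hl => by rw [gc, if_pos (hW l hl).2]
  have hA : 0 ≤ ∏ l ∈ V, (1 - 1 / ((l : ℝ) - 1)) := prod_nonneg fun l hl => by
    have : (2 : ℝ) ≤ l := by exact_mod_cast (hV l hl).1.two_le
    rw [sub_nonneg, div_le_one (by linarith)]; linarith
  have hWs : W ⊆ c.natAbs.primeFactors := fun l hl =>
    Nat.mem_primeFactors.2 ⟨(hW l hl).1, Int.natCast_dvd.1 (hW l hl).2, hcn.ne'⟩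
  have hφ : (Nat.totient c.natAbs : ℝ) = c * ∏ l ∈ c.natAbs.primeFactors, (1 - 1 / (l : ℝ)) := by
    have := congrArg (fun x : ℚ => (x : ℝ)) (Nat.totient_eq_mul_prod_factors c.natAbs)
    simp only [Rat.cast_natCast, Rat.cast_mul, Rat.cast_prod, Rat.cast_sub, Rat.cast_one,
      Rat.cast_inv] at this
    rw [this, hcr]
    simp only [one_div]
  have hle : ∏ l ∈ c.natAbs.primeFactors, (1 - 1 / (l : ℝ)) ≤ ∏ l ∈ W, (1 - 1 / (l : ℝ)) := by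
    refine prod_le_prod_of_subset_of_le_one hWs (fun l hl => ?_) (fun l hl _ => ?_)
    · have : (2 : ℝ) ≤ l := by exact_mod_cast (Nat.prime_of_mem_primeFactors hl).two_le
      rw [sub_nonneg, div_le_one (by linarith)]; linarith
    · have : (0 : ℝ) ≤ 1 / (l : ℝ) := by positivity
      linarith
  have ht0 : (0 : ℝ) < Nat.totient (c.natAbs * Qu) := by
    exact_mod_cast Nat.totient_pos.2 (Nat.mul_pos hcn hQu)
  have ht : (Nat.totient (c.natAbs * Qu) : ℝ) ≤ Nat.totient c.natAbs * Qu := by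
    exact_mod_cast vl_totient_le c.natAbs Qu
  rw [prod_union hdis, e1, e2, div_le_div_iff₀ (by positivity) ht0]
  calc _ ≤ (∏ l ∈ V, (1 - 1 / ((l : ℝ) - 1))) *
        (c * (∏ l ∈ W, (1 - 1 / (l : ℝ))) * Qu) := by
        refine mul_le_mul_of_nonneg_left (ht.trans ?_) hA
        rw [hφ]
        gcongr
    _ = _ := by ring

end Crest.Agent.R1
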