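import Crest.Agent.R1.VirtLa

/-!
# R1 / VirtLb: one cell `(j, B, q')` of the count in `virt_lower`
-/

set_option autoImplicit false

namespace Crest.Agent.R1

open Finset Filter
open scoped Classical

lemma vl_cop {a b : ℤ} (h : ∀ p : ℕ, p.Prime → (p : ℤ) ∣ a → (p : ℤ) ∣ b → False) :
    IsCoprime a b := by
  rw [Int.isCoprime_iff_gcd_eq_one, Nat.eq_one_iff_not_exists_prime_dvd]
  intro p hp hd
  have h1 : (p : ℤ) ∣ (Int.gcd a b : ℤ) := Int.natCast_dvd_natCast.2 hd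
  exact h p hp (h1.trans (Int.gcd_dvd_left a b)) (h1.trans (Int.gcd_dvd_right a b))

/-- the statement of `virt_one` at one `M` -/
def VOne (C : ℕ) (M : ℝ) : Prop := ∀ (B₀ η : ℝ) (c Y N₀ : ℤ) (q : ℕ) (P : Finset ℕ),
    Real.exp (LL M ^ (6 / 10 : ℝ)) ≤ B₀ → 1 / LL M ^ C ≤ η → η ≤ 1 → 1 ≤ c → (c : ℝ) ≤ LL M ^ C →
    1 ≤ q → (q : ℝ) ≤ LL M ^ C → IsCoprime N₀ (c * q) → IsCoprime Y (c * q) →
    (∀ l ∈ P, l.Prime ∧ (l : ℝ) ≤ LL M ^ C ∧ ¬ l ∣ q ∧ ¬ (l : ℤ) ∣ N₀ ∧ ¬ (l : ℤ) ∣ Y ∧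
      (l = 2 → (2 : ℤ) ∣ c)) →
    η * B₀ / (4 * Real.log (2 * B₀)) / Nat.totient (c.natAbs * q) * ∏ l ∈ P, (1 - gc c l) ≤
      (((Ioc ⌊B₀⌋₊ ⌊B₀ * (1 + η)⌋₊).filter (fun u : ℕ => u.Prime ∧ c * q ∣ N₀ * u - Y ∧
        ∀ l ∈ P, ¬ c * l ∣ N₀ * u - Y)).card : ℝ)

/-- the free primes -/
noncomputable def vlV (X c b : ℤ) (P Q : Finset ℕ) : Finset ℕ :=
  (P \ Q).filter (fun l => ¬ Str X c b l ∧ ¬ (l : ℤ) ∣ c)

lemma vl_win {h i : ℕ} (hh : 0 < h) {B₀ η : ℝ} (hη0 : 0 ≤ η) (hη : η ≤ 1 / (4 * h))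
    (h1 : B₀ ≤ Real.exp (((i : ℝ) - 1) / h) * (1 + 1 / (2 * h))) :
    B₀ * (1 + η) < Real.exp ((i : ℝ) / h) := by
  have hr : (0 : ℝ) < h := Nat.cast_pos.2 hh
  have a1 : 1 + 1 / (2 * (h : ℝ)) ≤ Real.exp (1 / (2 * h)) := by
    linarith [Real.add_one_le_exp (1 / (2 * (h : ℝ)))]
  have a2 : 1 + η ≤ Real.exp (1 / (4 * h)) := by
    linarith [Real.add_one_le_exp (1 / (4 * (h : ℝ)))]
  calc B₀ * (1 + η) ≤ Real.exp (((i : ℝ) - 1) / h) * Real.exp (1 / (2 * h)) *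
        Real.exp (1 / (4 * h)) := by
        refine mul_le_mul (h1.trans ?_) a2 (by linarith) (by positivity)
        gcongr
    _ < _ := by
        rw [← Real.exp_add, ← Real.exp_add, Real.exp_lt_exp]
        have : ((i : ℝ) - 1) / h + 1 / (2 * h) + 1 / (4 * h) = i / h - 1 / (4 * h) := by
          field_simp; ring
        have h2 : 0 < 1 / (4 * (h : ℝ)) := by positivity
        linarith

lemma vl_cell {M : ℝ} {C : ℕ} (hone : VOne C M) {X c b : ℤ} {h d i σ₀ σ₁ Qs Qu q : ℕ}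
    {Q B : Finset ℕ} {Y η : ℝ} (hh : 0 < h) (hcb : IsCoprime c b) (hc : 1 ≤ c)
    (hcC : (c : ℝ) ≤ LL M ^ C) (hQ : Q ⊆ Pr h σ₀ σ₁)
    (hcase : ((∀ l ∈ Q, Str X c b l) ∧ Qs = pd Q ∧ Qu = 1) ∨
      ((∀ l ∈ Q, ¬ Str X c b l) ∧ Qs = 1 ∧ Qu = pd Q))
    (hB : B ⊆ vlV X c b (Pr h 0 σ₁) Q) (h2 : 2 ∈ vlV X c b (Pr h 0 σ₁) Q → 2 ∈ B)
    (hd0 : 0 < d) (hd : ∀ p : ℕ, p.Prime → p ∣ d → σ₁ ≤ sz h p)
    (hcσ : ∀ p : ℕ, p.Prime → (p : ℤ) ∣ c → sz h p < σ₀) (hσ : σ₀ ≤ σ₁) (hσi : σ₁ ≤ i)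
    (hi : h ≤ i) (hq : q.Prime) (hqσ : σ₁ ≤ sz h q)
    (hPC : Real.exp ((σ₁ : ℝ) / h) ≤ LL M ^ C) (hQC : (pd Q : ℝ) ≤ LL M ^ C)
    (hU : LL M ^ (6 / 10 : ℝ) ≤ ((i : ℝ) - 1) / h) (hη0 : 0 < η) (hη : 1 / LL M ^ C ≤ η)
    (hη' : η ≤ 1 / (4 * h))
    (hB₀ : Real.exp (((i : ℝ) - 1) / h) ≤ Y / ((d * (Qs * pd B * q) : ℕ) : ℝ))
    (hB₁ : Y / ((d * (Qs * pd B * q) : ℕ) : ℝ) ≤
      Real.exp (((i : ℝ) - 1) / h) * (1 + 1 / (2 * h)))
    (hY : c * (M / 4) - b ≤ Y) (hY' : Y * (1 + η) ≤ c * (M / 2) - b) :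
    ∃ Us : Finset ℕ, η * Real.exp (((i : ℝ) - 1) / h) * h / (8 * i) *
        ((∏ l ∈ vlV X c b (Pr h 0 σ₁) Q \ B, (1 - 1 / ((l : ℝ) - 1))) / (c * Qu)) ≤ Us.card ∧
      ∀ u ∈ Us, u ∈ Pr h i (i + 1) ∧ ∃ n ∈ An M X c b (d * u) (Pr h 0 σ₁) Q,
        c * n - b = ((d * (Qs * pd B * q) : ℕ) : ℤ) * u ∧ Y < ((c * n - b : ℤ) : ℝ) ∧
          ((c * n - b : ℤ) : ℝ) ≤ Y * (1 + η) := by
  set P := Pr h 0 σ₁ with hPdef
  set V := vlV X c b P Q with hVdef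
  set W := (P \ Q).filter (fun l : ℕ => (l : ℤ) ∣ c) with hWdef
  set N : ℕ := d * (Qs * pd B * q) with hN
  set B₀ : ℝ := Y / (N : ℝ) with hB₀def
  have hr : (0 : ℝ) < h := Nat.cast_pos.2 hh
  have hr1 : (1 : ℝ) ≤ h := by exact_mod_cast hh
  have hP : ∀ l ∈ P, l.Prime ∧ sz h l < σ₁ := fun l hl =>
    ⟨((mem_Pr hh).1 hl).1, ((mem_Pr hh).1 hl).2.2⟩
  have hQ' : ∀ l ∈ Q, l.Prime ∧ σ₀ ≤ sz h l ∧ sz h l < σ₁ := fun l hl => (mem_Pr hh).1 (hQ hl)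
  have hQP : Q ⊆ P := fun l hl => (mem_Pr hh).2 ⟨(hQ' l hl).1, Nat.zero_le _, (hQ' l hl).2.2⟩
  have hQp : ∀ l ∈ Q, l.Prime := fun l hl => (hQ' l hl).1
  have hV : ∀ l ∈ V, l ∈ P ∧ l ∉ Q ∧ ¬ Str X c b l ∧ ¬ (l : ℤ) ∣ c := fun l hl => by
    have := mem_filter.1 hl
    exact ⟨(mem_sdiff.1 this.1).1, (mem_sdiff.1 this.1).2, this.2.1, this.2.2⟩
  have hW : ∀ l ∈ W, l ∈ P ∧ l ∉ Q ∧ (l : ℤ) ∣ c := fun l hl => by
    have := mem_filter.1 hl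
    exact ⟨(mem_sdiff.1 this.1).1, (mem_sdiff.1 this.1).2, this.2⟩
  have hBp : ∀ l ∈ B, l.Prime := fun l hl => (hP l (hV l (hB hl)).1).1
  have hqP : q ∉ P := fun hm => absurd (hP q hm).2 (not_lt.2 hqσ)
  have hdP : ∀ l ∈ P, ¬ l ∣ d := fun l hl hm => absurd (hP l hl).2 (not_lt.2 (hd l (hP l hl).1 hm))
  have hQs : ∀ l : ℕ, l.Prime → l ∣ Qs → l ∈ Q ∧ Qu = 1 := by
    intro l hl hm
    rcases hcase with ⟨-, h3, h4⟩ | ⟨-, h3, -⟩
    · rw [h3] at hm; exact ⟨(vl_dvd_pd hQp hl).1 hm, h4⟩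
    · rw [h3] at hm; exact absurd (Nat.dvd_one.1 hm) hl.one_lt.ne'
  have hQu : ∀ l : ℕ, l.Prime → l ∣ Qu → l ∈ Q ∧ ¬ Str X c b l := by
    intro l hl hm
    rcases hcase with ⟨-, -, h3⟩ | ⟨h4, -, h3⟩
    · rw [h3] at hm; exact absurd (Nat.dvd_one.1 hm) hl.one_lt.ne'
    · rw [h3] at hm; exact ⟨(vl_dvd_pd hQp hl).1 hm, h4 l ((vl_dvd_pd hQp hl).1 hm)⟩
  have hQ0 := pd_pos hQp
  have hQu0 : 0 < Qu := by rcases hcase with ⟨-, -, h3⟩ | ⟨-, -, h3⟩ <;> omega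
  have hQs0 : 0 < Qs := by rcases hcase with ⟨-, h3, -⟩ | ⟨-, h3, -⟩ <;> omega
  have hQuC : (Qu : ℝ) ≤ LL M ^ C := by
    refine le_trans ?_ hQC
    rcases hcase with ⟨-, -, h3⟩ | ⟨-, -, h3⟩
    · rw [h3]; exact_mod_cast hQ0
    · rw [h3]
  have hN0 : 0 < N := Nat.mul_pos hd0 (Nat.mul_pos (Nat.mul_pos hQs0 (pd_pos hBp)) hq.pos)
  have hNr : (0 : ℝ) < N := Nat.cast_pos.2 hN0
  have hNd : ∀ l : ℕ, l.Prime → (l : ℤ) ∣ (N : ℤ) →
      σ₁ ≤ sz h l ∨ (l ∈ Q ∧ Qu = 1) ∨ l ∈ B := by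
    intro l hl hm
    rw [Int.natCast_dvd_natCast, hN, hl.dvd_mul, hl.dvd_mul, hl.dvd_mul, vl_dvd_pd hBp hl] at hm
    rcases hm with hm | (hm | hm) | hm
    · exact Or.inl (hd l hl hm)
    · exact Or.inr (Or.inl (hQs l hl hm))
    · exact Or.inr (Or.inr hm)
    · exact Or.inl (((Nat.prime_dvd_prime_iff_eq hl hq).1 hm) ▸ hqσ)
  have hsplit : ∀ l : ℕ, l.Prime → (l : ℤ) ∣ c * Qu → (l : ℤ) ∣ c ∨ l ∣ Qu := fun l hl hm =>
    ((Nat.prime_iff_prime_int.1 hl).dvd_or_dvd hm).imp id Int.natCast_dvd_natCast.1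
  have c1 : IsCoprime (N : ℤ) (c * Qu) := by
    refine vl_cop fun l hl a1 a2 => ?_
    rcases hsplit l hl a2 with a | a
    · have := hcσ l hl a
      rcases hNd l hl a1 with a3 | ⟨a3, -⟩ | a3
      · omega
      · have := (hQ' l a3).2.1; omega
      · exact (hV l (hB a3)).2.2.2 a
    · obtain ⟨a4, -⟩ := hQu l hl a
      rcases hNd l hl a1 with a3 | ⟨-, a3⟩ | a3
      · have := (hQ' l a4).2.2; omega
      · rw [a3] at a; exact hl.one_lt.ne' (Nat.dvd_one.1 a)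
      · exact (hV l (hB a3)).2.1 a4
  have c2 : IsCoprime (c * X - b) (c * Qu) := by
    refine vl_cop fun l hl a1 a2 => ?_
    rcases hsplit l hl a2 with a | a
    · exact vl_str_not_dvd hcb hl a1 a
    · exact (hQu l hl a).2 a1
  have hη1 : η ≤ 1 := hη'.trans (by rw [div_le_one (by positivity)]; linarith)
  have key := hone B₀ η c (c * X - b) N Qu ((V \ B) ∪ W)
    ((Real.exp_le_exp.2 hU).trans hB₀) hη hη1 hc hcC hQu0 hQuC c1 c2 (by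
      intro l hl
      have hl' : l ∈ P ∧ l ∉ Q ∧ l ∉ B ∧ ¬ Str X c b l ∧ (l = 2 → (2 : ℤ) ∣ c) := by
        rcases mem_union.1 hl with a | a
        · obtain ⟨a1, a2⟩ := mem_sdiff.1 a
          refine ⟨(hV l a1).1, (hV l a1).2.1, a2, (hV l a1).2.2.1, fun e => ?_⟩
          subst e
          exact absurd (h2 a1) a2
        · obtain ⟨a1, a2, a3⟩ := hW l a
          refine ⟨a1, a2, fun a4 => (hV l (hB a4)).2.2.2 a3,
            fun a4 => vl_str_not_dvd hcb (hP l a1).1 a4 a3, fun e => ?_⟩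
          subst e
          exact_mod_cast a3
      obtain ⟨a1, a2, a3, a4, a5⟩ := hl'
      obtain ⟨a6, a7⟩ := hP l a1
      refine ⟨a6, le_trans ?_ hPC, fun a => a2 (hQu l a6 a).1, fun a => ?_, a4, a5⟩
      · rw [← Real.log_le_iff_le_exp (Nat.cast_pos.2 a6.pos)]
        refine (log_lt_sz hh l).le.trans ?_
        have : (sz h l : ℝ) ≤ σ₁ := Nat.cast_le.2 a7.le
        gcongr
      · rcases hNd l a6 a with a8 | ⟨a8, -⟩ | a8
        · omega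
        · exact a2 a8
        · exact a3 a8)
  have hwin := vl_win hh hη0.le hη' hB₁
  have hB₀pos : 0 < B₀ := (Real.exp_pos _).trans_le hB₀
  refine ⟨_, le_trans ?_ key, fun u hu => ?_⟩
  · have hpr := vl_prod hc (V := V \ B) (W := W) (Qu := Qu)
      (fun l hl => ⟨(hP l (hV l (mem_sdiff.1 hl).1).1).1, (hV l (mem_sdiff.1 hl).1).2.2.2⟩)
      (fun l hl => ⟨(hP l (hW l hl).1).1, (hW l hl).2.2⟩) hQu0
    have hA : 0 ≤ (∏ l ∈ V \ B, (1 - 1 / ((l : ℝ) - 1))) / (c * Qu) := by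
      refine div_nonneg (prod_nonneg fun l hl => ?_) ?_
      · have : (2 : ℝ) ≤ l := by exact_mod_cast (hP l (hV l (mem_sdiff.1 hl).1).1).1.two_le
        rw [sub_nonneg, div_le_one (by linarith)]; linarith
      · have : (0 : ℝ) < c := by exact_mod_cast (by omega : (0 : ℤ) < c)
        positivity
    have hir : (h : ℝ) ≤ i := Nat.cast_le.2 hi
    have hi0 : (0 : ℝ) < i := by linarith
    have hB1 : 1 ≤ B₀ := le_trans (Real.one_le_exp (div_nonneg (by linarith) hr.le)) hB₀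
    have hlog0 : 0 < Real.log (2 * B₀) := Real.log_pos (by linarith)
    have hlog : Real.log (2 * B₀) ≤ 2 * i / h := by
      rw [Real.log_mul (by norm_num) hB₀pos.ne']
      have a1 : Real.log B₀ ≤ i / h := by
        rw [Real.log_le_iff_le_exp hB₀pos]
        nlinarith
      have a2 : Real.log 2 ≤ 1 := by linarith [Real.log_two_lt_d9]
      have a3 : (1 : ℝ) ≤ i / h := by rw [le_div_iff₀ hr]; linarith
      have a4 : 2 * (i : ℝ) / h = 2 * (i / h) := by ring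
      linarith
    have hB : η * Real.exp (((i : ℝ) - 1) / h) * h / (8 * i) ≤
        η * B₀ / (4 * Real.log (2 * B₀)) := by
      calc _ = η * Real.exp (((i : ℝ) - 1) / h) / (4 * (2 * i / h)) := by field_simp; ring
        _ ≤ _ := by gcongr
    calc _ ≤ η * B₀ / (4 * Real.log (2 * B₀)) *
          ((∏ l ∈ (V \ B) ∪ W, (1 - gc c l)) / Nat.totient (c.natAbs * Qu)) :=
          mul_le_mul hB hpr hA (by positivity)
      _ = _ := by ring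
  · obtain ⟨hu1, hup, hu2, hu3⟩ := mem_filter.1 hu
    obtain ⟨hu4, hu5⟩ := mem_Ioc.1 hu1
    have hu6 : B₀ < u := (Nat.floor_lt hB₀pos.le).1 hu4
    have hu7 : (u : ℝ) ≤ B₀ * (1 + η) := (Nat.le_floor_iff (by positivity)).1 hu5
    have hu0 : (0 : ℝ) < u := by linarith
    have s1 : i ≤ sz h u := by
      have a1 : ((i : ℝ) - 1) / h < Real.log u := by
        rw [Real.lt_log_iff_exp_lt hu0]; linarith
      have a2 := a1.trans (log_lt_sz hh u)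
      rw [div_lt_div_iff_of_pos_right hr] at a2
      have : (i : ℝ) < (sz h u + 1 : ℕ) := by push_cast; linarith
      have := Nat.cast_lt.1 this
      omega
    have s2 : sz h u < i + 1 := by
      have a1 : Real.log u < (i : ℝ) / h := by
        rw [Real.log_lt_iff_lt_exp hu0]; linarith
      have a2 := (sz_le_log hh u).trans_lt a1
      rw [div_lt_div_iff_of_pos_right hr] at a2
      have : (sz h u : ℝ) < (i + 1 : ℕ) := by push_cast; linarith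
      exact Nat.cast_lt.1 this
    have huP : u ∉ P := fun hm => by have := (hP u hm).2; omega
    obtain ⟨n, hn1, hn2⟩ := vl_point hcb hc (fun l hl => (hP l hl).1) hQP hcase hB hdP hq hqP hup
      huP hu2 hu3
    have e : ((c * n - b : ℤ) : ℝ) = N * u := by rw [hn1, hN]; push_cast; ring
    have eY : Y = N * B₀ := by rw [hB₀def]; field_simp
    have w1 : Y < ((c * n - b : ℤ) : ℝ) := by rw [e, eY]; gcongr
    have w2 : ((c * n - b : ℤ) : ℝ) ≤ Y * (1 + η) := by rw [e, eY, mul_assoc]; gcongr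
    have hc0 : (0 : ℝ) < c := by exact_mod_cast (by omega : (0 : ℤ) < c)
    refine ⟨(mem_Pr hh).2 ⟨hup, s1, s2⟩, n, mem_filter.2 ⟨mem_Icc.2 ⟨?_, ?_⟩, ?_, hn2⟩, hn1, w1, w2⟩
    · rw [Int.ceil_le]
      push_cast at w1
      exact le_of_mul_le_mul_left (by linarith) hc0
    · rw [Int.le_floor]
      push_cast at w2
      exact le_of_mul_le_mul_left (by linarith) hc0
    · rw [hn1]
      refine ⟨((Qs * pd B * q : ℕ) : ℤ), ?_⟩
      push_cast; ring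

end Crest.Agent.R1
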