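import Crest.Agent.R1.VirtLb

/-!
# R1 / VirtLc: one block `(j, B)` of the count in `virt_lower`
-/

set_option autoImplicit false

namespace Crest.Agent.R1

open Finset Filter
open scoped Classical

lemma vl_row {y₀ : ℝ} (hps : ∀ y η : ℝ, y₀ ≤ y → 1 / Real.log y ^ 3 ≤ η → η ≤ 1 →
      η * y / (2 * Real.log (2 * y)) ≤ (((Ioc ⌊y⌋₊ ⌊y * (1 + η)⌋₊).filter Nat.Prime).card : ℝ))
    {h σ₁ : ℕ} (hh : 0 < h) {Y U D E y : ℝ} (hD : 0 < D) (hU : 0 < U)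
    (hy : y = Y / (D * (U * (1 + 1 / (2 * h))))) (h0 : y₀ ≤ y)
    (h1 : Real.exp ((σ₁ : ℝ) / h) ≤ y) (h2 : 1 / Real.log y ^ 3 ≤ 1 / (2 * h))
    (h3 : Real.log (2 * y) ≤ E) :
    ∃ Qp : Finset ℕ, Y / (D * U) / (8 * h * E) ≤ Qp.card ∧ ∀ q ∈ Qp, q.Prime ∧ σ₁ ≤ sz h q ∧
      U ≤ Y / (D * q) ∧ Y / (D * q) ≤ U * (1 + 1 / (2 * h)) := by
  have hr : (0 : ℝ) < h := Nat.cast_pos.2 hh
  have hr1 : (1 : ℝ) ≤ h := by exact_mod_cast hh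
  have ht : 1 / (2 * (h : ℝ)) ≤ 1 := by rw [div_le_one (by positivity)]; linarith
  have ht0 : 0 < 1 / (2 * (h : ℝ)) := by positivity
  have hy1 : 1 ≤ y := le_trans (Real.one_le_exp (by positivity)) h1
  have hy0 : 0 < y := by linarith
  have eY : Y = y * (D * (U * (1 + 1 / (2 * h)))) := by rw [hy]; field_simp
  have hlog : 0 < Real.log (2 * y) := Real.log_pos (by linarith)
  refine ⟨_, le_trans ?_ (hps y _ h0 h2 ht), fun q hq => ?_⟩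
  · have a1 : Y / (D * U) ≤ 2 * y := by
      rw [div_le_iff₀ (by positivity), eY]
      have : 0 < y * (D * U) := by positivity
      nlinarith
    calc Y / (D * U) / (8 * h * E) ≤ 2 * y / (8 * h * Real.log (2 * y)) := by gcongr
      _ = _ := by field_simp; ring
  · obtain ⟨a1, a2⟩ := mem_filter.1 hq
    obtain ⟨a3, a4⟩ := mem_Ioc.1 a1
    have a5 : y < q := (Nat.floor_lt hy0.le).1 a3
    have a6 : (q : ℝ) ≤ y * (1 + 1 / (2 * h)) := (Nat.le_floor_iff (by positivity)).1 a4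
    have a0 : (0 : ℝ) < q := by linarith
    refine ⟨a2, ?_, ?_, ?_⟩
    · have b1 : (σ₁ : ℝ) / h < Real.log q := by
        rw [Real.lt_log_iff_exp_lt a0]; linarith
      have b2 := b1.trans (log_lt_sz hh q)
      rw [div_lt_div_iff_of_pos_right hr] at b2
      exact (Nat.cast_lt.1 b2).le
    · rw [le_div_iff₀ (by positivity), eY]
      calc U * (D * q) ≤ U * (D * (y * (1 + 1 / (2 * h)))) := by gcongr
        _ = _ := by ring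
    · rw [div_le_iff₀ (by positivity), eY]
      calc _ ≤ q * (D * (U * (1 + 1 / (2 * h)))) := by gcongr
        _ = _ := by ring

lemma vl_block {y₀ : ℝ} (hps : ∀ y η : ℝ, y₀ ≤ y → 1 / Real.log y ^ 3 ≤ η → η ≤ 1 →
      η * y / (2 * Real.log (2 * y)) ≤ (((Ioc ⌊y⌋₊ ⌊y * (1 + η)⌋₊).filter Nat.Prime).card : ℝ))
    {M : ℝ} {C : ℕ} (hone : VOne C M) {X c b : ℤ} {h d i σ₀ σ₁ Qs Qu : ℕ}
    {Q B : Finset ℕ} {Y η E y : ℝ} (hh : 0 < h) (hcb : IsCoprime c b) (hc : 1 ≤ c)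
    (hcC : (c : ℝ) ≤ LL M ^ C) (hQ : Q ⊆ Pr h σ₀ σ₁)
    (hcase : ((∀ l ∈ Q, Str X c b l) ∧ Qs = pd Q ∧ Qu = 1) ∨
      ((∀ l ∈ Q, ¬ Str X c b l) ∧ Qs = 1 ∧ Qu = pd Q))
    (hB : B ⊆ vlV X c b (Pr h 0 σ₁) Q) (h2 : 2 ∈ vlV X c b (Pr h 0 σ₁) Q → 2 ∈ B)
    (hd0 : 0 < d) (hd : ∀ p : ℕ, p.Prime → p ∣ d → σ₁ ≤ sz h p)
    (hcσ : ∀ p : ℕ, p.Prime → (p : ℤ) ∣ c → sz h p < σ₀) (hσ : σ₀ ≤ σ₁) (hσi : σ₁ ≤ i)
    (hi : h ≤ i)
    (hPC : Real.exp ((σ₁ : ℝ) / h) ≤ LL M ^ C) (hQC : (pd Q : ℝ) ≤ LL M ^ C)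
    (hU : LL M ^ (6 / 10 : ℝ) ≤ ((i : ℝ) - 1) / h) (hη0 : 0 < η) (hη : 1 / LL M ^ C ≤ η)
    (hη' : η ≤ 1 / (4 * h)) (hY : c * (M / 4) - b ≤ Y) (hY' : Y * (1 + η) ≤ c * (M / 2) - b)
    (hy : y = Y / (((d * (Qs * pd B) : ℕ) : ℝ) *
      (Real.exp (((i : ℝ) - 1) / h) * (1 + 1 / (2 * h))))) (h0 : y₀ ≤ y)
    (h1 : Real.exp ((σ₁ : ℝ) / h) ≤ y) (hy2 : 1 / Real.log y ^ 3 ≤ 1 / (2 * h))
    (h3 : Real.log (2 * y) ≤ E) :
    ∃ (Qp : Finset ℕ) (Us : ℕ → Finset ℕ), (∀ q ∈ Qp, q.Prime ∧ q ∉ Pr h 0 σ₁) ∧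
      (∀ q ∈ Qp, ∀ u ∈ Us q, u ∈ Pr h i (i + 1) ∧ ∃ n ∈ An M X c b (d * u) (Pr h 0 σ₁) Q,
        c * n - b = ((d * (Qs * pd B * q) : ℕ) : ℤ) * u ∧ Y < ((c * n - b : ℤ) : ℝ) ∧
          ((c * n - b : ℤ) : ℝ) ≤ Y * (1 + η)) ∧
      Y * η / c / (d * pd Q) / (64 * E * i) *
        (wt iv B * ∏ l ∈ vlV X c b (Pr h 0 σ₁) Q \ B, (1 - 1 / ((l : ℝ) - 1))) ≤
        ∑ q ∈ Qp, ((Us q).card : ℝ) := by
  have hr : (0 : ℝ) < h := Nat.cast_pos.2 hh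
  have hVp : ∀ l ∈ vlV X c b (Pr h 0 σ₁) Q, l.Prime := fun l hl =>
    ((mem_Pr hh).1 (mem_sdiff.1 (mem_filter.1 hl).1).1).1
  have hBp : ∀ l ∈ B, l.Prime := fun l hl => hVp l (hB hl)
  have hQ0 := pd_pos (τ := Q) fun l hl => ((mem_Pr hh).1 (hQ hl)).1
  have hB0 := pd_pos hBp
  have hQu0 : 0 < Qu := by rcases hcase with ⟨-, -, h3⟩ | ⟨-, -, h3⟩ <;> omega
  have hQs0 : 0 < Qs := by rcases hcase with ⟨-, h3, -⟩ | ⟨-, h3, -⟩ <;> omega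
  have hQQ : pd Q = Qs * Qu := by
    rcases hcase with ⟨-, h3, h4⟩ | ⟨-, h3, h4⟩ <;> rw [h3, h4] <;> simp
  have hD : (0 : ℝ) < ((d * (Qs * pd B) : ℕ) : ℝ) :=
    Nat.cast_pos.2 (Nat.mul_pos hd0 (Nat.mul_pos hQs0 hB0))
  obtain ⟨Qp, hQp1, hQp⟩ := vl_row hps hh hD (Real.exp_pos _) hy h0 h1 hy2 h3
  have cell := fun q (hq : q ∈ Qp) => vl_cell (q := q) hone hh hcb hc hcC hQ hcase hB h2 hd0 hd hcσ
    hσ hσi hi (hQp q hq).1 (hQp q hq).2.1 hPC hQC hU hη0 hη hη'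
    (by have := (hQp q hq).2.2.1; push_cast at this ⊢; simpa only [mul_assoc] using this)
    (by have := (hQp q hq).2.2.2; push_cast at this ⊢; simpa only [mul_assoc] using this) hY hY'
  choose! Us hUs1 hUs using cell
  refine ⟨Qp, Us, fun q hq => ⟨(hQp q hq).1, fun hm => ?_⟩, hUs, ?_⟩
  · have := ((mem_Pr hh).1 hm).2.2
    have := (hQp q hq).2.1
    omega
  · refine le_trans ?_ (sum_le_sum hUs1)
    rw [sum_const, nsmul_eq_mul]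
    have hc0 : (0 : ℝ) < c := by exact_mod_cast (by omega : (0 : ℤ) < c)
    have hA : 0 ≤ ∏ l ∈ vlV X c b (Pr h 0 σ₁) Q \ B, (1 - 1 / ((l : ℝ) - 1)) :=
      prod_nonneg fun l hl => by
        have : (2 : ℝ) ≤ l := by exact_mod_cast (hVp l (mem_sdiff.1 hl).1).two_le
        rw [sub_nonneg, div_le_one (by linarith)]; linarith
    refine le_trans (le_of_eq ?_) (mul_le_mul_of_nonneg_right hQp1 (by positivity))
    have hi0 : (0 : ℝ) < i := Nat.cast_pos.2 (by omega)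
    have a1 : (0 : ℝ) < d := Nat.cast_pos.2 hd0
    have a2 : (0 : ℝ) < Qs := Nat.cast_pos.2 hQs0
    have a3 : (0 : ℝ) < Qu := Nat.cast_pos.2 hQu0
    have a4 : (0 : ℝ) < pd B := Nat.cast_pos.2 hB0
    have a5 : 0 < E := lt_of_lt_of_le (Real.log_pos (by
      have := Real.one_le_exp (by positivity : 0 ≤ (σ₁ : ℝ) / h); linarith)) h3
    rw [wt_iv, hQQ]
    push_cast
    field_simp
    ring

end Crest.Agent.R1
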